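import Vale.Agent.P159.H37.Spec0L

/-!
P159 / module AE1 (helper114).

`μ = post μ' P` posterior weight, `ν` = law of the source `J = Pᵀ g` of the channel.  `ν` is the
Gaussian reference law `EA` (density `exp (<J, G J> / 2)` with respect to `gau I`), tilted by
`exp (Rs μ J)`.  Property K1: `0 ≤ Rs μ J` for all `J`.

* `Ech_ref`: the identification;
* `Ech_le`: `E_ν Φ ≤ E_A (exp R · Φ)` for `Φ ≥ 0`;
* `Ech_exp_Tq`: `E_ν exp (λ T(J)) ≤ E_A exp (λ R(2 J))`, `λ ≥ 1/4`;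
* `EA_two`: `E_A exp (R (2 J))` as a ratio of partition functions.
-/

namespace Vale.Agent.P159.H114

open Finset Matrix MeasureTheory
open Vale.Agent.P159.TM.H104 (EM Ex Cv K3 Lg li nh Gr)
open Vale.Agent.P159.H37

noncomputable section

variable {V : Type*} [Fintype V] {I : Type*} [Fintype I]

/-! ### covariances as quadratic forms -/

lemma Ex_sum {κ : Type*} {μ : (V → ℤ) → ℝ} (hμ : EM μ) (u : V → ℝ) (s : Finset κ)
    {F : κ → (V → ℤ) → ℝ} (hF : ∀ i, Gr (F i)) :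
    Ex μ u (fun h => ∑ i ∈ s, F i h) = ∑ i ∈ s, Ex μ u (F i) := by
  classical
  have hG : ∀ s : Finset κ, Gr fun h => ∑ i ∈ s, F i h := by
    intro s
    induction s using Finset.induction_on with
    | empty => simpa using Gr.const (V := V) 0
    | insert i s his ih =>
      simp only [Finset.sum_insert his]
      exact (hF i).add ih
  induction s using Finset.induction_on with
  | empty =>
    simp only [Finset.sum_empty]
    exact TM.H104.Ex_const hμ 0 u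
  | insert i s his ih =>
    simp only [Finset.sum_insert his]
    rw [TM.H104.Ex_add hμ (hF i) (hG s), ih]

lemma Gr.co (x : V) : Gr fun h : V → ℤ => (h x : ℝ) := by
  classical
  have h1 := Gr.li (V := V) (Pi.single x 1)
  have h2 : TM.H104.li (Pi.single x (1 : ℝ)) = fun h : V → ℤ => (h x : ℝ) := by
    funext h
    unfold TM.H104.li
    rw [Finset.sum_eq_single x]
    · simp
    · intro y _ hy
      simp [Pi.single_eq_of_ne hy]
    · simp
  rw [← h2]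
  exact h1

/-- `<a, C_J b> = Cov_J (<a, h>, <b, h>)` -/
lemma bf_Cm {μ : (V → ℤ) → ℝ} (hμ : EM μ) (J a b : V → ℝ) :
    bf (Cm μ J) a b = Cv μ J (li a) (li b) := by
  have e1 : Ex μ J (fun h => li a h * li b h) =
      ∑ x, ∑ y, a x * b y * Ex μ J fun h => (h x : ℝ) * (h y : ℝ) := by
    have h1 : (fun h : V → ℤ => li a h * li b h) =
        fun h => ∑ x, ∑ y, a x * b y * ((h x : ℝ) * (h y : ℝ)) := by
      funext h
      unfold TM.H104.li
      rw [Finset.sum_mul_sum]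
      refine Finset.sum_congr rfl fun x _ => Finset.sum_congr rfl fun y _ => by ring
    rw [h1, Ex_sum hμ J _ fun x => ?_]
    · refine Finset.sum_congr rfl fun x _ => ?_
      rw [Ex_sum hμ J _ fun y => ((Gr.co x).mul (Gr.co y)).cmul (a x * b y)]
      refine Finset.sum_congr rfl fun y _ => ?_
      exact TM.H104.Ex_cmul _ _ _
    · have h2 : (fun h : V → ℤ => ∑ y, a x * b y * ((h x : ℝ) * (h y : ℝ))) =
          fun h => (a x * (h x : ℝ)) * li b h := by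
        funext h
        unfold TM.H104.li
        rw [Finset.mul_sum]
        refine Finset.sum_congr rfl fun y _ => by ring
      rw [h2]
      exact ((Gr.co x).cmul (a x)).mul (Gr.li b)
  have e2 : ∀ c : V → ℝ, Ex μ J (li c) = ∑ x, c x * Ex μ J fun h => (h x : ℝ) := by
    intro c
    have h1 : li c = fun h : V → ℤ => ∑ x, c x * (h x : ℝ) := by
      funext h
      rfl
    rw [h1, Ex_sum hμ J _ fun x => (Gr.co x).cmul (c x)]
    refine Finset.sum_congr rfl fun x _ => ?_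
    exact TM.H104.Ex_cmul _ _ _
  unfold Cv
  rw [e1, e2, e2, Finset.sum_mul_sum, ← Finset.sum_sub_distrib]
  unfold bf
  refine Finset.sum_congr rfl fun x _ => ?_
  rw [← Finset.sum_sub_distrib]
  refine Finset.sum_congr rfl fun y _ => ?_
  simp only [Cm, Matrix.of_apply, Cv]
  ring

lemma Cv_self_nonneg {μ : (V → ℤ) → ℝ} (hμ : EM μ) (J : V → ℝ) {F : (V → ℤ) → ℝ} (hF : Gr F) :
    0 ≤ Cv μ J F F := by
  have h1 : Cv μ J F F = Ex μ J fun h => (F h - Ex μ J F) * (F h - Ex μ J F) := by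
    have h2 : (fun h => (F h - Ex μ J F) * (F h - Ex μ J F)) =
        fun h => F h * F h - (2 * Ex μ J F * F h - Ex μ J F * Ex μ J F) := by
      funext h
      ring
    rw [h2, TM.H104.Ex_sub hμ (hF.mul hF) ((hF.cmul _).sub (Gr.const _)),
      TM.H104.Ex_sub hμ (hF.cmul _) (Gr.const _), TM.H104.Ex_cmul, TM.H104.Ex_const hμ]
    unfold Cv
    ring
  rw [h1]
  exact TM.H104.Ex_nonneg hμ (fun h => mul_self_nonneg _) J

lemma qf_Cm_nonneg {μ : (V → ℤ) → ℝ} (hμ : EM μ) (J u : V → ℝ) : 0 ≤ qf (Cm μ J) u := by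
  have h := bf_Cm hμ J u u
  rw [bf_self] at h
  rw [h]
  exact Cv_self_nonneg hμ J (Gr.li u)

/-! ### the reference law -/

/-- density of the Gaussian reference law with respect to `gau I` (not normalised) -/
def dg (μ : (V → ℤ) → ℝ) (P : Matrix I V ℝ) (g : I → ℝ) : ℝ :=
  Real.exp (qf (Gm μ) (Pᵀ *ᵥ g) / 2)

/-- average of `Φ(J)` under the Gaussian reference law -/
def EA (μ : (V → ℤ) → ℝ) (P : Matrix I V ℝ) (Φ : (V → ℝ) → ℝ) : ℝ :=
  (∫ g, Φ (Pᵀ *ᵥ g) * dg μ P g ∂(gau I)) / ∫ g, dg μ P g ∂(gau I)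

/-- property (K1): the free energy is at most the quadratic one -/
def K1 (μ : (V → ℤ) → ℝ) : Prop := ∀ J, 0 ≤ Rs μ J

lemma dg_pos (μ : (V → ℤ) → ℝ) (P : Matrix I V ℝ) (g : I → ℝ) : 0 < dg μ P g := Real.exp_pos _

lemma continuous_qf (M : Matrix V V ℝ) : Continuous fun u : V → ℝ => qf M u := by
  unfold qf
  fun_prop

omit [Fintype V] in
lemma continuous_obs (P : Matrix I V ℝ) : Continuous fun g : I → ℝ => Pᵀ *ᵥ g :=
  Continuous.matrix_mulVec continuous_const continuous_id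

lemma continuous_dg (μ : (V → ℤ) → ℝ) (P : Matrix I V ℝ) : Continuous (dg μ P) := by
  unfold dg
  exact Real.continuous_exp.comp (((continuous_qf _).comp (continuous_obs P)).div_const 2)

lemma continuous_Rs {μ : (V → ℤ) → ℝ} (hμ : EM μ) : Continuous (Rs μ) := by
  unfold Rs
  exact ((TM.H104.continuous_Lg hμ).sub continuous_const).sub ((continuous_qf _).div_const 2)

lemma Zs_eq {μ : (V → ℤ) → ℝ} (hμ : EM μ) (J : V → ℝ) :
    Zs μ J = Zs μ 0 * (Real.exp (Rs μ J) * Real.exp (qf (Gm μ) J / 2)) := by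
  have h1 : Lg μ J = Real.log (Zs μ J) := rfl
  have h2 : Lg μ 0 = Real.log (Zs μ 0) := rfl
  unfold Rs
  rw [← Real.exp_add, h1, h2]
  have h3 : Real.log (Zs μ J) - Real.log (Zs μ 0) - qf (Gm μ) J / 2 + qf (Gm μ) J / 2 =
      Real.log (Zs μ J) - Real.log (Zs μ 0) := by ring
  rw [h3, Real.exp_sub, Real.exp_log (Zs_pos hμ J), Real.exp_log (Zs_pos hμ 0)]
  field_simp [(Zs_pos hμ 0).ne']

lemma Zs_obs {μ : (V → ℤ) → ℝ} (hμ : EM μ) (P : Matrix I V ℝ) (g : I → ℝ) :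
    Zs μ (Pᵀ *ᵥ g) = Zs μ 0 * (Real.exp (Rs μ (Pᵀ *ᵥ g)) * dg μ P g) := Zs_eq hμ _

/-- **identification of the channel law** -/
theorem Ech_ref {μ' : (V → ℤ) → ℝ} (hμ' : EM μ') (P : Matrix I V ℝ) (Φ : (V → ℝ) → ℝ) :
    Ech μ' 0 P Φ =
      (∫ g, Φ (Pᵀ *ᵥ g) * (Real.exp (Rs (post μ' P) (Pᵀ *ᵥ g)) * dg (post μ' P) P g) ∂(gau I)) /
        ∫ g, Real.exp (Rs (post μ' P) (Pᵀ *ᵥ g)) * dg (post μ' P) P g ∂(gau I) := by
  have hμ := em_post hμ' P
  have hZ := (Zs_pos hμ 0).ne'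
  unfold Ech
  simp only [zero_add, Zs_obs hμ]
  have e1 : ∀ g : I → ℝ, Φ (Pᵀ *ᵥ g) * (Zs (post μ' P) 0 *
      (Real.exp (Rs (post μ' P) (Pᵀ *ᵥ g)) * dg (post μ' P) P g)) = Zs (post μ' P) 0 *
      (Φ (Pᵀ *ᵥ g) * (Real.exp (Rs (post μ' P) (Pᵀ *ᵥ g)) * dg (post μ' P) P g)) :=
    fun g => by ring
  simp only [e1]
  rw [integral_const_mul, integral_const_mul, mul_div_mul_left _ _ hZ]

/-- the tilted density is integrable -/
lemma int_eR {μ' : (V → ℤ) → ℝ} (hμ' : EM μ') (P : Matrix I V ℝ) :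
    Integrable (fun g : I → ℝ =>
      Real.exp (Rs (post μ' P) (Pᵀ *ᵥ g)) * dg (post μ' P) P g) (gau I) := by
  have hμ := em_post hμ' P
  have hZ := (Zs_pos hμ 0).ne'
  have h := (ch_int hμ' 0 P (EGr.const (V := V) 1)).const_mul (Zs (post μ' P) 0)⁻¹
  refine h.congr (Filter.Eventually.of_forall fun g => ?_)
  simp only [zero_add, one_mul]
  rw [Zs_obs hμ, ← mul_assoc, inv_mul_cancel₀ hZ, one_mul]

/-- `Zs` is minimal at `0` when the weight is symmetric -/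
lemma int_dg {μ' : (V → ℤ) → ℝ} (hμ' : EM μ') (P : Matrix I V ℝ) (hK : K1 (post μ' P)) :
    Integrable (dg (post μ' P) P) (gau I) := by
  refine (int_eR hμ' P).mono' (continuous_dg _ P).aestronglyMeasurable
    (Filter.Eventually.of_forall fun g => ?_)
  rw [Real.norm_eq_abs, abs_of_pos (dg_pos _ P g)]
  have h1 : 1 ≤ Real.exp (Rs (post μ' P) (Pᵀ *ᵥ g)) := Real.one_le_exp (hK _)
  nlinarith [dg_pos (post μ' P) P g]

lemma int_dg_pos {μ' : (V → ℤ) → ℝ} (hμ' : EM μ') (P : Matrix I V ℝ) (hK : K1 (post μ' P)) :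
    0 < ∫ g, dg (post μ' P) P g ∂(gau I) := by
  rw [integral_pos_iff_support_of_nonneg (fun g => (dg_pos _ P g).le) (int_dg hμ' P hK)]
  have : Function.support (dg (post μ' P) P) = Set.univ := by
    ext g
    simp [(dg_pos (post μ' P) P g).ne']
  rw [this]
  simp

lemma int_dg_le {μ' : (V → ℤ) → ℝ} (hμ' : EM μ') (P : Matrix I V ℝ) (hK : K1 (post μ' P)) :
    ∫ g, dg (post μ' P) P g ∂(gau I) ≤
      ∫ g, Real.exp (Rs (post μ' P) (Pᵀ *ᵥ g)) * dg (post μ' P) P g ∂(gau I) := by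
  refine integral_mono (int_dg hμ' P hK) (int_eR hμ' P) fun g => ?_
  have h1 : 1 ≤ Real.exp (Rs (post μ' P) (Pᵀ *ᵥ g)) := Real.one_le_exp (hK _)
  simp only
  nlinarith [dg_pos (post μ' P) P g]

/-- **`E_ν Φ ≤ E_A Ψ`** as soon as `0 ≤ Φ`, `Φ exp R ≤ Ψ` and `Ψ` is integrable -/
theorem Ech_le {μ' : (V → ℤ) → ℝ} (hμ' : EM μ') (P : Matrix I V ℝ) (hK : K1 (post μ' P))
    {Φ Ψ : (V → ℝ) → ℝ} (h0 : ∀ J, 0 ≤ Φ J) (h1 : ∀ J, Φ J * Real.exp (Rs (post μ' P) J) ≤ Ψ J)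
    (hi : Integrable (fun g : I → ℝ => Ψ (Pᵀ *ᵥ g) * dg (post μ' P) P g) (gau I)) :
    Ech μ' 0 P Φ ≤ EA (post μ' P) P Ψ := by
  rw [Ech_ref hμ' P]
  unfold EA
  have hN : 0 < ∫ g, dg (post μ' P) P g ∂(gau I) := int_dg_pos hμ' P hK
  have hle := int_dg_le hμ' P hK
  have hnum : ∫ g, Φ (Pᵀ *ᵥ g) * (Real.exp (Rs (post μ' P) (Pᵀ *ᵥ g)) * dg (post μ' P) P g) ∂(gau I)
      ≤ ∫ g, Ψ (Pᵀ *ᵥ g) * dg (post μ' P) P g ∂(gau I) := by
    refine integral_mono_of_nonneg (Filter.Eventually.of_forall fun g => ?_) hi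
      (Filter.Eventually.of_forall fun g => ?_)
    · exact mul_nonneg (h0 _) (mul_nonneg (Real.exp_pos _).le (dg_pos _ P g).le)
    · simp only
      rw [← mul_assoc]
      exact mul_le_mul_of_nonneg_right (h1 _) (dg_pos _ P g).le
  have hnum0 : 0 ≤ ∫ g, Φ (Pᵀ *ᵥ g) *
      (Real.exp (Rs (post μ' P) (Pᵀ *ᵥ g)) * dg (post μ' P) P g) ∂(gau I) :=
    integral_nonneg fun g =>
      mul_nonneg (h0 _) (mul_nonneg (Real.exp_pos _).le (dg_pos _ P g).le)
  calc _ ≤ (∫ g, Φ (Pᵀ *ᵥ g) *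
        (Real.exp (Rs (post μ' P) (Pᵀ *ᵥ g)) * dg (post μ' P) P g) ∂(gau I)) /
          ∫ g, dg (post μ' P) P g ∂(gau I) := div_le_div_of_nonneg_left hnum0 hN hle
    _ ≤ _ := div_le_div_of_nonneg_right hnum hN.le

lemma Tq_eq (μ : (V → ℤ) → ℝ) (J : V → ℝ) : Tq μ J = Rs μ ((2 : ℝ) • J) - 4 * Rs μ J := by
  unfold Tq Rs
  rw [qf_smul]
  ring

/-- **annealed exponential moments of `T`** (no good set, any roughness): for `λ ≥ 1/4`,
`E_ν exp (λ T(J)) ≤ E_A exp (λ R(2 J))` -/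
theorem Ech_exp_Tq {μ' : (V → ℤ) → ℝ} (hμ' : EM μ') (P : Matrix I V ℝ) (hK : K1 (post μ' P))
    {lam : ℝ} (hl : 1 / 4 ≤ lam)
    (hi : Integrable (fun g : I → ℝ =>
      Real.exp (lam * Rs (post μ' P) ((2 : ℝ) • (Pᵀ *ᵥ g))) * dg (post μ' P) P g) (gau I)) :
    Ech μ' 0 P (fun J => Real.exp (lam * Tq (post μ' P) J)) ≤
      EA (post μ' P) P fun J => Real.exp (lam * Rs (post μ' P) ((2 : ℝ) • J)) := by
  refine Ech_le hμ' P hK (fun J => (Real.exp_pos _).le) (fun J => ?_) hi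
  rw [← Real.exp_add]
  refine Real.exp_le_exp.2 ?_
  rw [Tq_eq]
  have h1 := hK J
  nlinarith

/-- **the Gaussian average of `exp (R(2J))` is finite and explicit** when the mass may be lowered
four times as much: `post ρ (2 P) = post μ' P` -/
theorem EA_two {μ' ρ : (V → ℤ) → ℝ} (hμ' : EM μ') (hρ : EM ρ) (P : Matrix I V ℝ)
    (he : post ρ ((2 : ℝ) • P) = post μ' P) :
    Integrable (fun g : I → ℝ =>
      Real.exp (Rs (post μ' P) ((2 : ℝ) • (Pᵀ *ᵥ g))) * dg (post μ' P) P g) (gau I) ∧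
    ∫ g, Real.exp (Rs (post μ' P) ((2 : ℝ) • (Pᵀ *ᵥ g))) *
      dg (post μ' P) ((2 : ℝ) • P) g ∂(gau I) = Zs ρ 0 / Zs (post μ' P) 0 := by
  have hμ := em_post hμ' P
  have hZ := Zs_pos hμ 0
  have hobs : ∀ g : I → ℝ, ((2 : ℝ) • P)ᵀ *ᵥ g = (2 : ℝ) • (Pᵀ *ᵥ g) := by
    intro g
    rw [transpose_smul, smul_mulVec]
  have h1 := int_eR hρ ((2 : ℝ) • P)
  rw [he] at h1
  simp only [hobs] at h1
  have hdg : ∀ g : I → ℝ, dg (post μ' P) P g ≤ dg (post μ' P) ((2 : ℝ) • P) g := by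
    intro g
    unfold dg
    refine Real.exp_le_exp.2 ?_
    rw [hobs, qf_smul]
    have hq : 0 ≤ qf (Gm (post μ' P)) (Pᵀ *ᵥ g) := qf_Cm_nonneg hμ 0 _
    nlinarith
  refine ⟨?_, ?_⟩
  · refine h1.mono' ?_ (Filter.Eventually.of_forall fun g => ?_)
    · refine Continuous.aestronglyMeasurable ?_
      refine (Real.continuous_exp.comp ((continuous_Rs hμ).comp ?_)).mul (continuous_dg _ P)
      exact (continuous_obs P).const_smul (2 : ℝ)
    · rw [Real.norm_eq_abs, abs_of_pos (mul_pos (Real.exp_pos _) (dg_pos _ P g))]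
      exact mul_le_mul_of_nonneg_left (hdg g) (Real.exp_pos _).le
  · have h2 := ch_norm hρ 0 ((2 : ℝ) • P)
    rw [he] at h2
    simp only [zero_add] at h2
    have h3 : ∀ g : I → ℝ, Zs (post μ' P) (((2 : ℝ) • P)ᵀ *ᵥ g) = Zs (post μ' P) 0 *
        (Real.exp (Rs (post μ' P) ((2 : ℝ) • (Pᵀ *ᵥ g))) * dg (post μ' P) ((2 : ℝ) • P) g) := by
      intro g
      rw [Zs_obs hμ, hobs]
    simp only [h3] at h2
    rw [integral_const_mul] at h2
    rw [← h2]
    field_simp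

end

end Vale.Agent.P159.H114
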