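import Vale.Agent.P159.H114.Lmmse

/-!
P159 (helper114), (P#1) at cell level.  Observation matrix `Q : Matrix I V ℝ` (e.g. `cob N l`),
channel `P = √p Q`, `Gc = Q G' Qᵀ` the covariance of the observed field under the prior, and a matrix
`K = (1 + p Gc)⁻¹`.  The observed nonlinear part has covariance `Gc K - Q Cbar Qᵀ`.
-/

namespace Vale.Agent.P159.H114

open Finset Matrix MeasureTheory
open Vale.Agent.P159.TM.H104 (EM Ex Cv K3 Lg li nh Gr)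
open Vale.Agent.P159.H37

noncomputable section

set_option linter.unusedSectionVars false

variable {V : Type*} [Fintype V] {I : Type*} [Fintype I] [DecidableEq I]

/-- covariance of the observed field `Q h` -/
def Gc (μ : (V → ℤ) → ℝ) (Q : Matrix I V ℝ) : Matrix I I ℝ := Q * Gm μ * Qᵀ

lemma Gc_transpose (μ : (V → ℤ) → ℝ) (Q : Matrix I V ℝ) : (Gc μ Q)ᵀ = Gc μ Q := by
  unfold Gc
  rw [transpose_mul, transpose_mul, transpose_transpose, Gm_transpose, Matrix.mul_assoc]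

/-- the LMMSE matrix of the whole field -/
def Lw (μ' : (V → ℤ) → ℝ) (Q : Matrix I V ℝ) (p : ℝ) (K : Matrix I I ℝ) : Matrix V V ℝ :=
  Gm μ' - p • (Gm μ' * Qᵀ * K * Q * Gm μ')

variable {μ' : (V → ℤ) → ℝ} {Q : Matrix I V ℝ} {p : ℝ} {K : Matrix I I ℝ}

lemma gram_sqrt (hp : 0 ≤ p) (Q : Matrix I V ℝ) :
    (Real.sqrt p • Q)ᵀ * (Real.sqrt p • Q) = p • (Qᵀ * Q) := by
  rw [transpose_smul, Matrix.smul_mul, Matrix.mul_smul, smul_smul, Real.mul_self_sqrt hp]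

/-- `Lw` is the LMMSE matrix -/
theorem lm_Lw (hp : 0 ≤ p) (hKt : Kᵀ = K) (hK : K * (1 + p • Gc μ' Q) = 1) :
    LM μ' (Real.sqrt p • Q) (Lw μ' Q p K) := by
  refine ⟨?_, ?_⟩
  · unfold Lw
    rw [transpose_sub, transpose_smul]
    simp only [transpose_mul, transpose_transpose, Gm_transpose, hKt, Matrix.mul_assoc]
  · rw [gram_sqrt hp]
    unfold Lw
    set G := Gm μ' with hG
    have h1 : K + p • (K * (Q * G * Qᵀ)) = 1 := by
      have := hK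
      unfold Gc at this
      rw [Matrix.mul_add, Matrix.mul_one, Matrix.mul_smul] at this
      exact this
    have h2 : p • (G * Qᵀ * K * Q * G) + p • (G * Qᵀ * (p • (K * (Q * G * Qᵀ))) * Q * G) =
        p • (G * Qᵀ * Q * G) := by
      have e : G * Qᵀ * K * Q * G + G * Qᵀ * (p • (K * (Q * G * Qᵀ))) * Q * G =
          G * Qᵀ * (K + p • (K * (Q * G * Qᵀ))) * Q * G := by
        rw [Matrix.mul_add, Matrix.add_mul, Matrix.add_mul]
      rw [← smul_add, e, h1, Matrix.mul_one]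
    have h3 : (G - p • (G * Qᵀ * K * Q * G)) * (p • (Qᵀ * Q)) * G =
        p • (G * Qᵀ * Q * G) - p • (G * Qᵀ * (p • (K * (Q * G * Qᵀ))) * Q * G) := by
      simp only [Matrix.sub_mul, Matrix.mul_smul, Matrix.smul_mul, Matrix.mul_assoc, smul_sub]
    rw [h3, ← h2]
    abel

/-- the observed part of `Lw` -/
theorem Q_Lw_Q (hK : K * (1 + p • Gc μ' Q) = 1) : Q * Lw μ' Q p K * Qᵀ = Gc μ' Q * K := by
  have hK' : (1 + p • Gc μ' Q) * K = 1 := mul_eq_one_comm.1 hK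
  unfold Lw
  rw [Matrix.mul_sub, Matrix.sub_mul]
  have h1 : Q * (p • (Gm μ' * Qᵀ * K * Q * Gm μ')) * Qᵀ = p • (Gc μ' Q * K * Gc μ' Q) := by
    unfold Gc
    simp only [Matrix.mul_smul, Matrix.smul_mul, Matrix.mul_assoc]
  have h2 : Q * Gm μ' * Qᵀ = Gc μ' Q := rfl
  rw [h1, h2]
  have h3 : Gc μ' Q * K * (1 + p • Gc μ' Q) = Gc μ' Q := by
    rw [Matrix.mul_assoc, hK, Matrix.mul_one]
  rw [Matrix.mul_add, Matrix.mul_one, Matrix.mul_smul] at h3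
  rw [sub_eq_iff_eq_add]
  exact h3.symm

/-- mean posterior covariance of the observed field, as a bilinear form on the cells -/
def Cbc (μ' : (V → ℤ) → ℝ) (Q : Matrix I V ℝ) (p : ℝ) (u v : I → ℝ) : ℝ :=
  Cb μ' (Real.sqrt p • Q) (Qᵀ *ᵥ u) (Qᵀ *ᵥ v)

/-- nonlinear part of the posterior mean of the observed field -/
def nc (μ' : (V → ℤ) → ℝ) (Q : Matrix I V ℝ) (p : ℝ) (K : Matrix I I ℝ) (u : I → ℝ)
    (J : V → ℝ) : ℝ :=
  nlin (post μ' (Real.sqrt p • Q)) (Lw μ' Q p K) (Qᵀ *ᵥ u) J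

/-- **(P#1) at cell level** -/
theorem nc_cov (hμ : EM μ') (he : Ev μ') (hp : 0 ≤ p) (hKt : Kᵀ = K)
    (hK : K * (1 + p • Gc μ' Q) = 1) (u v : I → ℝ) :
    Ech μ' 0 (Real.sqrt p • Q) (fun J => nc μ' Q p K u J * nc μ' Q p K v J) =
      u ⬝ᵥ (Gc μ' Q * K) *ᵥ v - Cbc μ' Q p u v := by
  unfold nc Cbc
  rw [nlin_cov hμ he (lm_Lw hp hKt hK), bf_eq, mulVec_mulVec, dotProduct_comm]
  congr 1
  rw [← Q_Lw_Q hK, dotProduct_comm, mulVec_transpose, ← dotProduct_mulVec, mulVec_mulVec,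
    Matrix.mul_assoc]

/-- orthogonality to linear functions of the source, at cell level -/
theorem nc_orth (hμ : EM μ') (he : Ev μ') (hp : 0 ≤ p) (hKt : Kᵀ = K)
    (hK : K * (1 + p • Gc μ' Q) = 1) (u : I → ℝ) (b : V → ℝ) :
    Ech μ' 0 (Real.sqrt p • Q) (fun J => nc μ' Q p K u J * ∑ x, b x * J x) = 0 :=
  nlin_orth hμ he (lm_Lw hp hKt hK) _ _

/-- explicit form: along the channel `J = Qᵀ j`, the linear part is `<Gc K u, j>` -/
theorem nc_eq (hK : K * (1 + p • Gc μ' Q) = 1) (u j : I → ℝ) :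
    nc μ' Q p K u (Qᵀ *ᵥ j) =
      Ex (post μ' (Real.sqrt p • Q)) (Qᵀ *ᵥ j) (li (Qᵀ *ᵥ u)) - ((Gc μ' Q * K) *ᵥ u) ⬝ᵥ j := by
  unfold nc nlin
  congr 1
  have h1 : ∑ x, (Lw μ' Q p K *ᵥ (Qᵀ *ᵥ u)) x * (Qᵀ *ᵥ j) x =
      (Lw μ' Q p K *ᵥ (Qᵀ *ᵥ u)) ⬝ᵥ (Qᵀ *ᵥ j) := rfl
  rw [h1, dotProduct_mulVec, ← mulVec_transpose, transpose_transpose, mulVec_mulVec,
    mulVec_mulVec, Q_Lw_Q hK]

end

end Vale.Agent.P159.H114
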