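import Vale.Agent.P159.H114.Star4

/-!
P159 (helper114): the one-level flow equation in slope letters.

`KK N j = (2π j / N)²`, `sB = (PiCk (j,0) - PiCk 0) / KK`, `sX = (PbC (j,0) - PbC 0) / KK`.
-/

namespace Vale.Agent.P159.H114

open MeasureTheory Finset Matrix
open Vale.Agent.P159.H37
open Vale.Agent.P159.H864 (TI sym mlt ti_mlt sym_mlt cobV MC GM Gck PiCk cobV_mul_tr)
open Vale.Agent.P159.H730 (wC Cbk)
open Vale.Agent.P159.TM.H764 (Gh cN sN dt ch EE frm grd pw)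
open Vale.Agent.P159.TM.Spec (V)
open Vale.Agent.P159.TM.SpecC (wT ms)

noncomputable section

set_option linter.unusedSectionVars false

/-- square of the `j`-th axis momentum of a torus of side `N` -/
def KK (N j : ℕ) : ℝ := (2 * Real.pi * j / N) ^ 2

lemma KK_pos {N j : ℕ} (hN : 0 < N) (hj : 0 < j) : 0 < KK N j := by
  unfold KK
  have h1 : (0 : ℝ) < N := by exact_mod_cast hN
  have h2 : (0 : ℝ) < j := by exact_mod_cast hj
  positivity

lemma KK_ge {N j : ℕ} (hN : 0 < N) (hj : 0 < j) : 36 / (N : ℝ) ^ 2 ≤ KK N j := by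
  unfold KK
  have h1 : (0 : ℝ) < N := by exact_mod_cast hN
  have h2 : (1 : ℝ) ≤ j := by exact_mod_cast hj
  rw [div_pow]
  refine div_le_div_of_nonneg_right ?_ (by positivity)
  have h3 : 6 ≤ 2 * Real.pi * j := by
    have := Real.pi_gt_three
    nlinarith
  nlinarith

lemma KK_mul (N j m : ℕ) (hm : 0 < m) : KK (m * N) (m * j) = KK N j := by
  unfold KK
  have h : (m : ℝ) ≠ 0 := by exact_mod_cast hm.ne'
  push_cast
  congr 1
  have : 2 * Real.pi * ((m : ℝ) * j) / (m * N) = 2 * Real.pi * j / N := by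
    rw [show 2 * Real.pi * ((m : ℝ) * j) = m * (2 * Real.pi * j) by ring]
    exact mul_div_mul_left _ _ h
  exact this

/-- the slope of the prior self energy -/
def sB (N l : ℕ) [NeZero N] [NeZero (N / l)] (b t0 τ : ℝ) (j : ℕ) : ℝ :=
  (PiCk N l b t0 τ (ax (j : ZMod (N / l))) - PiCk N l b t0 τ 0) / KK N j

/-- the slope of the mean posterior stiffness -/
def sX (N l : ℕ) [NeZero N] [NeZero (N / l)] (b t0 t τ : ℝ) (j : ℕ) : ℝ :=
  (PbC N l b t0 t τ (ax (j : ZMod (N / l))) - PbC N l b t0 t τ 0) / KK N j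

lemma pw_nat {n j : ℕ} [NeZero n] (h : 2 * j < n) : pw (j : ZMod n) = 2 * Real.pi * j / n := by
  unfold pw
  have h1 : ((j : ZMod n)).valMinAbs = (j : ℤ) := by
    rw [ZMod.valMinAbs_natCast_of_le_half (by omega)]
  rw [h1]
  push_cast
  rfl

lemma pw_KK {N l j : ℕ} [NeZero N] [NeZero (N / l)] (hl : l ∣ N) (hlp : (0 : ℝ) < l)
    (h : 2 * j < N / l) : pw (j : ZMod (N / l)) ^ 2 / (l : ℝ) ^ 2 = KK N j := by
  rw [pw_nat h]
  unfold KK
  have h1 : ((N / l : ℕ) : ℝ) = N / l := Nat.cast_div hl hlp.ne'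
  have hN : (0 : ℝ) < N := by exact_mod_cast NeZero.pos N
  rw [h1]
  field_simp

/-- everything known about a configuration (level, prior, torus) -/
structure CF (N l : ℕ) [NeZero N] [NeZero (N / l)] (b t0 t τ : ℝ) (P : V (N / l) → ℝ)
    (c0 y e a η ξ ξ2 B κ : ℝ) : Prop where
  lp : LP N l b t0 t τ P c0 y e
  hξ : t * l ^ 2 * ξ ^ 2 = 1
  hξ2 : τ * l ^ 2 * ξ2 ^ 2 = 1
  fh : FH (N / l) P a η ξ ξ2 B κ
  sm : 160 * (k0 c0 * Lm N t * ep N t y e) ≤ 1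
  er : eJ N t y e c0 * (N ^ 2 * t) ≤ y ^ 2

/-- `ξ2/ξ = √(t/τ)` -/
lemma log_xi {t τ l ξ ξ2 : ℝ} (ht : 0 < t) (hτ : 0 < τ) (hl : 0 < l) (h0 : 0 < ξ) (h20 : 0 < ξ2)
    (hξ : t * l ^ 2 * ξ ^ 2 = 1) (hξ2 : τ * l ^ 2 * ξ2 ^ 2 = 1) :
    Real.log (ξ2 / ξ) = Real.log (t / τ) / 2 := by
  have h1 : t / τ = (ξ2 / ξ) ^ 2 := by
    rw [div_pow]
    have e1 : t = 1 / (l ^ 2 * ξ ^ 2) := by
      rw [eq_div_iff (by positivity)]
      linarith
    have e2 : τ = 1 / (l ^ 2 * ξ2 ^ 2) := by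
      rw [eq_div_iff (by positivity)]
      linarith
    rw [e1, e2]
    field_simp
  rw [h1, Real.log_pow]
  push_cast
  ring

/-- **the one-level flow equation in slope letters** -/
theorem star_slope : ∃ A0 : ℝ, 0 < A0 ∧ ∀ c0 C2 ε : ℝ, 0 < c0 → c0 ≤ 1 → 0 ≤ C2 → 0 < ε →
    ∃ C B κ : ℝ, 0 ≤ C ∧ 1 ≤ B ∧ 0 < κ ∧ ∀ (N l : ℕ) [NeZero N] [NeZero (N / l)]
      (b t0 t τ y e a η ξ ξ2 : ℝ) (P : V (N / l) → ℝ), CF N l b t0 t τ P c0 y e a η ξ ξ2 B κ →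
      ∀ j : ℕ, 0 < j → 2 * j < N / l → 2 * Real.pi * j / N ≤ C2 * Real.sqrt τ →
      |sB N l b t0 τ j - sX N l b t0 t τ j - A0 * (Real.log (t / τ) / 2) * y ^ 2| ≤
        (ε * (Real.log (t / τ) / 2) + C) * y ^ 2 := by
  obtain ⟨A0, hA0, h1⟩ := star1
  refine ⟨A0, hA0, ?_⟩
  intro c0 C2 ε hc0 hc01 hC2 hε
  obtain ⟨C, B, κ, hC, hB, hκ, h2⟩ := h1 c0 C2 ε hc0 hc01 hC2 hε
  refine ⟨2 * C, B, κ, by positivity, hB, hκ, ?_⟩
  intro N l _ _ b t0 t τ y e a η ξ ξ2 P h j hj hjn hj2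
  have hl := h.lp.lpos
  have ht := h.lp.ht
  have hτ := h.lp.hτ
  have hN : 0 < N := NeZero.pos N
  have hNr : (0 : ℝ) < N := by exact_mod_cast hN
  have hx20 := h.fh.hξ20
  have hlg := log_xi ht hτ hl h.fh.hξ0 hx20 h.hξ h.hξ2
  have hKK := KK_pos hN hj
  have hpw := pw_KK (N := N) (l := l) h.lp.hl hl hjn
  have hpj : |pw (j : ZMod (N / l))| * ξ2 ≤ C2 := by
    rw [pw_nat hjn, abs_of_nonneg (by positivity), h.lp.Nl]
    have hu := xi_unit hτ hl hx20 h.hξ2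
    have e1 : 2 * Real.pi * j / ((N : ℝ) / l) * ξ2 = (2 * Real.pi * j / N) * (l * ξ2) := by
      field_simp
    rw [e1]
    calc (2 * Real.pi * j / N) * (l * ξ2) ≤ (C2 * Real.sqrt τ) * (l * ξ2) :=
          mul_le_mul_of_nonneg_right hj2 (by positivity)
      _ = C2 * (Real.sqrt τ * l * ξ2) := by ring
      _ = C2 := by rw [hu, mul_one]
  have h3 := h2 N l b t0 t τ y e a η ξ ξ2 P h.lp h.hξ h.hξ2 h.fh h.sm (j : ZMod (N / l)) hpj
  rw [hpw, hlg] at h3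
  set lg := Real.log (t / τ) / 2 with hlgd
  have h4 : t * eJ N t y e c0 ≤ y ^ 2 * KK N j := by
    have h5 := KK_ge hN hj
    have h6 := h.er
    have h7 : t * eJ N t y e c0 ≤ y ^ 2 / N ^ 2 := by
      rw [le_div_iff₀ (by positivity)]
      linarith
    have h8 : y ^ 2 / (N : ℝ) ^ 2 ≤ y ^ 2 * (36 / N ^ 2) := by
      rw [div_eq_mul_one_div]
      refine mul_le_mul_of_nonneg_left ?_ (sq_nonneg y)
      exact div_le_div_of_nonneg_right (by norm_num) (by positivity)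
    have h9 : y ^ 2 * (36 / (N : ℝ) ^ 2) ≤ y ^ 2 * KK N j :=
      mul_le_mul_of_nonneg_left h5 (sq_nonneg y)
    linarith
  have e2 : sB N l b t0 τ j - sX N l b t0 t τ j - A0 * lg * y ^ 2 =
      ((PiCk N l b t0 τ (ax (j : ZMod (N / l))) - PiCk N l b t0 τ 0) -
        (PbC N l b t0 t τ (ax (j : ZMod (N / l))) - PbC N l b t0 t τ 0) -
        A0 * lg * (y ^ 2 * KK N j)) / KK N j := by
    unfold sB sX
    field_simp
  rw [e2, abs_div, abs_of_pos hKK, div_le_iff₀ hKK]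
  refine h3.trans ?_
  have h10 := mul_le_mul_of_nonneg_left h4 hC
  linarith

end

end Vale.Agent.P159.H114
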