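import Mathlib

/-!
P159 (helper114): scalar part of the conclusion of (P#): the chain of comparisons.
-/

namespace Vale.Agent.P159.H114

noncomputable section

/-- chain of the slopes -/
lemma chain_slope {X1 X2 X2' X3 X4 B1 B2 B3 B4 y y' L1 L3 L4 A0 ε C C6 δ δ' pw : ℝ}
    (hA0 : 0 ≤ A0) (hε : 0 ≤ ε) (hC : 0 ≤ C) (hL10 : 0 ≤ L1) (hL1 : L1 ≤ pw) (hL30 : 0 ≤ L3)
    (hL3 : L3 ≤ pw) (hL40 : 0 ≤ L4) (hL4 : L4 ≤ pw) (hδ' : δ' ≤ 1)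
    (hy : |y ^ 2 - y' ^ 2| ≤ δ' * y ^ 2)
    (h1 : |B1 - X1 - A0 * L1 * y ^ 2| ≤ (ε * L1 + C) * y ^ 2)
    (h2 : |B2 - X2 - A0 * L1 * y ^ 2| ≤ (ε * L1 + C) * y ^ 2)
    (h12 : |B1 - B2| ≤ δ * y ^ 2) (h22 : |X2 - X2'| ≤ δ * y ^ 2) (h23 : |X2' - X3| ≤ C6 * y ^ 2)
    (h3 : |B3 - X3 - A0 * L3 * y ^ 2| ≤ (ε * L3 + C) * y ^ 2) (h34 : |B3 - B4| ≤ δ * y ^ 2)
    (h4 : |B4 - X4 - A0 * L4 * y' ^ 2| ≤ (ε * L4 + C) * y' ^ 2) :
    |X4 - X1 - A0 * (L3 - L4) * y ^ 2| ≤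
      (5 * (ε * pw) + A0 * pw * δ' + (5 * C + 3 * δ + C6)) * y ^ 2 := by
  have hy2 : 0 ≤ y ^ 2 := sq_nonneg y
  have hy2' : 0 ≤ y' ^ 2 := sq_nonneg y'
  have hyy : y' ^ 2 ≤ 2 * y ^ 2 := by
    have h5 := (abs_le.1 hy).1
    have h6 : δ' * y ^ 2 ≤ 1 * y ^ 2 := mul_le_mul_of_nonneg_right hδ' hy2
    linarith
  have a1 : (ε * L1 + C) * y ^ 2 ≤ (ε * pw + C) * y ^ 2 :=
    mul_le_mul_of_nonneg_right (by nlinarith) hy2
  have a3 : (ε * L3 + C) * y ^ 2 ≤ (ε * pw + C) * y ^ 2 :=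
    mul_le_mul_of_nonneg_right (by nlinarith) hy2
  have hpw0 : 0 ≤ pw := hL10.trans hL1
  have a4 : (ε * L4 + C) * y' ^ 2 ≤ (ε * pw + C) * (2 * y ^ 2) :=
    mul_le_mul (by nlinarith) hyy hy2' (by positivity)
  have a5 : |A0 * L4 * (y ^ 2 - y' ^ 2)| ≤ A0 * pw * δ' * y ^ 2 := by
    rw [abs_mul, abs_of_nonneg (by positivity : 0 ≤ A0 * L4)]
    calc A0 * L4 * |y ^ 2 - y' ^ 2| ≤ A0 * pw * (δ' * y ^ 2) :=
          mul_le_mul (mul_le_mul_of_nonneg_left hL4 hA0) hy (abs_nonneg _) (by positivity)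
      _ = _ := by ring
  have b1 := abs_le.1 h1
  have b2 := abs_le.1 h2
  have b12 := abs_le.1 h12
  have b22 := abs_le.1 h22
  have b23 := abs_le.1 h23
  have b3 := abs_le.1 h3
  have b34 := abs_le.1 h34
  have b4 := abs_le.1 h4
  have b5 := abs_le.1 a5
  have e : X4 - X1 - A0 * (L3 - L4) * y ^ 2 =
      (B1 - X1 - A0 * L1 * y ^ 2) - (B2 - X2 - A0 * L1 * y ^ 2) - (B1 - B2) - (X2 - X2') -
        (X2' - X3) + (B3 - X3 - A0 * L3 * y ^ 2) - (B3 - B4) - (B4 - X4 - A0 * L4 * y' ^ 2) +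
        A0 * L4 * (y ^ 2 - y' ^ 2) := by ring
  rw [e, abs_le]
  constructor
  · linarith [b1.1, b2.2, b12.2, b22.2, b23.2, b3.1, b34.2, b4.2, b5.1]
  · linarith [b1.2, b2.1, b12.1, b22.1, b23.1, b3.2, b34.1, b4.1, b5.2]

/-- from slopes to the letters `1/X - 2/π` -/
lemma letters {X1 X4 D F ρ : ℝ} (hρ0 : 0 ≤ ρ) (hρ : ρ ≤ 1 / 4) (h1 : |X1 - Real.pi / 2| ≤ ρ)
    (h4 : |X4 - Real.pi / 2| ≤ ρ) (hD : 0 ≤ D) (h : |X4 - X1 - D| ≤ F) :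
    |(1 / X1 - 2 / Real.pi) - (1 / X4 - 2 / Real.pi) - 4 / Real.pi ^ 2 * D| ≤
      F + 2 * ρ * D := by
  have hpi := Real.pi_gt_three
  have hpi2 := Real.pi_lt_d2
  have b1 := abs_le.1 h1
  have b4 := abs_le.1 h4
  have hX1 : 1 ≤ X1 := by linarith
  have hX4 : 1 ≤ X4 := by linarith
  have hX1' : X1 ≤ 2 := by linarith
  have hX4' : X4 ≤ 2 := by linarith
  have h14 : 1 ≤ X1 * X4 := by nlinarith
  have h14p : 0 < X1 * X4 := by positivity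
  have e : (1 / X1 - 2 / Real.pi) - (1 / X4 - 2 / Real.pi) - 4 / Real.pi ^ 2 * D =
      (X4 - X1 - D) / (X1 * X4) + D * (Real.pi ^ 2 / 4 - X1 * X4) / (X1 * X4 * (Real.pi ^ 2 / 4)) := by
    have hp : Real.pi ≠ 0 := by positivity
    have x1 : X1 ≠ 0 := by positivity
    have x4 : X4 ≠ 0 := by positivity
    field_simp
    ring
  rw [e]
  refine (abs_add_le _ _).trans (add_le_add ?_ ?_)
  · rw [abs_div, abs_of_pos h14p, div_le_iff₀ h14p]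
    have : F ≤ F * (X1 * X4) := le_mul_of_one_le_right ((abs_nonneg _).trans h) h14
    linarith
  · have hq : 2 ≤ X1 * X4 * (Real.pi ^ 2 / 4) := by nlinarith
    rw [abs_div, abs_mul, abs_of_nonneg hD,
      abs_of_pos (show 0 < X1 * X4 * (Real.pi ^ 2 / 4) by linarith),
      div_le_iff₀ (show 0 < X1 * X4 * (Real.pi ^ 2 / 4) by linarith)]
    have h5 : |Real.pi ^ 2 / 4 - X1 * X4| ≤ 4 * ρ := by
      have e2 : Real.pi ^ 2 / 4 - X1 * X4 = -((X1 - Real.pi / 2) * X4 +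
          Real.pi / 2 * (X4 - Real.pi / 2)) := by ring
      rw [e2, abs_neg]
      refine (abs_add_le _ _).trans ?_
      rw [abs_mul, abs_mul, abs_of_pos (by linarith : 0 < X4),
        abs_of_pos (by linarith : 0 < Real.pi / 2)]
      have c1 : |X1 - Real.pi / 2| * X4 ≤ ρ * 2 := mul_le_mul h1 hX4' (by linarith) hρ0
      have c2 : Real.pi / 2 * |X4 - Real.pi / 2| ≤ 2 * ρ :=
        mul_le_mul (by linarith) h4 (abs_nonneg _) (by norm_num)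
      linarith
    have h6 : D * |Real.pi ^ 2 / 4 - X1 * X4| ≤ D * (4 * ρ) := mul_le_mul_of_nonneg_left h5 hD
    have h7 : 2 * ρ * D * 2 ≤ 2 * ρ * D * (X1 * X4 * (Real.pi ^ 2 / 4)) :=
      mul_le_mul_of_nonneg_left hq (by positivity)
    linarith

/-- the sharp relation of a window -/
theorem sharp_window {X1 X4 y w A0 F ρ η : ℝ} (hA0 : 0 ≤ A0) (hw : 0 ≤ w) (hρ0 : 0 ≤ ρ)
    (hρ : ρ ≤ 1 / 4) (h1 : |X1 - Real.pi / 2| ≤ ρ) (h4 : |X4 - Real.pi / 2| ≤ ρ)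
    (h : |X4 - X1 - A0 * (w * Real.log 2) * y ^ 2| ≤ F * y ^ 2) (hF : F ≤ η / 2 * w)
    (hρη : 2 * ρ * A0 ≤ η / 2) :
    |(1 / X1 - 2 / Real.pi) - (1 / X4 - 2 / Real.pi) -
      (4 / Real.pi ^ 2 * A0 * Real.log 2) * (w * y ^ 2)| ≤ η * (w * y ^ 2) := by
  have hl2 : 0 ≤ Real.log 2 := Real.log_nonneg (by norm_num)
  have hl21 : Real.log 2 ≤ 1 := by
    have := Real.log_two_lt_d9
    linarith
  have hy2 : 0 ≤ y ^ 2 := sq_nonneg y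
  have h5 := letters hρ0 hρ h1 h4 (by positivity : 0 ≤ A0 * (w * Real.log 2) * y ^ 2) h
  have e : 4 / Real.pi ^ 2 * (A0 * (w * Real.log 2) * y ^ 2) =
      (4 / Real.pi ^ 2 * A0 * Real.log 2) * (w * y ^ 2) := by ring
  rw [e] at h5
  refine h5.trans ?_
  have h6 : F * y ^ 2 ≤ η / 2 * w * y ^ 2 := mul_le_mul_of_nonneg_right hF hy2
  have h7 : 2 * ρ * (A0 * (w * Real.log 2) * y ^ 2) ≤ η / 2 * w * y ^ 2 := by
    have h8 : 2 * ρ * (A0 * (w * Real.log 2) * y ^ 2) =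
        (2 * ρ * A0) * (w * y ^ 2) * Real.log 2 := by ring
    rw [h8]
    calc (2 * ρ * A0) * (w * y ^ 2) * Real.log 2 ≤ (2 * ρ * A0) * (w * y ^ 2) * 1 :=
          mul_le_mul_of_nonneg_left hl21 (by positivity)
      _ = (2 * ρ * A0) * (w * y ^ 2) := mul_one _
      _ ≤ η / 2 * (w * y ^ 2) := mul_le_mul_of_nonneg_right hρη (by positivity)
      _ = _ := by ring
  linarith

end

end Vale.Agent.P159.H114
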