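import Mathlib

/-!
P159 (helper114): Richardson weights.
-/

namespace Vale.Agent.P159.H114

open Finset Matrix

noncomputable section

/-- nodes `(i+1)²` -/
def nd (q : ℕ) (i : Fin (q + 1)) : ℝ := ((i : ℕ) + 1 : ℝ) ^ 2

lemma nd_inj (q : ℕ) : Function.Injective (nd q) := by
  intro i j h
  unfold nd at h
  have h1 : (0 : ℝ) ≤ (i : ℕ) + 1 := by positivity
  have h2 : (0 : ℝ) ≤ (j : ℕ) + 1 := by positivity
  have h3 := (sq_eq_sq₀ h1 h2).1 h
  have h4 : ((i : ℕ) : ℝ) = (j : ℕ) := by linarith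
  exact Fin.ext (by exact_mod_cast h4)

/-- **Richardson weights** -/
theorem rich (q : ℕ) : ∃ μ : Fin (q + 1) → ℝ, ∀ p : ℕ, p ≤ q →
    ∑ i, μ i * nd q i ^ p = if p = 1 then 1 else 0 := by
  have hdet : (vandermonde (nd q)).det ≠ 0 := Matrix.det_vandermonde_ne_zero_iff.2 (nd_inj q)
  have hu : IsUnit (vandermonde (nd q)).det := isUnit_iff_ne_zero.2 hdet
  set e : Fin (q + 1) → ℝ := fun p => if (p : ℕ) = 1 then 1 else 0 with he
  refine ⟨e ᵥ* (vandermonde (nd q))⁻¹, fun p hp => ?_⟩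
  have h1 : (e ᵥ* (vandermonde (nd q))⁻¹) ᵥ* (vandermonde (nd q)) = e := by
    rw [vecMul_vecMul, nonsing_inv_mul _ hu, vecMul_one]
  have h2 := congrFun h1 ⟨p, Nat.lt_succ_of_le hp⟩
  simpa [vecMul, dotProduct, vandermonde_apply, he] using h2

end

end Vale.Agent.P159.H114
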