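import Vale.Agent.P159.H114.Se5
import Vale.Agent.P159.H114.Chain1
import Vale.Agent.P159.H114.Chain2
import Vale.Agent.P159.H114.Rich

/-!
P159 (helper114): the one-level flow equation (pinned prior) in Richardson sums.
-/

namespace Vale.Agent.P159.H114

open MeasureTheory Finset Matrix
open Vale.Agent.P159.H37
open Vale.Agent.P159.H864 (TI sym mlt ti_mlt sym_mlt cobV MC GM Gck PiCk cobV_mul_tr)
open Vale.Agent.P159.H730 (wC Cbk)
open Vale.Agent.P159.TM.H764 (Gh cN sN dt ch EE frm grd pw)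
open Vale.Agent.P159.TM.Spec (V)
open Vale.Agent.P159.TM.SpecC (wT ms)

noncomputable section

set_option linter.unusedSectionVars false

/-- the momentum number `i + 1` -/
def jm (n i : ℕ) : ZMod n := ((i + 1 : ℕ) : ZMod n)

/-- weights: size -/
def Mw (q : ℕ) (μ : Fin (q + 1) → ℝ) : ℝ := ∑ i, |μ i| * nd q i

/-- Richardson weights -/
structure RW (q : ℕ) (μ : Fin (q + 1) → ℝ) : Prop where
  q1 : 1 ≤ q
  h : ∀ p : ℕ, p ≤ q → ∑ i, μ i * nd q i ^ p = if p = 1 then 1 else 0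

lemma exists_RW (q : ℕ) (hq : 1 ≤ q) : ∃ μ : Fin (q + 1) → ℝ, RW q μ := by
  obtain ⟨μ, h⟩ := rich q
  exact ⟨μ, hq, h⟩

section rw

variable {q : ℕ} {μ : Fin (q + 1) → ℝ}

lemma RW.s0 (h : RW q μ) : ∑ i, μ i = 0 := by
  have := h.h 0 (Nat.zero_le _)
  simpa using this

lemma RW.s1 (h : RW q μ) : ∑ i, μ i * nd q i = 1 := by
  have := h.h 1 h.q1
  simpa using this

lemma nd_ge (q : ℕ) (i : Fin (q + 1)) : 1 ≤ nd q i := by
  unfold nd
  have : (0 : ℝ) ≤ (i : ℕ) := by positivity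
  nlinarith

lemma Mw_nonneg (q : ℕ) (μ : Fin (q + 1) → ℝ) : 0 ≤ Mw q μ :=
  Finset.sum_nonneg fun i _ => mul_nonneg (abs_nonneg _) (by linarith [nd_ge q i])

lemma abs_le_Mw (q : ℕ) (μ : Fin (q + 1) → ℝ) : ∑ i, |μ i| ≤ Mw q μ :=
  Finset.sum_le_sum fun i _ => le_mul_of_one_le_right (abs_nonneg _) (nd_ge q i)

/-- weighted sums of small numbers -/
lemma rw_bound {d : Fin (q + 1) → ℝ} {K L : ℝ} (hK : 0 ≤ K) (hL : 0 ≤ L)
    (h : ∀ i, |d i| ≤ K * nd q i + L) : |∑ i, μ i * d i| ≤ Mw q μ * (K + L) := by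
  refine (Finset.abs_sum_le_sum_abs _ _).trans ?_
  have h1 : ∀ i, |μ i * d i| ≤ (|μ i| * nd q i) * K + |μ i| * L := by
    intro i
    rw [abs_mul]
    have := mul_le_mul_of_nonneg_left (h i) (abs_nonneg (μ i))
    linarith
  refine (Finset.sum_le_sum fun i _ => h1 i).trans ?_
  rw [Finset.sum_add_distrib, ← Finset.sum_mul, ← Finset.sum_mul]
  have h2 := mul_le_mul_of_nonneg_right (abs_le_Mw q μ) hL
  unfold Mw at h2 ⊢
  linarith

end rw

/-- Richardson sum of the mean posterior stiffness -/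
def xR (q : ℕ) (μ : Fin (q + 1) → ℝ) (N l : ℕ) [NeZero N] [NeZero (N / l)] (b t0 t τ : ℝ) : ℝ :=
  (∑ i : Fin (q + 1), μ i * PbC N l b t0 t τ (ax (jm (N / l) i))) / KK N 1

/-- Richardson sum of the self energy of the prior -/
def pR (q : ℕ) (μ : Fin (q + 1) → ℝ) (N l : ℕ) [NeZero N] [NeZero (N / l)] (b t0 τ : ℝ) : ℝ :=
  (∑ i : Fin (q + 1), μ i * PiCk N l b t0 τ (ax (jm (N / l) i))) / KK N 1

/-- everything known about a configuration, pinned prior -/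
structure CP (N l : ℕ) [NeZero N] [NeZero (N / l)] (b t0 t τ : ℝ) (P : V (N / l) → ℝ)
    (c0 y e a η ξ B κ : ℝ) : Prop where
  lq : LQ N l b t0 t τ P c0 y e
  hξ : t * l ^ 2 * ξ ^ 2 = 1
  fp : FP (N / l) P a η ξ B κ
  tn : (N : ℝ) ^ 2 * τ * (1 + Real.log (Lm N t)) ≤ 1
  sm : 160 * (k0 (c0 ^ 4) * Lm N t * ep N t y e) ≤ 1
  er : eJ N t y e (c0 ^ 4) * (N ^ 2 * t) ≤ y ^ 2

lemma jm_ne {n i : ℕ} (h : i + 1 < n) : jm n i ≠ 0 := by
  unfold jm
  intro hc
  rw [ZMod.natCast_eq_zero_iff] at hc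
  have := Nat.le_of_dvd (Nat.succ_pos i) hc
  omega

lemma KK_nd (N q : ℕ) (i : Fin (q + 1)) : KK N (i + 1) = nd q i * KK N 1 := by
  unfold KK nd
  push_cast
  ring

lemma pw_jm {N l q : ℕ} [NeZero N] [NeZero (N / l)] (hl : l ∣ N) (hlp : (0 : ℝ) < l)
    (h : 2 * (q + 1) < N / l) (i : Fin (q + 1)) :
    pw (jm (N / l) i) ^ 2 / (l : ℝ) ^ 2 = nd q i * KK N 1 := by
  rw [← KK_nd, ← pw_KK hl hlp (j := i + 1) (by have := i.2; omega)]
  rfl

lemma pw_jm_le {n q : ℕ} [NeZero n] (h : 2 * (q + 1) < n) (i : Fin (q + 1)) :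
    |pw (jm n i)| * n ≤ 2 * Real.pi * (q + 1) := by
  have hn : (0 : ℝ) < n := by exact_mod_cast NeZero.pos n
  have hpi := Real.pi_pos
  unfold jm
  rw [pw_nat (by have := i.2; omega), abs_of_nonneg (by positivity), div_mul_cancel₀ _ hn.ne']
  refine mul_le_mul_of_nonneg_left ?_ (by positivity)
  have : ((i : ℕ) + 1 : ℕ) ≤ q + 1 := by have := i.2; omega
  exact_mod_cast this

lemma pw_jm_mono {n q : ℕ} [NeZero n] (h : 2 * (q + 1) < n) (i : Fin (q + 1)) :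
    pw (jm n 0) ^ 2 ≤ pw (jm n i) ^ 2 := by
  have hn : (0 : ℝ) < n := by exact_mod_cast NeZero.pos n
  have hpi := Real.pi_pos
  unfold jm
  rw [pw_nat (by have := i.2; omega), pw_nat (by omega)]
  refine pow_le_pow_left₀ (by positivity) ?_ 2
  refine div_le_div_of_nonneg_right ?_ hn.le
  refine mul_le_mul_of_nonneg_left ?_ (by positivity)
  push_cast
  have : (0 : ℝ) ≤ (i : ℕ) := by positivity
  linarith

/-- **the one-level flow equation in Richardson sums** -/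
theorem star_R : ∃ A : ℝ, 0 < A ∧ ∀ (q : ℕ) (μ : Fin (q + 1) → ℝ), RW q μ →
    ∀ c0 ε : ℝ, 0 < c0 → c0 ≤ 1 → 0 < ε →
    ∃ C B κ : ℝ, 0 ≤ C ∧ 1 ≤ B ∧ 0 < κ ∧ ∀ (N l : ℕ) [NeZero N] [NeZero (N / l)]
      (b t0 t τ y e a η ξ : ℝ) (P : V (N / l) → ℝ), CP N l b t0 t τ P c0 y e a η ξ B κ →
      2 * (q + 1) < N / l →
      |pR q μ N l b t0 τ - xR q μ N l b t0 t τ - A * Real.log (Lm N t) * y ^ 2| ≤
        (ε * Real.log (Lm N t) + C) * y ^ 2 := by
  obtain ⟨A0, hA0, hp⟩ := p4pin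
  have hpi := Real.pi_pos
  refine ⟨16 * Real.pi ^ 2 * A0, by positivity, ?_⟩
  intro q μ hμ c0 ε hc0 hc01 hε
  have hM := Mw_nonneg q μ
  obtain ⟨C, B, κ, hC, hB, hκ, h2⟩ := star2 hA0 hp c0 (2 * Real.pi * (q + 1))
    (ε / (Mw q μ + 1)) hc0 hc01 (by positivity) (by positivity)
  refine ⟨Mw q μ * (2 * C), B, κ, by positivity, hB, hκ, ?_⟩
  intro N l _ _ b t0 t τ y e a η ξ P h hn
  have hl := h.lq.lpos
  have ht := h.lq.ht
  have hN : 0 < N := NeZero.pos N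
  have hNr : (0 : ℝ) < N := by exact_mod_cast hN
  have hKK := KK_pos hN one_pos
  have hlg : 0 ≤ Real.log (Lm N t) := Real.log_nonneg h.lq.Lm1
  set A := 16 * Real.pi ^ 2 * A0 with hA
  set lg := Real.log (Lm N t) with hlgd
  set ε' := ε / (Mw q μ + 1) with hε'
  have hε'0 : 0 < ε' := by positivity
  set J : ℕ → ZMod (N / l) := fun i => jm (N / l) i with hJ
  -- the error at each momentum
  set D : Fin (q + 1) → ℝ := fun i => ((PiCk N l b t0 τ (ax (J i)) - PiCk N l b t0 τ (ax (J 0))) -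
    (PbC N l b t0 t τ (ax (J i)) - PbC N l b t0 t τ (ax (J 0)))) -
    A * lg * (y ^ 2 * ((nd q i - 1) * KK N 1)) with hD
  have hteJ : t * eJ N t y e (c0 ^ 4) ≤ y ^ 2 * KK N 1 := by
    have h5 := KK_ge hN one_pos
    have h6 := h.er
    have h7 : t * eJ N t y e (c0 ^ 4) ≤ y ^ 2 / N ^ 2 := by
      rw [le_div_iff₀ (by positivity)]
      linarith
    have h8 : y ^ 2 / (N : ℝ) ^ 2 ≤ y ^ 2 * (36 / N ^ 2) := by
      rw [div_eq_mul_one_div]
      refine mul_le_mul_of_nonneg_left ?_ (sq_nonneg y)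
      exact div_le_div_of_nonneg_right (by norm_num) (by positivity)
    have h9 : y ^ 2 * (36 / (N : ℝ) ^ 2) ≤ y ^ 2 * KK N 1 :=
      mul_le_mul_of_nonneg_left h5 (sq_nonneg y)
    linarith
  have hnd0 : pw (J 0) ^ 2 / (l : ℝ) ^ 2 = KK N 1 := by
    have h3 := pw_jm (q := q) h.lq.hl hl hn 0
    have h4 : nd q 0 = 1 := by unfold nd; simp
    rw [h4, one_mul] at h3
    simpa using h3
  have hDi : ∀ i, |D i| ≤ ((ε' * lg + C) * (y ^ 2 * KK N 1)) * nd q i + C * (y ^ 2 * KK N 1) := by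
    intro i
    have h3 := h2 N l b t0 t τ y e a η ξ P h.lq h.hξ h.fp h.tn h.sm (J 0) (J i)
      (jm_ne (by omega)) (jm_ne (by have := i.2; omega)) (pw_jm_mono hn i)
      (by have := pw_jm_le hn (0 : Fin (q + 1)); simpa using this) (pw_jm_le hn i)
    have e1 : (pw (J i) ^ 2 - pw (J 0) ^ 2) / (l : ℝ) ^ 2 = (nd q i - 1) * KK N 1 := by
      rw [sub_div, hnd0, pw_jm h.lq.hl hl hn i]
      ring
    have e2 : pw (J i) ^ 2 / (l : ℝ) ^ 2 = nd q i * KK N 1 := pw_jm h.lq.hl hl hn i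
    rw [e1, e2] at h3
    refine h3.trans ?_
    have h10 := mul_le_mul_of_nonneg_left hteJ hC
    have e3 : (ε' * lg + C) * (y ^ 2 * (nd q i * KK N 1)) =
        ((ε' * lg + C) * (y ^ 2 * KK N 1)) * nd q i := by ring
    rw [e3]
    linarith
  have hsum := rw_bound (μ := μ) (by positivity) (by positivity) hDi
  have hx0 := hμ.s0
  have hx1 := hμ.s1
  have e4 : ∑ i, μ i * D i = (∑ i : Fin (q + 1), μ i * PiCk N l b t0 τ (ax (J i))) -
      (∑ i : Fin (q + 1), μ i * PbC N l b t0 t τ (ax (J i))) - A * lg * (y ^ 2 * KK N 1) := by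
    have e5 : ∀ i, μ i * D i = μ i * PiCk N l b t0 τ (ax (J i)) -
        μ i * PbC N l b t0 t τ (ax (J i)) - μ i * (PiCk N l b t0 τ (ax (J 0)) -
          PbC N l b t0 t τ (ax (J 0)) - A * lg * (y ^ 2 * KK N 1)) -
        (μ i * nd q i) * (A * lg * (y ^ 2 * KK N 1)) := by
      intro i
      rw [hD]
      ring
    simp only [e5]
    rw [Finset.sum_sub_distrib, Finset.sum_sub_distrib, Finset.sum_sub_distrib,
      ← Finset.sum_mul, ← Finset.sum_mul, hx0, hx1]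
    ring
  rw [e4] at hsum
  have e6 : pR q μ N l b t0 τ - xR q μ N l b t0 t τ - A * lg * y ^ 2 =
      ((∑ i : Fin (q + 1), μ i * PiCk N l b t0 τ (ax (J i))) -
      (∑ i : Fin (q + 1), μ i * PbC N l b t0 t τ (ax (J i))) - A * lg * (y ^ 2 * KK N 1)) /
        KK N 1 := by
    unfold pR xR
    simp only [hJ]
    field_simp
  rw [e6, abs_div, abs_of_pos hKK, div_le_iff₀ hKK]
  refine hsum.trans ?_
  have e7 : Mw q μ * ((ε' * lg + C) * (y ^ 2 * KK N 1) + C * (y ^ 2 * KK N 1)) =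
      (Mw q μ * ε' * lg + Mw q μ * (2 * C)) * y ^ 2 * KK N 1 := by ring
  rw [e7]
  have h11 : Mw q μ * ε' ≤ ε := by
    rw [hε', ← mul_div_assoc, div_le_iff₀ (by positivity)]
    nlinarith
  have h12 : Mw q μ * ε' * lg ≤ ε * lg := mul_le_mul_of_nonneg_right h11 hlg
  refine mul_le_mul_of_nonneg_right (mul_le_mul_of_nonneg_right ?_ (sq_nonneg y)) hKK.le
  linarith

end

end Vale.Agent.P159.H114
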