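import Vale.Agent.P159.H114.Chain3
import Vale.Agent.P159.H375.FineT

/-!
P159 (helper114): the Richardson sum of the self energy of the prior does not depend on the cells
(from helper375's `PiCk_two`).
-/

namespace Vale.Agent.P159.H114

open MeasureTheory Finset Matrix
open Vale.Agent.P159.H37
open Vale.Agent.P159.H864 (TI sym mlt ti_mlt sym_mlt cobV MC GM Gck PiCk cobV_mul_tr cen rd rd1)
open Vale.Agent.P159.TM.H764 (Gh cN sN dt ch EE frm grd pw)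
open Vale.Agent.P159.TM.Spec (V)
open Vale.Agent.P159.TM.SpecC (wT ms)

noncomputable section

set_option linter.unusedSectionVars false

variable {N l : ℕ} [NeZero N] [NeZero (N / l)] {b : ℝ}

lemma rd_ax (hl : l ∣ N) (i : ℕ) :
    (rd (ax (jm N i)) : V (N / l)) = ax (jm (N / l) i) := by
  unfold rd ax jm
  refine Prod.ext ?_ ?_
  · show (rd1 (((i + 1 : ℕ)) : ZMod N) : ZMod (N / l)) = ((i + 1 : ℕ) : ZMod (N / l))
    rw [H864.rd1_eq hl, map_natCast]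
  · show (rd1 (0 : ZMod N) : ZMod (N / l)) = 0
    rw [H864.rd1_eq hl, map_zero]

lemma cen_ax {i : ℕ} (h : 2 * l * (i + 1) ≤ N) (hlp : 0 < l) : cen l (ax (jm N i)) := by
  have h1 : i + 1 ≤ N / 2 := by
    have h2 : 2 * (i + 1) ≤ N := by
      calc 2 * (i + 1) = 2 * 1 * (i + 1) := by ring
        _ ≤ 2 * l * (i + 1) := Nat.mul_le_mul_right _ (Nat.mul_le_mul_left 2 hlp)
        _ ≤ N := h
    omega
  unfold cen ax jm
  constructor
  · show 2 * l * (((i + 1 : ℕ) : ZMod N)).valMinAbs.natAbs ≤ N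
    rw [ZMod.valMinAbs_natCast_of_le_half h1, Int.natAbs_natCast]
    exact h
  · show 2 * l * ((0 : ZMod N)).valMinAbs.natAbs ≤ N
    simp

lemma EE_sp {q : ℕ} (h : 2 * (q + 1) < N) (i : Fin (q + 1)) :
    EE (ax (jm N i)) ≤ nd q i * KK N 1 := by
  refine (EE_ax_le _).trans (le_of_eq ?_)
  rw [← KK_nd]
  unfold jm KK
  rw [pw_nat (by have := i.2; omega)]

/-- **two cells at the same tiny prior mass** -/
theorem pR_two (hb : 0 < b) : ∃ C c : ℝ, 0 < C ∧ 0 < c ∧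
    ∀ (q : ℕ) (μ : Fin (q + 1) → ℝ) (N l l' : ℕ) [NeZero N] [NeZero (N / l)] [NeZero (N / l')]
    (t t' τ : ℝ), 0 < τ → τ ≤ t → τ ≤ t' → 9 ≤ t * (N : ℝ) ^ 2 → 9 ≤ t' * (N : ℝ) ^ 2 →
    l ∣ N → l' ∣ N → t * (l : ℝ) ^ 2 ≤ 1 → t' * (l' : ℝ) ^ 2 ≤ 1 → (N : ℝ) ^ 2 * τ ≤ 1 →
    ∀ c0 D : ℝ, 0 < c0 → 0 ≤ D → (∀ q : V N, Ght N b τ q ≤ (τ + c0 * EE q)⁻¹) →
      (∀ q : V N, τ + Pik N b τ q ≤ D * (τ + EE q)) →
      2 * l * (q + 1) < N → 2 * l' * (q + 1) < N →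
      ∀ e : ℝ, C * (√(t * (N : ℝ) ^ 2) * (t * (l : ℝ) ^ 2) ^ c) +
          250 * (q + 1) ^ 2 * (l : ℝ) ^ 2 / (c0 * N ^ 2) ≤ e →
        C * (√(t' * (N : ℝ) ^ 2) * (t' * (l' : ℝ) ^ 2) ^ c) +
          250 * (q + 1) ^ 2 * (l' : ℝ) ^ 2 / (c0 * N ^ 2) ≤ e → D * e ≤ 1 / 2 →
      |pR q μ N l b t τ - pR q μ N l' b t' τ| ≤ Mw q μ * (8 * D ^ 2 * e) := by
  obtain ⟨C, c, hC, hc, hU⟩ := H375.PiCk_two (b := b) hb
  refine ⟨C, c, hC, hc, ?_⟩
  intro q μ N l l' _ _ _ t t' τ hτ hτt hτt' htN htN' hl hl' htl htl' hτN c0 D hc0 hD hdom hPD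
    hq hq' e he he' hDe
  have hN : 0 < N := NeZero.pos N
  have hNr : (0 : ℝ) < N := by exact_mod_cast hN
  have hlp : 0 < l := H864.l_pos hl
  have hlp' : 0 < l' := H864.l_pos hl'
  have hKK := KK_pos hN one_pos
  have hqN : 2 * (q + 1) < N := by
    calc 2 * (q + 1) = 2 * 1 * (q + 1) := by ring
      _ ≤ 2 * l * (q + 1) := Nat.mul_le_mul_right _ (Nat.mul_le_mul_left 2 hlp)
      _ < N := hq
  have hτK : τ ≤ KK N 1 := by
    have h1 := KK_ge hN one_pos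
    have h2 : τ ≤ 1 / N ^ 2 := by
      rw [le_div_iff₀ (by positivity)]
      linarith
    have h3 : 1 / (N : ℝ) ^ 2 ≤ 36 / N ^ 2 := div_le_div_of_nonneg_right (by norm_num)
      (by positivity)
    linarith
  have he0 : 0 ≤ e := by
    have htp : 0 < t := hτ.trans_le hτt
    refine le_trans ?_ he
    positivity
  have hx : ∀ i : Fin (q + 1), τ + EE (ax (jm N i)) ≤ 2 * (nd q i * KK N 1) := by
    intro i
    have h1 := EE_sp hqN i
    have h2 : KK N 1 ≤ nd q i * KK N 1 := le_mul_of_one_le_left hKK.le (nd_ge q i)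
    linarith
  have hx2 : ∀ i : Fin (q + 1), τ + EE (ax (jm N i)) ≤ 41 * (q + 1) ^ 2 / N ^ 2 := by
    intro i
    have h1 := EE_sp hqN i
    have h2 : nd q i ≤ (q + 1) ^ 2 := by
      unfold nd
      have h3 : ((i : ℕ) : ℝ) + 1 ≤ q + 1 := by
        have : (i : ℕ) ≤ q := by have := i.2; omega
        have : ((i : ℕ) : ℝ) ≤ q := by exact_mod_cast this
        linarith
      exact pow_le_pow_left₀ (by positivity) h3 2
    have h4 : KK N 1 ≤ 40 / N ^ 2 := by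
      unfold KK
      rw [div_pow]
      refine div_le_div_of_nonneg_right ?_ (by positivity)
      have h8 := Real.pi_lt_d4
      have : Real.pi ^ 2 ≤ 3.1416 ^ 2 := pow_le_pow_left₀ Real.pi_pos.le h8.le 2
      push_cast
      nlinarith
    have h5 : nd q i * KK N 1 ≤ (q + 1) ^ 2 * (40 / N ^ 2) :=
      mul_le_mul h2 h4 hKK.le (by positivity)
    have h6 : τ ≤ (q + 1) ^ 2 / N ^ 2 := by
      rw [le_div_iff₀ (by positivity)]
      have h7 : (1 : ℝ) ≤ ((q : ℝ) + 1) ^ 2 := one_le_pow₀ (by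
        have : (0 : ℝ) ≤ q := by positivity
        linarith)
      linarith
    have e1 : 41 * ((q : ℝ) + 1) ^ 2 / N ^ 2 = (q + 1) ^ 2 * (40 / N ^ 2) + (q + 1) ^ 2 / N ^ 2 := by
      ring
    rw [e1]
    linarith
  have hx0 : ∀ i : Fin (q + 1), 0 ≤ τ + EE (ax (jm N i)) := by
    intro i
    have := H462.EE_nonneg (ax (jm N i))
    positivity
  have aux : ∀ (m : ℕ) (s : ℝ) (i : Fin (q + 1)), C * (√(s * (N : ℝ) ^ 2) * (s * (m : ℝ) ^ 2) ^ c) +
      250 * (q + 1) ^ 2 * (m : ℝ) ^ 2 / (c0 * N ^ 2) ≤ e →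
      C * (√(s * (N : ℝ) ^ 2) * (s * (m : ℝ) ^ 2) ^ c) +
      6 * (m : ℝ) ^ 2 / c0 * (τ + EE (ax (jm N i))) ≤ e := by
    intro m s i h
    refine le_trans (add_le_add le_rfl ?_) h
    calc 6 * (m : ℝ) ^ 2 / c0 * (τ + EE (ax (jm N i))) ≤
        6 * (m : ℝ) ^ 2 / c0 * (41 * (q + 1) ^ 2 / N ^ 2) :=
          mul_le_mul_of_nonneg_left (hx2 i) (by positivity)
      _ = 246 * ((q + 1) ^ 2 * (m : ℝ) ^ 2 / (c0 * N ^ 2)) := by ring
      _ ≤ 250 * ((q + 1) ^ 2 * (m : ℝ) ^ 2 / (c0 * N ^ 2)) :=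
          mul_le_mul_of_nonneg_right (by norm_num) (by positivity)
      _ = _ := by ring
  have hDi : ∀ i : Fin (q + 1), |PiCk N l b t τ (ax (jm (N / l) i)) -
      PiCk N l' b t' τ (ax (jm (N / l') i))| ≤ (8 * D ^ 2 * e * KK N 1) * nd q i + 0 := by
    intro i
    have hi : (i : ℕ) + 1 ≤ q + 1 := by have := i.2; omega
    have c1 : cen l (ax (jm N i)) :=
      cen_ax ((Nat.mul_le_mul_left (2 * l) hi).trans hq.le) hlp
    have c2 : cen l' (ax (jm N i)) :=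
      cen_ax ((Nat.mul_le_mul_left (2 * l') hi).trans hq'.le) hlp'
    have h1 := hU N l l' t t' τ hτ hτt hτt' htN htN' hl hl' htl htl' c0 D hc0 hD hdom
      (ax (jm N i)) c1 c2 (hPD _) e (aux l t i he) (aux l' t' i he') hDe
    rw [rd_ax hl, rd_ax hl'] at h1
    refine h1.trans ?_
    calc 4 * D ^ 2 * e * (τ + EE (ax (jm N i))) ≤ 4 * D ^ 2 * e * (2 * (nd q i * KK N 1)) :=
          mul_le_mul_of_nonneg_left (hx i) (by positivity)
      _ = _ := by ring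
  have hsum := rw_bound (μ := μ) (by positivity) le_rfl hDi
  have e6 : pR q μ N l b t τ - pR q μ N l' b t' τ =
      (∑ i : Fin (q + 1), μ i * (PiCk N l b t τ (ax (jm (N / l) i)) -
        PiCk N l' b t' τ (ax (jm (N / l') i)))) / KK N 1 := by
    unfold pR
    rw [← sub_div, ← Finset.sum_sub_distrib]
    congr 1
    exact Finset.sum_congr rfl fun i _ => by ring
  rw [e6, abs_div, abs_of_pos hKK, div_le_iff₀ hKK]
  refine hsum.trans (le_of_eq ?_)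
  ring

end

end Vale.Agent.P159.H114
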