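import Vale.Agent.P159.H114.Chain4

/-!
P159 (helper114): the one-level flow equation in value form (helper462's letters): scalar mass,
`Pt - xq = 8π² |z|² Sig`, Richardson sums.
-/

namespace Vale.Agent.P159.H114

open Finset
open Vale.Agent.P159.TM.H764 (Gh cN sN dt ch EE frm grd pw)
open Vale.Agent.P159.TM.Spec (V)

noncomputable section

set_option linter.unusedSectionVars false

/-- the neutral sum -/
def Sig (n : ℕ) [NeZero n] (ν t2 : ℝ) (P : V n → ℝ) (k : V n) : ℝ :=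
  ∑ r, (1 - cN (dt k r)) * Real.exp (-H813.Dk n ν t2 P r)

/-- Richardson slope of a symbol -/
def pS (q : ℕ) (μ : Fin (q + 1) → ℝ) (n : ℕ) [NeZero n] (f : V n → ℝ) : ℝ :=
  (∑ i : Fin (q + 1), μ i * f (ax (jm n i))) / KK n 1

/-- **helper813's sum in the letter `Sig`** -/
theorem sig_pin : ∃ A0 : ℝ, 0 < A0 ∧ ∀ c0 C2 ε : ℝ, 0 < c0 → c0 ≤ 1 → 0 < ε →
    ∃ C B κ : ℝ, 0 ≤ C ∧ 1 ≤ B ∧ 0 < κ ∧ ∀ (n : ℕ) [NeZero n] (ν t2 a η ξ : ℝ) (P : V n → ℝ),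
      ν * ξ ^ 2 = 1 → FP n P a η ξ B κ → (∀ k, c0 * EE k ≤ P k) → 0 < t2 →
      (n : ℝ) ^ 2 * t2 * (1 + Real.log (n / ξ)) ≤ 1 → ∀ j : ZMod n, j ≠ 0 → |pw j| * n ≤ C2 →
      |8 * Real.pi ^ 2 * ν ^ 2 * Sig n ν t2 P (ax j) - A0 * Real.log (n / ξ) * pw j ^ 2| ≤
        (ε * Real.log (n / ξ) + C) * pw j ^ 2 := by
  obtain ⟨A0, hA0, h⟩ := H813.P4_pin
  have hpi := Real.pi_pos
  refine ⟨16 * Real.pi ^ 2 * A0, by positivity, ?_⟩
  intro c0 C2 ε hc0 hc01 hε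
  obtain ⟨C, B, κ, hC, hB, hκ, hm⟩ := h c0 0 C2 (ε / (16 * Real.pi ^ 2)) hc0 hc01 le_rfl
    (by positivity)
  refine ⟨16 * Real.pi ^ 2 * C, B, κ, by positivity, hB, hκ, ?_⟩
  intro n _ ν t2 a η ξ P hν hF hlo ht2 hn2 j hj hjC
  obtain ⟨-, ⟨-, k2⟩, -⟩ := hm n ξ a η t2 P hF.hξ hF.hξN ht2 (by rw [mul_comm t2]; exact hn2)
    hF.hη hlo hF.hF hF.ha hF.hηκ
  have h1 := k2 j 1 hj hjC zero_le_one le_rfl (by simp)
  have hx := hF.hξ0
  have eν : 1 / ξ ^ 2 = ν := inv_unit hx hν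
  rw [eν] at h1
  have e1 : Sig n ν t2 P (ax j) = 2 * (∑ x : V n, 1 / 2 * Real.exp (-H813.Dk n ν t2 P x) -
      1 ^ 2 * ∑ x : V n, 1 / 2 * Real.exp (-H813.Dk n ν t2 P x) * cN (j * x.1)) := by
    unfold Sig
    rw [one_pow, one_mul, ← Finset.sum_sub_distrib, Finset.mul_sum]
    refine Finset.sum_congr rfl fun x _ => ?_
    rw [dt_ax]
    ring
  set S0 := (∑ x : V n, 1 / 2 * Real.exp (-H813.Dk n ν t2 P x) -
      1 ^ 2 * ∑ x : V n, 1 / 2 * Real.exp (-H813.Dk n ν t2 P x) * cN (j * x.1)) with hS0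
  rw [e1]
  have hν4 : ν ^ 2 * ξ ^ 4 = 1 := by
    have : ν ^ 2 * ξ ^ 4 = (ν * ξ ^ 2) ^ 2 := by ring
    rw [this, hν, one_pow]
  set lg := Real.log (n / ξ) with hlg
  have e2 : 8 * Real.pi ^ 2 * ν ^ 2 * (2 * S0) - 16 * Real.pi ^ 2 * A0 * lg * pw j ^ 2 =
      16 * Real.pi ^ 2 * ν ^ 2 * (S0 - A0 * (ξ ^ 4 * pw j ^ 2) * lg) := by
    have e3 : 16 * Real.pi ^ 2 * ν ^ 2 * (S0 - A0 * (ξ ^ 4 * pw j ^ 2) * lg) =
        16 * Real.pi ^ 2 * ν ^ 2 * S0 - 16 * Real.pi ^ 2 * A0 * lg * pw j ^ 2 * (ν ^ 2 * ξ ^ 4) := by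
      ring
    rw [e3, hν4]
    ring
  rw [e2, abs_mul, abs_of_nonneg (by positivity : 0 ≤ 16 * Real.pi ^ 2 * ν ^ 2)]
  refine (mul_le_mul_of_nonneg_left h1 (by positivity)).trans (le_of_eq ?_)
  have e4 : 16 * Real.pi ^ 2 * ν ^ 2 * (ξ ^ 4 * pw j ^ 2 * (ε / (16 * Real.pi ^ 2) * lg + C)) =
      (ν ^ 2 * ξ ^ 4) * ((16 * Real.pi ^ 2 * (ε / (16 * Real.pi ^ 2)) * lg +
        16 * Real.pi ^ 2 * C) * pw j ^ 2) := by ring
  rw [e4, hν4, one_mul]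
  congr 3
  field_simp

lemma pw_sq_nd {n q : ℕ} [NeZero n] (h : 2 * (q + 1) < n) (i : Fin (q + 1)) :
    pw (jm n i) ^ 2 = nd q i * KK n 1 := by
  unfold jm
  rw [pw_nat (by have := i.2; omega), ← KK_nd]
  rfl

/-- sums of errors which are small relative to `EE` -/
lemma pS_le {q n : ℕ} [NeZero n] (μ : Fin (q + 1) → ℝ) (hn : 2 * (q + 1) < n) {f : V n → ℝ}
    {K : ℝ} (hK : 0 ≤ K) (h : ∀ i : Fin (q + 1), |f (ax (jm n i))| ≤ K * pw (jm n i) ^ 2) :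
    |pS q μ n f| ≤ Mw q μ * K := by
  have hN : 0 < n := NeZero.pos n
  have hKK := KK_pos hN one_pos
  unfold pS
  rw [abs_div, abs_of_pos hKK, div_le_iff₀ hKK]
  have h1 : ∀ i : Fin (q + 1), |f (ax (jm n i))| ≤ (K * KK n 1) * nd q i + 0 := by
    intro i
    refine (h i).trans (le_of_eq ?_)
    rw [pw_sq_nd hn i]
    ring
  have h2 := rw_bound (μ := μ) (by positivity) le_rfl h1
  refine h2.trans (le_of_eq ?_)
  ring

/-- **the one-level flow equation, value form, Richardson sums** -/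
theorem star_V : ∃ A : ℝ, 0 < A ∧ ∀ (q : ℕ) (μ : Fin (q + 1) → ℝ), RW q μ →
    ∀ c0 ε : ℝ, 0 < c0 → c0 ≤ 1 → 0 < ε →
    ∃ C B κ : ℝ, 0 ≤ C ∧ 1 ≤ B ∧ 0 < κ ∧ ∀ (n : ℕ) [NeZero n] (ν t2 y E a η ξ : ℝ)
      (P Pt xq : V n → ℝ), ν * ξ ^ 2 = 1 → FP n P a η ξ B κ → (∀ k, c0 * EE k ≤ P k) →
      0 < t2 → (n : ℝ) ^ 2 * t2 * (1 + Real.log (n / ξ)) ≤ 1 → 2 * (q + 1) < n →
      0 ≤ E → E ≤ y ^ 2 →
      (∀ i : Fin (q + 1), |Pt (ax (jm n i)) - xq (ax (jm n i)) -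
        8 * Real.pi ^ 2 * (y * ν) ^ 2 * Sig n ν t2 P (ax (jm n i))| ≤ E * EE (ax (jm n i))) →
      |pS q μ n Pt - pS q μ n xq - A * Real.log (n / ξ) * y ^ 2| ≤
        (ε * Real.log (n / ξ) + C) * y ^ 2 := by
  obtain ⟨A, hA, h0⟩ := sig_pin
  have hpi := Real.pi_pos
  refine ⟨A, hA, ?_⟩
  intro q μ hμ c0 ε hc0 hc01 hε
  have hM := Mw_nonneg q μ
  obtain ⟨C, B, κ, hC, hB, hκ, h2⟩ := h0 c0 (2 * Real.pi * (q + 1)) (ε / (Mw q μ + 1)) hc0 hc01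
    (by positivity)
  refine ⟨Mw q μ * (C + 1), B, κ, by positivity, hB, hκ, ?_⟩
  intro n _ ν t2 y E a η ξ P Pt xq hν hF hlo ht2 hn2 hn hE0 hE hstar
  have hlg : 0 ≤ Real.log (n / ξ) := hF.lg0 hB
  set lg := Real.log (n / ξ) with hlgd
  set ε' := ε / (Mw q μ + 1) with hε'
  have hε'0 : 0 < ε' := by positivity
  have hN : 0 < n := NeZero.pos n
  have hKK := KK_pos hN one_pos
  set f : V n → ℝ := fun k => Pt k - xq k - A * lg * y ^ 2 * (2 * (1 - cN k.1)) with hf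
  -- replace `EE` by the squared momentum
  set d : Fin (q + 1) → ℝ := fun i => Pt (ax (jm n i)) - xq (ax (jm n i)) -
    A * lg * y ^ 2 * pw (jm n i) ^ 2 with hd
  have hDi : ∀ i : Fin (q + 1), |d i| ≤ ((ε' * lg + (C + 1)) * y ^ 2 * KK n 1) * nd q i + 0 := by
    intro i
    have h3 := h2 n ν t2 a η ξ P hν hF hlo ht2 hn2 (jm n i) (jm_ne (by have := i.2; omega))
      (pw_jm_le hn i)
    have h4 := hstar i
    have h5 := EE_ax_le (jm n i)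
    have hy2 := sq_nonneg y
    have e1 : d i = (Pt (ax (jm n i)) - xq (ax (jm n i)) -
        8 * Real.pi ^ 2 * (y * ν) ^ 2 * Sig n ν t2 P (ax (jm n i))) +
        y ^ 2 * (8 * Real.pi ^ 2 * ν ^ 2 * Sig n ν t2 P (ax (jm n i)) -
          A * lg * pw (jm n i) ^ 2) := by
      rw [hd]
      ring
    rw [e1]
    refine (abs_add_le _ _).trans ?_
    rw [abs_mul, abs_of_nonneg hy2]
    have h6 : E * EE (ax (jm n i)) ≤ y ^ 2 * pw (jm n i) ^ 2 :=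
      mul_le_mul hE h5 (H462.EE_nonneg _) hy2
    have h7 := mul_le_mul_of_nonneg_left h3 hy2
    rw [pw_sq_nd hn i] at h6 h7 ⊢
    calc _ ≤ y ^ 2 * (nd q i * KK n 1) + y ^ 2 * ((ε' * lg + C) * (nd q i * KK n 1)) :=
          add_le_add (h4.trans h6) h7
      _ = _ := by ring
  have hsum := rw_bound (μ := μ) (by positivity) le_rfl hDi
  have e6 : pS q μ n Pt - pS q μ n xq - A * lg * y ^ 2 = (∑ i, μ i * d i) / KK n 1 := by
    have e7 : ∀ i, μ i * d i = μ i * Pt (ax (jm n i)) - μ i * xq (ax (jm n i)) -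
        (μ i * nd q i) * (A * lg * y ^ 2 * KK n 1) := by
      intro i
      rw [hd]
      simp only
      rw [pw_sq_nd hn i]
      ring
    simp only [e7]
    rw [Finset.sum_sub_distrib, Finset.sum_sub_distrib, ← Finset.sum_mul, hμ.s1, one_mul]
    unfold pS
    field_simp
  rw [e6, abs_div, abs_of_pos hKK, div_le_iff₀ hKK]
  refine hsum.trans ?_
  have e7 : Mw q μ * ((ε' * lg + (C + 1)) * y ^ 2 * KK n 1 + 0) =
      (Mw q μ * ε' * lg + Mw q μ * (C + 1)) * y ^ 2 * KK n 1 := by ring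
  rw [e7]
  have h11 : Mw q μ * ε' ≤ ε := by
    rw [hε', ← mul_div_assoc, div_le_iff₀ (by positivity)]
    nlinarith
  have h12 : Mw q μ * ε' * lg ≤ ε * lg := mul_le_mul_of_nonneg_right h11 hlg
  refine mul_le_mul_of_nonneg_right (mul_le_mul_of_nonneg_right ?_ (sq_nonneg y)) hKK.le
  linarith

end

end Vale.Agent.P159.H114
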