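import Vale.Agent.P159.H114.Chain5
import Vale.Agent.P159.H462.Q1
import Vale.Agent.P159.H276.Eta2

/-!
P159 (helper114): Richardson sums of the neutral self energies (scalar letters): independence of the
cells (from helper375's `PinC_two`).
-/

namespace Vale.Agent.P159.H114

open MeasureTheory Finset Matrix
open Vale.Agent.P159.H37
open Vale.Agent.P159.H864 (TI sym cen rd rd1)
open Vale.Agent.P159.H963 (PinC Pin Gnh)
open Vale.Agent.P159.TM.H764 (Gh cN sN dt ch EE frm grd pw)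
open Vale.Agent.P159.TM.Spec (V)
open Vale.Agent.P159.TM.SpecC (wT ms)

noncomputable section

set_option linter.unusedSectionVars false

/-- self energy of the cells in cell units -/
def Pc (N l : ℕ) [NeZero N] [NeZero (N / l)] (b T τ : ℝ) (k : V (N / l)) : ℝ :=
  (l : ℝ) ^ 2 * PinC N l b T τ k

/-- Richardson sum of the neutral self energy -/
def pN (q : ℕ) (μ : Fin (q + 1) → ℝ) (N l : ℕ) [NeZero N] [NeZero (N / l)] (b T τ : ℝ) : ℝ :=
  pS q μ (N / l) (Pc N l b T τ)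

variable {N l : ℕ} [NeZero N] [NeZero (N / l)] {b : ℝ}

lemma KK_cell (hl : l ∣ N) : KK (N / l) 1 = (l : ℝ) ^ 2 * KK N 1 := by
  have hlp : (0 : ℝ) < l := by exact_mod_cast H864.l_pos hl
  have hN : (0 : ℝ) < N := by exact_mod_cast NeZero.pos N
  have h1 : ((N / l : ℕ) : ℝ) = N / l := Nat.cast_div hl hlp.ne'
  unfold KK
  rw [h1]
  field_simp

lemma pN_eq (hl : l ∣ N) (q : ℕ) (μ : Fin (q + 1) → ℝ) (T τ : ℝ) :
    pN q μ N l b T τ = (∑ i : Fin (q + 1), μ i * PinC N l b T τ (ax (jm (N / l) i))) / KK N 1 := by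
  have hlp : (0 : ℝ) < l := by exact_mod_cast H864.l_pos hl
  have hKK := KK_pos (NeZero.pos N) one_pos
  unfold pN pS Pc
  rw [KK_cell hl]
  have e : ∑ i : Fin (q + 1), μ i * ((l : ℝ) ^ 2 * PinC N l b T τ (ax (jm (N / l) i))) =
      (l : ℝ) ^ 2 * ∑ i : Fin (q + 1), μ i * PinC N l b T τ (ax (jm (N / l) i)) := by
    rw [Finset.mul_sum]
    exact Finset.sum_congr rfl fun i _ => by ring
  rw [e, mul_div_mul_left _ _ (by positivity)]

/-- **two cells at the same tiny prior mass**, neutral model -/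
theorem pN_two (hb : 0 < b) : ∃ C c : ℝ, 0 < C ∧ 0 < c ∧
    ∀ (q : ℕ) (μ : Fin (q + 1) → ℝ) (N l l' : ℕ) [NeZero N] [NeZero (N / l)] [NeZero (N / l')]
    (t t' τ : ℝ), 0 < τ → τ ≤ t → τ ≤ t' → 9 ≤ t * (N : ℝ) ^ 2 → 9 ≤ t' * (N : ℝ) ^ 2 →
    l ∣ N → l' ∣ N → t * (l : ℝ) ^ 2 ≤ 1 → t' * (l' : ℝ) ^ 2 ≤ 1 → (N : ℝ) ^ 2 * τ ≤ 1 →
    ∀ D : ℝ, 0 ≤ D →
      (∀ i : Fin (q + 1), τ + Pin N b τ (ax (jm N i)) ≤ D * (τ + EE (ax (jm N i)))) →
      2 * l * (q + 1) < N → 2 * l' * (q + 1) < N →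
      ∀ e : ℝ, C * (√(t * (N : ℝ) ^ 2) * (t * (l : ℝ) ^ 2) ^ c) +
          250 * (q + 1) ^ 2 * b * (l : ℝ) ^ 2 / N ^ 2 ≤ e →
        C * (√(t' * (N : ℝ) ^ 2) * (t' * (l' : ℝ) ^ 2) ^ c) +
          250 * (q + 1) ^ 2 * b * (l' : ℝ) ^ 2 / N ^ 2 ≤ e → D * e ≤ 1 / 2 →
      |pN q μ N l b t τ - pN q μ N l' b t' τ| ≤ Mw q μ * (8 * D ^ 2 * e) := by
  obtain ⟨C, c, hC, hc, hU⟩ := H375.PinC_two (b := b) hb
  refine ⟨C, c, hC, hc, ?_⟩
  intro q μ N l l' _ _ _ t t' τ hτ hτt hτt' htN htN' hl hl' htl htl' hτN D hD hPD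
    hq hq' e he he' hDe
  have hN : 0 < N := NeZero.pos N
  have hNr : (0 : ℝ) < N := by exact_mod_cast hN
  have hlp : 0 < l := H864.l_pos hl
  have hlp' : 0 < l' := H864.l_pos hl'
  have hKK := KK_pos hN one_pos
  have hqN : 2 * (q + 1) < N := by
    calc 2 * (q + 1) = 2 * 1 * (q + 1) := by ring
      _ ≤ 2 * l * (q + 1) := Nat.mul_le_mul_right _ (Nat.mul_le_mul_left 2 hlp)
      _ < N := hq
  have hτK : τ ≤ KK N 1 := by
    have h1 := KK_ge hN one_pos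
    have h2 : τ ≤ 1 / N ^ 2 := by
      rw [le_div_iff₀ (by positivity)]
      linarith
    have h3 : 1 / (N : ℝ) ^ 2 ≤ 36 / N ^ 2 := div_le_div_of_nonneg_right (by norm_num)
      (by positivity)
    linarith
  have he0 : 0 ≤ e := by
    have htp : 0 < t := hτ.trans_le hτt
    refine le_trans ?_ he
    positivity
  have hx : ∀ i : Fin (q + 1), τ + EE (ax (jm N i)) ≤ 2 * (nd q i * KK N 1) := by
    intro i
    have h1 := EE_sp hqN i
    have h2 : KK N 1 ≤ nd q i * KK N 1 := le_mul_of_one_le_left hKK.le (nd_ge q i)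
    linarith
  have hx2 : ∀ i : Fin (q + 1), τ + EE (ax (jm N i)) ≤ 41 * (q + 1) ^ 2 / N ^ 2 := by
    intro i
    have h1 := EE_sp hqN i
    have h2 : nd q i ≤ (q + 1) ^ 2 := by
      unfold nd
      have h3 : ((i : ℕ) : ℝ) + 1 ≤ q + 1 := by
        have : (i : ℕ) ≤ q := by have := i.2; omega
        have : ((i : ℕ) : ℝ) ≤ q := by exact_mod_cast this
        linarith
      exact pow_le_pow_left₀ (by positivity) h3 2
    have h4 : KK N 1 ≤ 40 / N ^ 2 := by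
      unfold KK
      rw [div_pow]
      refine div_le_div_of_nonneg_right ?_ (by positivity)
      have h8 := Real.pi_lt_d4
      have : Real.pi ^ 2 ≤ 3.1416 ^ 2 := pow_le_pow_left₀ Real.pi_pos.le h8.le 2
      push_cast
      nlinarith
    have h5 : nd q i * KK N 1 ≤ (q + 1) ^ 2 * (40 / N ^ 2) :=
      mul_le_mul h2 h4 hKK.le (by positivity)
    have h6 : τ ≤ (q + 1) ^ 2 / N ^ 2 := by
      rw [le_div_iff₀ (by positivity)]
      have h7 : (1 : ℝ) ≤ ((q : ℝ) + 1) ^ 2 := one_le_pow₀ (by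
        have : (0 : ℝ) ≤ q := by positivity
        linarith)
      linarith
    have e1 : 41 * ((q : ℝ) + 1) ^ 2 / N ^ 2 = (q + 1) ^ 2 * (40 / N ^ 2) + (q + 1) ^ 2 / N ^ 2 := by
      ring
    rw [e1]
    linarith
  have hx0 : ∀ i : Fin (q + 1), 0 ≤ τ + EE (ax (jm N i)) := by
    intro i
    have := H462.EE_nonneg (ax (jm N i))
    positivity
  have hc0 : (0 : ℝ) < 1 / b := by positivity
  have aux : ∀ (m : ℕ) (s : ℝ) (i : Fin (q + 1)), C * (√(s * (N : ℝ) ^ 2) * (s * (m : ℝ) ^ 2) ^ c) +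
      250 * (q + 1) ^ 2 * b * (m : ℝ) ^ 2 / N ^ 2 ≤ e →
      C * (√(s * (N : ℝ) ^ 2) * (s * (m : ℝ) ^ 2) ^ c) +
      6 * (m : ℝ) ^ 2 / (1 / b) * (τ + EE (ax (jm N i))) ≤ e := by
    intro m s i h
    refine le_trans (add_le_add le_rfl ?_) h
    calc 6 * (m : ℝ) ^ 2 / (1 / b) * (τ + EE (ax (jm N i))) ≤
        6 * (m : ℝ) ^ 2 / (1 / b) * (41 * (q + 1) ^ 2 / N ^ 2) :=
          mul_le_mul_of_nonneg_left (hx2 i) (by positivity)
      _ = 246 * ((q + 1) ^ 2 * b * (m : ℝ) ^ 2 / N ^ 2) := by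
          field_simp
          ring
      _ ≤ 250 * ((q + 1) ^ 2 * b * (m : ℝ) ^ 2 / N ^ 2) :=
          mul_le_mul_of_nonneg_right (by norm_num) (by positivity)
      _ = _ := by ring
  have hDi : ∀ i : Fin (q + 1), |PinC N l b t τ (ax (jm (N / l) i)) -
      PinC N l' b t' τ (ax (jm (N / l') i))| ≤ (8 * D ^ 2 * e * KK N 1) * nd q i + 0 := by
    intro i
    have hi : (i : ℕ) + 1 ≤ q + 1 := by have := i.2; omega
    have c1 : cen l (ax (jm N i)) :=
      cen_ax ((Nat.mul_le_mul_left (2 * l) hi).trans hq.le) hlp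
    have c2 : cen l' (ax (jm N i)) :=
      cen_ax ((Nat.mul_le_mul_left (2 * l') hi).trans hq'.le) hlp'
    have hne : ax (jm N i) ≠ 0 := ax_ne (jm_ne (by have := i.2; omega))
    have h1 := hU N l l' t t' τ hτ hτt hτt' htN htN' hl hl' htl htl' (1 / b) D hc0 hD
      (fun q => H276.Gnh_dom hb hτ q)
      (ax (jm N i)) c1 c2 hne (hPD i) e (aux l t i he) (aux l' t' i he') hDe
    rw [rd_ax hl, rd_ax hl'] at h1
    refine h1.trans ?_
    calc 4 * D ^ 2 * e * (τ + EE (ax (jm N i))) ≤ 4 * D ^ 2 * e * (2 * (nd q i * KK N 1)) :=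
          mul_le_mul_of_nonneg_left (hx i) (by positivity)
      _ = _ := by ring
  have hsum := rw_bound (μ := μ) (by positivity) le_rfl hDi
  have e6 : pN q μ N l b t τ - pN q μ N l' b t' τ =
      (∑ i : Fin (q + 1), μ i * (PinC N l b t τ (ax (jm (N / l) i)) -
        PinC N l' b t' τ (ax (jm (N / l') i)))) / KK N 1 := by
    rw [pN_eq hl, pN_eq hl', ← sub_div, ← Finset.sum_sub_distrib]
    congr 1
    exact Finset.sum_congr rfl fun i _ => by ring
  rw [e6, abs_div, abs_of_pos hKK, div_le_iff₀ hKK]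
  refine hsum.trans (le_of_eq ?_)
  ring

end

end Vale.Agent.P159.H114
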