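import Vale.Agent.P159.H358.Up5
import Vale.Agent.P159.H462.Q2

/-!
P159 (helper114), P6 piece (E), part 1: the `q = 0` copy of helper358's `u_two3`: the constant-averaged
first derivative `dWb` in a cell direction agrees on two tori.
-/

open Finset MeasureTheory

set_option linter.unusedSectionVars false
set_option linter.unusedDecidableInType false

namespace Vale.Agent.P159.H114.Ex

open Vale.Agent.P159.TM.H104 (EM Lg Ex Cv Gr li)
open Vale.Agent.P159.H37 (wt wM bf qf Rs Tq Gm)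
open Vale.Agent.P159.TM.Spec (V)
open Vale.Agent.P159.TM.SpecC (wT)
open Vale.Agent.P159.TM.H705 (dB)
open Vale.Agent.P159.TM.H459 (sd)
open Vale.Agent.P159.H145 (mt mt_mulVec bf_mt em_mt cs OscZ)
open Vale.Agent.P159.H43 (dL dW continuous_dL)
open Vale.Agent.P159.H896 (ph continuous_ph norm_ph)
open Vale.Agent.P159.H552 (uq lft idc ut norm_two_pi_I_inv)
open Vale.Agent.P159.H864 (cl cl1 cl1_val card_cell)
open Vale.Agent.P159.H813 (LB4)
open Vale.Agent.P159.H462 (dWb)
open Vale.Agent.P159.H358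
open Matrix

section gen

variable {V₁ V₂ : Type} [Fintype V₁] [Fintype V₂] [DecidableEq V₁] [DecidableEq V₂]
  {w₁ : (V₁ → ℤ) → ℝ} {w₂ : (V₂ → ℤ) → ℝ} {M₁ : Matrix V₁ V₁ ℝ} {M₂ : Matrix V₂ V₂ ℝ}

theorem dWb_two (hE₁ : EM (wM w₁ M₁)) (hE₂ : EM (wM w₂ M₂)) (F₁ g₁ : V₁ → ℝ)
    (F₂ g₂ : V₂ → ℝ) {r : ℝ}
    (h : ∀ c ∈ Set.Icc (0 : ℝ) 1, |dL w₁ M₁ (cs F₁ c) g₁ - dL w₂ M₂ (cs F₂ c) g₂| ≤ r) :
    |dWb w₁ M₁ F₁ g₁ - dWb w₂ M₂ F₂ g₂| ≤ r := by
  have h2 := dW_two hE₁ hE₂ 0 F₁ g₁ F₂ g₂ h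
  rw [H462.dW_zero, H462.dW_zero, ← Complex.ofReal_sub, Complex.norm_real, Real.norm_eq_abs] at h2
  exact h2

end gen

section three

variable {N M l : ℕ} [NeZero N] [NeZero M] [NeZero (N / l)] [NeZero (M / l)] {b : ℝ} {hb : 0 ≤ b}
  {ξ : ℕ} {t y y' c C c4 C4 : ℝ} {I : Finset (ℕ × ℕ)} {r n : ℕ} {ψ : ℕ → ℕ → ℝ} {p : ℕ × ℕ}
  {D : ℝ}

/-- **the first derivatives of two tori agree** on the fields of a window (`q = 0` copy of `u_two3`) -/
theorem mu_two3 (H : UT N M l b hb ξ t y y' c C c4 C4 I r n ψ p D)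
    (oN : OscZ (wT b N) (mt N t) (1 / 2)) (oM : OscZ (wT b M) (mt M t) (1 / 2)) {g : ℕ → ℕ → ℝ}
    (hg : ∀ a b, g a b ≠ 0 → ψ a b ≠ 0) {G τ τ₀ Λ₁ Λ : ℝ} (hG0 : 0 ≤ G)
    (hG : ∀ a b, |g a b| ≤ G)
    (hN : EN N b t ((16 : ℝ) • (t • lft (cl : V N → V (N / l)) (cfn (N / l) g))) ≤ Λ₁)
    (hM : EN M b t ((16 : ℝ) • (t • lft (cl : V M → V (M / l)) (cfn (M / l) g))) ≤ Λ₁)
    (hΛ : Λ₁ + 2592 * (t * (ξ : ℝ) ^ 2) * I.card ≤ Λ)
    (h0 : Rs (wt M b t) ((2 : ℝ) • (t • lft (cl : V M → V (M / l)) (cfn (M / l) g))) ≤ τ₀)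
    (h2 : Rs (wt M b t) ((2 : ℝ) • (t • lft (cl : V M → V (M / l))
      (cfn (M / l) fun a b => g a b + ψ a b))) ≤ τ₀)
    (hτ : τ₀ + erR3 ξ t c C G Λ I.card r + 2 ≤ τ) :
    |dWb (wT b N) (mt N t) (lft (cl : V N → V (N / l)) (cfn (N / l) g))
        (idc (cl : V N → V (N / l)) (pc (N / l) p)) -
      dWb (wT b M) (mt M t) (lft (cl : V M → V (M / l)) (cfn (M / l) g))
        (idc (cl : V M → V (M / l)) (pc (M / l) p))| ≤
      2 * Real.pi * eru3 N M l ξ t c C c4 C4 D τ G Λ I.card r := by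
  have ht := H.two.hτ
  have hξ := H.two.hξ
  have hξ' : (0 : ℝ) < ξ := by exact_mod_cast hξ
  have hl0 : 0 < l := H864.l_pos H.hlN
  have hp := H.win _ _ H.ψp
  have hNl : n ≤ N / l * l := by rw [Nat.div_mul_cancel H.hlN]; exact H.two.hn
  have hMl : n ≤ M / l * l := by rw [Nat.div_mul_cancel H.hlM]; exact H.two.hn'
  obtain ⟨pN1, pN2⟩ := hp.lt hl0 hNl
  obtain ⟨pM1, pM2⟩ := hp.lt hl0 hMl
  have hgw : Win l n g := fun a b h => H.win a b (hg a b h)
  have hI2 : ∀ q ∈ I, 2 * (ξ + 1) ≤ n := by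
    intro q hq
    have h1 := H.two.hI q hq
    have h2 := H.two.hr
    omega
  have hk0 : (0 : ℝ) ≤ I.card := Nat.cast_nonneg _
  have hΛ10 : 0 ≤ Λ₁ := (EN_nonneg hb ht _).trans hN
  have wψ := H.wψ
  have hw1 : (0 : ℝ) ≤ t * (ξ : ℝ) ^ 2 * I.card := by positivity
  -- sources
  have sg : ∀ s : ℝ, Win l n fun a b => g a b + s * ψ a b := fun s => hgw.add H.win s
  have eN : ∀ s : ℝ, src N n (fun i k => t * (g (i / l) (k / l) + s * ψ (i / l) (k / l))) =
      t • lft (cl : V N → V (N / l)) (cfn (N / l) fun a b => g a b + s * ψ a b) := fun s =>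
    src_cell H.hlN (sg s) t
  have eM : ∀ s : ℝ, src M n (fun i k => t * (g (i / l) (k / l) + s * ψ (i / l) (k / l))) =
      t • lft (cl : V M → V (M / l)) (cfn (M / l) fun a b => g a b + s * ψ a b) := fun s =>
    src_cell H.hlM (sg s) t
  have gN : src N n (fun i k => t * g (i / l) (k / l)) =
      t • lft (cl : V N → V (N / l)) (cfn (N / l) g) := src_cell H.hlN hgw t
  have gM : src M n (fun i k => t * g (i / l) (k / l)) =
      t • lft (cl : V M → V (M / l)) (cfn (M / l) g) := src_cell H.hlM hgw t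
  -- energies `8 t (g + s ψ)`
  have E8N : ∀ s : ℝ, |s| ≤ 1 → EN N b t ((8 : ℝ) • (t • lft (cl : V N → V (N / l))
      (cfn (N / l) fun a b => g a b + s * ψ a b))) ≤ Λ := by
    intro s hs
    have h := en_four (K := N) (n' := n) hb ht hξ hI2 H.two.hn
      (g := fun i k => t * g (i / l) (k / l)) wψ (Λ := Λ₁) (by rw [gN]; exact hN) hs
    have e : (fun i k => t * g (i / l) (k / l) + s * (t * ψ (i / l) (k / l))) =
        fun i k => t * (g (i / l) (k / l) + s * ψ (i / l) (k / l)) := by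
      funext i k
      ring
    rw [e, eN] at h
    linarith
  have E8M : ∀ s : ℝ, |s| ≤ 1 → EN M b t ((8 : ℝ) • (t • lft (cl : V M → V (M / l))
      (cfn (M / l) fun a b => g a b + s * ψ a b))) ≤ Λ := by
    intro s hs
    have h := en_four (K := M) (n' := n) hb ht hξ hI2 H.two.hn'
      (g := fun i k => t * g (i / l) (k / l)) wψ (Λ := Λ₁) (by rw [gM]; exact hM) hs
    have e : (fun i k => t * g (i / l) (k / l) + s * (t * ψ (i / l) (k / l))) =
        fun i k => t * (g (i / l) (k / l) + s * ψ (i / l) (k / l)) := by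
      funext i k
      ring
    rw [e, eM] at h
    linarith
  have g0 : (fun a b => g a b + (0 : ℝ) * ψ a b) = g := by
    funext a b'
    ring
  have g1 : (fun a b => g a b + (1 : ℝ) * ψ a b) = fun a b => g a b + ψ a b := by
    funext a b'
    ring
  -- transfer of `R`
  have q0 := rs_cell3 H (Λ := Λ) hg hG0 (fun a b => (hG a b).trans (by linarith))
    (by have := E8N 0 (by norm_num); rwa [g0] at this)
    (by have := E8M 0 (by norm_num); rwa [g0] at this)
  have q2 := rs_cell3 H (Λ := Λ) (g := fun a b => g a b + ψ a b) (fun a b h h3 => by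
    have h4 : g a b = 0 := by
      by_contra h5
      exact hg a b h5 h3
    exact h (by rw [h4, h3, add_zero])) hG0 (fun a b => by
      refine (abs_add_le _ _).trans (add_le_add (hG _ _) ?_)
      rw [abs_of_nonneg (H.ψ0 _ _)]
      exact H.ψ1 _ _)
    (by have := E8N 1 (by norm_num); rwa [g1] at this)
    (by have := E8M 1 (by norm_num); rwa [g1] at this)
  have a0 := (abs_le.1 q0).2
  have a2 := (abs_le.1 q2).2
  have er0 : 0 ≤ erR3 ξ t c C G Λ I.card r := (abs_nonneg _).trans q0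
  have RN0 := (Rn_le_Rs hb ht oN (lft (cl : V N → V (N / l)) (cfn (N / l) g)))
  have RN2 := (Rn_le_Rs hb ht oN (lft (cl : V N → V (N / l))
    (cfn (N / l) fun a b => g a b + ψ a b)))
  have RM0 := (Rn_le_Rs hb ht oM (lft (cl : V M → V (M / l)) (cfn (M / l) g)))
  have RM2 := (Rn_le_Rs hb ht oM (lft (cl : V M → V (M / l))
    (cfn (M / l) fun a b => g a b + ψ a b)))
  have e2p : 2 * Real.pi * eru3 N M l ξ t c C c4 C4 D τ G Λ I.card r =
      Real.exp ((τ + 8) / 2) * ((t * l * ξ) * (t * (N + M) * ξ) *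
        (C4 * Real.exp (-(c4 * D)))) + err9q C c (t * (ξ : ℝ) ^ 2 * (G + 1)) Λ I.card r ξ := by
    unfold eru3
    rw [← mul_assoc, mul_inv_cancel₀ (by positivity), one_mul]
  rw [e2p]
  refine dWb_two (em_mt hb ht) (em_mt hb ht) _ _ _ _ fun c' hc => ?_
  unfold dL
  rw [bf_cell H.hlN, bf_cell H.hlM]
  have e0 : cfn (N / l) g (pc (N / l) p) = cfn (M / l) g (pc (M / l) p) := by
    unfold cfn pc
    rw [ZMod.val_cast_of_lt pN1, ZMod.val_cast_of_lt pN2, ZMod.val_cast_of_lt pM1,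
      ZMod.val_cast_of_lt pM2]
  rw [e0, sub_sub_sub_cancel_right, mt_mulVec, mt_mulVec, mt_mulVec, mt_mulVec]
  have fN := far_step3 (g := g) hb ht hξ H.hlN H.lbN oN H.ψ0 H.ψ1 (x := pc (N / l) p) (τ := τ) H.hD H.hC4
    (fun v z h1 h2 => by
      have h3 := (eq_pc pN1 pN2 _).1 h1
      exact H.dN v z (by rw [← h3.1]; exact (cl1_val H.hlN _).symm)
        (by rw [← h3.2]; exact (cl1_val H.hlN _).symm) h2) (by linarith) (by linarith) hc
  have fM := far_step3 (g := g) hb ht hξ H.hlM H.lbM oM H.ψ0 H.ψ1 (x := pc (M / l) p) (τ := τ) H.hD H.hC4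
    (fun v z h1 h2 => by
      have h3 := (eq_pc pM1 pM2 _).1 h1
      exact H.dM v z (by rw [← h3.1]; exact (cl1_val H.hlM _).symm)
        (by rw [← h3.2]; exact (cl1_val H.hlM _).symm) h2) (by linarith) (by linarith) hc
  -- LOC9
  set A : ℝ := t * (ξ : ℝ) ^ 2 * (G + 1) with hA
  have hA0 : 0 ≤ A := by positivity
  set j : ℕ → ℕ → ℝ := fun i k => t * (g (i / l) (k / l) + c' * ψ (i / l) (k / l)) with hj
  set u : ℕ → ℕ → ℝ := fun i k => t * ind p (i / l) (k / l) with hu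
  have wj : Wd ξ I A j := by
    refine ⟨fun i k => ?_, fun i k h => ?_⟩
    · rw [hj, hA]
      show |t * (g (i / l) (k / l) + c' * ψ (i / l) (k / l))| ≤ _
      rw [abs_mul, abs_of_pos ht]
      have h1 : |g (i / l) (k / l) + c' * ψ (i / l) (k / l)| ≤ G + 1 := by
        refine (abs_add_le _ _).trans (add_le_add (hG _ _) ?_)
        rw [abs_of_nonneg (mul_nonneg hc.1 (H.ψ0 _ _))]
        exact mul_le_one₀ hc.2 (H.ψ0 _ _) (H.ψ1 _ _)
      refine (mul_le_mul_of_nonneg_left h1 ht.le).trans (le_of_eq ?_)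
      field_simp
    · refine H.net i k fun h0 => h ?_
      have h1 : g (i / l) (k / l) = 0 := by
        by_contra h2
        exact hg _ _ h2 h0
      show t * (g (i / l) (k / l) + c' * ψ (i / l) (k / l)) = 0
      rw [h0, h1, mul_zero, add_zero, mul_zero]
  have wu' : Wd ξ I (t * (ξ : ℝ) ^ 2) u := by
    refine ⟨fun i k => ?_, fun i k h => ?_⟩
    · rw [hu]
      show |t * ind p (i / l) (k / l)| ≤ _
      rw [abs_mul, abs_of_pos ht]
      have h1 : |ind p (i / l) (k / l)| ≤ 1 := by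
        unfold ind
        split_ifs
        · rw [abs_one]
        · rw [abs_zero]; exact zero_le_one
      refine (mul_le_mul_of_nonneg_left h1 ht.le).trans (le_of_eq ?_)
      field_simp
    · refine H.net i k ?_
      have h1 : ind p (i / l) (k / l) ≠ 0 := by
        intro h2
        apply h
        show t * ind p (i / l) (k / l) = 0
        rw [h2, mul_zero]
      unfold ind at h1
      split_ifs at h1 with h3
      · rw [h3.1, h3.2]
        exact H.ψp
      · exact absurd rfl h1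
  have wu : Wd ξ I A u := wu'.mono (by
    rw [hA]
    nlinarith [mul_nonneg (mul_nonneg ht.le (sq_nonneg (ξ : ℝ))) hG0])
  have ejN : src N n j = t • lft (cl : V N → V (N / l))
      (cfn (N / l) fun a b => g a b + c' * ψ a b) := eN c'
  have ejM : src M n j = t • lft (cl : V M → V (M / l))
      (cfn (M / l) fun a b => g a b + c' * ψ a b) := eM c'
  have wi : Win l n (ind p) := win_ind hp
  have euN : src N n u = t • idc (cl : V N → V (N / l)) (pc (N / l) p) := by
    rw [idc_eq pN1 pN2]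
    exact src_cell H.hlN wi t
  have euM : src M n u = t • idc (cl : V M → V (M / l)) (pc (M / l) p) := by
    rw [idc_eq pM1 pM2]
    exact src_cell H.hlM wi t
  have hc1 : |c'| ≤ 1 := by
    rw [abs_of_nonneg hc.1]
    exact hc.2
  -- energy `2 (j + s u)`: half of `4 j` and half of `4 s u`
  have LN : ∀ s : ℝ, |s| ≤ 2 → Lg (wt N b t) ((2 : ℝ) • (src N n j + s • src N n u)) -
      Lg (wt N b t) 0 ≤ Λ := by
    intro s hs
    rw [smul_add]
    have h1 := EN_add (N := N) hb ht ((2 : ℝ) • src N n j) ((2 : ℝ) • s • src N n u)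
    have h3 := EN_crude (N := N) hb ht hξ hI2 H.two.hn wu' (s := 4 * s) (by
      rw [abs_mul, abs_of_pos (by norm_num : (0 : ℝ) < 4)]
      linarith)
    have h4 : EN N b t ((2 : ℝ) • (2 : ℝ) • src N n j) ≤
        Λ₁ / 2 + 1296 * (t * (ξ : ℝ) ^ 2) * I.card := by
      have h := en_four (K := N) (n' := n) hb ht hξ hI2 H.two.hn
        (g := fun i k => t * g (i / l) (k / l)) wψ (Λ := Λ₁) (by rw [gN]; exact hN) hc1
      have e : (fun i k => t * g (i / l) (k / l) + c' * (t * ψ (i / l) (k / l))) = j := by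
        funext i k
        rw [hj]
        ring
      rw [e] at h
      have e2 : (2 : ℝ) • (2 : ℝ) • src N n j = (1 / 2 : ℝ) • (8 : ℝ) • src N n j := by
        rw [smul_smul, smul_smul]
        norm_num
      rw [e2]
      exact (EN_le_smul hb ht (by norm_num [abs_of_pos]) _).trans h
    have e3 : (2 : ℝ) • (2 : ℝ) • s • src N n u = (4 * s) • src N n u := by
      rw [smul_smul, smul_smul]
      congr 1
      ring
    rw [e3] at h1
    show EN N b t _ ≤ Λ
    linarith
  have LM : ∀ s : ℝ, |s| ≤ 2 → Lg (wt M b t) ((2 : ℝ) • (src M n j + s • src M n u)) -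
      Lg (wt M b t) 0 ≤ Λ := by
    intro s hs
    rw [smul_add]
    have h1 := EN_add (N := M) hb ht ((2 : ℝ) • src M n j) ((2 : ℝ) • s • src M n u)
    have h3 := EN_crude (N := M) hb ht hξ hI2 H.two.hn' wu' (s := 4 * s) (by
      rw [abs_mul, abs_of_pos (by norm_num : (0 : ℝ) < 4)]
      linarith)
    have h4 : EN M b t ((2 : ℝ) • (2 : ℝ) • src M n j) ≤
        Λ₁ / 2 + 1296 * (t * (ξ : ℝ) ^ 2) * I.card := by
      have h := en_four (K := M) (n' := n) hb ht hξ hI2 H.two.hn'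
        (g := fun i k => t * g (i / l) (k / l)) wψ (Λ := Λ₁) (by rw [gM]; exact hM) hc1
      have e : (fun i k => t * g (i / l) (k / l) + c' * (t * ψ (i / l) (k / l))) = j := by
        funext i k
        rw [hj]
        ring
      rw [e] at h
      have e2 : (2 : ℝ) • (2 : ℝ) • src M n j = (1 / 2 : ℝ) • (8 : ℝ) • src M n j := by
        rw [smul_smul, smul_smul]
        norm_num
      rw [e2]
      exact (EN_le_smul hb ht (by norm_num [abs_of_pos]) _).trans h
    have e3 : (2 : ℝ) • (2 : ℝ) • s • src M n u = (4 * s) • src M n u := by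
      rw [smul_smul, smul_smul]
      congr 1
      ring
    rw [e3] at h1
    show EN M b t _ ≤ Λ
    linarith
  have m := loc9q_mean_t H.two (Λ := Λ) hA0 wj wu LN LM
  rw [ejN, ejM, euN, euM] at m
  set a1 := Ex (wt N b t) (t • cs (lft (cl : V N → V (N / l)) (cfn (N / l) g)) c')
    (li (t • idc cl (pc (N / l) p)))
  set a2 := Ex (wt N b t) (t • lft (cl : V N → V (N / l))
    (cfn (N / l) fun a b => g a b + c' * ψ a b)) (li (t • idc cl (pc (N / l) p)))
  set a3 := Ex (wt M b t) (t • lft (cl : V M → V (M / l))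
    (cfn (M / l) fun a b => g a b + c' * ψ a b)) (li (t • idc cl (pc (M / l) p)))
  set a4 := Ex (wt M b t) (t • cs (lft (cl : V M → V (M / l)) (cfn (M / l) g)) c')
    (li (t • idc cl (pc (M / l) p)))
  have e5 : Real.exp ((τ + 8) / 2) * ((t * l * ξ) * (t * (N + M) * ξ) *
      (C4 * Real.exp (-(c4 * D)))) =
      Real.exp ((τ + 8) / 2) * ((t * l * ξ) * (t * N * ξ) * (C4 * Real.exp (-(c4 * D)))) +
      Real.exp ((τ + 8) / 2) * ((t * l * ξ) * (t * M * ξ) * (C4 * Real.exp (-(c4 * D)))) := by ring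
  rw [e5]
  show |a1 - a4| ≤ _
  rw [abs_le] at fN fM m ⊢
  constructor <;> linarith [fN.1, fN.2, fM.1, fM.2, m.1, m.2]

end three

end Vale.Agent.P159.H114.Ex
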