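import Vale.Agent.P159.H114.Ex1

/-!
P159 (helper114), P6 piece (E), part 2: locality of `Mx` of the full field, window fields of two tori.
-/

open Finset MeasureTheory

set_option linter.unusedSectionVars false
set_option linter.unusedDecidableInType false

namespace Vale.Agent.P159.H114.Ex

open Vale.Agent.P159.TM.H104 (EM Lg Ex Cv Gr li)
open Vale.Agent.P159.H37 (wt wM bf qf Rs Tq Gm gau)
open Vale.Agent.P159.TM.Spec (V)
open Vale.Agent.P159.TM.SpecC (wT)
open Vale.Agent.P159.TM.H459 (sd sn)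
open Vale.Agent.P159.H145 (mt mt_mulVec bf_mt em_mt cs OscZ)
open Vale.Agent.P159.H43 (dL dW)
open Vale.Agent.P159.H552 (uq lft idc ut norm_two_pi_I_inv)
open Vale.Agent.P159.H864 (cl cl1 cl1_val card_cell up)
open Vale.Agent.P159.H363 (Ch Cov sh measurable_mulVec)
open Vale.Agent.P159.H889 (uc cov_uc ch_uc norm_uc_le continuous_uc tn2 tn2_sq Lcl mem_box_add)
open Vale.Agent.P159.H813 (LB4)
open Vale.Agent.P159.H733.Torg (ip)
open Vale.Agent.P159.H733.Vt (zb zz trp)
open Vale.Agent.P159.H462 (dWb Mx Mx_sh)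
open Vale.Agent.P159.H358
open Matrix

section letters

variable {N l : ℕ} [NeZero N] [NeZero (N / l)] {b t : ℝ}

theorem Mx_eq (x : V (N / l)) (F : V (N / l) → ℝ) :
    Mx N l b t x F = dWb (wT b N) (mt N t) (lft (cl : V N → V (N / l)) F)
      (idc (cl : V N → V (N / l)) x) := by
  unfold H462.Mx
  rw [H864.MC_self]
  rfl

theorem dWb_cs (hb : 0 ≤ b) (ht : 0 < t) (F g : V N → ℝ) (c : ℝ) :
    dWb (wT b N) (mt N t) (cs F c) g = dWb (wT b N) (mt N t) F g := by
  have h := H552.dW_cs H145.per_wT H145.mt_symm (em_mt (N := N) hb ht) 0 F g c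
  rw [H462.ph_zero, one_mul, H462.dW_zero, H462.dW_zero] at h
  exact_mod_cast h

/-- constants do not matter -/
theorem mx_const (hb : 0 ≤ b) (ht : 0 < t) (x : V (N / l)) (F : V (N / l) → ℝ) (c : ℝ) :
    Mx N l b t x (fun v => F v + c) = Mx N l b t x F := by
  rw [Mx_eq, Mx_eq]
  exact dWb_cs hb ht (lft (cl : V N → V (N / l)) F) _ c

/-- the derivative at a window field does not depend on the place -/
theorem mx_cwa (hb : 0 ≤ b) (ht : 0 < t) (hl : l ∣ N) (D : ℕ) (h : ℤ × ℤ → ℝ) (a : ℝ)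
    (x p : V (N / l)) :
    Mx N l b t x (cwa (N / l) D h a x) = Mx N l b t p (cwa (N / l) D h a p) := by
  have e : p = x + (p - x) := by ring
  conv_rhs => rw [e]
  rw [Mx_sh hb hl ht]
  congr 1
  funext v
  exact (cwa_sh D h a x (p - x) v).symm

end letters

section loc

variable {M l : ℕ} [NeZero M] [NeZero (M / l)] {b t : ℝ} {ξ : ℕ}

/-- **locality of the first derivative**: neutral `R` of the field and of the cut field -/
theorem mx_loc (hb : 0 ≤ b) (ht : 0 < t) (hξ : 0 < ξ) (hl : l ∣ M) {c4 C4 : ℝ} (hC4 : 0 ≤ C4)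
    (hLB : LB4 M b t ξ c4 C4) (hO : OscZ (wT b M) (mt M t) (1 / 2)) {D0 : ℕ} {D τ G : ℝ}
    (hD : 0 ≤ D) (hDl : D * ξ ≤ D0 * l) (hG0 : 0 ≤ G) (x : V (M / l)) {F : V (M / l) → ℝ}
    (hG : ∀ v, |F v - av D0 x F| ≤ G)
    (h0 : Rn M b t (lft (cl : V M → V (M / l)) F) ≤ τ)
    (h1 : Rn M b t (lft (cl : V M → V (M / l)) (cutm D0 x F)) ≤ τ) :
    |Mx M l b t x F - Mx M l b t x (cutm D0 x F)| ≤ 2 * Real.pi * elo M l ξ t c4 C4 τ G D := by
  have hl0 : 0 < l := H864.l_pos hl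
  have hξ' : (0 : ℝ) < ξ := by exact_mod_cast hξ
  have hl' : (0 : ℝ) < l := by exact_mod_cast hl0
  have hM' : (0 : ℝ) < M := by exact_mod_cast NeZero.pos M
  set F1 : V M → ℝ := lft (cl : V M → V (M / l)) F with hF1
  set F2 : V M → ℝ := lft (cl : V M → V (M / l)) (cutm D0 x F) with hF2
  have hdiff : ∀ z : V M, (t • (F1 - F2)) z =
      if (cl z : V (M / l)) ∈ H462.box x D0 then 0 else t * (F (cl z) - av D0 x F) := by
    intro z
    rw [Pi.smul_apply, smul_eq_mul, Pi.sub_apply]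
    show t * (F (cl z) - cutm D0 x F (cl z)) = _
    unfold cutm
    split_ifs
    · rw [sub_self, mul_zero]
    · rfl
  have hu : ∑ z, (t • idc (cl : V M → V (M / l)) x) z ^ 2 ≤
      (t * l * ξ) ^ 2 * (1 / (ξ : ℝ) ^ 2) := by
    have h1 : ∀ z : V M, (t • idc (cl : V M → V (M / l)) x) z ^ 2 =
        if (cl z : V (M / l)) = x then t ^ 2 else 0 := by
      intro z
      rw [Pi.smul_apply, smul_eq_mul]
      unfold idc
      split_ifs
      · rw [mul_one]
      · rw [mul_zero]; ring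
    rw [Finset.sum_congr rfl fun z _ => h1 z, ← Finset.sum_filter, Finset.sum_const,
      nsmul_eq_mul, card_cell hl]
    refine le_of_eq ?_
    field_simp
  have hv : ∑ z, (t • (F1 - F2)) z ^ 2 ≤ (t * M * ξ * (G + 1)) ^ 2 * (1 / (ξ : ℝ) ^ 2) := by
    have h1 : ∀ z : V M, (t • (F1 - F2)) z ^ 2 ≤ (t * (G + 1)) ^ 2 := by
      intro z
      rw [hdiff]
      split_ifs
      · rw [zero_pow two_ne_zero]
        positivity
      · refine sq_le_sq' ?_ ?_
        · have h3 := (abs_le.1 (hG (cl z))).1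
          nlinarith
        · have h3 := (abs_le.1 (hG (cl z))).2
          nlinarith
    refine (Finset.sum_le_sum fun z _ => h1 z).trans (le_of_eq ?_)
    rw [Finset.sum_const, nsmul_eq_mul, Finset.card_univ, H358.card_V]
    field_simp
  have hsep : ∀ v z : V M, (t • idc (cl : V M → V (M / l)) x) v ≠ 0 → (t • (F1 - F2)) z ≠ 0 →
      D * ξ ≤ sd v z := by
    intro v z h1 h2
    have hv : (cl v : V (M / l)) = x := by
      by_contra h3
      apply h1
      rw [Pi.smul_apply, smul_eq_mul]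
      unfold idc
      rw [if_neg h3, mul_zero]
    have hz : (cl z : V (M / l)) ∉ H462.box x D0 := by
      intro h3
      apply h2
      rw [hdiff, if_pos h3]
    have := far_box hl hv hz
    push_cast at this
    linarith
  have e2p : 2 * Real.pi * elo M l ξ t c4 C4 τ G D = Real.exp ((τ + 8) / 2) *
      ((t * l * ξ) * (t * M * ξ * (G + 1)) * (C4 * Real.exp (-(c4 * D)))) := by
    unfold elo
    rw [← mul_assoc, mul_inv_cancel₀ (by positivity), one_mul]
  rw [e2p, Mx_eq, Mx_eq]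
  refine dWb_two (em_mt hb ht) (em_mt hb ht) _ _ _ _ fun c _ => ?_
  unfold dL
  rw [bf_cell hl, bf_cell hl]
  have e0 : cutm D0 x F x = F x := by
    unfold cutm
    rw [if_pos (H889.self_mem_box x D0)]
  rw [e0, sub_sub_sub_cancel_right, mt_mulVec, mt_mulVec, mt_mulVec]
  exact loc_exO (u := t • idc (cl : V M → V (M / l)) x) hb ht hO (F := F1) (F' := F2)
    (by positivity) (fun J => (hLB _ _ (t * l * ξ) (t * M * ξ * (G + 1)) D (by positivity)
      (by positivity) hD hu hv hsep J).trans (le_of_eq (by ring))) h0 h1 c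

end loc

section two

variable {N M l : ℕ} [NeZero N] [NeZero M] [NeZero (N / l)] [NeZero (M / l)] {b : ℝ} {hb : 0 ≤ b}
  {ξ : ℕ} {t y y' c C c4 C4 : ℝ} {r D0 D1 : ℕ} {D : ℝ}

/-- **the derivative at a window field is the same on two tori** -/
theorem mx_two3 (H : UG N M l b hb ξ t y y' c C c4 C4 r D0 D1 D)
    (oN : OscZ (wT b N) (mt N t) (1 / 2)) (oM : OscZ (wT b M) (mt M t) (1 / 2))
    {G τ τ₀ Λ₁ Λ : ℝ} (hG0 : 0 ≤ G) {h : ℤ × ℤ → ℝ} {a : ℝ}
    (hw : Wg N M l b t D0 D1 G τ₀ Λ₁ h a)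
    (hΛ : Λ₁ + 2592 * (t * (ξ : ℝ) ^ 2) * kn l ξ D1 ≤ Λ)
    (hτ : τ₀ + erR3 ξ t c C G Λ (kn l ξ D1) r + 2 ≤ τ) (x : V (N / l)) (x' : V (M / l)) :
    |Mx N l b t x (cwa (N / l) D0 h a x) - Mx M l b t x' (cwa (M / l) D0 h a x')| ≤
      2 * Real.pi * eru3 N M l ξ t c C c4 C4 D τ G Λ (kn l ξ D1) r := by
  have ht := H.ht
  have h01 := H.hD01
  obtain ⟨q, hq, hqp, fN, fM⟩ := gqa_fit H
  have hU := ut_geo H.hξ ht H.hC H.hT H.hT' H.hr H.hny H.hny' H.hlN H.hlM H.lbN H.lbM H.hC4 H.hD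
    H.hDl H.hsN H.hsM
  rw [← hq] at hU
  have hcard : (net l ξ q D1).card = kn l ξ D1 := card_net H.hξ
  have kN := ka_nat (K := N / l) (q := q) (D := D0) (by omega) (by omega) (by omega) h a
  have kM := ka_nat (K := M / l) (q := q) (D := D0) (by omega) (by omega) (by omega) h a
  have kbM := kb_nat (K := M / l) (q := q) (D := D0) (D1 := D1) (by omega) (by omega) (by omega)
    (by omega) h a
  have kbN := kb_nat (K := N / l) (q := q) (D := D0) (D1 := D1) (by omega) (by omega) (by omega)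
    (by omega) h a
  have eN := EN_place (b := b) (t := t) H.hlN (ka (N / l) D0 h a) (ka_sh D0 h a) 0
    (pc (N / l) (q, q)) (16 * t)
  have eM := EN_place (b := b) (t := t) H.hlM (ka (M / l) D0 h a) (ka_sh D0 h a) 0
    (pc (M / l) (q, q)) (16 * t)
  have rM := Rs_place3 (b := b) (t := t) H.hlM (ka (M / l) D0 h a) (ka_sh D0 h a) 0
    (pc (M / l) (q, q)) (2 * t)
  have rM2 := Rs_place3 (b := b) (t := t) H.hlM (kb (M / l) D0 D1 h a) (kb_sh D0 D1 h a) 0
    (pc (M / l) (q, q)) (2 * t)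
  have w1 := hw.enN
  have w2 := hw.enM
  have w3 := hw.r0
  have w4 := hw.r2
  rw [eN, kN, mul_smul] at w1
  rw [eM, kM, mul_smul] at w2
  rw [rM, kM, mul_smul] at w3
  rw [rM2, kbM, mul_smul] at w4
  have hg : ∀ a_1 b_1, gqa q D0 h a a_1 b_1 ≠ 0 → pq q D1 a_1 b_1 ≠ 0 := by
    intro i k hik
    have h3 : nr q D0 i k := by
      by_contra h4
      exact hik (by unfold gqa; rw [if_neg h4])
    have h4 : nr q D1 i k := ⟨h3.1.trans h01, h3.2.trans h01⟩
    unfold pq
    rw [if_pos h4]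
    norm_num
  have hG' : ∀ i k, |gqa q D0 h a i k| ≤ G := by
    intro i k
    unfold gqa
    split_ifs with h3
    · exact hw.osc _ (H733.Vt.mem_zb.2 h3)
    · rwa [abs_zero]
  have main := mu_two3 hU oN oM (g := gqa q D0 h a) hg hG0 hG' w1 w2 (Λ := Λ) (τ := τ)
    (by rw [hcard]; exact hΛ) w3 w4 (by rw [hcard]; exact hτ)
  rw [hcard] at main
  rw [mx_cwa hb ht H.hlN D0 h a x (pc (N / l) (q, q)),
    mx_cwa hb ht H.hlM D0 h a x' (pc (M / l) (q, q)),
    cwa_nat (by omega) (by omega) (by omega), cwa_nat (by omega) (by omega) (by omega),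
    mx_const hb ht, mx_const hb ht, Mx_eq, Mx_eq]
  exact main

end two

end Vale.Agent.P159.H114.Ex
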