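import Vale.Agent.P159.H114.Ex2

/-!
P159 (helper114), P6 piece (E), part 3: `mx_one`, `mx_two` on the good set `Gs` of helper358.
-/

open Finset MeasureTheory

set_option linter.unusedSectionVars false
set_option linter.unusedDecidableInType false

namespace Vale.Agent.P159.H114.Ex

open Vale.Agent.P159.TM.H104 (EM Lg)
open Vale.Agent.P159.H37 (gau qf wt wM Rs cob PK Ev)
open Vale.Agent.P159.TM.Spec (V)
open Vale.Agent.P159.TM.SpecC (wT)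
open Vale.Agent.P159.H145 (mt OscZ)
open Vale.Agent.P159.H552 (lft)
open Vale.Agent.P159.H864 (cl cl1_val cobV)
open Vale.Agent.P159.H363 (pin Below measurable_mulVec n2 sh)
open Vale.Agent.P159.H733.Torg (ip)
open Vale.Agent.P159.H733.Vt (zb mem_zb sum_box ip_mem_box trp)
open Vale.Agent.P159.H462 (Mx Mx_sh)
open Vale.Agent.P159.H358
open Matrix

section near

variable {N M B l : ℕ} [NeZero N] [NeZero M] [NeZero B] [NeZero (N / l)] [NeZero (M / l)]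
  [NeZero (B / l)] {b : ℝ} {hb : 0 ≤ b}
  {ξ : ℕ} {t y y' y'' c C c4 C4 : ℝ} {r D0 D1 : ℕ} {D : ℝ}

/-- the field is replaced by the cut field -/
theorem mx_near_one (H : UG M B l b hb ξ t y y' c C c4 C4 r D0 D1 D)
    (oM : OscZ (wT b M) (mt M t) (1 / 2)) (oB : OscZ (wT b B) (mt B t) (1 / 2))
    {G τ τ₀ Λ₁ Λ D2 : ℝ} (hG0 : 0 ≤ G) (hD2 : 0 ≤ D2) (hDl : D2 * ξ ≤ D0 * l)
    (hΛ : Λ₁ + 2592 * (t * (ξ : ℝ) ^ 2) * kn l ξ D1 ≤ Λ)
    (hτ : τ₀ + erR3 ξ t c C G Λ (kn l ξ D1) r + 2 ≤ τ) (x : V (M / l)) {F : V (M / l) → ℝ}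
    (hF : Gd1 M B l b t D0 D1 G τ τ₀ Λ₁ x F) :
    |Mx M l b t x F - Mx M l b t x (cutm D0 x F)| ≤ 2 * Real.pi * elo M l ξ t c4 C4 τ G D2 := by
  have hfit : 2 * D0 < M / l := by
    obtain ⟨q, _, h1, h2, _⟩ := gqa_fit H
    have := H.hD01
    omega
  refine mx_loc hb H.ht H.hξ H.hlN H.hC4 H.lbN oM hD2 hDl hG0 x hF.osc hF.full ?_
  have h := (uc_two3 H oM oB hG0 hF.win hΛ hτ x 0).2.1
  rw [cutm_eq hfit]
  exact h

/-- the cut field is transported to the base torus -/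
theorem mx_near_two (H : UG M B l b hb ξ t y y' c C c4 C4 r D0 D1 D)
    (oM : OscZ (wT b M) (mt M t) (1 / 2)) (oB : OscZ (wT b B) (mt B t) (1 / 2))
    {G τ τ₀ Λ₁ Λ : ℝ} (hG0 : 0 ≤ G)
    (hΛ : Λ₁ + 2592 * (t * (ξ : ℝ) ^ 2) * kn l ξ D1 ≤ Λ)
    (hτ : τ₀ + erR3 ξ t c C G Λ (kn l ξ D1) r + 2 ≤ τ) (x : V (M / l)) {F : V (M / l) → ℝ}
    (hF : WgM M B l b t D0 D1 G τ₀ Λ₁ x F) :
    |Mx M l b t x (cutm D0 x F) - Mx B l b t 0 (cutm D0 0 (trp D0 0 x F))| ≤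
      2 * Real.pi * eru3 M B l ξ t c C c4 C4 D τ G Λ (kn l ξ D1) r := by
  have hfit := gqa_fit H
  obtain ⟨q, _, h1, h2, h3⟩ := hfit
  have h01 := H.hD01
  rw [cutm_eq (K := M / l) (by omega), cutm_trp (K := B / l) (by omega)]
  exact mx_two3 H oM oB hG0 hF hΛ hτ x 0

/-- on the base torus itself the transport costs nothing -/
theorem mx_self (hb : 0 ≤ b) (ht : 0 < t) (hl : l ∣ B) (hD : 2 * D0 < B / l) (x : V (B / l))
    (F : V (B / l) → ℝ) :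
    Mx B l b t 0 (cutm D0 0 (trp D0 0 x F)) = Mx B l b t x (cutm D0 x F) := by
  rw [cutm_trp hD, cutm_eq hD x]
  exact mx_cwa hb ht hl D0 _ _ 0 x

end near

section good

variable {N M B l Q : ℕ} [NeZero N] [NeZero M] [NeZero B] [NeZero (N / l)] [NeZero (M / l)]
  [NeZero (B / l)] {b : ℝ} {hb : 0 ≤ b} {ξ : ℕ} {t y y' y'' cx Cx c4 C4 : ℝ} {r D0 D1 : ℕ} {D : ℝ}
  {κ₀ cs X δ : ℝ} {q : ℕ} {m G τ Λ₁ Λ D2 : ℝ}

/-- **(E), first half** -/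
theorem mx_one
    (H : Pr2 N M B l Q b hb ξ t y y' y'' cx Cx c4 C4 r D0 D1 D κ₀ cs X δ q m G τ Λ₁ Λ D2)
    {x : V (M / l)} {F : V (M / l) → ℝ}
    (hF : F ∈ Gs N M B l b t D0 G τ δ Λ₁ (pc (B / l) (q, q)) x) :
    |Mx M l b t x F - Mx M l b t x (cutm D0 x F)| ≤ 2 * Real.pi * elo M l ξ t c4 C4 τ G D2 :=
  mx_near_one H.HM H.oM H.oB H.pr.hG H.hD2 H.hDl H.hΛ H.hτ x (gs_good (N := N) H.pr hF).1

/-- **(E), second half** -/
theorem mx_two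
    (H : Pr2 N M B l Q b hb ξ t y y' y'' cx Cx c4 C4 r D0 D1 D κ₀ cs X δ q m G τ Λ₁ Λ D2)
    {x : V (M / l)} {F : V (M / l) → ℝ}
    (hF : F ∈ Gs N M B l b t D0 G τ δ Λ₁ (pc (B / l) (q, q)) x) :
    |Mx M l b t x (cutm D0 x F) - Mx B l b t 0 (cutm D0 0 (trp D0 0 x F))| ≤
      2 * Real.pi * eru3 M B l ξ t cx Cx c4 C4 D τ G Λ (kn l ξ D1) r :=
  mx_near_two H.HM H.oM H.oB H.pr.hG H.hΛ H.hτ x (gs_good (N := N) H.pr hF).1.win

/-- **(E)**: the field and the transported cut field -/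
theorem mx_near
    (H : Pr2 N M B l Q b hb ξ t y y' y'' cx Cx c4 C4 r D0 D1 D κ₀ cs X δ q m G τ Λ₁ Λ D2)
    {x : V (M / l)} {F : V (M / l) → ℝ}
    (hF : F ∈ Gs N M B l b t D0 G τ δ Λ₁ (pc (B / l) (q, q)) x) :
    |Mx M l b t x F - Mx B l b t 0 (cutm D0 0 (trp D0 0 x F))| ≤
      2 * Real.pi * (elo M l ξ t c4 C4 τ G D2 +
        eru3 M B l ξ t cx Cx c4 C4 D τ G Λ (kn l ξ D1) r) := by
  have h1 := mx_one H hF
  have h2 := mx_two H hF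
  rw [abs_le] at h1 h2 ⊢
  rw [mul_add]
  constructor <;> linarith [h1.1, h1.2, h2.1, h2.2]

end good

end Vale.Agent.P159.H114.Ex
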