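import Vale.Agent.P159.H114.Ex3
import Vale.Agent.P159.H462.Q3

/-!
P159 (helper114), P6 piece (E), part 4: crude bounds of `Mx` for all fields.
-/

open Finset MeasureTheory

set_option linter.unusedSectionVars false
set_option linter.unusedDecidableInType false

namespace Vale.Agent.P159.H114.Ex

open Vale.Agent.P159.TM.H104 (EM Lg)
open Vale.Agent.P159.H37 (gau qf bf)
open Vale.Agent.P159.TM.Spec (V)
open Vale.Agent.P159.TM.SpecC (wT Tor)
open Vale.Agent.P159.H145 (mt OscZ)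
open Vale.Agent.P159.H552 (lft)
open Vale.Agent.P159.H864 (cl)
open Vale.Agent.P159.H363 (pin Below acl ti_acl wm_MC)
open Vale.Agent.P159.H733.Torg (ip)
open Vale.Agent.P159.H733.Vt (zb mem_zb sum_box ip_mem_box trp)
open Vale.Agent.P159.H462 (Mx Mx_sh V0x oT V0x_crude bf_acl qf_acl_le qf_acl_nonneg)
open Vale.Agent.P159.H896 (WM)
open Vale.Agent.P159.H358
open Matrix

section crude

variable {N l : ℕ} [NeZero N] [NeZero (N / l)] {b t : ℝ}

theorem omT_osc {w : (Tor N → ℤ) → ℝ} {M : Matrix (Tor N) (Tor N) ℝ} {ω : ℝ} (hw : WM w M)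
    (h : OscZ w M ω) : H43.omT w M ≤ ω := by
  have h1 := h 0 0 ⟨le_rfl, zero_le_one⟩
  rw [H145.cs_zero] at h1
  have h0 := H896.Zn_pos hw (0 : Tor N → ℝ)
  unfold H43.omT
  rw [sub_le_iff_le_add, div_le_iff₀ h0]
  have h2 := (abs_le.1 h1).2
  linarith

theorem oT_osc (hb : 0 ≤ b) (hl : l ∣ N) (ht : 0 < t) {ω : ℝ} (h : OscZ (wT b N) (mt N t) ω) :
    oT N l b t ≤ ω := by
  unfold H462.oT
  have e : H864.MC N l t t = mt N t := H864.MC_self N l t
  rw [e]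
  have hw := wm_MC (N := N) (l := l) (b := b) hb hl ht (le_refl t)
  rw [e] at hw
  exact omT_osc hw h

/-- the linear part, all fields -/
theorem acl_lin (hb : 0 ≤ b) (hl : l ∣ N) (ht : 0 < t) (x : V (N / l)) (F : V (N / l) → ℝ) :
    |(acl N l b t t *ᵥ F) x| ≤ qf (acl N l b t t) F / 2 + t * (l : ℝ) ^ 2 / 2 := by
  classical
  have hA := (ti_acl (N := N) (l := l) (b := b) hb hl ht (le_refl t)).transpose
  set G : V (N / l) → ℝ := Pi.single x 1 with hG
  have e1 : bf (acl N l b t t) F G = (acl N l b t t *ᵥ F) x := by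
    rw [bf_acl hb hl ht, Finset.sum_eq_single x]
    · rw [hG, Pi.single_eq_same, one_mul]
    · intro y _ hy
      rw [hG, Pi.single_eq_of_ne hy, zero_mul]
    · intro h
      exact absurd (Finset.mem_univ x) h
  have e3 : ∑ y, G y ^ 2 = 1 := by
    rw [Finset.sum_eq_single x]
    · rw [hG, Pi.single_eq_same, one_pow]
    · intro y _ hy
      rw [hG, Pi.single_eq_of_ne hy]
      norm_num
    · intro h
      exact absurd (Finset.mem_univ x) h
  have q1 := H37.qf_add_vec hA F G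
  have q2 := H37.qf_sub_vec hA F G
  have q3 := qf_acl_le (N := N) (l := l) hb hl ht G
  rw [e3, mul_one] at q3
  have n1 := qf_acl_nonneg (N := N) (l := l) hb hl ht (F + G)
  have n2 := qf_acl_nonneg (N := N) (l := l) hb hl ht (F - G)
  rw [← e1, abs_le]
  constructor <;> linarith

/-- **crude bound of the first derivative, all fields** -/
theorem mx_crude (hb : 0 ≤ b) (hl : l ∣ N) (ht : 0 < t) (o : OscZ (wT b N) (mt N t) (1 / 2))
    (x : V (N / l)) (F : V (N / l) → ℝ) (c : ℝ) :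
    |Mx N l b t x F| ≤ t * (l : ℝ) ^ 2 * (3 * ∑ v, (F v - c) ^ 2 + 4) + 2 := by
  have h0 : Mx N l b t x F = Mx N l b t x (fun v => F v - c) := by
    have h := mx_const (l := l) hb ht x (fun v => F v - c) c
    simp only [sub_add_cancel] at h
    exact h
  set F' : V (N / l) → ℝ := fun v => F v - c with hF'
  have h1 := V0x_crude hb hl ht (oT_osc hb hl ht o) x F'
  have h2 := acl_lin (b := b) hb hl ht x F'
  have h3 := qf_acl_le (N := N) (l := l) hb hl ht F'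
  have h4 : Mx N l b t x F' = V0x N l b t x F' - (acl N l b t t *ᵥ F') x := by
    unfold H462.V0x
    ring
  have hν : 0 ≤ t * (l : ℝ) ^ 2 := by positivity
  have hS : 0 ≤ t * (l : ℝ) ^ 2 * ∑ v, F' v ^ 2 :=
    mul_nonneg hν (Finset.sum_nonneg fun v _ => sq_nonneg _)
  rw [h0, h4]
  have h5 := abs_sub (V0x N l b t x F') ((acl N l b t t *ᵥ F') x)
  have e : t * (l : ℝ) ^ 2 * (3 * ∑ v, F' v ^ 2 + 4) + 2 =
      3 * (t * (l : ℝ) ^ 2 * ∑ v, F' v ^ 2) + 4 * (t * (l : ℝ) ^ 2) + 2 := by ring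
  show |_| ≤ t * (l : ℝ) ^ 2 * (3 * ∑ v, F' v ^ 2 + 4) + 2
  rw [e]
  linarith

end crude

section trans

variable {M B l : ℕ} [NeZero M] [NeZero B] [NeZero (M / l)] [NeZero (B / l)] {b t : ℝ}

/-- square sum of the transported cut field -/
theorem sum_cut_trp {D : ℕ} (hM : 2 * D < M / l) (hB : 2 * D < B / l) (x : V (M / l))
    (F : V (M / l) → ℝ) :
    ∑ v, (cutm D (0 : V (B / l)) (trp D 0 x F) v - av D x F) ^ 2 ≤ ∑ v, (F v - av D x F) ^ 2 := by
  rw [cutm_trp hB, av_eq hM]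
  set h : ℤ × ℤ → ℝ := fun ζ => F (x + ip (M / l) ζ) with hh
  set a := avz D h with ha
  have e1 : ∑ v : V (B / l), (cwa (B / l) D h a 0 v - a) ^ 2 =
      ∑ v ∈ H462.box (0 : V (B / l)) D, (cwa (B / l) D h a 0 v - a) ^ 2 := by
    symm
    refine Finset.sum_subset (Finset.subset_univ _) fun v _ hv => ?_
    unfold cwa
    rw [if_neg hv, sub_self, zero_pow two_ne_zero]
  have e2 : ∑ v ∈ H462.box (0 : V (B / l)) D, (cwa (B / l) D h a 0 v - a) ^ 2 =
      ∑ ζ ∈ zb D, (h ζ - a) ^ 2 := by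
    rw [sum_box hB]
    refine Finset.sum_congr rfl fun ζ hζ => ?_
    have h1 := H733.Vt.zz_ip hB hζ (0 : V (B / l))
    have hm : (0 : V (B / l)) + ip (B / l) ζ ∈ H462.box (0 : V (B / l)) D := ip_mem_box hζ 0
    unfold H733.Vt.zz at h1
    rw [if_pos hm] at h1
    unfold cwa
    rw [if_pos hm, h1]
  have e3 : ∑ ζ ∈ zb D, (h ζ - a) ^ 2 = ∑ v ∈ H462.box x D, (F v - a) ^ 2 :=
    (sum_box hM x fun v => (F v - a) ^ 2).symm
  rw [e1, e2, e3]
  exact Finset.sum_le_sum_of_subset_of_nonneg (Finset.subset_univ _) fun v _ _ => sq_nonneg _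

/-- **crude bound of the difference, all fields** -/
theorem mx_diff_crude (hb : 0 ≤ b) (ht : 0 < t) (hlM : l ∣ M) (hlB : l ∣ B)
    (oM : OscZ (wT b M) (mt M t) (1 / 2)) (oB : OscZ (wT b B) (mt B t) (1 / 2)) {D : ℕ}
    (hM : 2 * D < M / l) (hB : 2 * D < B / l) (x : V (M / l)) (F : V (M / l) → ℝ) :
    |Mx M l b t x F - Mx B l b t 0 (cutm D 0 (trp D 0 x F))| ≤
      t * (l : ℝ) ^ 2 * (6 * ∑ v, (F v - av D x F) ^ 2 + 8) + 4 := by
  have h1 := mx_crude hb hlM ht oM x F (av D x F)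
  have h2 := mx_crude hb hlB ht oB 0 (cutm D 0 (trp D 0 x F)) (av D x F)
  have h3 := sum_cut_trp (M := M) (B := B) (l := l) hM hB x F
  have hν : 0 ≤ t * (l : ℝ) ^ 2 := by positivity
  have h4 := mul_le_mul_of_nonneg_left h3 hν
  have h5 := abs_sub (Mx M l b t x F) (Mx B l b t 0 (cutm D 0 (trp D 0 x F)))
  refine h5.trans ?_
  have e1 : t * (l : ℝ) ^ 2 * (6 * ∑ v, (F v - av D x F) ^ 2 + 8) + 4 =
      6 * (t * (l : ℝ) ^ 2 * ∑ v, (F v - av D x F) ^ 2) + 8 * (t * (l : ℝ) ^ 2) + 4 := by ring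
  rw [e1]
  nlinarith

end trans

section law

variable {n : ℕ} [NeZero n] {I : Type*} [Fintype I]

/-- values relative to the mean in a law below the typical law -/
theorem dev_sq {A : Matrix (V n) (V n) ℝ} {ν c : ℝ} (h : H462.Dom A ν c)
    {Bm : Matrix (V n) I ℝ} (hB : Below A Bm) (D : ℕ) (x v : V n) {σ : ℝ}
    (hσ : 4 * ν⁻¹ + c⁻¹ * (200 * (1 + Real.log (1 + (n : ℝ) ^ 2))) ≤ σ ^ 2) (g : I → ℝ) :
    ((Bm *ᵥ g) v - av D x (Bm *ᵥ g)) ^ 2 ≤ σ ^ 2 * ∑ i, g i ^ 2 := by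
  set β : V n → ℝ := Pi.single v 1 - fun w =>
    if w ∈ H462.box x D then ((H462.box x D).card : ℝ)⁻¹ else 0 with hβ
  have h1 : ∑ i, (β ᵥ* Bm) i ^ 2 ≤ _ := dev_av h hB D x v
  have e : (Bm *ᵥ g) v - av D x (Bm *ᵥ g) = ∑ i, (β ᵥ* Bm) i * g i := by
    have e2 : ∑ i, (β ᵥ* Bm) i * g i = β ⬝ᵥ (Bm *ᵥ g) := by
      rw [Matrix.dotProduct_mulVec]
      rfl
    rw [e2, hβ, sub_dotProduct, single_one_dotProduct]
    congr 1
    unfold av dotProduct
    rw [Finset.mul_sum, ← Finset.sum_subset (Finset.subset_univ (H462.box x D))]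
    · refine Finset.sum_congr rfl fun w hw => ?_
      simp only
      rw [if_pos hw]
    · intro w _ hw
      simp only
      rw [if_neg hw, zero_mul]
  rw [e]
  refine (Finset.sum_mul_sq_le_sq_mul_sq _ _ _).trans ?_
  exact mul_le_mul_of_nonneg_right (h1.trans hσ) (Finset.sum_nonneg fun i _ => sq_nonneg _)

theorem sum_dev {A : Matrix (V n) (V n) ℝ} {ν c : ℝ} (h : H462.Dom A ν c)
    {Bm : Matrix (V n) I ℝ} (hB : Below A Bm) (D : ℕ) (x : V n) {σ : ℝ}
    (hσ : 4 * ν⁻¹ + c⁻¹ * (200 * (1 + Real.log (1 + (n : ℝ) ^ 2))) ≤ σ ^ 2) (g : I → ℝ) :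
    ∑ v, ((Bm *ᵥ g) v - av D x (Bm *ᵥ g)) ^ 2 ≤ (n : ℝ) ^ 2 * σ ^ 2 * ∑ i, g i ^ 2 := by
  refine (Finset.sum_le_sum fun v _ => dev_sq h hB D x v hσ g).trans (le_of_eq ?_)
  rw [Finset.sum_const, nsmul_eq_mul, Finset.card_univ, H358.card_V]
  ring

end law

end Vale.Agent.P159.H114.Ex
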