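import Vale.Agent.P159.H114.Ex4

/-!
P159 (helper114), P6 piece (E4), part 5: moments of `1 + |g|²`, good set with a quartic crude bound,
`L²` distance of `Mx` of the field and of the transported cut field.
-/

open Finset MeasureTheory

set_option linter.unusedSectionVars false
set_option linter.unusedDecidableInType false

namespace Vale.Agent.P159.H114.Ex

open Vale.Agent.P159.TM.H104 (EM Lg)
open Vale.Agent.P159.H37 (gau qf bf)
open Vale.Agent.P159.TM.Spec (V)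
open Vale.Agent.P159.TM.SpecC (wT Tor)
open Vale.Agent.P159.H145 (mt OscZ)
open Vale.Agent.P159.H552 (lft)
open Vale.Agent.P159.H864 (cl)
open Vale.Agent.P159.H363 (pin Below acl ti_acl wm_MC measurable_mulVec)
open Vale.Agent.P159.H733.Torg (ip)
open Vale.Agent.P159.H733.Vt (zb mem_zb sum_box ip_mem_box trp)
open Vale.Agent.P159.H462 (Mx Mx_sh V0x oT V0x_crude bf_acl qf_acl_le qf_acl_nonneg)
open Vale.Agent.P159.H896 (WM)
open Vale.Agent.P159.H358
open ProbabilityTheory Matrix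

/-! ### moments -/

section mom

theorem pow8_le (x : ℝ) : x ^ 8 ≤ 40320 * (Real.exp x + Real.exp (-x)) := by
  have h := Real.pow_div_factorial_le_exp |x| (abs_nonneg x) 8
  have e8 : ((Nat.factorial 8 : ℕ) : ℝ) = 40320 := by norm_num [Nat.factorial]
  rw [e8, div_le_iff₀ (by norm_num)] at h
  have e1 : |x| ^ 8 = x ^ 8 := by
    rw [show (8 : ℕ) = 2 * 4 by norm_num, pow_mul, pow_mul, sq_abs]
  rw [e1] at h
  refine h.trans ?_
  have h2 : Real.exp |x| ≤ Real.exp x + Real.exp (-x) := by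
    rcases abs_cases x with ⟨h3, _⟩ | ⟨h3, _⟩
    · rw [h3]
      linarith [Real.exp_pos (-x)]
    · rw [h3]
      linarith [Real.exp_pos x]
  linarith

theorem int_exp1 (s : ℝ) : Integrable (fun x : ℝ => Real.exp (s * x)) (gaussianReal 0 1) :=
  integrable_exp_mul_gaussianReal s

theorem exp1 (s : ℝ) : ∫ x : ℝ, Real.exp (s * x) ∂(gaussianReal 0 1) = Real.exp (s ^ 2 / 2) := by
  have h := congrFun (mgf_fun_id_gaussianReal (μ := 0) (v := 1)) s
  unfold mgf at h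
  rw [h]
  simp

theorem int_pow8 : Integrable (fun x : ℝ => x ^ 8) (gaussianReal 0 1) := by
  have h1 := ((int_exp1 1).add (int_exp1 (-1))).const_mul (40320 : ℝ)
  refine h1.mono' (by fun_prop) (Filter.Eventually.of_forall fun x => ?_)
  rw [Real.norm_eq_abs, abs_of_nonneg (by positivity)]
  have h2 := pow8_le x
  simpa using h2

theorem mom8 : ∫ x : ℝ, x ^ 8 ∂(gaussianReal 0 1) ≤ 160000 := by
  have h1 := ((int_exp1 1).add (int_exp1 (-1))).const_mul (40320 : ℝ)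
  have h2 := integral_mono int_pow8 h1 fun x => by
    have h2 := pow8_le x
    simpa using h2
  refine h2.trans ?_
  have e : ∫ x : ℝ, 40320 * ((fun x : ℝ => Real.exp (1 * x)) + fun x : ℝ => Real.exp (-1 * x)) x
      ∂(gaussianReal 0 1) = 40320 * (Real.exp (1 ^ 2 / 2) + Real.exp ((-1) ^ 2 / 2)) := by
    rw [integral_const_mul]
    congr 1
    have := integral_add (int_exp1 1) (int_exp1 (-1))
    rw [exp1, exp1] at this
    exact this
  rw [e]
  have h3 : Real.exp (1 / 2) ≤ 1.65 := by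
    have h4 : Real.exp (1 / 2) ^ 2 = Real.exp 1 := by
      rw [← Real.exp_nat_mul]
      norm_num
    have h5 := Real.exp_one_lt_d9
    have h6 := Real.exp_pos (1 / 2 : ℝ)
    nlinarith
  norm_num at h3 ⊢
  linarith

variable {I : Type*} [Fintype I]

theorem mp_eval (i : I) : MeasurePreserving (fun g : I → ℝ => g i) (gau I) (gaussianReal 0 1) :=
  measurePreserving_eval (μ := fun _ : I => gaussianReal 0 1) i

theorem int_c8 (i : I) : Integrable (fun g : I → ℝ => g i ^ 8) (gau I) :=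
  (mp_eval i).integrable_comp_of_integrable (g := fun x : ℝ => x ^ 8) int_pow8

theorem c8 (i : I) : ∫ g : I → ℝ, g i ^ 8 ∂(gau I) ≤ 160000 := by
  have h2 : ∫ g : I → ℝ, g i ^ 8 ∂(gau I) = ∫ x : ℝ, x ^ 8 ∂(gaussianReal 0 1) := by
    have h3 := MeasureTheory.integral_map (μ := gau I) (φ := fun g : I → ℝ => g i)
      (measurable_pi_apply i).aemeasurable (f := fun x : ℝ => x ^ 8) (by fun_prop)
    rw [(mp_eval i).map_eq] at h3
    exact h3.symm
  rw [h2]
  exact mom8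

/-- `1 + |g|²` -/
noncomputable def qg (g : I → ℝ) : ℝ := 1 + ∑ i, g i ^ 2

theorem one_le_qg (g : I → ℝ) : 1 ≤ qg g := by
  unfold qg
  have : 0 ≤ ∑ i, g i ^ 2 := Finset.sum_nonneg fun i _ => sq_nonneg _
  linarith

theorem qg4_le (g : I → ℝ) :
    qg g ^ 4 ≤ ((Fintype.card I : ℝ) + 1) ^ 3 * (1 + ∑ i, g i ^ 8) := by
  classical
  have h := pow_sum_div_card_le_sum_pow (s := (Finset.univ : Finset (Option I)))
    (f := fun i : Option I => i.elim (1 : ℝ) fun j => g j ^ 2) (n := 3) (fun a _ => by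
      cases a
      · exact zero_le_one
      · exact sq_nonneg _)
  rw [Finset.card_univ, Fintype.card_option, Fintype.sum_option, Fintype.sum_option] at h
  simp only [Option.elim_none, Option.elim_some] at h
  rw [div_le_iff₀ (by positivity)] at h
  unfold qg
  refine h.trans (le_of_eq ?_)
  have e1 : ∑ i : I, (g i ^ 2) ^ (3 + 1) = ∑ i : I, g i ^ 8 :=
    Finset.sum_congr rfl fun i _ => by rw [← pow_mul]
  rw [e1]
  push_cast
  ring

theorem measurable_qg : Measurable (qg : (I → ℝ) → ℝ) := by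
  unfold qg
  fun_prop

theorem int_qg4 : Integrable (fun g : I → ℝ => qg g ^ 4) (gau I) := by
  have h1 : Integrable (fun g : I → ℝ => ((Fintype.card I : ℝ) + 1) ^ 3 * (1 + ∑ i, g i ^ 8))
      (gau I) :=
    ((integrable_const 1).add (integrable_finsetSum _ fun i _ => int_c8 i)).const_mul _
  refine h1.mono' (measurable_qg.pow_const 4).aestronglyMeasurable
    (Filter.Eventually.of_forall fun g => ?_)
  have := one_le_qg g
  rw [Real.norm_eq_abs, abs_of_nonneg (by positivity)]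
  exact qg4_le g

theorem qg4 : ∫ g : I → ℝ, qg g ^ 4 ∂(gau I) ≤ 160000 * ((Fintype.card I : ℝ) + 1) ^ 4 := by
  have hi : Integrable (fun g : I → ℝ => ∑ i, g i ^ 8) (gau I) :=
    integrable_finsetSum _ fun i _ => int_c8 i
  have h1 : Integrable (fun g : I → ℝ => ((Fintype.card I : ℝ) + 1) ^ 3 * (1 + ∑ i, g i ^ 8))
      (gau I) := ((integrable_const 1).add hi).const_mul _
  refine (integral_mono int_qg4 h1 qg4_le).trans ?_
  rw [integral_const_mul, integral_add (integrable_const _) hi,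
    integral_finsetSum _ fun i _ => int_c8 i]
  have h2 : ∑ i, ∫ g : I → ℝ, g i ^ 8 ∂(gau I) ≤ (Fintype.card I : ℝ) * 160000 := by
    refine (Finset.sum_le_sum fun i _ => c8 i).trans (le_of_eq ?_)
    rw [Finset.sum_const, nsmul_eq_mul, Finset.card_univ]
  have h3 : (0 : ℝ) ≤ Fintype.card I := Nat.cast_nonneg _
  simp only [integral_const, probReal_univ, smul_eq_mul, one_mul]
  have h4 : ((Fintype.card I : ℝ) + 1) ^ 3 * (1 + ∑ i, ∫ g : I → ℝ, g i ^ 8 ∂(gau I)) ≤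
      ((Fintype.card I : ℝ) + 1) ^ 3 * (160000 * ((Fintype.card I : ℝ) + 1)) := by
    refine mul_le_mul_of_nonneg_left ?_ (by positivity)
    linarith
  refine h4.trans (le_of_eq ?_)
  ring

/-- **good set, quartic crude bound** -/
theorem l2_bad {Y : (I → ℝ) → ℝ} (hY : Measurable Y) {Bad : Set (I → ℝ)} (hB : MeasurableSet Bad)
    {e K p : ℝ} (hK : 0 ≤ K) (hp0 : 0 < p) (h1 : ∀ g, g ∉ Bad → |Y g| ≤ e)
    (h2 : ∀ g, |Y g| ≤ K * qg g) (hp : (gau I).real Bad ≤ p) :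
    Integrable (fun g => Y g ^ 2) (gau I) ∧
    ∫ g, Y g ^ 2 ∂(gau I) ≤ e ^ 2 + K ^ 2 * (400 * ((Fintype.card I : ℝ) + 1) ^ 2 * √p) := by
  have hn : (0 : ℝ) ≤ Fintype.card I := Nat.cast_nonneg _
  set n1 : ℝ := ((Fintype.card I : ℝ) + 1) ^ 2 with hn1
  have hn0 : 0 < n1 := by positivity
  have hsp : 0 < √p := Real.sqrt_pos.2 hp0
  set s : ℝ := √p / (400 * n1) with hs
  have hs0 : 0 < s := by positivity
  have hq2 : ∀ g : I → ℝ, |Y g| ^ 2 ≤ K ^ 2 * qg g ^ 2 := fun g => by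
    rw [← mul_pow]
    exact pow_le_pow_left₀ (abs_nonneg _) (h2 g) 2
  have hint : Integrable (fun g => Y g ^ 2) (gau I) := by
    refine (int_qg4.const_mul (K ^ 2)).mono' (hY.pow_const 2).aestronglyMeasurable
      (Filter.Eventually.of_forall fun g => ?_)
    rw [Real.norm_eq_abs, abs_of_nonneg (sq_nonneg _), ← sq_abs]
    refine (hq2 g).trans (mul_le_mul_of_nonneg_left ?_ (sq_nonneg _))
    exact pow_le_pow_right₀ (one_le_qg g) (by norm_num)
  refine ⟨hint, ?_⟩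
  have hpt : ∀ g : I → ℝ, Y g ^ 2 ≤ e ^ 2 + (K ^ 2 / 2) * (s * qg g ^ 4 +
      Bad.indicator (fun _ => s⁻¹) g) := by
    intro g
    have hq := one_le_qg g
    by_cases hg : g ∈ Bad
    · rw [Set.indicator_of_mem hg, ← sq_abs]
      refine (hq2 g).trans ?_
      have h3 : 2 * qg g ^ 2 ≤ s * qg g ^ 4 + s⁻¹ := by
        have h4 : 0 ≤ s * (qg g ^ 2 - s⁻¹) ^ 2 := by positivity
        have h5 : s * (qg g ^ 2 - s⁻¹) ^ 2 = s * qg g ^ 4 - 2 * qg g ^ 2 + s⁻¹ := by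
          have : s * s⁻¹ = 1 := mul_inv_cancel₀ hs0.ne'
          calc s * (qg g ^ 2 - s⁻¹) ^ 2 = s * qg g ^ 4 - 2 * qg g ^ 2 * (s * s⁻¹) +
              (s * s⁻¹) * s⁻¹ := by ring
            _ = _ := by rw [this]; ring
        linarith
      nlinarith [sq_nonneg K, sq_nonneg e, mul_le_mul_of_nonneg_left h3 (sq_nonneg K)]
    · rw [Set.indicator_of_notMem hg, ← sq_abs]
      have h3 := pow_le_pow_left₀ (abs_nonneg _) (h1 g hg) 2
      have h4 : 0 ≤ K ^ 2 / 2 * (s * qg g ^ 4 + 0) := by positivity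
      linarith
  have hi2 : Integrable (fun g : I → ℝ => Bad.indicator (fun _ => s⁻¹) g) (gau I) :=
    (integrable_const _).indicator hB
  have hi3 : Integrable (fun g : I → ℝ => e ^ 2 + (K ^ 2 / 2) * (s * qg g ^ 4 +
      Bad.indicator (fun _ => s⁻¹) g)) (gau I) :=
    (integrable_const _).add (((int_qg4.const_mul s).add hi2).const_mul _)
  refine (integral_mono hint hi3 hpt).trans ?_
  have e1 : ∫ g : I → ℝ, (e ^ 2 + (K ^ 2 / 2) * (s * qg g ^ 4 +
      Bad.indicator (fun _ => s⁻¹) g)) ∂(gau I) =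
      e ^ 2 + (K ^ 2 / 2) * (s * ∫ g : I → ℝ, qg g ^ 4 ∂(gau I) + (gau I).real Bad * s⁻¹) := by
    have k1 : Integrable (fun g : I → ℝ => s * qg g ^ 4 + Bad.indicator (fun _ => s⁻¹) g)
        (gau I) := (int_qg4.const_mul s).add hi2
    rw [integral_add (integrable_const _) (k1.const_mul _),
      integral_const_mul, integral_add (int_qg4.const_mul s) hi2, integral_const_mul,
      integral_indicator_const _ hB]
    simp only [integral_const, probReal_univ, smul_eq_mul, one_mul]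
  rw [e1]
  have h6 : s * ∫ g : I → ℝ, qg g ^ 4 ∂(gau I) ≤ 400 * n1 * √p := by
    calc s * ∫ g : I → ℝ, qg g ^ 4 ∂(gau I) ≤ s * (160000 * ((Fintype.card I : ℝ) + 1) ^ 4) :=
          mul_le_mul_of_nonneg_left qg4 hs0.le
      _ = 400 * n1 * √p := by
          rw [hs, hn1]
          field_simp
          ring
  have h7 : (gau I).real Bad * s⁻¹ ≤ 400 * n1 * √p := by
    calc (gau I).real Bad * s⁻¹ ≤ p * s⁻¹ := mul_le_mul_of_nonneg_right hp (by positivity)
      _ = 400 * n1 * √p := by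
          rw [hs, inv_div, mul_div_assoc']
          rw [div_eq_iff hsp.ne']
          have : √p * √p = p := Real.mul_self_sqrt hp0.le
          calc p * (400 * n1) = (√p * √p) * (400 * n1) := by rw [this]
            _ = _ := by ring
  have h8 : (K ^ 2 / 2) * (s * ∫ g : I → ℝ, qg g ^ 4 ∂(gau I) + (gau I).real Bad * s⁻¹) ≤
      (K ^ 2 / 2) * (400 * n1 * √p + 400 * n1 * √p) :=
    mul_le_mul_of_nonneg_left (by linarith) (by positivity)
  calc _ ≤ e ^ 2 + (K ^ 2 / 2) * (400 * n1 * √p + 400 * n1 * √p) := by linarith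
    _ = _ := by ring

end mom

/-! ### the `L²` distance -/

section close

variable {N M B l Q : ℕ} [NeZero N] [NeZero M] [NeZero B] [NeZero (N / l)] [NeZero (M / l)]
  [NeZero (B / l)] {b : ℝ} {hb : 0 ≤ b} {ξ : ℕ} {t y y' y'' cx Cx c4 C4 : ℝ} {r D0 D1 : ℕ} {D : ℝ}
  {κ₀ cs X δ : ℝ} {q : ℕ} {m G τ Λ₁ Λ D2 : ℝ} {I : Type*} [Fintype I]

theorem continuous_fx (hb : 0 ≤ b) (ht : 0 < t) (hlB : l ∣ B) (D0 : ℕ) (x : V (M / l)) :
    Continuous fun F : V (M / l) → ℝ => Mx B l b t 0 (cutm D0 0 (trp D0 0 x F)) := by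
  refine (H462.continuous_Mx hb hlB ht 0).comp ((continuous_cutm D0 0).comp ?_)
  exact continuous_pi fun v => continuous_apply _

/-- **(E4)**, explicit numbers, any law below the typical law -/
theorem mx_l2
    (H : Pr2 N M B l Q b hb ξ t y y' y'' cx Cx c4 C4 r D0 D1 D κ₀ cs X δ q m G τ Λ₁ Λ D2)
    {A : Matrix (V (M / l)) (V (M / l)) ℝ} {ν c : ℝ} (hA : H462.Dom A ν c)
    {Bm : Matrix (V (M / l)) I ℝ} (hB : Below A Bm) {σ a pf p : ℝ} (hσ0 : 0 < σ)
    (hσ : 4 * ν⁻¹ + c⁻¹ * (200 * (1 + Real.log (1 + ((M / l : ℕ) : ℝ) ^ 2))) ≤ σ ^ 2)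
    (ha : 1 ≤ a) (haX : a * (m * (4 * t * l * √(κw (M / l) D0 ν c))) ≤ X * √t)
    (hf : (gau I).real {g | τ < Rn M b t (lft (cl : V M → V (M / l)) (Bm *ᵥ g))} ≤ pf)
    (hp0 : 0 < p) (hp : PBn N M B l t κ₀ (κw (M / l) D0 ν c) D0 G σ Λ₁ m a pf ≤ p)
    (x : V (M / l)) :
    Integrable (fun g : I → ℝ => (Mx M l b t x (Bm *ᵥ g) -
      Mx B l b t 0 (cutm D0 0 (trp D0 0 x (Bm *ᵥ g)))) ^ 2) (gau I) ∧
    ∫ g, (Mx M l b t x (Bm *ᵥ g) - Mx B l b t 0 (cutm D0 0 (trp D0 0 x (Bm *ᵥ g)))) ^ 2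
      ∂(gau I) ≤
      (2 * Real.pi * (elo M l ξ t c4 C4 τ G D2 +
        eru3 M B l ξ t cx Cx c4 C4 D τ G Λ (kn l ξ D1) r)) ^ 2 +
      (t * (l : ℝ) ^ 2 * (6 * (((M / l : ℕ) : ℝ) ^ 2 * σ ^ 2) + 8) + 4) ^ 2 *
        (400 * ((Fintype.card I : ℝ) + 1) ^ 2 * √p) := by
  have ht := H.HM.ht
  have hlM := H.HM.hlN
  have hlB := H.HM.hlM
  have hν : 0 ≤ t * (l : ℝ) ^ 2 := by positivity
  have hm : Measurable fun F : V (M / l) → ℝ => Mx M l b t x F -
      Mx B l b t 0 (cutm D0 0 (trp D0 0 x F)) :=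
    ((H462.continuous_Mx hb hlM ht x).sub (continuous_fx hb ht hlB D0 x)).measurable
  have hG := measurable_Gs (N := N) (M := M) (B := B) (l := l) hb ht D0 G τ δ Λ₁
    (pc (B / l) (q, q)) x
  refine l2_bad (Y := fun g : I → ℝ => Mx M l b t x (Bm *ᵥ g) -
      Mx B l b t 0 (cutm D0 0 (trp D0 0 x (Bm *ᵥ g))))
    (Bad := {g | Bm *ᵥ g ∉ Gs N M B l b t D0 G τ δ Λ₁ (pc (B / l) (q, q)) x})
    (hm.comp (measurable_mulVec Bm)) ((hG.compl).preimage (measurable_mulVec Bm)) (by positivity)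
    hp0 (fun g hg => ?_) (fun g => ?_) ((gs_prob H.pr hA hB hσ0 hσ ha haX hf x).trans hp)
  · have hg' : Bm *ᵥ g ∈ Gs N M B l b t D0 G τ δ Λ₁ (pc (B / l) (q, q)) x := by
      by_contra h
      exact hg h
    exact mx_near H hg'
  · have h1 := mx_diff_crude hb ht hlM hlB H.oM H.oB H.pr.hDM H.pr.hDB x (Bm *ᵥ g)
    have h2 := sum_dev hA hB D0 x hσ g
    have h3 := mul_le_mul_of_nonneg_left h2 hν
    have hS : 0 ≤ ∑ i, g i ^ 2 := Finset.sum_nonneg fun i _ => sq_nonneg _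
    refine h1.trans ?_
    unfold qg
    have e1 : (t * (l : ℝ) ^ 2 * (6 * (((M / l : ℕ) : ℝ) ^ 2 * σ ^ 2) + 8) + 4) *
        (1 + ∑ i, g i ^ 2) = 6 * (t * (l : ℝ) ^ 2 * (((M / l : ℕ) : ℝ) ^ 2 * σ ^ 2 *
        ∑ i, g i ^ 2)) + (8 * (t * (l : ℝ) ^ 2) + 4) * (1 + ∑ i, g i ^ 2) +
        6 * (t * (l : ℝ) ^ 2 * (((M / l : ℕ) : ℝ) ^ 2 * σ ^ 2)) := by ring
    rw [e1]
    have h4 : 0 ≤ 6 * (t * (l : ℝ) ^ 2 * (((M / l : ℕ) : ℝ) ^ 2 * σ ^ 2)) := by positivity
    have h5 : 0 ≤ (8 * (t * (l : ℝ) ^ 2) + 4) * ∑ i, g i ^ 2 := by positivity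
    have e2 : t * (l : ℝ) ^ 2 * (6 * ∑ v, ((Bm *ᵥ g) v - av D0 x (Bm *ᵥ g)) ^ 2 + 8) + 4 =
        6 * (t * (l : ℝ) ^ 2 * ∑ v, ((Bm *ᵥ g) v - av D0 x (Bm *ᵥ g)) ^ 2) +
        (8 * (t * (l : ℝ) ^ 2) + 4) := by ring
    rw [e2]
    have e3 : (8 * (t * (l : ℝ) ^ 2) + 4) * (1 + ∑ i, g i ^ 2) =
        (8 * (t * (l : ℝ) ^ 2) + 4) + (8 * (t * (l : ℝ) ^ 2) + 4) * ∑ i, g i ^ 2 := by ring
    rw [e3]
    linarith

end close

end Vale.Agent.P159.H114.Ex
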