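import Vale.Agent.P159.H114.Ex5
import Vale.Agent.P159.H358.Un4

/-!
P159 (helper114), P6 piece (E4), part 6: `mx_num`, the `L²` distance is below every power, in the
letters `Cst`, `Nm`, `Tn` of helper358.
-/

open Finset MeasureTheory

set_option linter.unusedSectionVars false
set_option linter.unusedDecidableInType false

namespace Vale.Agent.P159.H114.Ex

open Vale.Agent.P159.TM.Spec (V)
open Vale.Agent.P159.TM.SpecC (wT)
open Vale.Agent.P159.H37 (gau)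
open Vale.Agent.P159.H145 (mt OscZ)
open Vale.Agent.P159.H552 (lft)
open Vale.Agent.P159.H864 (cl)
open Vale.Agent.P159.H813 (LB4)
open Vale.Agent.P159.H462 (Dom Mx)
open Vale.Agent.P159.H363 (Below n2 pin below_pin)
open Vale.Agent.P159.H733.Vt (trp)
open Vale.Agent.P159.H358
open Matrix

/-- crude constant -/
noncomputable def KE (q c0 : ℝ) : ℝ := 24 * K5 q c0 + 36

/-- the exponent needed for the target `β₀` -/
noncomputable def βm (q c0 β₀ : ℝ) : ℝ := 2 * β₀ + 16 * q + (160 + 1600 * KE q c0 ^ 2)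

section num

variable {M B l Q : ℕ} [NeZero M] [NeZero B] [NeZero (M / l)] [NeZero (B / l)] {b : ℝ} {hb : 0 ≤ b}
  {ξ D0 : ℕ} {t y cx Cx c4 C4 L q β c0 κ₀ A0 A' bo bb g K1 R : ℝ}

/-- the crude bound as a number -/
theorem crude_num (H : Nm ξ l Q D0 t L q A') (hc0 : 0 < c0) {n : ℕ}
    (hn : (n : ℝ) ≤ Real.exp (2 * q * L)) :
    t * (l : ℝ) ^ 2 * (6 * ((n : ℝ) ^ 2 * (√(K5 q c0 * L) * Q) ^ 2) + 8) + 4 ≤
      KE q c0 * Real.exp ((4 * q + 1) * L) := by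
  have hL := H.hL
  have hL0 := H.L0
  have hq := H.hq
  have hK5 := K5_pos hq hc0
  have hQ := H.Q0
  have hQ1 : (1 : ℝ) ≤ Q := by exact_mod_cast H.hQ
  have ht := H.t0
  have hl := H.l0
  have h1 : t * (l : ℝ) ^ 2 * (Q : ℝ) ^ 2 ≤ 4 := by
    have h := H.tx4
    rw [H.ξe] at h
    calc t * (l : ℝ) ^ 2 * (Q : ℝ) ^ 2 = t * ((l : ℝ) * Q) ^ 2 := by ring
      _ ≤ 4 := h
  have h2 : t * (l : ℝ) ^ 2 ≤ 4 := by
    have h3 : t * (l : ℝ) ^ 2 * 1 ≤ t * (l : ℝ) ^ 2 * (Q : ℝ) ^ 2 :=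
      mul_le_mul_of_nonneg_left (one_le_pow₀ hQ1) (by positivity)
    linarith
  have h3 : (n : ℝ) ^ 2 ≤ Real.exp (4 * q * L) := by
    have h4 := pow_le_pow_left₀ (Nat.cast_nonneg n) hn 2
    rw [← Real.exp_nat_mul] at h4
    have e : ((2 : ℕ) : ℝ) * (2 * q * L) = 4 * q * L := by
      push_cast
      ring
    rwa [e] at h4
  have e1 : (√(K5 q c0 * L) * Q) ^ 2 = K5 q c0 * L * (Q : ℝ) ^ 2 := by
    rw [mul_pow, Real.sq_sqrt (by positivity)]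
  have hE : 1 ≤ Real.exp (4 * q * L) := Real.one_le_exp (by positivity)
  have hLe : L ≤ Real.exp L := by linarith [Real.add_one_le_exp L]
  rw [e1]
  have e2 : t * (l : ℝ) ^ 2 * (6 * ((n : ℝ) ^ 2 * (K5 q c0 * L * (Q : ℝ) ^ 2)) + 8) + 4 =
      6 * (K5 q c0 * L) * ((t * (l : ℝ) ^ 2 * (Q : ℝ) ^ 2) * (n : ℝ) ^ 2) +
        (8 * (t * (l : ℝ) ^ 2) + 4) := by ring
  rw [e2]
  have h5 : (t * (l : ℝ) ^ 2 * (Q : ℝ) ^ 2) * (n : ℝ) ^ 2 ≤ 4 * Real.exp (4 * q * L) :=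
    mul_le_mul h1 h3 (sq_nonneg _) (by norm_num)
  have h6 : 6 * (K5 q c0 * L) * ((t * (l : ℝ) ^ 2 * (Q : ℝ) ^ 2) * (n : ℝ) ^ 2) ≤
      6 * (K5 q c0 * L) * (4 * Real.exp (4 * q * L)) :=
    mul_le_mul_of_nonneg_left h5 (by positivity)
  have h7 : 8 * (t * (l : ℝ) ^ 2) + 4 ≤ 36 * (L * Real.exp (4 * q * L)) := by
    have : 1 ≤ L * Real.exp (4 * q * L) := one_le_mul_of_one_le_of_one_le hL hE
    linarith
  have e3 : Real.exp ((4 * q + 1) * L) = Real.exp L * Real.exp (4 * q * L) := by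
    rw [← Real.exp_add]
    ring_nf
  rw [e3]
  unfold KE
  have h8 : L * Real.exp (4 * q * L) ≤ Real.exp L * Real.exp (4 * q * L) :=
    mul_le_mul_of_nonneg_right hLe (by positivity)
  have h9 : (24 * K5 q c0 + 36) * (L * Real.exp (4 * q * L)) ≤
      (24 * K5 q c0 + 36) * (Real.exp L * Real.exp (4 * q * L)) :=
    mul_le_mul_of_nonneg_left h8 (by linarith)
  linarith

/-- sum of the two contributions -/
theorem fin_num (hL : 1 ≤ L) (hq : 0 ≤ q) (hβ0 : 0 ≤ β) {β₀ e1 K s n1 : ℝ}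
    (hβ : βm q c0 β₀ ≤ β) (he0 : 0 ≤ e1) (he : e1 ≤ 2 * Real.exp (-((β + 3) * L)))
    (hK0 : 0 ≤ K) (hK : K ≤ KE q c0 * Real.exp ((4 * q + 1) * L)) (hn0 : 0 ≤ n1)
    (hn : n1 ≤ Real.exp (4 * q * L)) (hs : s = Real.exp (-((β + 3) * L)) ^ 2) :
    (2 * Real.pi * e1) ^ 2 + K ^ 2 * (400 * (n1 + 1) ^ 2 * √s) ≤ Real.exp (-(β₀ * L)) ^ 2 := by
  have hL0 : 0 < L := by linarith
  set E : ℝ := Real.exp ((16 * q - 1 - β) * L) with hE
  have hE0 : 0 < E := Real.exp_pos _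
  have hs' : √s = Real.exp (-((β + 3) * L)) := by
    rw [hs, Real.sqrt_sq (Real.exp_pos _).le]
  have h1 : (2 * Real.pi * e1) ^ 2 ≤ 160 * E := by
    have a1 : (2 * Real.pi * e1) ^ 2 ≤ (2 * 3.15 * (2 * Real.exp (-((β + 3) * L)))) ^ 2 := by
      refine pow_le_pow_left₀ (by positivity) ?_ 2
      have := Real.pi_lt_d2
      have hp := Real.pi_pos
      have a2 : 2 * Real.pi * e1 ≤ 2 * 3.15 * e1 := by nlinarith
      have a3 : 2 * 3.15 * e1 ≤ 2 * 3.15 * (2 * Real.exp (-((β + 3) * L))) := by linarith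
      linarith
    have a4 : Real.exp (-((β + 3) * L)) ^ 2 ≤ E := by
      rw [← Real.exp_nat_mul, hE]
      refine Real.exp_le_exp.2 ?_
      push_cast
      nlinarith
    have e2 : (2 * 3.15 * (2 * Real.exp (-((β + 3) * L)))) ^ 2 =
        158.76 * Real.exp (-((β + 3) * L)) ^ 2 := by ring
    rw [e2] at a1
    linarith
  have h2 : K ^ 2 * (400 * (n1 + 1) ^ 2 * √s) ≤ 1600 * KE q c0 ^ 2 * E := by
    have b1 : K ^ 2 ≤ KE q c0 ^ 2 * Real.exp ((8 * q + 2) * L) := by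
      have b2 := pow_le_pow_left₀ hK0 hK 2
      rw [mul_pow, ← Real.exp_nat_mul] at b2
      have e : ((2 : ℕ) : ℝ) * ((4 * q + 1) * L) = (8 * q + 2) * L := by
        push_cast
        ring
      rwa [e] at b2
    have b3 : (n1 + 1) ^ 2 ≤ 4 * Real.exp (8 * q * L) := by
      have b4 : n1 + 1 ≤ 2 * Real.exp (4 * q * L) := by
        have : 1 ≤ Real.exp (4 * q * L) := Real.one_le_exp (by positivity)
        linarith
      have b5 := pow_le_pow_left₀ (by linarith) b4 2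
      rw [mul_pow, ← Real.exp_nat_mul] at b5
      have e : ((2 : ℕ) : ℝ) * (4 * q * L) = 8 * q * L := by
        push_cast
        ring
      rw [e] at b5
      linarith
    rw [hs']
    have b6 : 400 * (n1 + 1) ^ 2 * Real.exp (-((β + 3) * L)) ≤
        400 * (4 * Real.exp (8 * q * L)) * Real.exp (-((β + 3) * L)) := by
      refine mul_le_mul_of_nonneg_right ?_ (Real.exp_pos _).le
      linarith
    have b7 := mul_le_mul b1 b6 (by positivity) (by positivity)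
    refine b7.trans (le_of_eq ?_)
    have e : E = Real.exp ((8 * q + 2) * L) * Real.exp (8 * q * L) *
        Real.exp (-((β + 3) * L)) := by
      rw [hE, ← Real.exp_add, ← Real.exp_add]
      ring_nf
    rw [e]
    ring
  have h3 : (160 + 1600 * KE q c0 ^ 2) * E ≤ Real.exp (-(β₀ * L)) ^ 2 := by
    set KF : ℝ := 160 + 1600 * KE q c0 ^ 2 with hKF
    have hKF0 : 0 ≤ KF := by positivity
    have c1 : KF ≤ Real.exp (KF * L) := by
      have := Real.add_one_le_exp (KF * L)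
      nlinarith
    calc KF * E ≤ Real.exp (KF * L) * E := mul_le_mul_of_nonneg_right c1 hE0.le
      _ = Real.exp (KF * L + (16 * q - 1 - β) * L) := by rw [hE, ← Real.exp_add]
      _ ≤ Real.exp (((2 : ℕ) : ℝ) * (-(β₀ * L))) := by
          refine Real.exp_le_exp.2 ?_
          unfold βm at hβ
          push_cast
          nlinarith
      _ = Real.exp (-(β₀ * L)) ^ 2 := by rw [Real.exp_nat_mul]
  linarith

/-- **(E4), numbers**: any law below the typical law -/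
theorem mx_num (C : Cst b cx Cx c4 C4 q β c0 κ₀ A0 A' bo bb g K1 R) (H : Nm ξ l Q D0 t L q A')
    (hD : A0 * L * ξ ≤ D0 * l) (hy : (R + 1) * L ^ 7 * y ≤ cx) (hy0 : 0 ≤ y)
    (T2 : Tn M b hb ξ l t y cx Cx c4 C4 L q K1)
    (T3 : Tn B b hb ξ l t y cx Cx c4 C4 L q K1) {X δ τ : ℝ} (hδ : 0 ≤ δ) (hδ1 : δ ≤ 1)
    (hAP : APB B l Q b X t δ) (hX : K7 A' q c0 bb * L ^ 4 ≤ X) (hX0 : 0 < X)
    (hξl : (ξ : ℝ) ≤ (l : ℝ) ^ 2) (hl1 : (2 * (2 + q) + 4) * Kc A' g * L ^ 5 ≤ l)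
    (hτ : 4 ≤ τ) (hτ2 : τ ≤ 8 * L)
    {A : Matrix (V (M / l)) (V (M / l)) ℝ} {c : ℝ} (hA : Dom A (t * (l : ℝ) ^ 2) c) (hc : c0 ≤ c)
    {I : Type*} [Fintype I] {Bm : Matrix (V (M / l)) I ℝ} (hB : Below A Bm)
    (hI : (Fintype.card I : ℝ) ≤ Real.exp (4 * q * L)) {pf : ℝ}
    (hf : (gau I).real {g | τ < Rn M b t (lft (cl : V M → V (M / l)) (Bm *ᵥ g))} ≤ pf)
    (hpf : pf ≤ Real.exp (-((2 * (β + 3) + 2) * L))) {β₀ : ℝ} (hβ : βm q c0 β₀ ≤ β)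
    (x : V (M / l)) :
    Integrable (fun g : I → ℝ => (Mx M l b t x (Bm *ᵥ g) -
      Mx B l b t 0 (cutm D0 0 (trp D0 0 x (Bm *ᵥ g)))) ^ 2) (gau I) ∧
    ∫ g, (Mx M l b t x (Bm *ᵥ g) - Mx B l b t 0 (cutm D0 0 (trp D0 0 x (Bm *ᵥ g)))) ^ 2
      ∂(gau I) ≤ Real.exp (-(β₀ * L)) ^ 2 := by
  have hL := H.hL
  have hL0 := H.L0
  have hn := H.side T2.hl T2.up
  have P := pr2_of C H hD hy hy0 T2 T2 T3 hδ hδ1 hAP hX hX0 hξl hl1 hτ
  have hbb := C.bb1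
  have hQ := H.Q0
  have hK5 := K5_pos C.hq C.hc0
  have hR : KR cx (K8 A' q c0 κ₀ bb) (K9 g A' Cx) q β * L ^ 7 * ξ ≤ rad R L ξ := by
    rw [← C.hR]
    exact rad_lo R L ξ
  have h := mx_l2 P hA hB (σ := √(K5 q c0 * L) * Q) (a := √(7 * bb * L)) (pf := pf)
    (p := Real.exp (-((β + 3) * L)) ^ 2) (by positivity) (H.sig hn C.hc0 hc)
    (by
      rw [Real.one_le_sqrt]
      nlinarith)
    (H.blk hn C.hc0 hc hbb hX) hf (by positivity) (pb_of C H T2 T2 T3 hc hpf) x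
  refine ⟨h.1, h.2.trans ?_⟩
  have h1 := H.elo_le C.hC4 C.b1 hτ2 T2.up C.hA0
  have h1a := H.eru_le (C := Cx) (r := rad R L ξ) C.hC4 C.b1 hτ2 T2.up T3.up C.hA0 C.hcx C.k8.le
    C.hβ hR
  have g0 : 0 ≤ elo M l ξ t c4 C4 τ (g * L * Q) (A0 * L) := by
    have h4 := C.hC4
    have ht := H.t0
    have hg := C.b1
    unfold elo
    positivity
  have g1 : 0 ≤ eru3 M B l ξ t cx Cx c4 C4 (A0 * L) τ (g * L * Q) (K8 A' q c0 κ₀ bb * L ^ 7)
      (kn l ξ D0) (rad R L ξ) := by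
    have h4 := C.hC4
    have ht := H.t0
    have hg := C.b1
    have k1 := err9q_nonneg Cx cx (A := t * (ξ : ℝ) ^ 2 * (g * L * Q + 1)) (by positivity)
      (K8 A' q c0 κ₀ bb * L ^ 7) (kn l ξ D0) (rad R L ξ) ξ
    unfold eru3
    positivity
  exact fin_num hL C.hq C.hβ hβ (by linarith) (by linarith)
    (by
      have ht := H.t0
      positivity) (crude_num H C.hc0 hn) (Nat.cast_nonneg _) hI rfl

/-- **(E4), numbers**, the typical law -/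
theorem mx_num_pin (C : Cst b cx Cx c4 C4 q β c0 κ₀ A0 A' bo bb g K1 R)
    (H : Nm ξ l Q D0 t L q A')
    (hD : A0 * L * ξ ≤ D0 * l) (hy : (R + 1) * L ^ 7 * y ≤ cx) (hy0 : 0 ≤ y)
    (T2 : Tn M b hb ξ l t y cx Cx c4 C4 L q K1)
    (T3 : Tn B b hb ξ l t y cx Cx c4 C4 L q K1) {X δ τ : ℝ} (hδ : 0 ≤ δ) (hδ1 : δ ≤ 1)
    (hAP : APB B l Q b X t δ) (hX : K7 A' q c0 bb * L ^ 4 ≤ X) (hX0 : 0 < X)
    (hξl : (ξ : ℝ) ≤ (l : ℝ) ^ 2) (hl1 : (2 * (2 + q) + 4) * Kc A' g * L ^ 5 ≤ l)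
    (hτ : 4 ≤ τ) (hτ2 : τ ≤ 8 * L)
    {A : Matrix (V (M / l)) (V (M / l)) ℝ} {c : ℝ} (hA : Dom A (t * (l : ℝ) ^ 2) c) (hc : c0 ≤ c)
    {pf : ℝ}
    (hf : (gau (V (M / l))).real {g | τ < Rn M b t (lft (cl : V M → V (M / l)) (pin A *ᵥ g))} ≤ pf)
    (hpf : pf ≤ Real.exp (-((2 * (β + 3) + 2) * L))) {β₀ : ℝ} (hβ : βm q c0 β₀ ≤ β)
    (x : V (M / l)) :
    Integrable (fun g : V (M / l) → ℝ => (Mx M l b t x (pin A *ᵥ g) -
      Mx B l b t 0 (cutm D0 0 (trp D0 0 x (pin A *ᵥ g)))) ^ 2) (gau (V (M / l))) ∧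
    ∫ g, (Mx M l b t x (pin A *ᵥ g) - Mx B l b t 0 (cutm D0 0 (trp D0 0 x (pin A *ᵥ g)))) ^ 2
      ∂(gau (V (M / l))) ≤ Real.exp (-(β₀ * L)) ^ 2 := by
  refine mx_num C H hD hy hy0 T2 T3 hδ hδ1 hAP hX hX0 hξl hl1 hτ hτ2 hA hc (below_pin A) ?_ hf hpf
    hβ x
  have hn := H.side T2.hl T2.up
  rw [H358.card_V]
  have h4 := pow_le_pow_left₀ (Nat.cast_nonneg _) hn 2
  rw [← Real.exp_nat_mul] at h4
  have e : ((2 : ℕ) : ℝ) * (2 * q * L) = 4 * q * L := by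
    push_cast
    ring
  rwa [e] at h4

end num

end Vale.Agent.P159.H114.Ex
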