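import Vale.Agent.P159.H114.Ex6

/-!
P159 (helper114), P6 piece (E4), part 7: the cut field on the same torus, `mx_l2c`, `mx_numc`.
-/

open Finset MeasureTheory

set_option linter.unusedSectionVars false
set_option linter.unusedDecidableInType false

namespace Vale.Agent.P159.H114.Ex

open Vale.Agent.P159.TM.Spec (V)
open Vale.Agent.P159.TM.SpecC (wT)
open Vale.Agent.P159.H37 (gau)
open Vale.Agent.P159.H145 (mt OscZ)
open Vale.Agent.P159.H552 (lft)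
open Vale.Agent.P159.H864 (cl)
open Vale.Agent.P159.H813 (LB4)
open Vale.Agent.P159.H462 (Dom Mx)
open Vale.Agent.P159.H363 (Below n2 pin below_pin measurable_mulVec)
open Vale.Agent.P159.H733.Vt (trp)
open Vale.Agent.P159.H358
open Matrix

section cut

variable {M l : ℕ} [NeZero M] [NeZero (M / l)] {b t : ℝ}

theorem sum_cut (D : ℕ) (x : V (M / l)) (F : V (M / l) → ℝ) :
    ∑ v, (cutm D x F v - av D x F) ^ 2 ≤ ∑ v, (F v - av D x F) ^ 2 := by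
  refine Finset.sum_le_sum fun v _ => ?_
  unfold cutm
  split_ifs
  · exact le_rfl
  · rw [sub_self, zero_pow two_ne_zero]
    exact sq_nonneg _

theorem mx_cut_crude (hb : 0 ≤ b) (ht : 0 < t) (hlM : l ∣ M)
    (oM : OscZ (wT b M) (mt M t) (1 / 2)) (D : ℕ) (x : V (M / l)) (F : V (M / l) → ℝ) :
    |Mx M l b t x F - Mx M l b t x (cutm D x F)| ≤
      t * (l : ℝ) ^ 2 * (6 * ∑ v, (F v - av D x F) ^ 2 + 8) + 4 := by
  have h1 := mx_crude hb hlM ht oM x F (av D x F)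
  have h2 := mx_crude hb hlM ht oM x (cutm D x F) (av D x F)
  have h3 := sum_cut (M := M) (l := l) D x F
  have hν : 0 ≤ t * (l : ℝ) ^ 2 := by positivity
  have h4 := mul_le_mul_of_nonneg_left h3 hν
  have h5 := abs_sub (Mx M l b t x F) (Mx M l b t x (cutm D x F))
  refine h5.trans ?_
  have e1 : t * (l : ℝ) ^ 2 * (6 * ∑ v, (F v - av D x F) ^ 2 + 8) + 4 =
      6 * (t * (l : ℝ) ^ 2 * ∑ v, (F v - av D x F) ^ 2) + 8 * (t * (l : ℝ) ^ 2) + 4 := by ring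
  rw [e1]
  nlinarith

end cut

section close

variable {N M B l Q : ℕ} [NeZero N] [NeZero M] [NeZero B] [NeZero (N / l)] [NeZero (M / l)]
  [NeZero (B / l)] {b : ℝ} {hb : 0 ≤ b} {ξ : ℕ} {t y y' y'' cx Cx c4 C4 : ℝ} {r D0 D1 : ℕ} {D : ℝ}
  {κ₀ cs X δ : ℝ} {q : ℕ} {m G τ Λ₁ Λ D2 : ℝ} {I : Type*} [Fintype I]

/-- **(E4)** for the cut field on the same torus, explicit numbers -/
theorem mx_l2c
    (H : Pr2 N M B l Q b hb ξ t y y' y'' cx Cx c4 C4 r D0 D1 D κ₀ cs X δ q m G τ Λ₁ Λ D2)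
    {A : Matrix (V (M / l)) (V (M / l)) ℝ} {ν c : ℝ} (hA : H462.Dom A ν c)
    {Bm : Matrix (V (M / l)) I ℝ} (hB : Below A Bm) {σ a pf p : ℝ} (hσ0 : 0 < σ)
    (hσ : 4 * ν⁻¹ + c⁻¹ * (200 * (1 + Real.log (1 + ((M / l : ℕ) : ℝ) ^ 2))) ≤ σ ^ 2)
    (ha : 1 ≤ a) (haX : a * (m * (4 * t * l * √(κw (M / l) D0 ν c))) ≤ X * √t)
    (hf : (gau I).real {g | τ < Rn M b t (lft (cl : V M → V (M / l)) (Bm *ᵥ g))} ≤ pf)
    (hp0 : 0 < p) (hp : PBn N M B l t κ₀ (κw (M / l) D0 ν c) D0 G σ Λ₁ m a pf ≤ p)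
    (x : V (M / l)) :
    Integrable (fun g : I → ℝ => (Mx M l b t x (Bm *ᵥ g) -
      Mx M l b t x (cutm D0 x (Bm *ᵥ g))) ^ 2) (gau I) ∧
    ∫ g, (Mx M l b t x (Bm *ᵥ g) - Mx M l b t x (cutm D0 x (Bm *ᵥ g))) ^ 2 ∂(gau I) ≤
      (2 * Real.pi * elo M l ξ t c4 C4 τ G D2) ^ 2 +
      (t * (l : ℝ) ^ 2 * (6 * (((M / l : ℕ) : ℝ) ^ 2 * σ ^ 2) + 8) + 4) ^ 2 *
        (400 * ((Fintype.card I : ℝ) + 1) ^ 2 * √p) := by
  have ht := H.HM.ht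
  have hlM := H.HM.hlN
  have hν : 0 ≤ t * (l : ℝ) ^ 2 := by positivity
  have hm : Measurable fun F : V (M / l) → ℝ => Mx M l b t x F - Mx M l b t x (cutm D0 x F) :=
    ((H462.continuous_Mx hb hlM ht x).sub
      ((H462.continuous_Mx hb hlM ht x).comp (continuous_cutm D0 x))).measurable
  have hG := measurable_Gs (N := N) (M := M) (B := B) (l := l) hb ht D0 G τ δ Λ₁
    (pc (B / l) (q, q)) x
  refine l2_bad (Y := fun g : I → ℝ => Mx M l b t x (Bm *ᵥ g) -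
      Mx M l b t x (cutm D0 x (Bm *ᵥ g)))
    (Bad := {g | Bm *ᵥ g ∉ Gs N M B l b t D0 G τ δ Λ₁ (pc (B / l) (q, q)) x})
    (hm.comp (measurable_mulVec Bm)) ((hG.compl).preimage (measurable_mulVec Bm)) (by positivity)
    hp0 (fun g hg => ?_) (fun g => ?_) ((gs_prob H.pr hA hB hσ0 hσ ha haX hf x).trans hp)
  · have hg' : Bm *ᵥ g ∈ Gs N M B l b t D0 G τ δ Λ₁ (pc (B / l) (q, q)) x := by
      by_contra h
      exact hg h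
    exact mx_one H hg'
  · have h1 := mx_cut_crude hb ht hlM H.oM D0 x (Bm *ᵥ g)
    have h2 := sum_dev hA hB D0 x hσ g
    have h3 := mul_le_mul_of_nonneg_left h2 hν
    have hS : 0 ≤ ∑ i, g i ^ 2 := Finset.sum_nonneg fun i _ => sq_nonneg _
    refine h1.trans ?_
    unfold qg
    have e1 : (t * (l : ℝ) ^ 2 * (6 * (((M / l : ℕ) : ℝ) ^ 2 * σ ^ 2) + 8) + 4) *
        (1 + ∑ i, g i ^ 2) = 6 * (t * (l : ℝ) ^ 2 * (((M / l : ℕ) : ℝ) ^ 2 * σ ^ 2 *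
        ∑ i, g i ^ 2)) + (8 * (t * (l : ℝ) ^ 2) + 4) * (1 + ∑ i, g i ^ 2) +
        6 * (t * (l : ℝ) ^ 2 * (((M / l : ℕ) : ℝ) ^ 2 * σ ^ 2)) := by ring
    rw [e1]
    have h4 : 0 ≤ 6 * (t * (l : ℝ) ^ 2 * (((M / l : ℕ) : ℝ) ^ 2 * σ ^ 2)) := by positivity
    have h5 : 0 ≤ (8 * (t * (l : ℝ) ^ 2) + 4) * ∑ i, g i ^ 2 := by positivity
    have e2 : t * (l : ℝ) ^ 2 * (6 * ∑ v, ((Bm *ᵥ g) v - av D0 x (Bm *ᵥ g)) ^ 2 + 8) + 4 =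
        6 * (t * (l : ℝ) ^ 2 * ∑ v, ((Bm *ᵥ g) v - av D0 x (Bm *ᵥ g)) ^ 2) +
        (8 * (t * (l : ℝ) ^ 2) + 4) := by ring
    rw [e2]
    have e3 : (8 * (t * (l : ℝ) ^ 2) + 4) * (1 + ∑ i, g i ^ 2) =
        (8 * (t * (l : ℝ) ^ 2) + 4) + (8 * (t * (l : ℝ) ^ 2) + 4) * ∑ i, g i ^ 2 := by ring
    rw [e3]
    linarith

end close

section num

variable {M B l Q : ℕ} [NeZero M] [NeZero B] [NeZero (M / l)] [NeZero (B / l)] {b : ℝ} {hb : 0 ≤ b}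
  {ξ D0 : ℕ} {t y cx Cx c4 C4 L q β c0 κ₀ A0 A' bo bb g K1 R : ℝ}

/-- **numbers**, cut field on the same torus, any law below the typical law -/
theorem mx_numc (C : Cst b cx Cx c4 C4 q β c0 κ₀ A0 A' bo bb g K1 R) (H : Nm ξ l Q D0 t L q A')
    (hD : A0 * L * ξ ≤ D0 * l) (hy : (R + 1) * L ^ 7 * y ≤ cx) (hy0 : 0 ≤ y)
    (T2 : Tn M b hb ξ l t y cx Cx c4 C4 L q K1)
    (T3 : Tn B b hb ξ l t y cx Cx c4 C4 L q K1) {X δ τ : ℝ} (hδ : 0 ≤ δ) (hδ1 : δ ≤ 1)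
    (hAP : APB B l Q b X t δ) (hX : K7 A' q c0 bb * L ^ 4 ≤ X) (hX0 : 0 < X)
    (hξl : (ξ : ℝ) ≤ (l : ℝ) ^ 2) (hl1 : (2 * (2 + q) + 4) * Kc A' g * L ^ 5 ≤ l)
    (hτ : 4 ≤ τ) (hτ2 : τ ≤ 8 * L)
    {A : Matrix (V (M / l)) (V (M / l)) ℝ} {c : ℝ} (hA : Dom A (t * (l : ℝ) ^ 2) c) (hc : c0 ≤ c)
    {I : Type*} [Fintype I] {Bm : Matrix (V (M / l)) I ℝ} (hB : Below A Bm)
    (hI : (Fintype.card I : ℝ) ≤ Real.exp (4 * q * L)) {pf : ℝ}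
    (hf : (gau I).real {g | τ < Rn M b t (lft (cl : V M → V (M / l)) (Bm *ᵥ g))} ≤ pf)
    (hpf : pf ≤ Real.exp (-((2 * (β + 3) + 2) * L))) {β₀ : ℝ} (hβ : βm q c0 β₀ ≤ β)
    (x : V (M / l)) :
    Integrable (fun g : I → ℝ => (Mx M l b t x (Bm *ᵥ g) -
      Mx M l b t x (cutm D0 x (Bm *ᵥ g))) ^ 2) (gau I) ∧
    ∫ g, (Mx M l b t x (Bm *ᵥ g) - Mx M l b t x (cutm D0 x (Bm *ᵥ g))) ^ 2 ∂(gau I) ≤
      Real.exp (-(β₀ * L)) ^ 2 := by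
  have hL := H.hL
  have hL0 := H.L0
  have hn := H.side T2.hl T2.up
  have P := pr2_of C H hD hy hy0 T2 T2 T3 hδ hδ1 hAP hX hX0 hξl hl1 hτ
  have hbb := C.bb1
  have hQ := H.Q0
  have hK5 := K5_pos C.hq C.hc0
  have h := mx_l2c P hA hB (σ := √(K5 q c0 * L) * Q) (a := √(7 * bb * L)) (pf := pf)
    (p := Real.exp (-((β + 3) * L)) ^ 2) (by positivity) (H.sig hn C.hc0 hc)
    (by
      rw [Real.one_le_sqrt]
      nlinarith)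
    (H.blk hn C.hc0 hc hbb hX) hf (by positivity) (pb_of C H T2 T2 T3 hc hpf) x
  refine ⟨h.1, h.2.trans ?_⟩
  have h1 := H.elo_le C.hC4 C.b1 hτ2 T2.up C.hA0
  have g0 : 0 ≤ elo M l ξ t c4 C4 τ (g * L * Q) (A0 * L) := by
    have h4 := C.hC4
    have ht := H.t0
    have hg := C.b1
    unfold elo
    positivity
  have hE := Real.exp_pos (-((β + 3) * L))
  exact fin_num hL C.hq C.hβ hβ g0 (by linarith)
    (by
      have ht := H.t0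
      positivity) (crude_num H C.hc0 hn) (Nat.cast_nonneg _) hI rfl

/-- the same for the typical law -/
theorem mx_numc_pin (C : Cst b cx Cx c4 C4 q β c0 κ₀ A0 A' bo bb g K1 R)
    (H : Nm ξ l Q D0 t L q A')
    (hD : A0 * L * ξ ≤ D0 * l) (hy : (R + 1) * L ^ 7 * y ≤ cx) (hy0 : 0 ≤ y)
    (T2 : Tn M b hb ξ l t y cx Cx c4 C4 L q K1)
    (T3 : Tn B b hb ξ l t y cx Cx c4 C4 L q K1) {X δ τ : ℝ} (hδ : 0 ≤ δ) (hδ1 : δ ≤ 1)
    (hAP : APB B l Q b X t δ) (hX : K7 A' q c0 bb * L ^ 4 ≤ X) (hX0 : 0 < X)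
    (hξl : (ξ : ℝ) ≤ (l : ℝ) ^ 2) (hl1 : (2 * (2 + q) + 4) * Kc A' g * L ^ 5 ≤ l)
    (hτ : 4 ≤ τ) (hτ2 : τ ≤ 8 * L)
    {A : Matrix (V (M / l)) (V (M / l)) ℝ} {c : ℝ} (hA : Dom A (t * (l : ℝ) ^ 2) c) (hc : c0 ≤ c)
    {pf : ℝ}
    (hf : (gau (V (M / l))).real {g | τ < Rn M b t (lft (cl : V M → V (M / l)) (pin A *ᵥ g))} ≤ pf)
    (hpf : pf ≤ Real.exp (-((2 * (β + 3) + 2) * L))) {β₀ : ℝ} (hβ : βm q c0 β₀ ≤ β)
    (x : V (M / l)) :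
    Integrable (fun g : V (M / l) → ℝ => (Mx M l b t x (pin A *ᵥ g) -
      Mx M l b t x (cutm D0 x (pin A *ᵥ g))) ^ 2) (gau (V (M / l))) ∧
    ∫ g, (Mx M l b t x (pin A *ᵥ g) - Mx M l b t x (cutm D0 x (pin A *ᵥ g))) ^ 2
      ∂(gau (V (M / l))) ≤ Real.exp (-(β₀ * L)) ^ 2 := by
  refine mx_numc C H hD hy hy0 T2 T3 hδ hδ1 hAP hX hX0 hξl hl1 hτ hτ2 hA hc (below_pin A) ?_ hf hpf
    hβ x
  have hn := H.side T2.hl T2.up
  rw [H358.card_V]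
  have h4 := pow_le_pow_left₀ (Nat.cast_nonneg _) hn 2
  rw [← Real.exp_nat_mul] at h4
  have e : ((2 : ℕ) : ℝ) * (2 * q * L) = 4 * q * L := by
    push_cast
    ring
  rwa [e] at h4

end num

end Vale.Agent.P159.H114.Ex
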