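import Vale.Agent.P159.H114.AE1

/-!
P159 (helper114): joint law of `(h, J)` in the channel, law of total covariance, LMMSE identity.
-/

namespace Vale.Agent.P159.H114

open Finset Matrix MeasureTheory
open Vale.Agent.P159.TM.H104 (EM Ex Cv K3 Lg li nh Gr)
open Vale.Agent.P159.H37

noncomputable section

/-! ### second moments of the standard Gaussian measure -/

section gauss

variable {I : Type*} [Fintype I]

lemma integrable_poly (u v : I → ℝ) (a b : ℝ) :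
    Integrable (fun g : I → ℝ => ((∑ i, u i * g i) + a) * ((∑ i, v i * g i) + b)) (gau I) := by
  have hu : ∀ (w : I → ℝ) (c : ℝ) (g : I → ℝ), |(∑ i, w i * g i) + c| ≤
      (1 + |c| + ∑ i, |w i|) * Real.exp (∑ i, |g i|) := by
    intro w c g
    have hg : 0 ≤ ∑ i, |g i| := Finset.sum_nonneg fun _ _ => abs_nonneg _
    have hw : 0 ≤ ∑ i, |w i| := Finset.sum_nonneg fun _ _ => abs_nonneg _
    have h1 : |∑ i, w i * g i| ≤ (∑ i, |w i|) * ∑ i, |g i| := by
      rw [Finset.sum_mul]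
      refine (Finset.abs_sum_le_sum_abs _ _).trans (Finset.sum_le_sum fun i _ => ?_)
      rw [abs_mul]
      exact mul_le_mul_of_nonneg_left
        (Finset.single_le_sum (f := fun i => |g i|) (fun _ _ => abs_nonneg _) (Finset.mem_univ i))
        (abs_nonneg _)
    have h2 := Real.add_one_le_exp (∑ i, |g i|)
    have h3 : 1 ≤ Real.exp (∑ i, |g i|) := Real.one_le_exp hg
    calc |(∑ i, w i * g i) + c| ≤ |∑ i, w i * g i| + |c| := abs_add_le _ _
      _ ≤ (∑ i, |w i|) * (∑ i, |g i|) + |c| := by linarith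
      _ ≤ (1 + |c| + ∑ i, |w i|) * Real.exp (∑ i, |g i|) := by
        nlinarith [abs_nonneg c, mul_nonneg hw hg, mul_nonneg (abs_nonneg c) hg]
  refine ((integrable_exp_norm (I := I) 2).const_mul
    ((1 + |a| + ∑ i, |u i|) * (1 + |b| + ∑ i, |v i|))).mono' ?_
    (Filter.Eventually.of_forall fun g => ?_)
  · exact Measurable.aestronglyMeasurable (by fun_prop)
  · rw [Real.norm_eq_abs, abs_mul]
    refine (mul_le_mul (hu u a g) (hu v b g) (abs_nonneg _) ?_).trans (le_of_eq ?_)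
    · have hw : 0 ≤ ∑ i, |u i| := Finset.sum_nonneg fun _ _ => abs_nonneg _
      have := abs_nonneg a
      positivity
    · rw [two_mul, Real.exp_add]
      ring

lemma gau_lin (u : I → ℝ) : ∫ g, (∑ i, u i * g i) ∂(gau I) = 0 := by
  have h := gau_integral_neg (I := I) fun g => ∑ i, u i * g i
  have e : (fun g : I → ℝ => ∑ i, u i * (-g) i) = fun g => -∑ i, u i * g i := by
    funext g
    simp [Finset.sum_neg_distrib]
  rw [e, integral_neg] at h
  linarith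

lemma gau_one_sq [DecidableEq I] (i j : I) :
    ∫ g : I → ℝ, g i * g j ∂(gau I) = if i = j then 1 else 0 := by
  unfold gau
  by_cases hij : i = j
  · subst hij
    rw [if_pos rfl]
    have h1 : ∀ g : I → ℝ, g i * g i = ∏ k, (if k = i then g k * g k else 1) := by
      intro g
      rw [Finset.prod_ite_eq' Finset.univ i fun k => g k * g k]
      simp
    simp only [h1]
    rw [integral_fintype_prod_eq_prod (𝕜 := ℝ) (μ := fun _ => ProbabilityTheory.gaussianReal 0 1)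
      fun (k : I) (x : ℝ) => if k = i then x * x else 1]
    rw [Finset.prod_eq_single i]
    · simp only [if_true]
      have hv := ProbabilityTheory.variance_id_gaussianReal (μ := 0) (v := 1)
      rw [ProbabilityTheory.variance_eq_integral aemeasurable_id] at hv
      simp only [id, ProbabilityTheory.integral_id_gaussianReal, sub_zero] at hv
      have : ∫ x : ℝ, x * x ∂(ProbabilityTheory.gaussianReal 0 1) =
          ∫ x : ℝ, x ^ 2 ∂(ProbabilityTheory.gaussianReal 0 1) := by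
        congr 1
        funext x
        ring
      rw [this]
      simpa using hv
    · intro k _ hk
      simp [hk]
    · simp
  · rw [if_neg hij]
    have h1 : ∀ g : I → ℝ, g i * g j = ∏ k, (if k = i then g k else if k = j then g k else 1) := by
      intro g
      have h2 : ∀ k, (if k = i then g k else if k = j then g k else (1 : ℝ)) =
          (if k = i then g k else 1) * (if k = j then g k else 1) := by
        intro k
        by_cases h3 : k = i
        · have h4 : k ≠ j := fun h => hij (h3 ▸ h)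
          simp [h3, hij]
        · simp [h3]
      simp only [h2]
      rw [Finset.prod_mul_distrib, Finset.prod_ite_eq' Finset.univ i fun k => g k,
        Finset.prod_ite_eq' Finset.univ j fun k => g k]
      simp
    simp only [h1]
    rw [integral_fintype_prod_eq_prod (𝕜 := ℝ) (μ := fun _ => ProbabilityTheory.gaussianReal 0 1)
      fun (k : I) (x : ℝ) => if k = i then x else if k = j then x else 1]
    refine Finset.prod_eq_zero (Finset.mem_univ i) ?_
    simp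

lemma gau_cov (u v : I → ℝ) :
    ∫ g, (∑ i, u i * g i) * (∑ i, v i * g i) ∂(gau I) = ∑ i, u i * v i := by
  classical
  have hi : ∀ i j, Integrable (fun g : I → ℝ => g i * g j) (gau I) := by
    intro i j
    have h := integrable_poly (I := I) (Pi.single i 1) (Pi.single j 1) 0 0
    have e : ∀ (k : I) (g : I → ℝ), ∑ l, (Pi.single k (1 : ℝ) : I → ℝ) l * g l = g k := by
      intro k g
      rw [Finset.sum_eq_single k]
      · simp
      · intro y _ hy
        simp [Pi.single_eq_of_ne hy]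
      · simp
    simpa only [e, add_zero] using h
  have e1 : ∀ g : I → ℝ, (∑ i, u i * g i) * (∑ i, v i * g i) =
      ∑ i, ∑ j, u i * v j * (g i * g j) := by
    intro g
    rw [Finset.sum_mul_sum]
    exact Finset.sum_congr rfl fun i _ => Finset.sum_congr rfl fun j _ => by ring
  simp only [e1]
  rw [integral_finsetSum _ fun i _ => integrable_finsetSum _ fun j _ => (hi i j).const_mul _]
  refine Finset.sum_congr rfl fun i _ => ?_
  rw [integral_finsetSum _ fun j _ => (hi i j).const_mul _, Finset.sum_eq_single i]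
  · rw [integral_const_mul, gau_one_sq, if_pos rfl, mul_one]
  · intro j _ hj
    rw [integral_const_mul, gau_one_sq, if_neg (Ne.symm hj), mul_zero]
  · simp

lemma gau_quad (u v : I → ℝ) (a b : ℝ) :
    ∫ g, ((∑ i, u i * g i) + a) * ((∑ i, v i * g i) + b) ∂(gau I) = (∑ i, u i * v i) + a * b := by
  have hi1 : Integrable (fun g : I → ℝ => (∑ i, u i * g i) * (∑ i, v i * g i)) (gau I) := by
    simpa only [add_zero] using integrable_poly u v 0 0
  have hl : ∀ w : I → ℝ, Integrable (fun g : I → ℝ => ∑ i, w i * g i) (gau I) := by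
    intro w
    have := integrable_poly w 0 0 1
    simpa using this
  have e : ∀ g : I → ℝ, ((∑ i, u i * g i) + a) * ((∑ i, v i * g i) + b) =
      (∑ i, u i * g i) * (∑ i, v i * g i) + (b * (∑ i, u i * g i) +
        (a * (∑ i, v i * g i) + a * b)) := by
    intro g
    ring
  simp only [e]
  have h3 : Integrable (fun g : I → ℝ => a * (∑ i, v i * g i) + a * b) (gau I) :=
    ((hl v).const_mul a).add (integrable_const _)
  have h2 : Integrable (fun g : I → ℝ => b * (∑ i, u i * g i) +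
      (a * (∑ i, v i * g i) + a * b)) (gau I) := ((hl u).const_mul b).add h3
  rw [integral_add hi1 h2, integral_add ((hl u).const_mul b) h3,
    integral_add ((hl v).const_mul a) (integrable_const _), integral_const_mul, integral_const_mul,
    gau_lin, gau_lin, gau_cov]
  simp

end gauss

/-! ### the joint law -/

variable {V : Type*} [Fintype V] {I : Type*} [Fintype I]

lemma T_mulw {μ : (V → ℤ) → ℝ} (F : (V → ℤ) → ℝ) (J : V → ℝ) :
    TM.H104.T μ J F = Zs (fun h => μ h * F h) J := by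
  unfold Zs TM.H104.T
  exact tsum_congr fun h => by ring

lemma em_mulw {μ : (V → ℤ) → ℝ} (hμ : EM μ) {F : (V → ℤ) → ℝ} (hF : Gr F) (h0 : ∀ h, 0 < F h) :
    EM fun h => μ h * F h := by
  refine ⟨fun h => mul_nonneg (hμ.nn h) (h0 h).le, ?_, fun C => ?_⟩
  · obtain ⟨h, hh⟩ := hμ.pos
    exact ⟨h, mul_pos hh (h0 h)⟩
  · refine (hμ.summ' hF C).congr fun h => ?_
    rw [abs_of_pos (h0 h)]
    ring

lemma post_mulw (μ : (V → ℤ) → ℝ) (F : (V → ℤ) → ℝ) (P : Matrix I V ℝ) :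
    post (fun h => μ h * F h) P = fun h => post μ P h * F h := by
  funext h
  unfold post
  ring

/-- joint law, positive `F` -/
lemma joint_pos {μ' : (V → ℤ) → ℝ} (hμ : EM μ') (J₁ : V → ℝ) (P : Matrix I V ℝ)
    {F : (V → ℤ) → ℝ} (hF : Gr F) (h0 : ∀ h, 0 < F h) {Ψ : (V → ℝ) → ℝ} (hΨ : EGr Ψ) :
    Integrable (fun g : I → ℝ => Ψ (J₁ + Pᵀ *ᵥ g) *
      TM.H104.T (post μ' P) (J₁ + Pᵀ *ᵥ g) F) (gau I) ∧
    HasSum (fun h : V → ℤ => F h * (μ' h * Real.exp (li J₁ h)) *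
        ∫ g, Ψ (J₁ + Pᵀ *ᵥ (P *ᵥ re h + g)) ∂(gau I))
      (∫ g, Ψ (J₁ + Pᵀ *ᵥ g) * TM.H104.T (post μ' P) (J₁ + Pᵀ *ᵥ g) F ∂(gau I)) := by
  have h1 := ch_num (em_mulw hμ hF h0) J₁ P hΨ
  have h2 := ch_int (em_mulw hμ hF h0) J₁ P hΨ
  rw [post_mulw] at h1 h2
  simp only [← T_mulw] at h1 h2
  refine ⟨h2, ?_⟩
  have e : (fun h : V → ℤ => F h * (μ' h * Real.exp (li J₁ h)) *
        ∫ g, Ψ (J₁ + Pᵀ *ᵥ (P *ᵥ re h + g)) ∂(gau I)) = fun h : V → ℤ =>
      μ' h * F h * Real.exp (li J₁ h) * ∫ g, Ψ (J₁ + Pᵀ *ᵥ (P *ᵥ re h + g)) ∂(gau I) := by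
    funext h
    ring
  rw [e]
  exact h1

/-- joint law of `(h, J)`, any `F` of exponential growth -/
theorem joint {μ' : (V → ℤ) → ℝ} (hμ : EM μ') (J₁ : V → ℝ) (P : Matrix I V ℝ)
    {F : (V → ℤ) → ℝ} (hF : Gr F) {Ψ : (V → ℝ) → ℝ} (hΨ : EGr Ψ) :
    Integrable (fun g : I → ℝ => Ψ (J₁ + Pᵀ *ᵥ g) *
      TM.H104.T (post μ' P) (J₁ + Pᵀ *ᵥ g) F) (gau I) ∧
    HasSum (fun h : V → ℤ => F h * (μ' h * Real.exp (li J₁ h)) *
        ∫ g, Ψ (J₁ + Pᵀ *ᵥ (P *ᵥ re h + g)) ∂(gau I))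
      (∫ g, Ψ (J₁ + Pᵀ *ᵥ g) * TM.H104.T (post μ' P) (J₁ + Pᵀ *ᵥ g) F ∂(gau I)) := by
  obtain ⟨C, hC, hb⟩ := hF.pos
  have hG : Gr fun h : V → ℤ => (C + 1) * Real.exp (C * nh h) :=
    Gr.mk' (A := C + 1) (B := C) fun h => by
      rw [abs_of_pos (mul_pos (by linarith) (Real.exp_pos _))]
  have hG0 : ∀ h : V → ℤ, 0 < (C + 1) * Real.exp (C * nh h) := fun h =>
    mul_pos (by linarith) (Real.exp_pos _)
  have hF1 : Gr fun h : V → ℤ => F h + (C + 1) * Real.exp (C * nh h) := hF.add hG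
  have hF10 : ∀ h : V → ℤ, 0 < F h + (C + 1) * Real.exp (C * nh h) := by
    intro h
    have h1 := neg_abs_le (F h)
    have h2 := hb h
    have h3 := Real.exp_pos (C * nh h)
    nlinarith
  obtain ⟨i1, s1⟩ := joint_pos hμ J₁ P hF1 hF10 hΨ
  obtain ⟨i2, s2⟩ := joint_pos hμ J₁ P hG hG0 hΨ
  have hp := em_post hμ P
  have e1 : ∀ g : I → ℝ, Ψ (J₁ + Pᵀ *ᵥ g) * TM.H104.T (post μ' P) (J₁ + Pᵀ *ᵥ g) F =
      Ψ (J₁ + Pᵀ *ᵥ g) * TM.H104.T (post μ' P) (J₁ + Pᵀ *ᵥ g)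
        (fun h => F h + (C + 1) * Real.exp (C * nh h)) -
      Ψ (J₁ + Pᵀ *ᵥ g) * TM.H104.T (post μ' P) (J₁ + Pᵀ *ᵥ g)
        (fun h => (C + 1) * Real.exp (C * nh h)) := by
    intro g
    rw [TM.H104.T_add hp hF hG]
    ring
  refine ⟨(i1.sub i2).congr (Filter.Eventually.of_forall fun g => (e1 g).symm), ?_⟩
  simp only [e1]
  rw [integral_sub i1 i2]
  have e2 : (fun h : V → ℤ => F h * (μ' h * Real.exp (li J₁ h)) *
        ∫ g, Ψ (J₁ + Pᵀ *ᵥ (P *ᵥ re h + g)) ∂(gau I)) = fun h : V → ℤ =>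
      (F h + (C + 1) * Real.exp (C * nh h)) * (μ' h * Real.exp (li J₁ h)) *
        (∫ g, Ψ (J₁ + Pᵀ *ᵥ (P *ᵥ re h + g)) ∂(gau I)) -
      (C + 1) * Real.exp (C * nh h) * (μ' h * Real.exp (li J₁ h)) *
        ∫ g, Ψ (J₁ + Pᵀ *ᵥ (P *ᵥ re h + g)) ∂(gau I) := by
    funext h
    ring
  rw [e2]
  exact s1.sub s2

/-- **joint law in the channel**: `E_ν [E[F(h) | J] Ψ(J)] = E' [F(h) Ψ(J₁ + Pᵀ (P h + g))]` -/
theorem Ech_joint {μ' : (V → ℤ) → ℝ} (hμ : EM μ') (J₁ : V → ℝ) (P : Matrix I V ℝ)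
    {F : (V → ℤ) → ℝ} (hF : Gr F) {Ψ : (V → ℝ) → ℝ} (hΨ : EGr Ψ) :
    Ech μ' J₁ P (fun J => Ex (post μ' P) J F * Ψ J) =
      Ex μ' J₁ fun h => F h * ∫ g, Ψ (J₁ + Pᵀ *ᵥ (P *ᵥ re h + g)) ∂(gau I) := by
  have hp := em_post hμ P
  obtain ⟨_, h1⟩ := joint hμ J₁ P hF hΨ
  unfold Ech
  rw [ch_norm hμ]
  have e1 : ∀ g : I → ℝ, Ex (post μ' P) (J₁ + Pᵀ *ᵥ g) F * Ψ (J₁ + Pᵀ *ᵥ g) *
      Zs (post μ' P) (J₁ + Pᵀ *ᵥ g) =
      Ψ (J₁ + Pᵀ *ᵥ g) * TM.H104.T (post μ' P) (J₁ + Pᵀ *ᵥ g) F := by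
    intro g
    have hz : Zs (post μ' P) (J₁ + Pᵀ *ᵥ g) ≠ 0 := (Zs_pos hp _).ne'
    unfold Ex
    change TM.H104.T (post μ' P) (J₁ + Pᵀ *ᵥ g) F / Zs (post μ' P) (J₁ + Pᵀ *ᵥ g) *
      Ψ (J₁ + Pᵀ *ᵥ g) * Zs (post μ' P) (J₁ + Pᵀ *ᵥ g) = _
    field_simp
  simp only [e1]
  rw [← h1.tsum_eq]
  unfold Ex Zs
  congr 1
  unfold TM.H104.T
  refine tsum_congr fun h => ?_
  ring

/-- posterior means average to the prior mean -/
theorem Ech_mean {μ' : (V → ℤ) → ℝ} (hμ : EM μ') (J₁ : V → ℝ) (P : Matrix I V ℝ)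
    {F : (V → ℤ) → ℝ} (hF : Gr F) :
    Ech μ' J₁ P (fun J => Ex (post μ' P) J F) = Ex μ' J₁ F := by
  have h := Ech_joint hμ J₁ P hF (EGr.const (V := V) 1)
  simpa using h

/-- linear functions of the source -/
lemma EGr.lin (b : V → ℝ) : EGr fun J : V → ℝ => ∑ x, b x * J x := by
  refine EGr.mk' (by fun_prop) (A := ∑ x, |b x|) (B := 1) fun J => ?_
  have hJ : 0 ≤ ∑ x, |J x| := Finset.sum_nonneg fun _ _ => abs_nonneg _
  have h1 : |∑ x, b x * J x| ≤ (∑ x, |b x|) * ∑ x, |J x| := by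
    rw [Finset.sum_mul]
    refine (Finset.abs_sum_le_sum_abs _ _).trans (Finset.sum_le_sum fun i _ => ?_)
    rw [abs_mul]
    exact mul_le_mul_of_nonneg_left
      (Finset.single_le_sum (f := fun i => |J i|) (fun _ _ => abs_nonneg _) (Finset.mem_univ i))
      (abs_nonneg _)
  refine h1.trans (mul_le_mul_of_nonneg_left ?_ (Finset.sum_nonneg fun _ _ => abs_nonneg _))
  rw [one_mul]
  linarith [Real.add_one_le_exp (∑ x, |J x|)]

/-- the linear function `<b, J>` along the channel -/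
lemma lin_obs (b : V → ℝ) (P : Matrix I V ℝ) (g : I → ℝ) :
    ∑ x, b x * (Pᵀ *ᵥ g) x = ∑ i, (P *ᵥ b) i * g i := by
  have h1 : ∑ x, b x * (Pᵀ *ᵥ g) x = b ⬝ᵥ (Pᵀ *ᵥ g) := rfl
  have h2 : ∑ i, (P *ᵥ b) i * g i = (P *ᵥ b) ⬝ᵥ g := rfl
  rw [h1, h2, dotProduct_mulVec, vecMul_transpose]

lemma lin_li (b : V → ℝ) (P : Matrix I V ℝ) (h : V → ℤ) :
    ∑ i, (P *ᵥ b) i * (P *ᵥ re h) i = li ((Pᵀ * P) *ᵥ b) h := by
  rw [li_re, ← mulVec_mulVec]
  have h2 : ∑ i, (P *ᵥ b) i * (P *ᵥ re h) i = (P *ᵥ b) ⬝ᵥ (P *ᵥ re h) := rfl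
  rw [h2, dotProduct_mulVec, ← mulVec_transpose]

/-- `E_ν [m_a(J) <b, J>] = <a, G' S b>` (`S = Pᵀ P`, source `0`) -/
theorem Ech_mlin {μ' : (V → ℤ) → ℝ} (hμ : EM μ') (P : Matrix I V ℝ) (a b : V → ℝ) :
    Ech μ' 0 P (fun J => Ex (post μ' P) J (li a) * ∑ x, b x * J x) =
      Ex μ' 0 fun h => li a h * li ((Pᵀ * P) *ᵥ b) h := by
  rw [Ech_joint hμ 0 P (Gr.li a) (EGr.lin b)]
  congr 1
  funext h
  congr 1
  simp only [zero_add, lin_obs]
  have e : ∀ g : I → ℝ, ∑ i, (P *ᵥ b) i * (P *ᵥ re h + g) i =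
      (∑ i, (P *ᵥ b) i * g i) + li ((Pᵀ * P) *ᵥ b) h := by
    intro g
    rw [← lin_li, ← Finset.sum_add_distrib]
    refine Finset.sum_congr rfl fun i _ => ?_
    rw [Pi.add_apply]
    ring
  simp only [e]
  have hl : Integrable (fun g : I → ℝ => ∑ i, (P *ᵥ b) i * g i) (gau I) := by
    have := integrable_poly (P *ᵥ b) 0 0 1
    simpa using this
  rw [integral_add hl (integrable_const _), gau_lin]
  simp

/-- `E_ν [<a, J> <b, J>] = <a, (S G' S + S) b>` -/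
theorem Ech_linlin {μ' : (V → ℤ) → ℝ} (hμ : EM μ') (P : Matrix I V ℝ) (a b : V → ℝ) :
    Ech μ' 0 P (fun J => (∑ x, a x * J x) * ∑ x, b x * J x) =
      Ex μ' 0 (fun h => li ((Pᵀ * P) *ᵥ a) h * li ((Pᵀ * P) *ᵥ b) h) +
        ∑ i, (P *ᵥ a) i * (P *ᵥ b) i := by
  rw [Ech_eq hμ 0 P ((EGr.lin a).mul (EGr.lin b))]
  have e : ∀ h : V → ℤ, ∫ g, (∑ x, a x * ((0 : V → ℝ) + Pᵀ *ᵥ (P *ᵥ re h + g)) x) *
      (∑ x, b x * ((0 : V → ℝ) + Pᵀ *ᵥ (P *ᵥ re h + g)) x) ∂(gau I) =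
      li ((Pᵀ * P) *ᵥ a) h * li ((Pᵀ * P) *ᵥ b) h + ∑ i, (P *ᵥ a) i * (P *ᵥ b) i := by
    intro h
    simp only [zero_add, lin_obs]
    have e2 : ∀ (c : V → ℝ) (g : I → ℝ), ∑ i, (P *ᵥ c) i * (P *ᵥ re h + g) i =
        (∑ i, (P *ᵥ c) i * g i) + li ((Pᵀ * P) *ᵥ c) h := by
      intro c g
      rw [← lin_li, ← Finset.sum_add_distrib]
      refine Finset.sum_congr rfl fun i _ => ?_
      rw [Pi.add_apply]
      ring
    simp only [e2]
    rw [gau_quad]
    ring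
  simp only [e]
  rw [TM.H104.Ex_add hμ ((Gr.li _).mul (Gr.li _)) (Gr.const _), TM.H104.Ex_const hμ]

/-- `m_a m_b` is integrable in the channel -/
lemma int_mm {μ' : (V → ℤ) → ℝ} (hμ : EM μ') (J₁ : V → ℝ) (P : Matrix I V ℝ) (a b : V → ℝ) :
    Integrable (fun g : I → ℝ => Ex (post μ' P) (J₁ + Pᵀ *ᵥ g) (li a) *
      Ex (post μ' P) (J₁ + Pᵀ *ᵥ g) (li b) * Zs (post μ' P) (J₁ + Pᵀ *ᵥ g)) (gau I) := by
  have hp := em_post hμ P
  have hga : Gr fun h : V → ℤ => li a h * li a h := (Gr.li a).mul (Gr.li a)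
  have hgb : Gr fun h : V → ℤ => li b h * li b h := (Gr.li b).mul (Gr.li b)
  have ia := (joint hμ J₁ P hga (EGr.const (V := V) 1)).1
  have ib := (joint hμ J₁ P hgb (EGr.const (V := V) 1)).1
  simp only [one_mul] at ia ib
  refine (ia.add ib).mono' ?_ (Filter.Eventually.of_forall fun g => ?_)
  · have hc : Continuous fun g : I → ℝ => J₁ + Pᵀ *ᵥ g := continuous_const.add (continuous_obs P)
    have c1 := (TM.H104.continuous_Ex hp (Gr.li a)).comp hc
    have c2 := (TM.H104.continuous_Ex hp (Gr.li b)).comp hc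
    have c3 := (continuous_Zs hp).comp hc
    exact ((c1.mul c2).mul c3).aestronglyMeasurable
  · set J : V → ℝ := J₁ + Pᵀ *ᵥ g with hJ
    have hZ := Zs_pos hp J
    have h1 := Cv_self_nonneg hp J (Gr.li a)
    have h2 := Cv_self_nonneg hp J (Gr.li b)
    unfold Cv at h1 h2
    rw [Real.norm_eq_abs, abs_mul, abs_of_pos hZ, Pi.add_apply]
    have h3 : TM.H104.T (post μ' P) J (fun h => li a h * li a h) =
        Ex (post μ' P) J (fun h => li a h * li a h) * Zs (post μ' P) J := by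
      have hz : Zs (post μ' P) J ≠ 0 := hZ.ne'
      unfold Ex
      change _ = TM.H104.T (post μ' P) J _ / Zs (post μ' P) J * Zs (post μ' P) J
      field_simp
    have h4 : TM.H104.T (post μ' P) J (fun h => li b h * li b h) =
        Ex (post μ' P) J (fun h => li b h * li b h) * Zs (post μ' P) J := by
      have hz : Zs (post μ' P) J ≠ 0 := hZ.ne'
      unfold Ex
      change _ = TM.H104.T (post μ' P) J _ / Zs (post μ' P) J * Zs (post μ' P) J
      field_simp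
    rw [h3, h4, ← add_mul]
    refine mul_le_mul_of_nonneg_right ?_ hZ.le
    rw [abs_mul]
    nlinarith [sq_nonneg (|Ex (post μ' P) J (li a)| - |Ex (post μ' P) J (li b)|),
      sq_abs (Ex (post μ' P) J (li a)), sq_abs (Ex (post μ' P) J (li b)),
      abs_nonneg (Ex (post μ' P) J (li a)), abs_nonneg (Ex (post μ' P) J (li b))]

/-- **law of total covariance** -/
theorem Ech_tot {μ' : (V → ℤ) → ℝ} (hμ : EM μ') (J₁ : V → ℝ) (P : Matrix I V ℝ) (a b : V → ℝ) :
    Ech μ' J₁ P (fun J => Cv (post μ' P) J (li a) (li b)) =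
      Ex μ' J₁ (fun h => li a h * li b h) -
        Ech μ' J₁ P fun J => Ex (post μ' P) J (li a) * Ex (post μ' P) J (li b) := by
  have hp := em_post hμ P
  have hg : Gr fun h : V → ℤ => li a h * li b h := (Gr.li a).mul (Gr.li b)
  rw [← Ech_mean hμ J₁ P hg]
  unfold Ech
  rw [← sub_div]
  congr 1
  have i1 := (joint hμ J₁ P hg (EGr.const (V := V) 1)).1
  simp only [one_mul] at i1
  have i2 : Integrable (fun g : I → ℝ => Ex (post μ' P) (J₁ + Pᵀ *ᵥ g) (fun h => li a h * li b h) *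
      Zs (post μ' P) (J₁ + Pᵀ *ᵥ g)) (gau I) := by
    refine i1.congr (Filter.Eventually.of_forall fun g => ?_)
    have hz : Zs (post μ' P) (J₁ + Pᵀ *ᵥ g) ≠ 0 := (Zs_pos hp _).ne'
    unfold Ex
    change _ = TM.H104.T (post μ' P) _ _ / Zs (post μ' P) _ * Zs (post μ' P) _
    field_simp
  rw [← integral_sub i2 (int_mm hμ J₁ P a b)]
  congr 1
  funext g
  unfold Cv
  ring

end

end Vale.Agent.P159.H114
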