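import Mathlib

/-!
P159 (helper114): elementary `L²` facts on a probability space (Cauchy-Schwarz, projections).
-/

namespace Vale.Agent.P159.H114

open MeasureTheory Finset

variable {Ω : Type*} [MeasurableSpace Ω] {ν : Measure Ω}

lemma l2_mul {f g : Ω → ℝ} (hf : MemLp f 2 ν) (hg : MemLp g 2 ν) :
    Integrable (fun ω => f ω * g ω) ν := hf.integrable_mul hg

lemma l2_sq {f : Ω → ℝ} (hf : MemLp f 2 ν) : Integrable (fun ω => f ω ^ 2) ν := hf.integrable_sq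

lemma int_lin2 {f g : Ω → ℝ} (hf : Integrable f ν) (hg : Integrable g ν) (a b : ℝ) :
    ∫ ω, (a * f ω + b * g ω) ∂ν = a * (∫ ω, f ω ∂ν) + b * ∫ ω, g ω ∂ν := by
  have h1 : Integrable (fun ω => a * f ω) ν := hf.const_mul a
  have h2 : Integrable (fun ω => b * g ω) ν := hg.const_mul b
  rw [integral_add h1 h2, integral_const_mul, integral_const_mul]

lemma int_lin3 {f g h : Ω → ℝ} (hf : Integrable f ν) (hg : Integrable g ν) (hh : Integrable h ν)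
    (a b c : ℝ) : ∫ ω, (a * f ω + b * g ω + c * h ω) ∂ν =
      a * (∫ ω, f ω ∂ν) + b * (∫ ω, g ω ∂ν) + c * ∫ ω, h ω ∂ν := by
  have h1 : Integrable (fun ω => a * f ω + b * g ω) ν := (hf.const_mul a).add (hg.const_mul b)
  have h2 : Integrable (fun ω => c * h ω) ν := hh.const_mul c
  rw [integral_add h1 h2, int_lin2 hf hg, integral_const_mul]

lemma int_lin4 {f g h k : Ω → ℝ} (hf : Integrable f ν) (hg : Integrable g ν)
    (hh : Integrable h ν) (hk : Integrable k ν) (a b c d : ℝ) :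
    ∫ ω, (a * f ω + b * g ω + c * h ω + d * k ω) ∂ν =
      a * (∫ ω, f ω ∂ν) + b * (∫ ω, g ω ∂ν) + c * (∫ ω, h ω ∂ν) + d * ∫ ω, k ω ∂ν := by
  have h1 : Integrable (fun ω => a * f ω + b * g ω + c * h ω) ν :=
    ((hf.const_mul a).add (hg.const_mul b)).add (hh.const_mul c)
  have h2 : Integrable (fun ω => d * k ω) ν := hk.const_mul d
  rw [integral_add h1 h2, int_lin3 hf hg hh, integral_const_mul]

/-- Cauchy-Schwarz, squared -/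
lemma cs_sq {f g : Ω → ℝ} (hf : MemLp f 2 ν) (hg : MemLp g 2 ν) :
    (∫ ω, f ω * g ω ∂ν) ^ 2 ≤ (∫ ω, f ω ^ 2 ∂ν) * ∫ ω, g ω ^ 2 ∂ν := by
  set a := ∫ ω, f ω ^ 2 ∂ν with ha
  set b := ∫ ω, f ω * g ω ∂ν with hb
  set c := ∫ ω, g ω ^ 2 ∂ν with hc
  have key : ∀ t : ℝ, 0 ≤ c * (t * t) + (-2 * b) * t + a := by
    intro t
    have h1 : ∫ ω, (f ω - t * g ω) ^ 2 ∂ν = a - 2 * t * b + t ^ 2 * c := by
      have e : ∀ ω, (f ω - t * g ω) ^ 2 =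
          1 * f ω ^ 2 + (-(2 * t)) * (f ω * g ω) + t ^ 2 * g ω ^ 2 := by
        intro ω; ring
      simp only [e]
      rw [int_lin3 (l2_sq hf) (l2_mul hf hg) (l2_sq hg)]
      ring
    have h2 : 0 ≤ ∫ ω, (f ω - t * g ω) ^ 2 ∂ν := integral_nonneg fun ω => sq_nonneg _
    rw [h1] at h2
    linarith
  have := discrim_le_zero key
  unfold discrim at this
  nlinarith

lemma cs_abs {f g : Ω → ℝ} (hf : MemLp f 2 ν) (hg : MemLp g 2 ν) :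
    |∫ ω, f ω * g ω ∂ν| ≤ Real.sqrt (∫ ω, f ω ^ 2 ∂ν) * Real.sqrt (∫ ω, g ω ^ 2 ∂ν) := by
  have h := cs_sq hf hg
  have h0 : 0 ≤ ∫ ω, f ω ^ 2 ∂ν := integral_nonneg fun ω => sq_nonneg _
  rw [← Real.sqrt_mul h0]
  exact Real.abs_le_sqrt h

/-- numerical form of Cauchy-Schwarz -/
lemma cs_le {f g : Ω → ℝ} (hf : MemLp f 2 ν) (hg : MemLp g 2 ν) {A B : ℝ} (hA : 0 ≤ A)
    (hB : 0 ≤ B) (h1 : ∫ ω, f ω ^ 2 ∂ν ≤ A ^ 2) (h2 : ∫ ω, g ω ^ 2 ∂ν ≤ B ^ 2) :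
    |∫ ω, f ω * g ω ∂ν| ≤ A * B := by
  refine (cs_abs hf hg).trans (mul_le_mul ?_ ?_ (Real.sqrt_nonneg _) hA)
  · rw [Real.sqrt_le_left hA]; exact h1
  · rw [Real.sqrt_le_left hB]; exact h2

lemma l1_le [IsProbabilityMeasure ν] {f g : Ω → ℝ} (hf : MemLp f 2 ν)
    (hg : AEStronglyMeasurable g ν) (hg1 : ∀ ω, |g ω| ≤ 1) {A : ℝ} (hA : 0 ≤ A)
    (h1 : ∫ ω, f ω ^ 2 ∂ν ≤ A ^ 2) : |∫ ω, f ω * g ω ∂ν| ≤ A := by
  have hg2 : MemLp g 2 ν := MemLp.of_bound hg 1 (Filter.Eventually.of_forall fun ω => by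
    rw [Real.norm_eq_abs]; exact hg1 ω)
  have h2 : ∫ ω, g ω ^ 2 ∂ν ≤ 1 ^ 2 := by
    have : ∫ ω, g ω ^ 2 ∂ν ≤ ∫ _ω, (1 : ℝ) ∂ν := by
      refine integral_mono (l2_sq hg2) (integrable_const _) fun ω => ?_
      have := hg1 ω
      have h3 : g ω ^ 2 = |g ω| ^ 2 := (sq_abs _).symm
      simp only
      rw [h3]
      have h4 := abs_nonneg (g ω)
      nlinarith
    simpa using this
  simpa using cs_le hf hg2 hA zero_le_one h1 h2

/-- the squared distance to the line spanned by `f` -/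
noncomputable def prj (ν : Measure Ω) (f Y : Ω → ℝ) : ℝ :=
  (∫ ω, Y ω ^ 2 ∂ν) - (∫ ω, Y ω * f ω ∂ν) ^ 2 / ∫ ω, f ω ^ 2 ∂ν

lemma prj_eq {f Y : Ω → ℝ} (hf : MemLp f 2 ν) (hY : MemLp Y 2 ν) (h0 : 0 < ∫ ω, f ω ^ 2 ∂ν) :
    ∃ q : ℝ, prj ν f Y = ∫ ω, (Y ω - q * f ω) ^ 2 ∂ν ∧ ∫ ω, (Y ω - q * f ω) * f ω ∂ν = 0 := by
  refine ⟨(∫ ω, Y ω * f ω ∂ν) / ∫ ω, f ω ^ 2 ∂ν, ?_, ?_⟩
  · set q := (∫ ω, Y ω * f ω ∂ν) / ∫ ω, f ω ^ 2 ∂ν with hq
    have e : ∀ ω, (Y ω - q * f ω) ^ 2 =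
        1 * Y ω ^ 2 + (-(2 * q)) * (Y ω * f ω) + q ^ 2 * f ω ^ 2 := by
      intro ω; ring
    simp only [e]
    rw [int_lin3 (l2_sq hY) (l2_mul hY hf) (l2_sq hf)]
    unfold prj
    rw [hq]
    field_simp
    ring
  · set q := (∫ ω, Y ω * f ω ∂ν) / ∫ ω, f ω ^ 2 ∂ν with hq
    have e : ∀ ω, (Y ω - q * f ω) * f ω = 1 * (Y ω * f ω) + (-q) * f ω ^ 2 := by
      intro ω; ring
    simp only [e]
    rw [int_lin2 (l2_mul hY hf) (l2_sq hf), hq]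
    field_simp
    ring

lemma prj_nonneg {f Y : Ω → ℝ} (hf : MemLp f 2 ν) (hY : MemLp Y 2 ν) : 0 ≤ prj ν f Y := by
  have h0 : 0 ≤ ∫ ω, f ω ^ 2 ∂ν := integral_nonneg fun ω => sq_nonneg _
  rcases h0.eq_or_lt with h | h
  · unfold prj
    rw [← h, div_zero, sub_zero]
    exact integral_nonneg fun ω => sq_nonneg _
  · obtain ⟨q, hq, _⟩ := prj_eq hf hY h
    rw [hq]
    exact integral_nonneg fun ω => sq_nonneg _

lemma prj_le {f Y : Ω → ℝ} : prj ν f Y ≤ ∫ ω, Y ω ^ 2 ∂ν := by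
  unfold prj
  have : 0 ≤ (∫ ω, Y ω * f ω ∂ν) ^ 2 / ∫ ω, f ω ^ 2 ∂ν :=
    div_nonneg (sq_nonneg _) (integral_nonneg fun ω => sq_nonneg _)
  linarith

/-- perturbation of the projected norm: `Y = r f + M + e` -/
lemma prj_pert {f Y Mn e : Ω → ℝ} (hf : MemLp f 2 ν) (hM : MemLp Mn 2 ν) (he : MemLp e 2 ν)
    {r : ℝ} (hY : ∀ ω, Y ω = r * f ω + Mn ω + e ω) (h0 : 0 < ∫ ω, f ω ^ 2 ∂ν) {A B : ℝ}
    (hA : 0 ≤ A) (hB : 0 ≤ B) (h1 : ∫ ω, Mn ω ^ 2 ∂ν ≤ A ^ 2) (h2 : ∫ ω, e ω ^ 2 ∂ν ≤ B ^ 2) :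
    |prj ν f Y - prj ν f Mn| ≤ 2 * A * B + B ^ 2 := by
  set a := ∫ ω, f ω ^ 2 ∂ν with ha
  have iM := l2_sq hM
  have ie := l2_sq he
  have iff' := l2_sq hf
  have iMe := l2_mul hM he
  have iMf := l2_mul hM hf
  have ief := l2_mul he hf
  set mm := ∫ ω, Mn ω ^ 2 ∂ν with hmm
  set ee := ∫ ω, e ω ^ 2 ∂ν with hee
  set me := ∫ ω, Mn ω * e ω ∂ν with hme
  set mf := ∫ ω, Mn ω * f ω ∂ν with hmf
  set ef := ∫ ω, e ω * f ω ∂ν with hef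
  have hYY : ∫ ω, Y ω ^ 2 ∂ν = r ^ 2 * a + mm + ee + 2 * r * mf + 2 * r * ef + 2 * me := by
    have e1 : ∀ ω, Y ω ^ 2 = 1 * (r ^ 2 * f ω ^ 2 + 1 * Mn ω ^ 2 + 1 * e ω ^ 2) +
        1 * ((2 * r) * (Mn ω * f ω) + (2 * r) * (e ω * f ω) + 2 * (Mn ω * e ω)) := by
      intro ω; rw [hY ω]; ring
    simp only [e1]
    have i1 : Integrable (fun ω => r ^ 2 * f ω ^ 2 + 1 * Mn ω ^ 2 + 1 * e ω ^ 2) ν :=
      ((iff'.const_mul _).add (iM.const_mul _)).add (ie.const_mul _)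
    have i2 : Integrable (fun ω => (2 * r) * (Mn ω * f ω) + (2 * r) * (e ω * f ω) +
        2 * (Mn ω * e ω)) ν := ((iMf.const_mul _).add (ief.const_mul _)).add (iMe.const_mul _)
    rw [int_lin2 i1 i2, int_lin3 iff' iM ie, int_lin3 iMf ief iMe]
    ring
  have hYf : ∫ ω, Y ω * f ω ∂ν = r * a + mf + ef := by
    have e1 : ∀ ω, Y ω * f ω = r * f ω ^ 2 + 1 * (Mn ω * f ω) + 1 * (e ω * f ω) := by
      intro ω; rw [hY ω]; ring
    simp only [e1]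
    rw [int_lin3 iff' iMf ief, one_mul, one_mul]
  have hd : prj ν f Y - prj ν f Mn = (ee - ef ^ 2 / a) + 2 * (me - mf * ef / a) := by
    unfold prj
    rw [hYY, hYf, ← ha, ← hmm, ← hmf]
    field_simp
    ring
  -- the projected inner product
  have hE : 0 ≤ ee - ef ^ 2 / a := by
    have := prj_nonneg hf he
    unfold prj at this
    exact this
  have hE2 : ee - ef ^ 2 / a ≤ B ^ 2 := by
    have : 0 ≤ ef ^ 2 / a := by positivity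
    linarith
  have hM0 : 0 ≤ mm - mf ^ 2 / a := by
    have := prj_nonneg hf hM
    unfold prj at this
    exact this
  have hM2 : mm - mf ^ 2 / a ≤ A ^ 2 := by
    have : 0 ≤ mf ^ 2 / a := by positivity
    linarith
  have hcross : (me - mf * ef / a) ^ 2 ≤ (mm - mf ^ 2 / a) * (ee - ef ^ 2 / a) := by
    set q1 := mf / a with hq1
    set q2 := ef / a with hq2
    have hf1 : MemLp (fun ω => Mn ω - q1 * f ω) 2 ν := hM.sub (hf.const_mul q1)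
    have hf2 : MemLp (fun ω => e ω - q2 * f ω) 2 ν := he.sub (hf.const_mul q2)
    have h := cs_sq hf1 hf2
    have e1 : ∫ ω, (Mn ω - q1 * f ω) * (e ω - q2 * f ω) ∂ν = me - mf * ef / a := by
      have e0 : ∀ ω, (Mn ω - q1 * f ω) * (e ω - q2 * f ω) =
          1 * (Mn ω * e ω) + (-q1) * (e ω * f ω) + (-q2) * (Mn ω * f ω) + (q1 * q2) * f ω ^ 2 := by
        intro ω; ring
      simp only [e0]
      rw [int_lin4 iMe ief iMf iff', ← ha, ← hme, ← hef, ← hmf, hq1, hq2]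
      field_simp
      ring
    have e2 : ∫ ω, (Mn ω - q1 * f ω) ^ 2 ∂ν = mm - mf ^ 2 / a := by
      have e0 : ∀ ω, (Mn ω - q1 * f ω) ^ 2 =
          1 * Mn ω ^ 2 + (-(2 * q1)) * (Mn ω * f ω) + q1 ^ 2 * f ω ^ 2 := by
        intro ω; ring
      simp only [e0]
      rw [int_lin3 iM iMf iff', ← ha, ← hmm, ← hmf, hq1]
      field_simp
      ring
    have e3 : ∫ ω, (e ω - q2 * f ω) ^ 2 ∂ν = ee - ef ^ 2 / a := by
      have e0 : ∀ ω, (e ω - q2 * f ω) ^ 2 =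
          1 * e ω ^ 2 + (-(2 * q2)) * (e ω * f ω) + q2 ^ 2 * f ω ^ 2 := by
        intro ω; ring
      simp only [e0]
      rw [int_lin3 ie ief iff', ← ha, ← hee, ← hef, hq2]
      field_simp
      ring
    rw [e1, e2, e3] at h
    exact h
  have hc2 : |me - mf * ef / a| ≤ A * B := by
    refine abs_le_of_sq_le_sq (hcross.trans ?_) (mul_nonneg hA hB)
    rw [mul_pow]
    exact mul_le_mul hM2 hE2 hE (sq_nonneg A)
  rw [hd]
  rw [abs_le] at hc2 ⊢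
  constructor <;> nlinarith [hc2.1, hc2.2]

end Vale.Agent.P159.H114
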