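import Vale.Agent.P159.H813.Ker6

/-!
P159 (helper114): the sharp stiffness letter `aL`: second moment of the kernel of the mean posterior
cell covariance.
-/

namespace Vale.Agent.P159.H114

open Finset
open Vale.Agent.P159.TM.Spec (V)

noncomputable section

variable (N l : ℕ) [NeZero N] [NeZero (N / l)] (b t0 t τ : ℝ)

/-- zeroth moment of the kernel of the mean posterior -/
def mo0 : ℝ := ∑ z, H813.wP0 N l b t0 t τ z

/-- second moment of the kernel of the mean posterior, along the axis -/
def mo2 : ℝ := ∑ z : V (N / l), (z.1.valMinAbs : ℝ) ^ 2 * H813.wP0 N l b t0 t τ z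

/-- **the sharp stiffness letter** -/
def aL : ℝ := l ^ 2 * mo2 N l b t0 t τ / (2 * mo0 N l b t0 t τ ^ 2)

end

end Vale.Agent.P159.H114
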