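import Vale.Agent.P159.H114.Joint

/-!
P159 (helper114), (P#1): the nonlinear part `n_a(J) = E[<a,h> | J] - <L a, J>` of the posterior mean
is orthogonal to all linear functions of the source and `E n_a n_b = <a, (L - Cbar) b>`,
`L = (G'⁻¹ + S)⁻¹`, `S = Pᵀ P` (only the equation `L + L S G' = G'` is used).
-/

namespace Vale.Agent.P159.H114

open Finset Matrix MeasureTheory
open Vale.Agent.P159.TM.H104 (EM Ex Cv K3 Lg li nh Gr)
open Vale.Agent.P159.H37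

noncomputable section

variable {V : Type*} [Fintype V] {I : Type*} [Fintype I]

lemma bf_mul_right (M N : Matrix V V ℝ) (a b : V → ℝ) : bf M a (N *ᵥ b) = bf (M * N) a b := by
  rw [bf_eq, bf_eq, mulVec_mulVec]

lemma bf_mul_left (M N : Matrix V V ℝ) (a b : V → ℝ) : bf M (N *ᵥ a) b = bf (Nᵀ * M) a b := by
  rw [bf_eq, bf_eq, ← mulVec_mulVec, dotProduct_mulVec a, vecMul_transpose]

lemma bf_add_mat (M N : Matrix V V ℝ) (a b : V → ℝ) : bf (M + N) a b = bf M a b + bf N a b := by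
  rw [bf_eq, bf_eq, bf_eq, add_mulVec, dotProduct_add]

lemma bf_sub_mat (M N : Matrix V V ℝ) (a b : V → ℝ) : bf (M - N) a b = bf M a b - bf N a b := by
  rw [bf_eq, bf_eq, bf_eq, sub_mulVec, dotProduct_sub]

lemma gram_bf (P : Matrix I V ℝ) (u v : V → ℝ) :
    ∑ i, (P *ᵥ u) i * (P *ᵥ v) i = bf (Pᵀ * P) u v := by
  have e : ∑ i, (P *ᵥ u) i * (P *ᵥ v) i = (P *ᵥ u) ⬝ᵥ (P *ᵥ v) := rfl
  rw [e, bf_eq, ← mulVec_mulVec, dotProduct_mulVec u, vecMul_transpose]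

lemma Gm_transpose (μ : (V → ℤ) → ℝ) : (Gm μ)ᵀ = Gm μ := by
  funext x y
  simp only [Gm, Cm, transpose_apply, Matrix.of_apply]
  exact TM.H104.Cv_comm _ _ _

/-- odd functions have mean zero under an even weight -/
lemma Ex_li_zero {μ : (V → ℤ) → ℝ} (he : Ev μ) (a : V → ℝ) : Ex μ 0 (li a) = 0 := by
  have h1 : TM.H104.T μ 0 (li a) = -TM.H104.T μ 0 (li a) := by
    conv_lhs => unfold TM.H104.T
    rw [← (Equiv.neg (V → ℤ)).tsum_eq]
    unfold TM.H104.T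
    rw [← tsum_neg]
    refine tsum_congr fun h => ?_
    simp only [Equiv.neg_apply]
    rw [he h, TM.H104.li_zero, TM.H104.li_zero]
    have : li a (-h) = -li a h := by
      unfold TM.H104.li
      simp [Finset.sum_neg_distrib]
    rw [this]
    ring
  have h2 : TM.H104.T μ 0 (li a) = 0 := by linarith
  unfold Ex
  rw [h2, zero_div]

lemma Ex_li_li {μ : (V → ℤ) → ℝ} (hμ : EM μ) (he : Ev μ) (a b : V → ℝ) :
    Ex μ 0 (fun h => li a h * li b h) = bf (Gm μ) a b := by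
  have h := bf_Cm hμ 0 a b
  unfold Gm
  rw [h]
  unfold Cv
  rw [Ex_li_zero he, Ex_li_zero he]
  ring

/-- the mean posterior covariance as a bilinear form -/
def Cb (μ' : (V → ℤ) → ℝ) (P : Matrix I V ℝ) (a b : V → ℝ) : ℝ :=
  Ech μ' 0 P fun J => Cv (post μ' P) J (li a) (li b)

/-- the nonlinear part of the posterior mean -/
def nlin (μ : (V → ℤ) → ℝ) (L : Matrix V V ℝ) (a J : V → ℝ) : ℝ :=
  Ex μ J (li a) - ∑ x, (L *ᵥ a) x * J x

/-- LMMSE data: `L = (G'⁻¹ + S)⁻¹` -/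
structure LM (μ' : (V → ℤ) → ℝ) (P : Matrix I V ℝ) (L : Matrix V V ℝ) : Prop where
  symm : Lᵀ = L
  eq : L + L * (Pᵀ * P) * Gm μ' = Gm μ'

variable {μ' : (V → ℤ) → ℝ} {P : Matrix I V ℝ} {L : Matrix V V ℝ}

lemma int_ml (hμ : EM μ') (P : Matrix I V ℝ) (a b : V → ℝ) :
    Integrable (fun g : I → ℝ => Ex (post μ' P) (0 + Pᵀ *ᵥ g) (li a) *
      (∑ x, b x * (0 + Pᵀ *ᵥ g) x) * Zs (post μ' P) (0 + Pᵀ *ᵥ g)) (gau I) := by
  have hp := em_post hμ P
  have h := (joint hμ 0 P (Gr.li a) (EGr.lin b)).1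
  refine h.congr (Filter.Eventually.of_forall fun g => ?_)
  have hz : Zs (post μ' P) (0 + Pᵀ *ᵥ g) ≠ 0 := (Zs_pos hp _).ne'
  unfold Ex
  change _ = TM.H104.T (post μ' P) _ _ / Zs (post μ' P) _ * _ * Zs (post μ' P) _
  field_simp

/-- the linear part is the conditional one: orthogonality -/
theorem nlin_orth (hμ : EM μ') (he : Ev μ') (hL : LM μ' P L) (a b : V → ℝ) :
    Ech μ' 0 P (fun J => nlin (post μ' P) L a J * ∑ x, b x * J x) = 0 := by
  have h1 := Ech_mlin hμ P a b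
  have h2 := Ech_linlin hμ P (L *ᵥ a) b
  rw [Ex_li_li hμ he] at h1 h2
  have h3 : Ech μ' 0 P (fun J => nlin (post μ' P) L a J * ∑ x, b x * J x) =
      Ech μ' 0 P (fun J => Ex (post μ' P) J (li a) * ∑ x, b x * J x) -
        Ech μ' 0 P fun J => (∑ x, (L *ᵥ a) x * J x) * ∑ x, b x * J x := by
    unfold Ech
    rw [← sub_div]
    congr 1
    rw [← integral_sub (int_ml hμ P a b) (ch_int hμ 0 P ((EGr.lin (L *ᵥ a)).mul (EGr.lin b)))]
    congr 1
    funext g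
    unfold nlin
    ring
  have hS : (Pᵀ * P)ᵀ = Pᵀ * P := by rw [transpose_mul, transpose_transpose]
  have e1 : bf (Gm μ') a ((Pᵀ * P) *ᵥ b) = bf (Gm μ' * (Pᵀ * P)) a b := bf_mul_right _ _ _ _
  have e2 : bf (Gm μ') ((Pᵀ * P) *ᵥ (L *ᵥ a)) ((Pᵀ * P) *ᵥ b) =
      bf (L * (Pᵀ * P) * Gm μ' * (Pᵀ * P)) a b := by
    rw [bf_mul_right, bf_mul_left, bf_mul_left, hS, hL.symm]
    simp only [Matrix.mul_assoc]
  have e3 : bf (Pᵀ * P) (L *ᵥ a) b = bf (L * (Pᵀ * P)) a b := by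
    rw [bf_mul_left, hL.symm]
  rw [h3, h1, h2, gram_bf, e1, e2, e3, ← bf_add_mat, ← bf_sub_mat, ← Matrix.add_mul,
    ← Matrix.sub_mul, add_comm (L * (Pᵀ * P) * Gm μ') L, hL.eq, sub_self, Matrix.zero_mul, bf_eq]
  simp

/-- **(P#1)**: `E_ν n_a n_b = <a, L b> - <a, Cbar b>` -/
theorem nlin_cov (hμ : EM μ') (he : Ev μ') (hL : LM μ' P L) (a b : V → ℝ) :
    Ech μ' 0 P (fun J => nlin (post μ' P) L a J * nlin (post μ' P) L b J) =
      bf L a b - Cb μ' P a b := by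
  have h1 : Ech μ' 0 P (fun J => nlin (post μ' P) L a J * nlin (post μ' P) L b J) =
      Ech μ' 0 P (fun J => Ex (post μ' P) J (li a) * Ex (post μ' P) J (li b)) -
      Ech μ' 0 P (fun J => Ex (post μ' P) J (li b) * ∑ x, (L *ᵥ a) x * J x) -
      Ech μ' 0 P (fun J => nlin (post μ' P) L a J * ∑ x, (L *ᵥ b) x * J x) := by
    unfold Ech
    rw [← sub_div, ← sub_div]
    congr 1
    have i1 := int_mm hμ 0 P a b
    have i2 := int_ml hμ P b (L *ᵥ a)
    have i3 := int_ml hμ P a (L *ᵥ b)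
    have i4 := ch_int hμ 0 P ((EGr.lin (L *ᵥ a)).mul (EGr.lin (L *ᵥ b)))
    have i5 : Integrable (fun g : I → ℝ => nlin (post μ' P) L a (0 + Pᵀ *ᵥ g) *
        (∑ x, (L *ᵥ b) x * (0 + Pᵀ *ᵥ g) x) * Zs (post μ' P) (0 + Pᵀ *ᵥ g)) (gau I) := by
      refine (i3.sub i4).congr (Filter.Eventually.of_forall fun g => ?_)
      simp only [Pi.sub_apply]
      unfold nlin
      ring
    have i6 := i1.sub i2
    have e6 := integral_sub i1 i2
    have e7 := integral_sub i6 i5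
    simp only [Pi.sub_apply] at e7
    simp only at e6 ⊢
    rw [← e6, ← e7]
    congr 1
    funext g
    unfold nlin
    ring
  have h2 := Ech_tot hμ 0 P a b
  rw [Ex_li_li hμ he] at h2
  have hS : (Pᵀ * P)ᵀ = Pᵀ * P := by rw [transpose_mul, transpose_transpose]
  have e1 : bf (Gm μ') b ((Pᵀ * P) *ᵥ (L *ᵥ a)) = bf (L * (Pᵀ * P) * Gm μ') a b := by
    rw [bf_comm (Gm_transpose μ'), bf_mul_left, bf_mul_left, hS, hL.symm]
    simp only [Matrix.mul_assoc]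
  have e2 : bf (Gm μ') a b - bf (L * (Pᵀ * P) * Gm μ') a b = bf L a b := by
    have e3 : L = Gm μ' - L * (Pᵀ * P) * Gm μ' := eq_sub_of_add_eq hL.eq
    rw [← bf_sub_mat, ← e3]
  rw [h1, nlin_orth hμ he hL, Ech_mlin hμ, Ex_li_li hμ he, e1]
  unfold Cb
  rw [h2]
  linarith

end

end Vale.Agent.P159.H114
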