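import Vale.Agent.P159.H114.Sc
import Vale.Agent.P159.H114.Lmmse
import Vale.Agent.P159.H552.GauHS2

/-!
P159 (helper114): the channel law as a probability measure on the noise space; Stein identities.
-/

namespace Vale.Agent.P159.H114

open Finset Matrix MeasureTheory
open Vale.Agent.P159.TM.H104 (EM Ex Cv K3 Lg li nh Gr)
open Vale.Agent.P159.H37

noncomputable section

set_option linter.unusedSectionVars false

variable {V : Type*} [Fintype V] {I : Type*} [Fintype I] [DecidableEq I]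

lemma gau_cos (a : ℝ) (u : I → ℝ) :
    ∫ g, Real.cos (a + ∑ i, u i * g i) ∂(gau I) = Real.cos a * Real.exp (-(∑ i, u i ^ 2) / 2) := by
  have hc := H552.gau_char (I := I) u
  have hint : Integrable (fun g : I → ℝ => Complex.exp (((∑ i, u i * g i : ℝ) : ℂ) * Complex.I))
      (gau I) := by
    refine Integrable.of_bound (Continuous.aestronglyMeasurable (by fun_prop)) 1
      (Filter.Eventually.of_forall fun g => ?_)
    rw [Complex.norm_exp_ofReal_mul_I]
  have hre : ∫ g, Real.cos (∑ i, u i * g i) ∂(gau I) = Real.exp (-(∑ i, u i ^ 2) / 2) := by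
    have h1 := integral_re hint
    have h2 : ∀ g : I → ℝ, RCLike.re (Complex.exp (((∑ i, u i * g i : ℝ) : ℂ) * Complex.I)) =
        Real.cos (∑ i, u i * g i) := by
      intro g
      exact Complex.exp_ofReal_mul_I_re _
    simp only [h2] at h1
    rw [h1, hc]
    have h3 : Complex.exp (-((∑ i, u i ^ 2 : ℝ) : ℂ) / 2) =
        ((Real.exp (-(∑ i, u i ^ 2) / 2) : ℝ) : ℂ) := by push_cast; rfl
    rw [h3]
    rfl
  have him : ∫ g, Real.sin (∑ i, u i * g i) ∂(gau I) = 0 := by
    have h1 := integral_im hint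
    have h2 : ∀ g : I → ℝ, RCLike.im (Complex.exp (((∑ i, u i * g i : ℝ) : ℂ) * Complex.I)) =
        Real.sin (∑ i, u i * g i) := by
      intro g
      exact Complex.exp_ofReal_mul_I_im _
    simp only [h2] at h1
    rw [h1, hc]
    have h3 : Complex.exp (-((∑ i, u i ^ 2 : ℝ) : ℂ) / 2) =
        ((Real.exp (-(∑ i, u i ^ 2) / 2) : ℝ) : ℂ) := by push_cast; rfl
    rw [h3]
    rfl
  have i1 : Integrable (fun g : I → ℝ => Real.cos (∑ i, u i * g i)) (gau I) :=
    Integrable.of_bound (Continuous.aestronglyMeasurable (by fun_prop)) 1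
      (Filter.Eventually.of_forall fun g => by
      rw [Real.norm_eq_abs]; exact Real.abs_cos_le_one _)
  have i2 : Integrable (fun g : I → ℝ => Real.sin (∑ i, u i * g i)) (gau I) :=
    Integrable.of_bound (Continuous.aestronglyMeasurable (by fun_prop)) 1
      (Filter.Eventually.of_forall fun g => by
      rw [Real.norm_eq_abs]; exact Real.abs_sin_le_one _)
  have e : ∀ g : I → ℝ, Real.cos (a + ∑ i, u i * g i) =
      Real.cos a * Real.cos (∑ i, u i * g i) + (-Real.sin a) * Real.sin (∑ i, u i * g i) := by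
    intro g
    rw [Real.cos_add]; ring
  simp only [e]
  rw [int_lin2 i1 i2, hre, him]
  ring

lemma gau_lin_l1 (c : I → ℝ) : Integrable (fun g : I → ℝ => ∑ i, c i * g i) (gau I) := by
  have := integrable_poly c 0 0 1
  simpa using this

/-- Gaussian integration by parts for `sin (a + <v, g>)` -/
lemma gau_sin_ibp (a : ℝ) (c v : I → ℝ) :
    ∫ g, (∑ i, c i * g i) * Real.sin (a + ∑ i, v i * g i) ∂(gau I) =
      (c ⬝ᵥ v) * ∫ g, Real.cos (a + ∑ i, v i * g i) ∂(gau I) := by
  -- derivative of the explicit formula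
  have h1 : HasDerivAt (fun θ : ℝ => ∫ g, Real.cos (a + ∑ i, (v i + θ * c i) * g i) ∂(gau I))
      (∫ g, -((∑ i, c i * g i) * Real.sin (a + ∑ i, (v i + 0 * c i) * g i)) ∂(gau I)) 0 := by
    refine (hasDerivAt_integral_of_dominated_loc_of_deriv_le (μ := gau I) (𝕜 := ℝ) (E := ℝ)
      (F := fun (θ : ℝ) g => Real.cos (a + ∑ i, (v i + θ * c i) * g i))
      (F' := fun (θ : ℝ) g => -((∑ i, c i * g i) * Real.sin (a + ∑ i, (v i + θ * c i) * g i)))
      (bound := fun g => |∑ i, c i * g i|)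
      (s := Set.univ) Filter.univ_mem ?_ ?_ ?_ ?_ (gau_lin_l1 c).abs ?_).2
    · exact Filter.Eventually.of_forall fun θ => Continuous.aestronglyMeasurable (by fun_prop)
    · exact Integrable.of_bound (Continuous.aestronglyMeasurable (by fun_prop)) 1
        (Filter.Eventually.of_forall fun g => by
        rw [Real.norm_eq_abs]; exact Real.abs_cos_le_one _)
    · exact Continuous.aestronglyMeasurable (by fun_prop)
    · refine Filter.Eventually.of_forall fun g x _ => ?_
      rw [norm_neg, norm_mul, Real.norm_eq_abs, Real.norm_eq_abs]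
      have := Real.abs_sin_le_one (a + ∑ i, (v i + x * c i) * g i)
      have h0 := abs_nonneg (∑ i, c i * g i)
      nlinarith
    · refine Filter.Eventually.of_forall fun g x _ => ?_
      have h2 : ∀ x : ℝ, a + ∑ i, (v i + x * c i) * g i =
          (a + ∑ i, v i * g i) + x * ∑ i, c i * g i := by
        intro x
        rw [Finset.mul_sum, add_assoc, ← Finset.sum_add_distrib]
        congr 1
        exact Finset.sum_congr rfl fun i _ => by ring
      simp only [h2]
      have h3 : HasDerivAt (fun x : ℝ => (a + ∑ i, v i * g i) + x * ∑ i, c i * g i)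
          (∑ i, c i * g i) x := by
        simpa using ((hasDerivAt_id x).mul_const (∑ i, c i * g i)).const_add
          (a + ∑ i, v i * g i)
      refine h3.cos.congr_deriv ?_
      ring
  have h2 : HasDerivAt (fun θ : ℝ => Real.cos a * Real.exp (-(∑ i, (v i + θ * c i) ^ 2) / 2))
      (Real.cos a * (Real.exp (-(∑ i, v i ^ 2) / 2) * (-(c ⬝ᵥ v)))) 0 := by
    have h3 : ∀ θ : ℝ, -(∑ i, (v i + θ * c i) ^ 2) / 2 =
        -(∑ i, v i ^ 2) / 2 + (-(c ⬝ᵥ v)) * θ + (-(∑ i, c i ^ 2) / 2) * θ ^ 2 := by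
      intro θ
      have : ∑ i, (v i + θ * c i) ^ 2 =
          ∑ i, v i ^ 2 + 2 * (c ⬝ᵥ v) * θ + (∑ i, c i ^ 2) * θ ^ 2 := by
        simp only [dotProduct, Finset.mul_sum, Finset.sum_mul, ← Finset.sum_add_distrib]
        exact Finset.sum_congr rfl fun i _ => by ring
      rw [this]; ring
    simp only [h3]
    have h4 : HasDerivAt (fun θ : ℝ => -(∑ i, v i ^ 2) / 2 + (-(c ⬝ᵥ v)) * θ +
        (-(∑ i, c i ^ 2) / 2) * θ ^ 2) (-(c ⬝ᵥ v)) 0 := by
      have h5 := ((hasDerivAt_id (0 : ℝ)).const_mul (-(c ⬝ᵥ v))).const_add (-(∑ i, v i ^ 2) / 2)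
      have h6 := (hasDerivAt_pow 2 (0 : ℝ)).const_mul (-(∑ i, c i ^ 2) / 2)
      refine (h5.add h6).congr_deriv ?_
      simp
    have h7 := (h4.exp).const_mul (Real.cos a)
    refine h7.congr_deriv ?_
    simp
  have h3 : (fun θ : ℝ => ∫ g, Real.cos (a + ∑ i, (v i + θ * c i) * g i) ∂(gau I)) =
      fun θ : ℝ => Real.cos a * Real.exp (-(∑ i, (v i + θ * c i) ^ 2) / 2) := by
    funext θ
    exact gau_cos a fun i => v i + θ * c i
  rw [h3] at h1
  have h4 := h1.unique h2
  simp only [zero_mul, add_zero] at h4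
  rw [integral_neg] at h4
  rw [gau_cos]
  linarith

/-- the channel law on the noise space -/
def nuP (μ' : (V → ℤ) → ℝ) (P : Matrix I V ℝ) : Measure (I → ℝ) :=
  (gau I).withDensity fun g => ENNReal.ofReal (Zs (post μ' P) (Pᵀ *ᵥ g) / Zs μ' 0)

variable {μ' : (V → ℤ) → ℝ} {P : Matrix I V ℝ}

lemma dens_meas (hμ : EM μ') (P : Matrix I V ℝ) :
    Measurable fun g : I → ℝ => Zs (post μ' P) (Pᵀ *ᵥ g) / Zs μ' 0 := by
  have hp := em_post hμ P
  have h1 : Continuous fun g : I → ℝ => Pᵀ *ᵥ g := by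
    have := (Matrix.mulVecLin (Pᵀ)).continuous_of_finiteDimensional
    exact this
  exact (((continuous_Zs hp).comp h1).div_const _).measurable

lemma int_nuP (hμ : EM μ') (P : Matrix I V ℝ) (f : (I → ℝ) → ℝ) :
    ∫ g, f g ∂(nuP μ' P) = (∫ g, f g * Zs (post μ' P) (Pᵀ *ᵥ g) ∂(gau I)) / Zs μ' 0 := by
  have hp := em_post hμ P
  unfold nuP
  rw [integral_withDensity_eq_integral_toReal_smul (dens_meas hμ P).ennreal_ofReal
    (Filter.Eventually.of_forall fun g => ENNReal.ofReal_lt_top), ← integral_div]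
  refine integral_congr_ae (Filter.Eventually.of_forall fun g => ?_)
  simp only [smul_eq_mul]
  rw [ENNReal.toReal_ofReal (div_nonneg (Zs_pos hp _).le (Zs_pos hμ _).le)]
  ring

lemma integrable_nuP (hμ : EM μ') (P : Matrix I V ℝ) {f : (I → ℝ) → ℝ}
    (hf : Integrable (fun g => f g * Zs (post μ' P) (Pᵀ *ᵥ g)) (gau I)) :
    Integrable f (nuP μ' P) := by
  have hp := em_post hμ P
  unfold nuP
  rw [integrable_withDensity_iff_integrable_smul₀' (dens_meas hμ P).ennreal_ofReal.aemeasurable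
    (Filter.Eventually.of_forall fun g => ENNReal.ofReal_lt_top)]
  refine (hf.div_const (Zs μ' 0)).congr (Filter.Eventually.of_forall fun g => ?_)
  simp only [smul_eq_mul]
  rw [ENNReal.toReal_ofReal (div_nonneg (Zs_pos hp _).le (Zs_pos hμ _).le)]
  ring

lemma Ech_nuP (hμ : EM μ') (P : Matrix I V ℝ) (Φ : (V → ℝ) → ℝ) :
    Ech μ' 0 P Φ = ∫ g, Φ (Pᵀ *ᵥ g) ∂(nuP μ' P) := by
  rw [int_nuP hμ]
  unfold Ech
  rw [ch_norm hμ]
  simp only [zero_add]

instance prob_nuP [Fact (EM μ')] : IsProbabilityMeasure (nuP μ' P) := by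
  have hμ : EM μ' := Fact.out
  have hp := em_post hμ P
  constructor
  unfold nuP
  rw [withDensity_apply _ MeasurableSet.univ, Measure.restrict_univ]
  have h1 : Integrable (fun g : I → ℝ => Zs (post μ' P) (Pᵀ *ᵥ g) / Zs μ' 0) (gau I) := by
    have := (ch_int hμ 0 P (EGr.const (V := V) 1)).div_const (Zs μ' 0)
    simpa using this
  rw [← ofReal_integral_eq_lintegral_ofReal h1
    (Filter.Eventually.of_forall fun g => div_nonneg (Zs_pos hp _).le (Zs_pos hμ _).le),
    integral_div]
  have h2 := ch_norm hμ 0 P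
  simp only [zero_add] at h2
  rw [h2, div_self (Zs_pos hμ _).ne', ENNReal.ofReal_one]

end

end Vale.Agent.P159.H114
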