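import Vale.Agent.P159.H114.Nu
import Vale.Agent.P159.H114.Cell1

/-!
P159 (helper114): Stein identities for the channel law: the structure `Sc` for the observed field.
-/

namespace Vale.Agent.P159.H114

open Finset Matrix MeasureTheory
open Vale.Agent.P159.TM.H104 (EM Ex Cv K3 Lg li nh Gr)
open Vale.Agent.P159.H37

noncomputable section

set_option linter.unusedSectionVars false

variable {V : Type*} [Fintype V] {I : Type*} [Fintype I] [DecidableEq I]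
variable {μ' : (V → ℤ) → ℝ} {Q : Matrix I V ℝ} {p : ℝ}

/-- the vector `b` with `<b, Pᵀ g> = <c, g>` -/
def bcv (Q : Matrix I V ℝ) (p : ℝ) (c : I → ℝ) : V → ℝ := (Real.sqrt p)⁻¹ • (Qᵀ *ᵥ c)

lemma P_bcv (hp : 0 < p) (hQ : Q * Qᵀ = 1) (c : I → ℝ) : (Real.sqrt p • Q) *ᵥ bcv Q p c = c := by
  have hs : Real.sqrt p ≠ 0 := (Real.sqrt_pos.2 hp).ne'
  unfold bcv
  rw [smul_mulVec, mulVec_smul, smul_smul, mul_inv_cancel₀ hs, one_smul, mulVec_mulVec, hQ,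
    one_mulVec]

lemma PP_bcv (hp : 0 < p) (hQ : Q * Qᵀ = 1) (c : I → ℝ) :
    ((Real.sqrt p • Q)ᵀ * (Real.sqrt p • Q)) *ᵥ bcv Q p c = Real.sqrt p • (Qᵀ *ᵥ c) := by
  rw [← mulVec_mulVec, P_bcv hp hQ, transpose_smul, smul_mulVec]

lemma lin_bcv (hp : 0 < p) (hQ : Q * Qᵀ = 1) (c g : I → ℝ) :
    ∑ x, bcv Q p c x * ((Real.sqrt p • Q)ᵀ *ᵥ g) x = ∑ i, c i * g i := by
  rw [lin_obs, P_bcv hp hQ]

lemma li_smul' (r : ℝ) (a : V → ℝ) (h : V → ℤ) : li (r • a) h = r * li a h := by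
  simp only [li, Pi.smul_apply, smul_eq_mul, Finset.mul_sum, mul_assoc]

/-- posterior mean of the observed field as a function of the noise variable -/
def pm (μ' : (V → ℤ) → ℝ) (Q : Matrix I V ℝ) (p : ℝ) (c : I → ℝ) (g : I → ℝ) : ℝ :=
  Real.sqrt p * Ex (post μ' (Real.sqrt p • Q)) ((Real.sqrt p • Q)ᵀ *ᵥ g) (li (Qᵀ *ᵥ c))

lemma lin_memLp (hμ : EM μ') (hp : 0 < p) (hQ : Q * Qᵀ = 1) (c : I → ℝ) :
    MemLp (fun g : I → ℝ => ∑ i, c i * g i) 2 (nuP μ' (Real.sqrt p • Q)) := by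
  rw [memLp_two_iff_integrable_sq (Continuous.aestronglyMeasurable (by fun_prop))]
  refine integrable_nuP hμ _ ?_
  have h1 := ch_int hμ 0 (Real.sqrt p • Q) ((EGr.lin (bcv Q p c)).mul (EGr.lin (bcv Q p c)))
  simp only [zero_add, lin_bcv hp hQ] at h1
  refine h1.congr (Filter.Eventually.of_forall fun g => ?_)
  simp only [sq]

lemma pm_cont (hμ : EM μ') (Q : Matrix I V ℝ) (p : ℝ) (c : I → ℝ) : Continuous (pm μ' Q p c) := by
  have hp := em_post hμ (Real.sqrt p • Q)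
  exact continuous_const.mul ((TM.H104.continuous_Ex hp (Gr.li _)).comp (continuous_obs _))

lemma pm_memLp (hμ : EM μ') (Q : Matrix I V ℝ) (p : ℝ) (c : I → ℝ) :
    MemLp (pm μ' Q p c) 2 (nuP μ' (Real.sqrt p • Q)) := by
  rw [memLp_two_iff_integrable_sq (pm_cont hμ Q p c).aestronglyMeasurable]
  refine integrable_nuP hμ _ ?_
  have h1 := (int_mm hμ 0 (Real.sqrt p • Q) (Qᵀ *ᵥ c) (Qᵀ *ᵥ c)).const_mul
    (Real.sqrt p * Real.sqrt p)
  simp only [zero_add] at h1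
  refine h1.congr (Filter.Eventually.of_forall fun g => ?_)
  simp only [pm]
  ring

lemma Ex_cmul' (μ : (V → ℤ) → ℝ) (J : V → ℝ) (r : ℝ) (F : (V → ℤ) → ℝ) :
    Ex μ J (fun h => r * F h) = r * Ex μ J F := by
  unfold Ex TM.H104.T
  rw [← mul_div_assoc, ← tsum_mul_left]
  congr 1
  exact tsum_congr fun h => by ring

/-- `E <c,g> <d,g>` -/
lemma int_gg (hμ : EM μ') (hp : 0 < p) (hQ : Q * Qᵀ = 1) (c d : I → ℝ) :
    ∫ g, (∑ i, c i * g i) * (∑ i, d i * g i) ∂(nuP μ' (Real.sqrt p • Q)) =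
      p * Ex μ' 0 (fun h => li (Qᵀ *ᵥ c) h * li (Qᵀ *ᵥ d) h) + ∑ i, c i * d i := by
  have h1 := Ech_linlin hμ (Real.sqrt p • Q) (bcv Q p c) (bcv Q p d)
  rw [Ech_nuP hμ] at h1
  simp only [lin_bcv hp hQ] at h1
  rw [h1, PP_bcv hp hQ, PP_bcv hp hQ, P_bcv hp hQ, P_bcv hp hQ]
  congr 1
  have e : ∀ h : V → ℤ, li (Real.sqrt p • (Qᵀ *ᵥ c)) h * li (Real.sqrt p • (Qᵀ *ᵥ d)) h =
      p * (li (Qᵀ *ᵥ c) h * li (Qᵀ *ᵥ d) h) := by
    intro h
    rw [li_smul', li_smul']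
    have : Real.sqrt p * Real.sqrt p = p := Real.mul_self_sqrt hp.le
    calc Real.sqrt p * li (Qᵀ *ᵥ c) h * (Real.sqrt p * li (Qᵀ *ᵥ d) h) =
        (Real.sqrt p * Real.sqrt p) * (li (Qᵀ *ᵥ c) h * li (Qᵀ *ᵥ d) h) := by ring
      _ = _ := by rw [this]
  simp only [e]
  rw [Ex_cmul']

/-- `E pm_c <d,g>` -/
lemma int_pg (hμ : EM μ') (hp : 0 < p) (hQ : Q * Qᵀ = 1) (c d : I → ℝ) :
    ∫ g, pm μ' Q p c g * (∑ i, d i * g i) ∂(nuP μ' (Real.sqrt p • Q)) =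
      p * Ex μ' 0 (fun h => li (Qᵀ *ᵥ c) h * li (Qᵀ *ᵥ d) h) := by
  have h1 := Ech_mlin hμ (Real.sqrt p • Q) (Qᵀ *ᵥ c) (bcv Q p d)
  rw [Ech_nuP hμ] at h1
  simp only [lin_bcv hp hQ] at h1
  have e0 : ∀ g : I → ℝ, pm μ' Q p c g * (∑ i, d i * g i) = Real.sqrt p *
      (Ex (post μ' (Real.sqrt p • Q)) ((Real.sqrt p • Q)ᵀ *ᵥ g) (li (Qᵀ *ᵥ c)) *
        ∑ i, d i * g i) := by
    intro g; unfold pm; ring
  simp only [e0]
  rw [integral_const_mul, h1, PP_bcv hp hQ]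
  have e : ∀ h : V → ℤ, li (Qᵀ *ᵥ c) h * li (Real.sqrt p • (Qᵀ *ᵥ d)) h =
      Real.sqrt p * (li (Qᵀ *ᵥ c) h * li (Qᵀ *ᵥ d) h) := by
    intro h
    rw [li_smul']
    ring
  simp only [e]
  rw [Ex_cmul', ← mul_assoc, Real.mul_self_sqrt hp.le]

/-- `E pm_c pm_d` -/
lemma int_pp (hμ : EM μ') (hp : 0 < p) (c d : I → ℝ) :
    ∫ g, pm μ' Q p c g * pm μ' Q p d g ∂(nuP μ' (Real.sqrt p • Q)) =
      p * (Ex μ' 0 (fun h => li (Qᵀ *ᵥ c) h * li (Qᵀ *ᵥ d) h) - Cbc μ' Q p c d) := by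
  have h1 := Ech_tot hμ 0 (Real.sqrt p • Q) (Qᵀ *ᵥ c) (Qᵀ *ᵥ d)
  have h2 : Ech μ' 0 (Real.sqrt p • Q) (fun J =>
      Ex (post μ' (Real.sqrt p • Q)) J (li (Qᵀ *ᵥ c)) *
        Ex (post μ' (Real.sqrt p • Q)) J (li (Qᵀ *ᵥ d))) =
      Ex μ' 0 (fun h => li (Qᵀ *ᵥ c) h * li (Qᵀ *ᵥ d) h) - Cbc μ' Q p c d := by
    unfold Cbc Cb
    rw [h1]; ring
  rw [Ech_nuP hμ] at h2
  rw [← h2, ← integral_const_mul]
  congr 1
  funext g
  unfold pm
  have h3 : Real.sqrt p * Real.sqrt p = p := Real.mul_self_sqrt hp.le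
  set u := Ex (post μ' (Real.sqrt p • Q)) ((Real.sqrt p • Q)ᵀ *ᵥ g) (li (Qᵀ *ᵥ c))
  set v := Ex (post μ' (Real.sqrt p • Q)) ((Real.sqrt p • Q)ᵀ *ᵥ g) (li (Qᵀ *ᵥ d))
  calc Real.sqrt p * u * (Real.sqrt p * v) = (Real.sqrt p * Real.sqrt p) * (u * v) := by ring
    _ = p * (u * v) := by rw [h3]

/-- Stein for sines -/
lemma int_sin (hμ : EM μ') (hp : 0 < p) (hQ : Q * Qᵀ = 1) (c v : I → ℝ) :
    ∫ g, ((∑ i, c i * g i) - pm μ' Q p c g) * Real.sin (∑ i, v i * g i)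
      ∂(nuP μ' (Real.sqrt p • Q)) =
      (c ⬝ᵥ v) * ∫ g, Real.cos (∑ i, v i * g i) ∂(nuP μ' (Real.sqrt p • Q)) := by
  set P := Real.sqrt p • Q with hP
  have hEs : EGr fun J : V → ℝ => Real.sin (∑ x, bcv Q p v x * J x) :=
    EGr.mk' (by fun_prop) (A := 1) (B := 0) fun J => by simpa using Real.abs_sin_le_one _
  have hEc : EGr fun J : V → ℝ => Real.cos (∑ x, bcv Q p v x * J x) :=
    EGr.mk' (by fun_prop) (A := 1) (B := 0) fun J => by simpa using Real.abs_cos_le_one _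
  have hl : ∀ (c g : I → ℝ), ∑ x, bcv Q p c x * (Pᵀ *ᵥ g) x = ∑ i, c i * g i :=
    fun c g => lin_bcv hp hQ c g
  have n1 := ch_num hμ 0 P ((EGr.lin (bcv Q p c)).mul hEs)
  have n2 := (joint hμ 0 P (Gr.li (Qᵀ *ᵥ c)) hEs).2
  have n3 := ch_num hμ 0 P hEc
  simp only [zero_add, hl] at n1 n2 n3
  have n4 := (n1.sub (n2.mul_left (Real.sqrt p)))
  have n5 := n3.mul_left (c ⬝ᵥ v)
  have hterm : ∀ h : V → ℤ, μ' h * Real.exp (li 0 h) *
      (∫ g, (∑ i, c i * (P *ᵥ re h + g) i) * Real.sin (∑ i, v i * (P *ᵥ re h + g) i) ∂(gau I)) -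
      Real.sqrt p * (li (Qᵀ *ᵥ c) h * (μ' h * Real.exp (li 0 h)) *
        ∫ g, Real.sin (∑ i, v i * (P *ᵥ re h + g) i) ∂(gau I)) =
      (c ⬝ᵥ v) * (μ' h * Real.exp (li 0 h) *
        ∫ g, Real.cos (∑ i, v i * (P *ᵥ re h + g) i) ∂(gau I)) := by
    intro h
    have e1 : ∀ (d g : I → ℝ), ∑ i, d i * (P *ᵥ re h + g) i =
        (∑ i, d i * (P *ᵥ re h) i) + ∑ i, d i * g i := by
      intro d g
      rw [← Finset.sum_add_distrib]
      exact Finset.sum_congr rfl fun i _ => by rw [Pi.add_apply]; ring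
    simp only [e1]
    set a := ∑ i, v i * (P *ᵥ re h) i with ha
    have e2 : ∑ i, c i * (P *ᵥ re h) i = Real.sqrt p * li (Qᵀ *ᵥ c) h := by
      have h1 : ∑ i, c i * (P *ᵥ re h) i = c ⬝ᵥ (P *ᵥ re h) := rfl
      rw [h1, hP, smul_mulVec, dotProduct_smul, smul_eq_mul, li_re, dotProduct_mulVec,
        ← mulVec_transpose]
    rw [e2]
    have i1 : Integrable (fun g : I → ℝ => Real.sin (a + ∑ i, v i * g i)) (gau I) :=
      Integrable.of_bound (Continuous.aestronglyMeasurable (by fun_prop)) 1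
        (Filter.Eventually.of_forall fun g => by
          rw [Real.norm_eq_abs]; exact Real.abs_sin_le_one _)
    have i2 : Integrable (fun g : I → ℝ => (∑ i, c i * g i) * Real.sin (a + ∑ i, v i * g i))
        (gau I) := by
      refine (gau_lin_l1 c).mono (Continuous.aestronglyMeasurable (by fun_prop))
        (Filter.Eventually.of_forall fun g => ?_)
      rw [norm_mul, Real.norm_eq_abs, Real.norm_eq_abs]
      have := Real.abs_sin_le_one (a + ∑ i, v i * g i)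
      have h0 := abs_nonneg (∑ i, c i * g i)
      nlinarith
    have e3 : ∀ g : I → ℝ, (Real.sqrt p * li (Qᵀ *ᵥ c) h + ∑ i, c i * g i) *
        Real.sin (a + ∑ i, v i * g i) =
        (Real.sqrt p * li (Qᵀ *ᵥ c) h) * Real.sin (a + ∑ i, v i * g i) +
          1 * ((∑ i, c i * g i) * Real.sin (a + ∑ i, v i * g i)) := by
      intro g; ring
    simp only [e3]
    rw [int_lin2 i1 i2, gau_sin_ibp]
    ring
  have e7 := funext hterm
  rw [e7] at n4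
  have h7 := n4.unique n5
  rw [int_nuP hμ, int_nuP hμ, ← mul_div_assoc]
  congr 1
  rw [← h7]
  have j1 := (ch_int hμ 0 P ((EGr.lin (bcv Q p c)).mul hEs))
  have j2 := (joint hμ 0 P (Gr.li (Qᵀ *ᵥ c)) hEs).1
  simp only [zero_add, hl] at j1 j2
  have hpo := em_post hμ P
  have e5 : ∀ g : I → ℝ, ((∑ i, c i * g i) - pm μ' Q p c g) * Real.sin (∑ i, v i * g i) *
      Zs (post μ' P) (Pᵀ *ᵥ g) =
      1 * ((∑ i, c i * g i) * Real.sin (∑ i, v i * g i) * Zs (post μ' P) (Pᵀ *ᵥ g)) +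
      (-Real.sqrt p) * (Real.sin (∑ i, v i * g i) *
        TM.H104.T (post μ' P) (Pᵀ *ᵥ g) (li (Qᵀ *ᵥ c))) := by
    intro g
    unfold pm
    rw [← hP]
    have hz : Zs (post μ' P) (Pᵀ *ᵥ g) ≠ 0 := (Zs_pos hpo _).ne'
    have hE : Ex (post μ' P) (Pᵀ *ᵥ g) (li (Qᵀ *ᵥ c)) * Zs (post μ' P) (Pᵀ *ᵥ g) =
        TM.H104.T (post μ' P) (Pᵀ *ᵥ g) (li (Qᵀ *ᵥ c)) := by
      unfold Ex
      change _ / Zs (post μ' P) _ * Zs (post μ' P) _ = _
      exact div_mul_cancel₀ _ hz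
    rw [← hE]
    ring
  simp only [e5]
  rw [int_lin2 j1 j2]
  ring

/-- the observed field, scaled -/
def FF (α : ℝ) (i : I) (g : I → ℝ) : ℝ := α * g i

/-- the nonlinear part of its score -/
def XX (μ' : (V → ℤ) → ℝ) (Q : Matrix I V ℝ) (p α m : ℝ) (i : I) (g : I → ℝ) : ℝ :=
  α⁻¹ * (g i - pm μ' Q p (Pi.single i 1) g) - m * (α * g i)

/-- the mean Hessian -/
def uu (μ' : (V → ℤ) → ℝ) (Q : Matrix I V ℝ) (p α m : ℝ) : Matrix I I ℝ :=
  Matrix.of fun i j => (α⁻¹) ^ 2 * ((if i = j then 1 else 0) -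
    p * Cbc μ' Q p (Pi.single i 1) (Pi.single j 1)) - (if i = j then m else 0)

lemma sum_single (i : I) (g : I → ℝ) : ∑ j, (Pi.single i (1 : ℝ) : I → ℝ) j * g j = g i := by
  simp [Pi.single_apply]

/-- **the channel law satisfies the Stein identities** -/
theorem sc_chan (hμ : EM μ') (hp : 0 < p) (hQ : Q * Qᵀ = 1) {α : ℝ} (hα : 0 < α) (m : ℝ) :
    Sc (nuP μ' (Real.sqrt p • Q)) (FF (I := I) α) (XX μ' Q p α m) m (uu μ' Q p α m) := by
  have hfact : Fact (EM μ') := ⟨hμ⟩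
  have hsc : ∀ (i : I) (g : I → ℝ), m * FF α i g + XX μ' Q p α m i g =
      α⁻¹ * (g i - pm μ' Q p (Pi.single i 1) g) := by
    intro i g; unfold FF XX; ring
  have hg2 : ∀ i, MemLp (fun g : I → ℝ => g i) 2 (nuP μ' (Real.sqrt p • Q)) := by
    intro i
    have := lin_memLp hμ hp hQ (Pi.single i (1 : ℝ))
    simpa only [sum_single] using this
  have hp2 : ∀ i, MemLp (pm μ' Q p (Pi.single i 1)) 2 (nuP μ' (Real.sqrt p • Q)) := fun i =>
    pm_memLp hμ Q p _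
  have hgp : ∀ i, MemLp (fun g : I → ℝ => g i - pm μ' Q p (Pi.single i 1) g) 2
      (nuP μ' (Real.sqrt p • Q)) := fun i => (hg2 i).sub (hp2 i)
  have hα' : α⁻¹ * α = 1 := inv_mul_cancel₀ hα.ne'
  refine ⟨inferInstance, fun i => (hg2 i).const_mul α, fun i => ?_, fun x y => ?_,
    fun v x => ?_, fun x y => ?_⟩
  · exact ((hgp i).const_mul α⁻¹).sub (((hg2 i).const_mul α).const_mul m)
  · simp only [hsc]
    have e : ∀ g : I → ℝ, α⁻¹ * (g x - pm μ' Q p (Pi.single x 1) g) * FF α y g =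
        1 * (g x * g y) + (-1) * (pm μ' Q p (Pi.single x 1) g * g y) := by
      intro g
      unfold FF
      calc α⁻¹ * (g x - pm μ' Q p (Pi.single x 1) g) * (α * g y) =
          (α⁻¹ * α) * ((g x - pm μ' Q p (Pi.single x 1) g) * g y) := by ring
        _ = _ := by rw [hα']; ring
    simp only [e]
    rw [int_lin2 (l2_mul (hg2 x) (hg2 y)) (l2_mul (hp2 x) (hg2 y))]
    have h1 := int_gg hμ hp hQ (Pi.single x 1) (Pi.single y 1)
    have h2 := int_pg hμ hp hQ (Pi.single x 1) (Pi.single y 1)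
    simp only [sum_single] at h1 h2
    rw [h1, h2]
    have h3 : (Pi.single y (1 : ℝ) : I → ℝ) x = if x = y then 1 else 0 := by
      rw [Pi.single_apply]
    rw [h3]
    ring
  · simp only [hsc]
    have hl : ∀ g : I → ℝ, lc v (FF (I := I) α) g = ∑ i, (α * v i) * g i := by
      intro g
      unfold lc FF
      exact Finset.sum_congr rfl fun i _ => by ring
    simp only [hl]
    have h1 := int_sin hμ hp hQ (Pi.single x 1) (fun i => α * v i)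
    simp only [sum_single, single_dotProduct, one_mul] at h1
    have e : ∀ g : I → ℝ, α⁻¹ * (g x - pm μ' Q p (Pi.single x 1) g) *
        Real.sin (∑ i, (α * v i) * g i) =
        α⁻¹ * ((g x - pm μ' Q p (Pi.single x 1) g) * Real.sin (∑ i, (α * v i) * g i)) := by
      intro g; ring
    simp only [e]
    rw [integral_const_mul, h1, ← mul_assoc, ← mul_assoc, hα', one_mul]
  · simp only [hsc]
    have e : ∀ g : I → ℝ, α⁻¹ * (g x - pm μ' Q p (Pi.single x 1) g) *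
        (α⁻¹ * (g y - pm μ' Q p (Pi.single y 1) g)) =
        (α⁻¹) ^ 2 * (g x * g y) + (-(α⁻¹) ^ 2) * (pm μ' Q p (Pi.single x 1) g * g y) +
        (-(α⁻¹) ^ 2) * (pm μ' Q p (Pi.single y 1) g * g x) +
        (α⁻¹) ^ 2 * (pm μ' Q p (Pi.single x 1) g * pm μ' Q p (Pi.single y 1) g) := by
      intro g; ring
    simp only [e]
    rw [int_lin4 (l2_mul (hg2 x) (hg2 y)) (l2_mul (hp2 x) (hg2 y)) (l2_mul (hp2 y) (hg2 x))
      (l2_mul (hp2 x) (hp2 y))]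
    have h1 := int_gg hμ hp hQ (Pi.single x 1) (Pi.single y 1)
    have h2 := int_pg hμ hp hQ (Pi.single x 1) (Pi.single y 1)
    have h3 := int_pg hμ hp hQ (Pi.single y 1) (Pi.single x 1)
    have h4 := int_pp (Q := Q) hμ hp (Pi.single x 1) (Pi.single y 1)
    simp only [sum_single] at h1 h2 h3
    have h5 : Ex μ' 0 (fun h => li (Qᵀ *ᵥ Pi.single y 1) h * li (Qᵀ *ᵥ Pi.single x 1) h) =
        Ex μ' 0 (fun h => li (Qᵀ *ᵥ Pi.single x 1) h * li (Qᵀ *ᵥ Pi.single y 1) h) := by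
      congr 1
      funext h
      ring
    rw [h1, h2, h3, h4, h5]
    have h6 : (Pi.single y (1 : ℝ) : I → ℝ) x = if x = y then 1 else 0 := by
      rw [Pi.single_apply]
    rw [h6]
    unfold uu
    simp only [Matrix.of_apply]
    ring

end

end Vale.Agent.P159.H114
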