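import Mathlib

/-!
P159 (helper114): P# conclusion, the real algebra.

`J = φ_s(x) - φ_s(p)`, `φ_s(x) = x / (1 + s x)`, gives `x - p = J (1 + s x)² / (1 + s J (1 + s x))`.
-/

namespace Vale.Agent.P159.H114

/-- the map `x ↦ x / (1 + s x)` -/
noncomputable def phsi (s x : ℝ) : ℝ := x / (1 + s * x)

theorem phsi_inv {s x p J : ℝ} (hs : 0 ≤ s) (hx : 0 ≤ x) (hp : 0 ≤ p)
    (hJ : J = phsi s x - phsi s p) (hJ0 : 0 ≤ J) :
    x - p = J * (1 + s * x) ^ 2 / (1 + s * J * (1 + s * x)) := by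
  have h1 : 0 < 1 + s * x := by positivity
  have h2 : 0 < 1 + s * p := by positivity
  have h3 : 0 < 1 + s * J * (1 + s * x) := by positivity
  rw [eq_div_iff h3.ne', hJ]
  unfold phsi
  field_simp
  ring

/-- `|x - p - J| ≤ J (3 s x + 8 s J)` when `s x ≤ 1` -/
theorem phsi_err {s x p J : ℝ} (hs : 0 ≤ s) (hx : 0 ≤ x) (hp : 0 ≤ p)
    (hJ : J = phsi s x - phsi s p) (hJ0 : 0 ≤ J) (h1 : s * x ≤ 1) :
    |x - p - J| ≤ J * (3 * (s * x) + 8 * (s * J)) := by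
  have hsx : 0 ≤ s * x := mul_nonneg hs hx
  have hsJ : 0 ≤ s * J := mul_nonneg hs hJ0
  have e := phsi_inv hs hx hp hJ hJ0
  have h3 : 0 < 1 + s * J * (1 + s * x) := by positivity
  have hup : x - p ≤ J * (1 + s * x) ^ 2 := by
    rw [e, div_le_iff₀ h3]
    have : 0 ≤ J * (1 + s * x) ^ 2 * (s * J * (1 + s * x)) := by positivity
    nlinarith
  have hlo : J * (1 + s * x) ^ 2 * (1 - s * J * (1 + s * x)) ≤ x - p := by
    rw [e, le_div_iff₀ h3]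
    have : 0 ≤ J * (1 + s * x) ^ 2 * (s * J * (1 + s * x)) ^ 2 := by positivity
    nlinarith
  rw [abs_le]
  constructor
  · have h4 : (1 + s * x) ^ 3 ≤ 8 := by
      have : 1 + s * x ≤ 2 := by linarith
      calc (1 + s * x) ^ 3 ≤ 2 ^ 3 := pow_le_pow_left₀ (by linarith) this 3
        _ = 8 := by norm_num
    have h5 : J ≤ J * (1 + s * x) ^ 2 := by nlinarith [mul_nonneg hJ0 hsx, mul_nonneg hJ0 (mul_nonneg hsx hsx)]
    have h6 : J * (1 + s * x) ^ 2 * (1 - s * J * (1 + s * x)) =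
        J * (1 + s * x) ^ 2 - J * (s * J) * (1 + s * x) ^ 3 := by ring
    rw [h6] at hlo
    have h7 : J * (s * J) * (1 + s * x) ^ 3 ≤ J * (s * J) * 8 :=
      mul_le_mul_of_nonneg_left h4 (mul_nonneg hJ0 hsJ)
    nlinarith [mul_nonneg hJ0 hsx]
  · have h4 : (1 + s * x) ^ 2 ≤ 1 + 3 * (s * x) := by nlinarith
    have h5 : J * (1 + s * x) ^ 2 ≤ J * (1 + 3 * (s * x)) := mul_le_mul_of_nonneg_left h4 hJ0
    nlinarith [mul_nonneg hJ0 hsJ]

/-- one level: the increment of `Π''` in terms of the increments of `Πbar` and `J` -/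
theorem level_err {s xk x0 pk p0 Jk J0 r : ℝ} (hs : 0 ≤ s) (hxk : 0 ≤ xk) (hx0 : 0 ≤ x0)
    (hpk : 0 ≤ pk) (hp0 : 0 ≤ p0) (hJk : Jk = phsi s xk - phsi s pk) (hJ0 : J0 = phsi s x0 - phsi s p0)
    (hJk0 : 0 ≤ Jk) (hJ00 : 0 ≤ J0) (h1 : s * xk ≤ 1) (h2 : s * x0 ≤ 1)
    (hr : Jk * (3 * (s * xk) + 8 * (s * Jk)) + J0 * (3 * (s * x0) + 8 * (s * J0)) ≤ r) :
    |(pk - p0) - ((xk - x0) - (Jk - J0))| ≤ r := by
  have e1 := phsi_err hs hxk hpk hJk hJk0 h1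
  have e2 := phsi_err hs hx0 hp0 hJ0 hJ00 h2
  rw [abs_le] at *
  constructor <;> linarith [e1.1, e1.2, e2.1, e2.2]

/-- **two levels with the same prior**: the increment of the stiffness -/
theorem two_level {lam a1 a2 x1k x10 x2k x20 pk p0 J1k J10 J2k J20 r1 r2 q1 q2 : ℝ}
    (h1 : |(pk - p0) - ((x1k - x10) - (J1k - J10))| ≤ r1)
    (h2 : |(pk - p0) - ((x2k - x20) - (J2k - J20))| ≤ r2)
    (ha1 : |x1k - x10 - a1 * lam| ≤ q1) (ha2 : |x2k - x20 - a2 * lam| ≤ q2) :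
    |(a2 - a1) * lam - ((J10 - J1k) - (J20 - J2k))| ≤ r1 + r2 + q1 + q2 := by
  rw [abs_le] at *
  constructor <;> linarith [h1.1, h1.2, h2.1, h2.2, ha1.1, ha1.2, ha2.1, ha2.2]

end Vale.Agent.P159.H114
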