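import Vale.Agent.P159.H114.Sc

/-!
P159 (helper114): (P#2)+(P#3) from the single `L²` input (L1).  `F` a random field with score
`m F + X` and `X = A F + 4 π z S sin (2 π S F) + error`; the nonlinear part of `X` on a common
eigenvector `c` of `A` and `S` has the Gaussian second moment up to explicit errors.
-/

namespace Vale.Agent.P159.H114

open MeasureTheory Finset Matrix

noncomputable section

variable {Ω : Type*} [MeasurableSpace Ω] {ι : Type*} [Fintype ι] [DecidableEq ι]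

/-- the phase vector of the smeared field at `w` -/
def th (S : Matrix ι ι ℝ) (w : ι) : ι → ℝ := fun y => 2 * Real.pi * S w y

/-- `∑ c_w sin (2 π (S F)_w)` -/
def sg (S : Matrix ι ι ℝ) (c : ι → ℝ) (F : ι → Ω → ℝ) (ω : Ω) : ℝ :=
  ∑ w, c w * Real.sin (lc (th S w) F ω)

/-- Gaussian covariance of the smeared field -/
def Gam (S G : Matrix ι ι ℝ) (w w' : ι) : ℝ := (S * G * S) w w'

/-- **(L1)** -/
def L1 (ν : Measure Ω) (F X : ι → Ω → ℝ) (A S : Matrix ι ι ℝ) (z η : ℝ) : Prop :=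
  ∀ c : ι → ℝ, ∫ ω, (lc c X ω - lc (A *ᵥ c) F ω - 4 * Real.pi * z * sg S (S *ᵥ c) F ω) ^ 2 ∂ν ≤
    η ^ 2 * ∑ x, c x ^ 2

variable {ν : Measure Ω} {F X : ι → Ω → ℝ} {m : ℝ} {ub : Matrix ι ι ℝ}

omit [MeasurableSpace Ω] [DecidableEq ι] in
lemma sg_abs (S : Matrix ι ι ℝ) (c : ι → ℝ) (F : ι → Ω → ℝ) (ω : Ω) :
    |sg S c F ω| ≤ ∑ w, |c w| := by
  unfold sg
  refine (Finset.abs_sum_le_sum_abs _ _).trans (Finset.sum_le_sum fun w _ => ?_)
  rw [abs_mul]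
  have := Real.abs_sin_le_one (lc (th S w) F ω)
  have h0 := abs_nonneg (c w)
  nlinarith

omit [DecidableEq ι] in
lemma l1_sq (c : ι → ℝ) : (∑ w, |c w|) ^ 2 ≤ (Fintype.card ι) * ∑ w, c w ^ 2 := by
  have h := sq_sum_le_card_mul_sum_sq (s := (univ : Finset ι)) (f := fun w => |c w|)
  simp only [sq_abs, Finset.card_univ] at h
  exact h

omit [MeasurableSpace Ω] [DecidableEq ι] in
lemma sg_sq (S : Matrix ι ι ℝ) (c : ι → ℝ) (F : ι → Ω → ℝ) (ω : Ω) :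
    sg S c F ω ^ 2 ≤ (Fintype.card ι) * ∑ w, c w ^ 2 := by
  have h1 := sg_abs S c F ω
  have h2 : sg S c F ω ^ 2 = |sg S c F ω| ^ 2 := (sq_abs _).symm
  rw [h2]
  exact (pow_le_pow_left₀ (abs_nonneg _) h1 2).trans (l1_sq c)

lemma Sc.sg_memLp (h : Sc ν F X m ub) (S : Matrix ι ι ℝ) (c : ι → ℝ) :
    MemLp (sg S c F) 2 ν := by
  have e : sg S c F = ∑ w, fun ω => c w * Real.sin (lc (th S w) F ω) := by
    funext ω
    simp [sg]
  rw [e]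
  exact memLp_finset_sum' _ fun x _ => (h.sin_memLp _).const_mul (c x)

lemma Sc.sg_int (h : Sc ν F X m ub) (S : Matrix ι ι ℝ) (c : ι → ℝ) :
    ∫ ω, sg S c F ω ^ 2 ∂ν ≤ (Fintype.card ι) * ∑ w, c w ^ 2 := by
  have := h.prob
  have h1 : ∫ ω, sg S c F ω ^ 2 ∂ν ≤ ∫ _ω, ((Fintype.card ι) * ∑ w, c w ^ 2 : ℝ) ∂ν :=
    integral_mono (l2_sq (h.sg_memLp S c)) (integrable_const _) fun ω => sg_sq S c F ω
  simpa using h1

/-- `L²` triangle inequality, numerical form -/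
lemma mink {f g : Ω → ℝ} (hf : MemLp f 2 ν) (hg : MemLp g 2 ν) {a b : ℝ} (ha : 0 ≤ a)
    (hb : 0 ≤ b) (h1 : ∫ ω, f ω ^ 2 ∂ν ≤ a ^ 2) (h2 : ∫ ω, g ω ^ 2 ∂ν ≤ b ^ 2) :
    ∫ ω, (f ω + g ω) ^ 2 ∂ν ≤ (a + b) ^ 2 := by
  have e : ∀ ω, (f ω + g ω) ^ 2 = 1 * f ω ^ 2 + 2 * (f ω * g ω) + 1 * g ω ^ 2 := by
    intro ω; ring
  simp only [e]
  rw [int_lin3 (l2_sq hf) (l2_mul hf hg) (l2_sq hg)]
  have h3 := (abs_le.1 (cs_le hf hg ha hb h1 h2)).2
  nlinarith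

/-- size of the nonlinear part tested against a vector -/
lemma Sc.nl_le (h : Sc ν F X m ub) {A S : Matrix ι ι ℝ} {z η : ℝ} (hz : 0 ≤ z) (hη : 0 ≤ η)
    (hL : L1 ν F X A S z η) (hS : ∀ c : ι → ℝ, ∑ x, (S *ᵥ c) x ^ 2 ≤ ∑ x, c x ^ 2)
    (w : ι → ℝ) {b : ℝ} (hb : 0 ≤ b) (hw : ∑ x, w x ^ 2 ≤ b ^ 2) :
    ∫ ω, (lc w X ω - lc (A *ᵥ w) F ω) ^ 2 ∂ν ≤
      ((4 * Real.pi * z * Real.sqrt (Fintype.card ι) + η) * b) ^ 2 := by
  have hpi := Real.pi_pos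
  set e : Ω → ℝ := fun ω => lc w X ω - lc (A *ᵥ w) F ω -
    4 * Real.pi * z * sg S (S *ᵥ w) F ω with he
  set s : Ω → ℝ := fun ω => 4 * Real.pi * z * sg S (S *ᵥ w) F ω with hs
  have he2 : MemLp e 2 ν := ((lc_memLp h.X2 w).sub (lc_memLp h.F2 _)).sub
    ((h.sg_memLp S _).const_mul _)
  have hs2 : MemLp s 2 ν := (h.sg_memLp S _).const_mul _
  have hn : 0 ≤ (Fintype.card ι : ℝ) := Nat.cast_nonneg _
  have e1 : ∫ ω, e ω ^ 2 ∂ν ≤ (η * b) ^ 2 := by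
    refine (hL w).trans ?_
    rw [mul_pow]
    exact mul_le_mul_of_nonneg_left hw (sq_nonneg _)
  have e2 : ∫ ω, s ω ^ 2 ∂ν ≤ (4 * Real.pi * z * Real.sqrt (Fintype.card ι) * b) ^ 2 := by
    have e3 : ∀ ω, s ω ^ 2 = (4 * Real.pi * z) ^ 2 * sg S (S *ᵥ w) F ω ^ 2 := by
      intro ω; rw [hs]; ring
    simp only [e3]
    rw [integral_const_mul]
    have h4 := h.sg_int S (S *ᵥ w)
    have h5 : (Fintype.card ι : ℝ) * ∑ x, (S *ᵥ w) x ^ 2 ≤ (Fintype.card ι) * b ^ 2 :=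
      mul_le_mul_of_nonneg_left ((hS w).trans hw) hn
    have h6 : (4 * Real.pi * z * Real.sqrt (Fintype.card ι) * b) ^ 2 =
        (4 * Real.pi * z) ^ 2 * ((Fintype.card ι) * b ^ 2) := by
      rw [mul_pow, mul_pow, Real.sq_sqrt hn]
      ring
    rw [h6]
    exact mul_le_mul_of_nonneg_left (h4.trans h5) (sq_nonneg _)
  have h7 := mink hs2 he2 (by positivity) (by positivity) e2 e1
  have e8 : ∀ ω, (lc w X ω - lc (A *ᵥ w) F ω) ^ 2 = (s ω + e ω) ^ 2 := by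
    intro ω
    rw [he, hs]
    ring
  simp only [e8]
  refine h7.trans (le_of_eq ?_)
  ring

/-- characteristic functions from (L1) -/
lemma Sc.cf (h : Sc ν F X m ub) {A S G : Matrix ι ι ℝ} {z η : ℝ} (hz : 0 ≤ z) (hη : 0 ≤ η)
    (hL : L1 ν F X A S z η) (hS : ∀ c : ι → ℝ, ∑ x, (S *ᵥ c) x ^ 2 ≤ ∑ x, c x ^ 2)
    (hG : (m • (1 : Matrix ι ι ℝ) + A) * G = 1) (v : ι → ℝ) (hq : 0 ≤ (G *ᵥ v) ⬝ᵥ v)
    {b : ℝ} (hb : 0 ≤ b) (hw : ∑ x, (G *ᵥ v) x ^ 2 ≤ b ^ 2) :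
    |∫ ω, Real.cos (lc v F ω) ∂ν - Real.exp (-((G *ᵥ v) ⬝ᵥ v / 2))| ≤
      (4 * Real.pi * z * Real.sqrt (Fintype.card ι) + η) * b := by
  have hpi := Real.pi_pos
  refine h.charfn (A := A) (w := G *ᵥ v) (v := v) ?_ hq (by positivity)
    (h.nl_le hz hη hL hS (G *ᵥ v) hb hw)
  have h1 : v = ((m • (1 : Matrix ι ι ℝ) + A) * G) *ᵥ v := by rw [hG, one_mulVec]
  conv_lhs => rw [h1]
  rw [← mulVec_mulVec, add_mulVec, smul_mulVec, one_mulVec]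

omit [DecidableEq ι] in
lemma th_G (S G : Matrix ι ι ℝ) (hS : Sᵀ = S) (w w' : ι) :
    (G *ᵥ th S w) ⬝ᵥ th S w' = 4 * Real.pi ^ 2 * Gam S G w' w := by
  unfold Gam
  have h1 : ∀ x, th S x = (2 * Real.pi) • (fun y => S x y) := by
    intro x; funext y; simp [th]
  rw [h1, h1, mulVec_smul, smul_dotProduct, dotProduct_smul, smul_eq_mul, smul_eq_mul,
    Matrix.mul_assoc, Matrix.mul_apply]
  have h2 : (G *ᵥ fun y => S w y) ⬝ᵥ (fun y => S w' y) = ∑ j, S w' j * (G * S) j w := by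
    unfold dotProduct
    refine Finset.sum_congr rfl fun j _ => ?_
    rw [mul_comm]
    congr 1
    rw [Matrix.mul_apply]
    unfold mulVec dotProduct
    refine Finset.sum_congr rfl fun k _ => ?_
    congr 1
    conv_lhs => rw [← hS]
    rfl
  rw [h2]
  ring

/-- second moments of the sines -/
lemma Sc.ss (h : Sc ν F X m ub) {A S G : Matrix ι ι ℝ} {z η : ℝ} (hz : 0 ≤ z) (hη : 0 ≤ η)
    (hL : L1 ν F X A S z η) (hS : ∀ c : ι → ℝ, ∑ x, (S *ᵥ c) x ^ 2 ≤ ∑ x, c x ^ 2)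
    (hSt : Sᵀ = S) (hGt : Gᵀ = G) (hG : (m • (1 : Matrix ι ι ℝ) + A) * G = 1)
    (hG0 : ∀ v : ι → ℝ, 0 ≤ (G *ᵥ v) ⬝ᵥ v) {W Γ0 : ℝ} (hW : 0 ≤ W)
    (hWt : ∀ w, ∑ x, (G *ᵥ th S w) x ^ 2 ≤ W ^ 2) (hΓ : ∀ w, Gam S G w w = Γ0) (w w' : ι) :
    |∫ ω, Real.sin (lc (th S w) F ω) * Real.sin (lc (th S w') F ω) ∂ν -
      Real.exp (-(4 * Real.pi ^ 2 * Γ0)) * Real.sinh (4 * Real.pi ^ 2 * Gam S G w w')| ≤
      2 * W * (4 * Real.pi * z * Real.sqrt (Fintype.card ι) + η) := by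
  have hp := h.prob
  have hpi := Real.pi_pos
  set β := 4 * Real.pi * z * Real.sqrt (Fintype.card ι) + η with hβ
  have hβ0 : 0 ≤ β := by positivity
  have hΓs : Gam S G w' w = Gam S G w w' := by
    have e : (S * G * S)ᵀ = S * G * S := by
      rw [transpose_mul, transpose_mul, hSt, hGt, Matrix.mul_assoc]
    have : (S * G * S)ᵀ w w' = (S * G * S) w w' := by rw [e]
    exact this
  have hGs : ∀ a b : ι → ℝ, (G *ᵥ a) ⬝ᵥ b = (G *ᵥ b) ⬝ᵥ a := by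
    intro a b
    rw [dotProduct_comm, dotProduct_mulVec, ← mulVec_transpose, hGt]
  have key : ∀ σ : ℝ, σ ^ 2 = 1 → |∫ ω, Real.cos (lc (th S w + σ • th S w') F ω) ∂ν -
      Real.exp (-(4 * Real.pi ^ 2 * Γ0) - σ * (4 * Real.pi ^ 2 * Gam S G w w'))| ≤
      2 * W * β := by
    intro σ hσ
    have hn2 : ∑ x, (G *ᵥ (th S w + σ • th S w')) x ^ 2 ≤ (2 * W) ^ 2 := by
      rw [mulVec_add, mulVec_smul]
      have h1 := hWt w
      have h2 := hWt w'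
      have h3 : ∑ x, (G *ᵥ th S w + σ • G *ᵥ th S w') x ^ 2 ≤
          2 * (∑ x, (G *ᵥ th S w) x ^ 2) + 2 * ∑ x, (G *ᵥ th S w') x ^ 2 := by
        rw [Finset.mul_sum, Finset.mul_sum, ← Finset.sum_add_distrib]
        refine Finset.sum_le_sum fun x _ => ?_
        simp only [Pi.add_apply, Pi.smul_apply, smul_eq_mul]
        set p := (G *ᵥ th S w) x
        set r := (G *ᵥ th S w') x
        have h4 : (p + σ * r) ^ 2 + (p - σ * r) ^ 2 = 2 * p ^ 2 + 2 * (σ ^ 2 * r ^ 2) := by ring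
        rw [hσ, one_mul] at h4
        nlinarith [sq_nonneg (p - σ * r)]
      nlinarith
    have h1 := h.cf hz hη hL hS hG (th S w + σ • th S w') (hG0 _) (by positivity) hn2
    rw [← hβ] at h1
    have e : (G *ᵥ (th S w + σ • th S w')) ⬝ᵥ (th S w + σ • th S w') / 2 =
        4 * Real.pi ^ 2 * Γ0 + σ * (4 * Real.pi ^ 2 * Gam S G w w') := by
      rw [mulVec_add, mulVec_smul, add_dotProduct, dotProduct_add, dotProduct_add,
        smul_dotProduct, dotProduct_smul, smul_dotProduct, dotProduct_smul,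
        hGs (th S w') (th S w), th_G S G hSt, th_G S G hSt, th_G S G hSt, hΓ, hΓ, hΓs]
      simp only [smul_eq_mul]
      have : σ * (σ * (4 * Real.pi ^ 2 * Γ0)) = 4 * Real.pi ^ 2 * Γ0 := by
        rw [← mul_assoc, ← sq, hσ, one_mul]
      rw [this]
      ring
    rw [e] at h1
    have e2 : -(4 * Real.pi ^ 2 * Γ0 + σ * (4 * Real.pi ^ 2 * Gam S G w w')) =
        -(4 * Real.pi ^ 2 * Γ0) - σ * (4 * Real.pi ^ 2 * Gam S G w w') := by ring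
    rw [e2] at h1
    refine h1.trans (le_of_eq ?_)
    ring
  have k1 := key 1 (by norm_num)
  have k2 := key (-1) (by norm_num)
  have e0 : ∀ ω, Real.sin (lc (th S w) F ω) * Real.sin (lc (th S w') F ω) =
      (1 / 2) * Real.cos (lc (th S w + (-1 : ℝ) • th S w') F ω) +
        (-(1 / 2)) * Real.cos (lc (th S w + (1 : ℝ) • th S w') F ω) := by
    intro ω
    rw [lc_add, lc_smul, lc_add, lc_smul, one_mul, neg_one_mul, ← sub_eq_add_neg, Real.cos_sub,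
      Real.cos_add]
    ring
  simp only [e0]
  rw [int_lin2 ((h.cos_memLp _).integrable one_le_two) ((h.cos_memLp _).integrable one_le_two)]
  have e3 : Real.exp (-(4 * Real.pi ^ 2 * Γ0)) * Real.sinh (4 * Real.pi ^ 2 * Gam S G w w') =
      (1 / 2) * Real.exp (-(4 * Real.pi ^ 2 * Γ0) - (-1) * (4 * Real.pi ^ 2 * Gam S G w w')) +
        (-(1 / 2)) * Real.exp (-(4 * Real.pi ^ 2 * Γ0) - 1 * (4 * Real.pi ^ 2 * Gam S G w w')) := by
    rw [Real.sinh_eq]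
    have e4 : Real.exp (-(4 * Real.pi ^ 2 * Γ0) - (-1) * (4 * Real.pi ^ 2 * Gam S G w w')) =
        Real.exp (-(4 * Real.pi ^ 2 * Γ0)) * Real.exp (4 * Real.pi ^ 2 * Gam S G w w') := by
      rw [← Real.exp_add]; congr 1; ring
    have e5 : Real.exp (-(4 * Real.pi ^ 2 * Γ0) - 1 * (4 * Real.pi ^ 2 * Gam S G w w')) =
        Real.exp (-(4 * Real.pi ^ 2 * Γ0)) * Real.exp (-(4 * Real.pi ^ 2 * Gam S G w w')) := by
      rw [← Real.exp_add]; congr 1; ring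
    rw [e4, e5]
    ring
  rw [e3]
  rw [abs_le] at k1 k2 ⊢
  constructor <;> linarith [k1.1, k1.2, k2.1, k2.2]

end

end Vale.Agent.P159.H114
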