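import Vale.Agent.P159.H114.PJ

/-!
P159 (helper114): the main theorem of (P#2)+(P#3): Gaussian value of the nonlinear part of the
score on a common eigenvector of `A` and `S`, from (L1) only.
-/

namespace Vale.Agent.P159.H114

open MeasureTheory Finset Matrix

noncomputable section

variable {Ω : Type*} [MeasurableSpace Ω] {ι : Type*} [Fintype ι] [DecidableEq ι]
variable {ν : Measure Ω} {F X : ι → Ω → ℝ} {m : ℝ} {ub : Matrix ι ι ℝ}

/-- scalar step: `P²/Q` near `P0²` -/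
lemma pq_pert {P Q P0 d1 d2 : ℝ} (hP : |P - P0| ≤ d1) (hQ : |Q - 1| ≤ d2) (hd1 : d1 ≤ 1)
    (hd2 : d2 ≤ 1 / 2) (hP0 : |P0| ≤ 7) : |P ^ 2 / Q - P0 ^ 2| ≤ 30 * d1 + 98 * d2 := by
  have hd10 : 0 ≤ d1 := (abs_nonneg _).trans hP
  have hd20 : 0 ≤ d2 := (abs_nonneg _).trans hQ
  have hQ1 : 1 / 2 ≤ Q := by
    have := (abs_le.1 hQ).1
    linarith
  have hQ0 : 0 < Q := by linarith
  have e : P ^ 2 / Q - P0 ^ 2 = (P ^ 2 - P0 ^ 2) / Q + P0 ^ 2 * ((1 - Q) / Q) := by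
    field_simp
    ring
  rw [e]
  refine (abs_add_le _ _).trans (add_le_add ?_ ?_)
  · rw [abs_div, abs_of_pos hQ0, div_le_iff₀ hQ0]
    have h1 : |P ^ 2 - P0 ^ 2| = |P - P0| * |P + P0| := by rw [← abs_mul]; congr 1; ring
    have h2 : |P + P0| ≤ 15 := by
      have e2 : P + P0 = (P - P0) + 2 * P0 := by ring
      rw [e2]
      refine (abs_add_le _ _).trans ?_
      rw [abs_mul, abs_two]
      linarith
    rw [h1]
    calc |P - P0| * |P + P0| ≤ d1 * 15 := mul_le_mul hP h2 (abs_nonneg _) hd10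
      _ = 30 * d1 * (1 / 2) := by ring
      _ ≤ 30 * d1 * Q := mul_le_mul_of_nonneg_left hQ1 (by positivity)
  · rw [abs_mul, abs_of_nonneg (sq_nonneg P0), abs_div, abs_of_pos hQ0]
    have h1 : P0 ^ 2 ≤ 49 := by
      have : P0 ^ 2 = |P0| ^ 2 := (sq_abs _).symm
      rw [this]
      nlinarith [abs_nonneg P0]
    have h2 : |1 - Q| / Q ≤ 2 * d2 := by
      rw [div_le_iff₀ hQ0, abs_sub_comm]
      nlinarith
    calc P0 ^ 2 * (|1 - Q| / Q) ≤ 49 * (2 * d2) :=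
          mul_le_mul h1 h2 (by positivity) (by norm_num)
      _ = 98 * d2 := by ring

/-- the Gaussian value -/
def JG (S G : Matrix ι ι ℝ) (z s Γ0 : ℝ) (c : ι → ℝ) : ℝ :=
  (4 * Real.pi * z * s) ^ 2 * (Real.exp (-(4 * Real.pi ^ 2 * Γ0)) * ∑ w, ∑ w', c w * c w' *
    (Real.sinh (4 * Real.pi ^ 2 * Gam S G w w') - 4 * Real.pi ^ 2 * Gam S G w w'))

omit [DecidableEq ι] in
/-- the linear part of the Gaussian value on an eigenvector -/
lemma Gam_eig {S G : Matrix ι ι ℝ} {c : ι → ℝ} {s g : ℝ} (hSc : S *ᵥ c = s • c)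
    (hGc : G *ᵥ c = g • c) :
    ∑ w, ∑ w', c w * c w' * Gam S G w w' = s ^ 2 * g * ∑ x, c x ^ 2 := by
  have h1 : ∑ w, ∑ w', c w * c w' * Gam S G w w' = c ⬝ᵥ (S * G * S) *ᵥ c := by
    simp only [dotProduct, mulVec, Finset.mul_sum, Gam]
    exact Finset.sum_congr rfl fun w _ => Finset.sum_congr rfl fun w' _ => by ring
  rw [h1, ← mulVec_mulVec, ← mulVec_mulVec, hSc, mulVec_smul, hGc, mulVec_smul, mulVec_smul,
    hSc, dotProduct_smul, dotProduct_smul, dotProduct_smul]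
  simp only [smul_eq_mul, dotProduct]
  have h2 : ∑ x, c x * c x = ∑ x, c x ^ 2 := Finset.sum_congr rfl fun x _ => (sq _).symm
  rw [h2]
  ring

/-- the standing hypotheses of (P#) at one level -/
structure PD (ν : Measure Ω) (F X : ι → Ω → ℝ) (m : ℝ) (ub A S G : Matrix ι ι ℝ)
    (z η W Γ0 : ℝ) : Prop where
  sc : Sc ν F X m ub
  hm : 0 < m
  hz : 0 ≤ z
  hη : 0 ≤ η
  hL : L1 ν F X A S z η
  hS : ∀ c : ι → ℝ, ∑ x, (S *ᵥ c) x ^ 2 ≤ ∑ x, c x ^ 2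
  hSt : Sᵀ = S
  hGt : Gᵀ = G
  hG : (m • (1 : Matrix ι ι ℝ) + A) * G = 1
  hG0 : ∀ v : ι → ℝ, 0 ≤ (G *ᵥ v) ⬝ᵥ v
  hW : 0 ≤ W
  hWt : ∀ w, ∑ x, (G *ᵥ th S w) x ^ 2 ≤ W ^ 2
  hΓ : ∀ w, Gam S G w w = Γ0
  hΓ0 : 0 ≤ Γ0

/-- a common eigenvector of `A` and `S` -/
structure Md (A S : Matrix ι ι ℝ) (c : ι → ℝ) (a s : ℝ) : Prop where
  hc : 0 < ∑ x, c x ^ 2
  ha : 0 ≤ a
  hAc : A *ᵥ c = a • c
  hs0 : 0 ≤ s
  hs1 : s ≤ 1
  hSc : S *ᵥ c = s • c

/-- the error of (L1) -/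
def er (A S : Matrix ι ι ℝ) (z : ℝ) (F X : ι → Ω → ℝ) (c : ι → ℝ) (ω : Ω) : ℝ :=
  lc c X ω - lc (A *ᵥ c) F ω - 4 * Real.pi * z * sg S (S *ᵥ c) F ω

/-- the constant `β` -/
def bt (ι : Type*) [Fintype ι] (z η : ℝ) : ℝ := 4 * Real.pi * z * Real.sqrt (Fintype.card ι) + η

variable {A S G : Matrix ι ι ℝ} {z η W Γ0 a s : ℝ} {c : ι → ℝ}

omit [MeasurableSpace Ω] [DecidableEq ι] in
lemma Md.X_eq (h : Md A S c a s) (ω : Ω) :
    lc c X ω = a * lc c F ω + (4 * Real.pi * z * s) * sg S c F ω + er A S z F X c ω := by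
  unfold er
  have h1 : sg S (S *ᵥ c) F ω = s * sg S c F ω := by
    rw [h.hSc]
    unfold sg
    rw [Finset.mul_sum]
    exact Finset.sum_congr rfl fun w _ => by simp [mul_assoc]
  rw [h1, h.hAc, lc_smul]
  ring

lemma PD.er_memLp (h : PD ν F X m ub A S G z η W Γ0) (c : ι → ℝ) :
    MemLp (er A S z F X c) 2 ν :=
  ((lc_memLp h.sc.X2 c).sub (lc_memLp h.sc.F2 _)).sub ((h.sc.sg_memLp S _).const_mul _)

lemma PD.er_sq (h : PD ν F X m ub A S G z η W Γ0) (c : ι → ℝ) :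
    ∫ ω, er A S z F X c ω ^ 2 ∂ν ≤ (η * Real.sqrt (∑ x, c x ^ 2)) ^ 2 := by
  rw [mul_pow, Real.sq_sqrt (Finset.sum_nonneg fun _ _ => sq_nonneg _)]
  exact h.hL c

lemma Sc.sg_sq' (h : Sc ν F X m ub) (S : Matrix ι ι ℝ) (c : ι → ℝ) :
    ∫ ω, sg S c F ω ^ 2 ∂ν ≤ (Real.sqrt (Fintype.card ι) * Real.sqrt (∑ x, c x ^ 2)) ^ 2 := by
  rw [mul_pow, Real.sq_sqrt (Finset.sum_nonneg fun _ _ => sq_nonneg _),
    Real.sq_sqrt (Nat.cast_nonneg _)]
  exact h.sg_int S c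

lemma Sc.Y_memLp (h : Sc ν F X m ub) (c : ι → ℝ) :
    MemLp (fun ω => m * lc c F ω + lc c X ω) 2 ν :=
  ((lc_memLp h.F2 c).const_mul m).add (lc_memLp h.X2 c)

lemma Sc.Yf (h : Sc ν F X m ub) (c : ι → ℝ) :
    ∫ ω, (m * lc c F ω + lc c X ω) * lc c F ω ∂ν = ∑ x, c x ^ 2 := by
  rw [h.lin' c c]
  unfold dotProduct
  exact Finset.sum_congr rfl fun x _ => (sq _).symm

lemma Sc.ff_pos (h : Sc ν F X m ub) {c : ι → ℝ} (hc : 0 < ∑ x, c x ^ 2) :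
    0 < ∫ ω, lc c F ω ^ 2 ∂ν := by
  have h1 := cs_sq (h.Y_memLp c) (lc_memLp h.F2 c)
  rw [h.Yf c] at h1
  have h2 : 0 ≤ ∫ ω, lc c F ω ^ 2 ∂ν := integral_nonneg fun ω => sq_nonneg _
  rcases h2.eq_or_lt with h3 | h3
  · rw [← h3, mul_zero] at h1
    nlinarith
  · exact h3

/-- the two exact relations -/
lemma PD.eq1 (h : PD ν F X m ub A S G z η W Γ0) (hM : Md A S c a s) :
    ∑ x, c x ^ 2 = (m + a) * (∫ ω, lc c F ω ^ 2 ∂ν) +
      (4 * Real.pi * z * s) * (∫ ω, sg S c F ω * lc c F ω ∂ν) +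
      ∫ ω, er A S z F X c ω * lc c F ω ∂ν := by
  rw [← h.sc.Yf c]
  have hf2 := lc_memLp h.sc.F2 c
  have e1 : ∀ ω, (m * lc c F ω + lc c X ω) * lc c F ω = (m + a) * lc c F ω ^ 2 +
      (4 * Real.pi * z * s) * (sg S c F ω * lc c F ω) + 1 * (er A S z F X c ω * lc c F ω) := by
    intro ω
    rw [hM.X_eq (F := F) (X := X) (z := z) ω]; ring
  simp only [e1]
  rw [int_lin3 (l2_sq hf2) (l2_mul (h.sc.sg_memLp S c) hf2) (l2_mul (h.er_memLp c) hf2), one_mul]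

lemma PD.eq2 (h : PD ν F X m ub A S G z η W Γ0) (hM : Md A S c a s) :
    ∫ ω, (m * lc c F ω + lc c X ω) * sg S c F ω ∂ν =
      (m + a) * (∫ ω, sg S c F ω * lc c F ω ∂ν) +
      (4 * Real.pi * z * s) * (∫ ω, sg S c F ω ^ 2 ∂ν) +
      ∫ ω, er A S z F X c ω * sg S c F ω ∂ν := by
  have hf2 := lc_memLp h.sc.F2 c
  have hs2 := h.sc.sg_memLp S c
  have e1 : ∀ ω, (m * lc c F ω + lc c X ω) * sg S c F ω = (m + a) * (sg S c F ω * lc c F ω) +
      (4 * Real.pi * z * s) * sg S c F ω ^ 2 + 1 * (er A S z F X c ω * sg S c F ω) := by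
    intro ω
    rw [hM.X_eq (F := F) (X := X) (z := z) ω]; ring
  simp only [e1]
  rw [int_lin3 (l2_mul hs2 hf2) (l2_sq hs2) (l2_mul (h.er_memLp c) hs2), one_mul]

/-- mean cosine of the smeared field -/
lemma PD.kap (h : PD ν F X m ub A S G z η W Γ0) (w : ι) :
    |∫ ω, Real.cos (lc (th S w) F ω) ∂ν - Real.exp (-(2 * Real.pi ^ 2 * Γ0))| ≤
      W * bt ι z η := by
  have h1 := h.sc.cf h.hz h.hη h.hL h.hS h.hG (th S w) (h.hG0 _) h.hW (h.hWt w)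
  have h2 : (G *ᵥ th S w) ⬝ᵥ th S w / 2 = 2 * Real.pi ^ 2 * Γ0 := by
    rw [th_G S G h.hSt, h.hΓ]; ring
  rw [h2, mul_comm _ W] at h1
  exact h1

lemma Sc.Yσ (h : Sc ν F X m ub) (hSc : S *ᵥ c = s • c) :
    ∫ ω, (m * lc c F ω + lc c X ω) * sg S c F ω ∂ν =
      ∑ w, (2 * Real.pi * s) * (c w ^ 2 * ∫ ω, Real.cos (lc (th S w) F ω) ∂ν) := by
  have hσ2 := h.sg_memLp S c
  have h1 := h.sum c hσ2
  have h2 : ∀ x, ∫ ω, (m * F x ω + X x ω) * sg S c F ω ∂ν =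
      ∑ w, c w * (th S w x * ∫ ω, Real.cos (lc (th S w) F ω) ∂ν) := by
    intro x
    have hYx : MemLp (fun ω => m * F x ω + X x ω) 2 ν := ((h.F2 x).const_mul m).add (h.X2 x)
    have e1 : ∀ ω, (m * F x ω + X x ω) * sg S c F ω =
        ∑ w, c w * ((m * F x ω + X x ω) * Real.sin (lc (th S w) F ω)) := by
      intro ω
      unfold sg
      rw [Finset.mul_sum]
      exact Finset.sum_congr rfl fun w _ => by ring
    simp only [e1]
    rw [integral_finset_sum]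
    · refine Finset.sum_congr rfl fun w _ => ?_
      rw [integral_const_mul, h.sin]
    · intro w _
      exact (l2_mul hYx (h.sin_memLp _)).const_mul _
  rw [h1]
  simp only [h2, Finset.mul_sum]
  rw [Finset.sum_comm]
  refine Finset.sum_congr rfl fun w _ => ?_
  have e2 : ∀ x, c x * (c w * (th S w x * ∫ ω, Real.cos (lc (th S w) F ω) ∂ν)) =
      (2 * Real.pi * (c w * ∫ ω, Real.cos (lc (th S w) F ω) ∂ν)) * (S w x * c x) := by
    intro x; unfold th; ring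
  simp only [e2]
  rw [← Finset.mul_sum]
  have e3 : ∑ x, S w x * c x = s * c w := by
    have := congrFun hSc w
    simpa [mulVec, dotProduct] using this
  rw [e3]
  ring

lemma PD.Yσ2 (h : PD ν F X m ub A S G z η W Γ0) (hM : Md A S c a s) :
    |∫ ω, (m * lc c F ω + lc c X ω) * sg S c F ω ∂ν -
      2 * Real.pi * s * Real.exp (-(2 * Real.pi ^ 2 * Γ0)) * ∑ x, c x ^ 2| ≤
      2 * Real.pi * (W * bt ι z η) * ∑ x, c x ^ 2 := by
  have hpi := Real.pi_pos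
  have hs0 := hM.hs0
  have hs1 := hM.hs1
  set κG := Real.exp (-(2 * Real.pi ^ 2 * Γ0)) with hκG
  have hWb : 0 ≤ W * bt ι z η := (abs_nonneg _).trans (h.kap (Classical.choice (by
    by_contra hne
    rw [not_nonempty_iff] at hne
    have := hM.hc
    simp at this)))
  rw [h.sc.Yσ hM.hSc]
  have e1 : ∑ w, (2 * Real.pi * s) * (c w ^ 2 * ∫ ω, Real.cos (lc (th S w) F ω) ∂ν) -
      2 * Real.pi * s * κG * ∑ x, c x ^ 2 =
      ∑ w, (2 * Real.pi * s) * (c w ^ 2 * (∫ ω, Real.cos (lc (th S w) F ω) ∂ν - κG)) := by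
    rw [Finset.mul_sum, ← Finset.sum_sub_distrib]
    exact Finset.sum_congr rfl fun w _ => by ring
  rw [e1]
  refine (Finset.abs_sum_le_sum_abs _ _).trans ?_
  rw [Finset.mul_sum]
  refine Finset.sum_le_sum fun w _ => ?_
  have h1 := h.kap w
  rw [← hκG] at h1
  have h5 : 0 ≤ 2 * Real.pi * s := by positivity
  rw [abs_mul, abs_mul (c w ^ 2), abs_of_nonneg h5, abs_of_nonneg (sq_nonneg (c w))]
  have h2 : 0 ≤ c w ^ 2 := sq_nonneg _
  have h3 := mul_le_mul_of_nonneg_left h1 h2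
  have h4 : 0 ≤ c w ^ 2 * (W * bt ι z η) := mul_nonneg h2 hWb
  calc 2 * Real.pi * s * (c w ^ 2 * |∫ ω, Real.cos (lc (th S w) F ω) ∂ν - κG|) ≤
        2 * Real.pi * s * (c w ^ 2 * (W * bt ι z η)) := mul_le_mul_of_nonneg_left h3 h5
    _ ≤ 2 * Real.pi * 1 * (c w ^ 2 * (W * bt ι z η)) := by
        refine mul_le_mul_of_nonneg_right ?_ h4
        exact mul_le_mul_of_nonneg_left hs1 (by positivity)
    _ = 2 * Real.pi * (W * bt ι z η) * c w ^ 2 := by ring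

end

end Vale.Agent.P159.H114
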