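import Vale.Agent.P159.H114.PJ2

/-!
P159 (helper114): conclusion of (P#2)+(P#3).
-/

namespace Vale.Agent.P159.H114

open MeasureTheory Finset Matrix

noncomputable section

variable {Ω : Type*} [MeasurableSpace Ω] {ι : Type*} [Fintype ι] [DecidableEq ι]
variable {ν : Measure Ω} {F X : ι → Ω → ℝ} {m : ℝ} {ub : Matrix ι ι ℝ}
variable {A S G : Matrix ι ι ℝ} {z η W Γ0 a s : ℝ} {c : ι → ℝ}

lemma PD.P_le (h : PD ν F X m ub A S G z η W Γ0) (hM : Md A S c a s) :
    |(m + a) * (∫ ω, sg S c F ω * lc c F ω ∂ν) / (∑ x, c x ^ 2) -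
      2 * Real.pi * s * Real.exp (-(2 * Real.pi ^ 2 * Γ0))| ≤
      (4 * Real.pi * W + Real.sqrt (Fintype.card ι)) * bt ι z η := by
  have hpi := Real.pi_pos
  have hc := hM.hc
  have hW := h.hW
  have hz := h.hz
  have hη := h.hη
  have hs0 := hM.hs0
  have hs1 := hM.hs1
  set c2 := ∑ x, c x ^ 2 with hc2
  set n : ℝ := (Fintype.card ι : ℝ) with hn
  have hn0 : 0 ≤ n := by rw [hn]; exact Nat.cast_nonneg _
  have hsn : 0 ≤ Real.sqrt n := Real.sqrt_nonneg _
  have hsn' : Real.sqrt n ^ 2 = n := Real.sq_sqrt hn0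
  have hsc2 : 0 < Real.sqrt c2 := Real.sqrt_pos.2 hc
  have hsc2' : Real.sqrt c2 ^ 2 = c2 := Real.sq_sqrt hc.le
  have hβ0 : 0 ≤ bt ι z η := by unfold bt; positivity
  set sf := ∫ ω, sg S c F ω * lc c F ω ∂ν with hsf
  set ss := ∫ ω, sg S c F ω ^ 2 ∂ν with hss
  set es := ∫ ω, er A S z F X c ω * sg S c F ω ∂ν with hes
  set Ys := ∫ ω, (m * lc c F ω + lc c X ω) * sg S c F ω ∂ν with hYs
  set κG := Real.exp (-(2 * Real.pi ^ 2 * Γ0)) with hκG
  have hss0 : 0 ≤ ss := integral_nonneg fun ω => sq_nonneg _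
  have hss1 : ss ≤ n * c2 := h.sc.sg_int S c
  have heσ : |es| ≤ η * Real.sqrt n * c2 := by
    have h1 := cs_le (h.er_memLp c) (h.sc.sg_memLp S c) (by positivity) (by positivity)
      (h.er_sq c) (h.sc.sg_sq' S c)
    refine h1.trans (le_of_eq ?_)
    rw [← hc2, ← hn]
    calc η * Real.sqrt c2 * (Real.sqrt n * Real.sqrt c2) = η * Real.sqrt n * Real.sqrt c2 ^ 2 := by
          ring
      _ = η * Real.sqrt n * c2 := by rw [hsc2']
  have eq2 := h.eq2 hM
  rw [← hsf, ← hss, ← hes, ← hYs] at eq2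
  have hYσ2 := h.Yσ2 hM
  rw [← hYs, ← hc2, ← hκG] at hYσ2
  have e1 : (m + a) * sf / c2 - 2 * Real.pi * s * κG =
      ((Ys - 2 * Real.pi * s * κG * c2) - (4 * Real.pi * z * s) * ss - es) / c2 := by
    rw [eq2]
    field_simp
    ring
  rw [e1, abs_div, abs_of_pos hc, div_le_iff₀ hc]
  have hk0 : 0 ≤ 4 * Real.pi * z * s := by positivity
  have hk1 : 4 * Real.pi * z * s ≤ 4 * Real.pi * z :=
    mul_le_of_le_one_right (by positivity) hs1
  have h1 : |(Ys - 2 * Real.pi * s * κG * c2) - (4 * Real.pi * z * s) * ss - es| ≤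
      2 * Real.pi * (W * bt ι z η) * c2 + (4 * Real.pi * z) * (n * c2) + η * Real.sqrt n * c2 := by
    refine (abs_sub _ _).trans (add_le_add ((abs_sub _ _).trans (add_le_add hYσ2 ?_)) heσ)
    rw [abs_of_nonneg (mul_nonneg hk0 hss0)]
    exact mul_le_mul hk1 hss1 hss0 (by positivity)
  refine h1.trans ?_
  have e2 : (4 * Real.pi * z) * (n * c2) + η * Real.sqrt n * c2 =
      Real.sqrt n * bt ι z η * c2 := by
    unfold bt
    rw [← hn]
    calc (4 * Real.pi * z) * (n * c2) + η * Real.sqrt n * c2 =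
        (4 * Real.pi * z) * (Real.sqrt n ^ 2 * c2) + η * Real.sqrt n * c2 := by rw [hsn']
      _ = _ := by ring
  have h5 : 0 ≤ W * bt ι z η * c2 := by positivity
  have h6 : 2 * Real.pi * (W * bt ι z η) * c2 ≤ 4 * Real.pi * (W * bt ι z η) * c2 := by
    have e3 : 4 * Real.pi * (W * bt ι z η) * c2 = 2 * Real.pi * (W * bt ι z η) * c2 +
      2 * Real.pi * (W * bt ι z η * c2) := by ring
    rw [e3]
    have : 0 ≤ 2 * Real.pi * (W * bt ι z η * c2) := by positivity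
    linarith
  calc 2 * Real.pi * (W * bt ι z η) * c2 + (4 * Real.pi * z) * (n * c2) + η * Real.sqrt n * c2
      = 2 * Real.pi * (W * bt ι z η) * c2 + ((4 * Real.pi * z) * (n * c2) +
        η * Real.sqrt n * c2) := by ring
    _ = 2 * Real.pi * (W * bt ι z η) * c2 + Real.sqrt n * bt ι z η * c2 := by rw [e2]
    _ ≤ 4 * Real.pi * (W * bt ι z η) * c2 + Real.sqrt n * bt ι z η * c2 := by linarith
    _ = _ := by ring

/-- scalar step for `Q` -/
lemma q_aux {Q d : ℝ} (hQ : 0 < Q) (hd : d ≤ 1 / 2) (hd0 : 0 ≤ d)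
    (h : |Q - 1| ≤ d / 2 * Real.sqrt Q) : |Q - 1| ≤ d := by
  set r := Real.sqrt Q with hr
  have hr0 : 0 < r := Real.sqrt_pos.2 hQ
  have hr2 : r ^ 2 = Q := Real.sq_sqrt hQ.le
  have h9 : r ≤ 2 := by
    have h10 : r ^ 2 - 1 ≤ (1 / 4) * r := by
      have h1 := (abs_le.1 h).2
      rw [hr2]
      have h2 : d / 2 * r ≤ 1 / 4 * r := mul_le_mul_of_nonneg_right (by linarith) hr0.le
      linarith
    nlinarith
  calc |Q - 1| ≤ d / 2 * r := h
    _ ≤ d / 2 * 2 := mul_le_mul_of_nonneg_left h9 (by linarith)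
    _ = d := by ring

lemma PD.Q_le (h : PD ν F X m ub A S G z η W Γ0) (hM : Md A S c a s)
    (hd : 2 * (bt ι z η / Real.sqrt m) ≤ 1 / 2) :
    |(m + a) * (∫ ω, lc c F ω ^ 2 ∂ν) / (∑ x, c x ^ 2) - 1| ≤ 2 * (bt ι z η / Real.sqrt m) := by
  have hpi := Real.pi_pos
  have hc := hM.hc
  have hm := h.hm
  have hz := h.hz
  have hη := h.hη
  have ha := hM.ha
  have hs0 := hM.hs0
  have hs1 := hM.hs1
  have hff0 := h.sc.ff_pos hc
  have eq1 := h.eq1 hM
  set c2 := ∑ x, c x ^ 2 with hc2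
  set n : ℝ := (Fintype.card ι : ℝ) with hn
  have hsc2 : 0 < Real.sqrt c2 := Real.sqrt_pos.2 hc
  have hsc2' : Real.sqrt c2 ^ 2 = c2 := Real.sq_sqrt hc.le
  have hβ0 : 0 ≤ bt ι z η := by unfold bt; positivity
  have hma : 0 < m + a := by linarith
  set ff := ∫ ω, lc c F ω ^ 2 ∂ν with hff
  set sf := ∫ ω, sg S c F ω * lc c F ω ∂ν with hsf
  set ef := ∫ ω, er A S z F X c ω * lc c F ω ∂ν with hef
  have hffs : ff ≤ (Real.sqrt ff) ^ 2 := by rw [Real.sq_sqrt hff0.le]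
  have h1 : |sf| ≤ Real.sqrt n * Real.sqrt c2 * Real.sqrt ff :=
    cs_le (h.sc.sg_memLp S c) (lc_memLp h.sc.F2 c) (by positivity) (Real.sqrt_nonneg _)
      (h.sc.sg_sq' S c) hffs
  have h2 : |ef| ≤ η * Real.sqrt c2 * Real.sqrt ff :=
    cs_le (h.er_memLp c) (lc_memLp h.sc.F2 c) (by positivity) (Real.sqrt_nonneg _) (h.er_sq c)
      hffs
  have hk0 : 0 ≤ 4 * Real.pi * z * s := by positivity
  have hk1 : 4 * Real.pi * z * s ≤ 4 * Real.pi * z :=
    mul_le_of_le_one_right (by positivity) hs1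
  have h3 : |(m + a) * ff - c2| ≤ bt ι z η * Real.sqrt c2 * Real.sqrt ff := by
    have e1 : (m + a) * ff - c2 = -((4 * Real.pi * z * s) * sf + ef) := by rw [eq1]; ring
    rw [e1, abs_neg]
    refine (abs_add_le _ _).trans ?_
    rw [abs_mul, abs_of_nonneg hk0]
    have h4 : (4 * Real.pi * z * s) * |sf| ≤
        (4 * Real.pi * z) * (Real.sqrt n * Real.sqrt c2 * Real.sqrt ff) :=
      mul_le_mul hk1 h1 (abs_nonneg _) (by positivity)
    unfold bt
    rw [← hn]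
    have : (4 * Real.pi * z * Real.sqrt n + η) * Real.sqrt c2 * Real.sqrt ff =
        (4 * Real.pi * z) * (Real.sqrt n * Real.sqrt c2 * Real.sqrt ff) +
          η * Real.sqrt c2 * Real.sqrt ff := by ring
    linarith
  set Q := (m + a) * ff / c2 with hQ
  have hQ0 : 0 < Q := by rw [hQ]; positivity
  have hffQ : ff = Q * c2 / (m + a) := by rw [hQ]; field_simp
  have hsm : 0 < Real.sqrt m := Real.sqrt_pos.2 hm
  have hsma : Real.sqrt m ≤ Real.sqrt (m + a) := Real.sqrt_le_sqrt (by linarith)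
  have hsqff : Real.sqrt ff = Real.sqrt Q * Real.sqrt c2 / Real.sqrt (m + a) := by
    rw [hffQ, Real.sqrt_div (by positivity), Real.sqrt_mul hQ0.le]
  refine q_aux hQ0 hd (by positivity) ?_
  have e1 : Q - 1 = ((m + a) * ff - c2) / c2 := by
    rw [hQ]; field_simp
  rw [e1, abs_div, abs_of_pos hc, div_le_iff₀ hc]
  refine h3.trans ?_
  rw [hsqff]
  have h6 : bt ι z η * Real.sqrt c2 * (Real.sqrt Q * Real.sqrt c2 / Real.sqrt (m + a)) =
      (bt ι z η / Real.sqrt (m + a)) * Real.sqrt Q * c2 := by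
    calc bt ι z η * Real.sqrt c2 * (Real.sqrt Q * Real.sqrt c2 / Real.sqrt (m + a)) =
        (bt ι z η / Real.sqrt (m + a)) * Real.sqrt Q * Real.sqrt c2 ^ 2 := by ring
      _ = _ := by rw [hsc2']
  rw [h6]
  have h7 : bt ι z η / Real.sqrt (m + a) ≤ bt ι z η / Real.sqrt m :=
    div_le_div_of_nonneg_left hβ0 hsm hsma
  have h8 : (2 * (bt ι z η / Real.sqrt m)) / 2 = bt ι z η / Real.sqrt m := by ring
  rw [h8]
  exact mul_le_mul_of_nonneg_right (mul_le_mul_of_nonneg_right h7 (Real.sqrt_nonneg _)) hc.le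

/-- the sines against their Gaussian value -/
lemma PD.ssG (h : PD ν F X m ub A S G z η W Γ0) (c : ι → ℝ) :
    |∫ ω, sg S c F ω ^ 2 ∂ν - Real.exp (-(4 * Real.pi ^ 2 * Γ0)) *
      ∑ w, ∑ w', c w * c w' * Real.sinh (4 * Real.pi ^ 2 * Gam S G w w')| ≤
      2 * W * bt ι z η * ((Fintype.card ι) * ∑ x, c x ^ 2) := by
  have hpi := Real.pi_pos
  have hz := h.hz
  have hη := h.hη
  have hβ0 : 0 ≤ bt ι z η := by unfold bt; positivity
  have hW := h.hW
  have e1 : ∫ ω, sg S c F ω ^ 2 ∂ν = ∑ w, ∑ w', c w * c w' *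
      ∫ ω, Real.sin (lc (th S w) F ω) * Real.sin (lc (th S w') F ω) ∂ν := by
    have e2 : ∀ ω, sg S c F ω ^ 2 = ∑ w, ∑ w', c w * c w' *
        (Real.sin (lc (th S w) F ω) * Real.sin (lc (th S w') F ω)) := by
      intro ω
      unfold sg
      rw [sq, Finset.sum_mul_sum]
      exact Finset.sum_congr rfl fun w _ => Finset.sum_congr rfl fun w' _ => by ring
    simp only [e2]
    rw [integral_finset_sum]
    · refine Finset.sum_congr rfl fun w _ => ?_
      rw [integral_finset_sum]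
      · exact Finset.sum_congr rfl fun w' _ => integral_const_mul _ _
      · intro w' _
        exact (l2_mul (h.sc.sin_memLp _) (h.sc.sin_memLp _)).const_mul _
    · intro w _
      exact integrable_finset_sum _ fun w' _ =>
        (l2_mul (h.sc.sin_memLp _) (h.sc.sin_memLp _)).const_mul _
  rw [e1, Finset.mul_sum, ← Finset.sum_sub_distrib]
  have h1 : ∀ w, |∑ w', c w * c w' *
        (∫ ω, Real.sin (lc (th S w) F ω) * Real.sin (lc (th S w') F ω) ∂ν) -
      Real.exp (-(4 * Real.pi ^ 2 * Γ0)) * ∑ w', c w * c w' *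
        Real.sinh (4 * Real.pi ^ 2 * Gam S G w w')| ≤
        ∑ w', |c w| * |c w'| * (2 * W * bt ι z η) := by
    intro w
    rw [Finset.mul_sum, ← Finset.sum_sub_distrib]
    refine (Finset.abs_sum_le_sum_abs _ _).trans (Finset.sum_le_sum fun w' _ => ?_)
    have h2 := h.sc.ss h.hz h.hη h.hL h.hS h.hSt h.hGt h.hG h.hG0 h.hW h.hWt h.hΓ w w'
    have e3 : c w * c w' * (∫ ω, Real.sin (lc (th S w) F ω) * Real.sin (lc (th S w') F ω) ∂ν) -
        Real.exp (-(4 * Real.pi ^ 2 * Γ0)) *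
          (c w * c w' * Real.sinh (4 * Real.pi ^ 2 * Gam S G w w')) =
        (c w * c w') * ((∫ ω, Real.sin (lc (th S w) F ω) * Real.sin (lc (th S w') F ω) ∂ν) -
          Real.exp (-(4 * Real.pi ^ 2 * Γ0)) *
            Real.sinh (4 * Real.pi ^ 2 * Gam S G w w')) := by ring
    rw [e3, abs_mul, abs_mul]
    exact mul_le_mul_of_nonneg_left h2 (by positivity)
  refine (Finset.abs_sum_le_sum_abs _ _).trans ((Finset.sum_le_sum fun w _ => h1 w).trans ?_)
  have e4 : ∑ w, ∑ w', |c w| * |c w'| * (2 * W * bt ι z η) =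
      (2 * W * bt ι z η) * (∑ w, |c w|) ^ 2 := by
    rw [sq, Finset.sum_mul_sum, Finset.mul_sum]
    refine Finset.sum_congr rfl fun w _ => ?_
    rw [Finset.mul_sum]
    exact Finset.sum_congr rfl fun w' _ => by ring
  rw [e4]
  exact mul_le_mul_of_nonneg_left (l1_sq c) (by positivity)

omit [DecidableEq ι] in
/-- the Gaussian value as sines minus the linear part -/
lemma JG_eq [DecidableEq ι] (hG : (m • (1 : Matrix ι ι ℝ) + A) * G = 1) (hM : Md A S c a s)
    (hma : 0 < m + a) :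
    JG S G z s Γ0 c = (4 * Real.pi * z * s) ^ 2 * ((Real.exp (-(4 * Real.pi ^ 2 * Γ0)) *
      ∑ w, ∑ w', c w * c w' * Real.sinh (4 * Real.pi ^ 2 * Gam S G w w')) -
        (∑ x, c x ^ 2) / (m + a) * (2 * Real.pi * s * Real.exp (-(2 * Real.pi ^ 2 * Γ0))) ^ 2) := by
  have hGc : G *ᵥ c = (1 / (m + a)) • c := by
    have h1 : (m • (1 : Matrix ι ι ℝ) + A) *ᵥ c = (m + a) • c := by
      rw [add_mulVec, smul_mulVec, one_mulVec, hM.hAc, ← add_smul]
    have h2 : G * (m • (1 : Matrix ι ι ℝ) + A) = 1 := mul_eq_one_comm.1 hG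
    have h3 : c = (m + a) • (G *ᵥ c) := by
      rw [← mulVec_smul, ← h1, mulVec_mulVec, h2, one_mulVec]
    have h4 : (1 / (m + a)) • c = (1 / (m + a)) • ((m + a) • (G *ᵥ c)) := by rw [← h3]
    rw [h4, smul_smul, one_div, inv_mul_cancel₀ hma.ne', one_smul]
  have hl := Gam_eig hM.hSc hGc
  unfold JG
  congr 1
  have e1 : ∑ w, ∑ w', c w * c w' * (Real.sinh (4 * Real.pi ^ 2 * Gam S G w w') -
      4 * Real.pi ^ 2 * Gam S G w w') =
      (∑ w, ∑ w', c w * c w' * Real.sinh (4 * Real.pi ^ 2 * Gam S G w w')) -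
        4 * Real.pi ^ 2 * ∑ w, ∑ w', c w * c w' * Gam S G w w' := by
    rw [Finset.mul_sum, ← Finset.sum_sub_distrib]
    refine Finset.sum_congr rfl fun w _ => ?_
    rw [Finset.mul_sum, ← Finset.sum_sub_distrib]
    exact Finset.sum_congr rfl fun w' _ => by ring
  rw [e1, hl, mul_sub]
  congr 1
  have e2 : (Real.exp (-(2 * Real.pi ^ 2 * Γ0))) ^ 2 = Real.exp (-(4 * Real.pi ^ 2 * Γ0)) := by
    rw [← Real.exp_nat_mul]
    congr 1
    push_cast
    ring
  rw [mul_pow, e2]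
  field_simp
  ring

/-- **(P#2)+(P#3)**: the projected second moment of `<c, X>` -/
theorem PD.main (h : PD ν F X m ub A S G z η W Γ0) (hM : Md A S c a s) {β n d1 d2 : ℝ}
    (hβ : β = bt ι z η) (hn : n = Fintype.card ι)
    (hd1 : d1 = (4 * Real.pi * W + Real.sqrt n) * β) (hd2 : d2 = 2 * (β / Real.sqrt m))
    (hs1 : d1 ≤ 1) (hs2 : d2 ≤ 1 / 2) :
    |prj ν (lc c F) (lc c X) - JG S G z s Γ0 c| ≤
      (∑ x, c x ^ 2) * (2 * (β * η) + η ^ 2 +
        (4 * Real.pi * z) ^ 2 * (2 * n * W * β + (30 * d1 + 98 * d2) / m)) := by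
  have hpi := Real.pi_pos
  have hc := hM.hc
  have hm := h.hm
  have hz := h.hz
  have hη := h.hη
  have ha := hM.ha
  have hs0 := hM.hs0
  have hs1' := hM.hs1
  have hff0 := h.sc.ff_pos hc
  have hP1 := h.P_le hM
  have hQ1 := h.Q_le hM (by rw [← hβ, ← hd2]; exact hs2)
  rw [← hβ, ← hn, ← hd1] at hP1
  rw [← hβ, ← hd2] at hQ1
  have hssG := h.ssG c
  rw [← hβ, ← hn] at hssG
  have hσsq := h.sc.sg_sq' S c
  have hss1 := h.sc.sg_int S c
  rw [← hn] at hσsq hss1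
  have hersq := h.er_sq c
  have hma : 0 < m + a := by linarith
  have hJG := JG_eq (z := z) (Γ0 := Γ0) h.hG hM hma
  have hf2 : MemLp (lc c F) 2 ν := lc_memLp h.sc.F2 c
  have hσ2 := h.sc.sg_memLp S c
  have he2 := h.er_memLp c
  have hXω := hM.X_eq (F := F) (X := X) (z := z)
  set c2 := ∑ x, c x ^ 2 with hc2
  have hn0 : 0 ≤ n := by rw [hn]; exact Nat.cast_nonneg _
  have hsn' : Real.sqrt n ^ 2 = n := Real.sq_sqrt hn0
  have hsc2' : Real.sqrt c2 ^ 2 = c2 := Real.sq_sqrt hc.le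
  have hβ0 : 0 ≤ β := by rw [hβ]; unfold bt; positivity
  set k := 4 * Real.pi * z * s with hk
  have hk0 : 0 ≤ k := by positivity
  have hk1 : k ≤ 4 * Real.pi * z := mul_le_of_le_one_right (by positivity) hs1'
  set f : Ω → ℝ := lc c F with hf
  set σ : Ω → ℝ := sg S c F with hσ
  set ff := ∫ ω, f ω ^ 2 ∂ν with hff
  set sf := ∫ ω, σ ω * f ω ∂ν with hsf
  set ss := ∫ ω, σ ω ^ 2 ∂ν with hss
  have hss0 : 0 ≤ ss := integral_nonneg fun ω => sq_nonneg _
  set κG := Real.exp (-(2 * Real.pi ^ 2 * Γ0)) with hκG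
  set SH := Real.exp (-(4 * Real.pi ^ 2 * Γ0)) *
    ∑ w, ∑ w', c w * c w' * Real.sinh (4 * Real.pi ^ 2 * Gam S G w w') with hSH
  have hM2 : MemLp (fun ω => k * σ ω) 2 ν := hσ2.const_mul k
  have hMsz : ∫ ω, (k * σ ω) ^ 2 ∂ν ≤ (4 * Real.pi * z * Real.sqrt n * Real.sqrt c2) ^ 2 := by
    have e1 : ∀ ω, (k * σ ω) ^ 2 = k ^ 2 * σ ω ^ 2 := fun ω => by ring
    simp only [e1]
    rw [integral_const_mul]
    have e2 : (4 * Real.pi * z * Real.sqrt n * Real.sqrt c2) ^ 2 =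
        (4 * Real.pi * z) ^ 2 * (n * c2) := by
      rw [mul_pow, mul_pow, hsc2', hsn']; ring
    rw [e2]
    exact mul_le_mul (pow_le_pow_left₀ hk0 hk1 2) hss1 hss0 (sq_nonneg _)
  have step1 := prj_pert hf2 hM2 he2 (Y := lc c X) (r := a) hXω hff0 (by positivity)
    (by positivity) hMsz hersq
  have hprjM : prj ν f (fun ω => k * σ ω) =
      k ^ 2 * (ss - c2 / (m + a) * (((m + a) * sf / c2) ^ 2 / ((m + a) * ff / c2))) := by
    unfold prj
    have e1 : ∀ ω, (k * σ ω) ^ 2 = k ^ 2 * σ ω ^ 2 := fun ω => by ring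
    have e2 : ∀ ω, k * σ ω * f ω = k * (σ ω * f ω) := fun ω => by ring
    simp only [e1, e2]
    rw [integral_const_mul, integral_const_mul, ← hss, ← hsf, ← hff]
    field_simp
  have hP0 : |2 * Real.pi * s * κG| ≤ 7 := by
    have hκGle : κG ≤ 1 := by
      rw [hκG, Real.exp_le_one_iff]
      have h0 := h.hΓ0
      have : 0 ≤ 2 * Real.pi ^ 2 * Γ0 := by positivity
      linarith
    have hκG0 : 0 < κG := Real.exp_pos _
    rw [abs_of_nonneg (by positivity)]
    have h1 : s * κG ≤ 1 := by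
      have := mul_le_mul hs1' hκGle hκG0.le zero_le_one
      linarith
    have h2 : 2 * Real.pi ≤ 7 := by linarith [Real.pi_lt_d2]
    calc 2 * Real.pi * s * κG = (2 * Real.pi) * (s * κG) := by ring
      _ ≤ 7 * 1 := mul_le_mul h2 h1 (by positivity) (by norm_num)
      _ = 7 := by norm_num
  have hpq := pq_pert hP1 hQ1 hs1 hs2 hP0
  have step2 : |prj ν f (fun ω => k * σ ω) - JG S G z s Γ0 c| ≤
      (4 * Real.pi * z) ^ 2 * (2 * W * β * (n * c2) + c2 / m * (30 * d1 + 98 * d2)) := by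
    rw [hprjM, hJG, ← mul_sub, abs_mul, abs_of_nonneg (sq_nonneg k)]
    refine mul_le_mul (pow_le_pow_left₀ hk0 hk1 2) ?_ (abs_nonneg _) (sq_nonneg _)
    have e1 : ss - c2 / (m + a) * (((m + a) * sf / c2) ^ 2 / ((m + a) * ff / c2)) -
        (SH - c2 / (m + a) * (2 * Real.pi * s * κG) ^ 2) =
        (ss - SH) - c2 / (m + a) * (((m + a) * sf / c2) ^ 2 / ((m + a) * ff / c2) -
          (2 * Real.pi * s * κG) ^ 2) := by ring
    rw [e1]
    refine (abs_sub _ _).trans (add_le_add hssG ?_)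
    rw [abs_mul, abs_of_pos (by positivity : 0 < c2 / (m + a))]
    refine mul_le_mul ?_ hpq (abs_nonneg _) (by positivity)
    exact div_le_div_of_nonneg_left hc.le hm (by linarith)
  have e9 : 2 * (4 * Real.pi * z * Real.sqrt n * Real.sqrt c2) * (η * Real.sqrt c2) +
      (η * Real.sqrt c2) ^ 2 = c2 * (2 * ((4 * Real.pi * z * Real.sqrt n) * η) + η ^ 2) := by
    calc 2 * (4 * Real.pi * z * Real.sqrt n * Real.sqrt c2) * (η * Real.sqrt c2) +
        (η * Real.sqrt c2) ^ 2 =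
        Real.sqrt c2 ^ 2 * (2 * ((4 * Real.pi * z * Real.sqrt n) * η) + η ^ 2) := by ring
      _ = _ := by rw [hsc2']
  rw [e9] at step1
  have e10 : (4 * Real.pi * z * Real.sqrt n) * η ≤ β * η := by
    refine mul_le_mul_of_nonneg_right ?_ hη
    rw [hβ]
    unfold bt
    rw [← hn]
    linarith
  have tri : |prj ν f (lc c X) - JG S G z s Γ0 c| ≤
      |prj ν f (lc c X) - prj ν f (fun ω => k * σ ω)| +
        |prj ν f (fun ω => k * σ ω) - JG S G z s Γ0 c| := abs_sub_le _ _ _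
  refine tri.trans ((add_le_add step1 step2).trans ?_)
  have e11 : c2 * (2 * (β * η) + η ^ 2 +
        (4 * Real.pi * z) ^ 2 * (2 * n * W * β + (30 * d1 + 98 * d2) / m)) =
      c2 * (2 * (β * η) + η ^ 2) + (4 * Real.pi * z) ^ 2 * (2 * W * β * (n * c2) +
        c2 / m * (30 * d1 + 98 * d2)) := by
    ring
  rw [e11]
  refine add_le_add (mul_le_mul_of_nonneg_left ?_ hc.le) le_rfl
  linarith

end

end Vale.Agent.P159.H114
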