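import Vale.Agent.P159.H114.PJ3

/-!
P159 (helper114): the projected second moment in terms of the mean Hessian and of the variance of
the field (this is (P#1)); the mean Hessian from (L1).
-/

namespace Vale.Agent.P159.H114

open MeasureTheory Finset Matrix

noncomputable section

variable {Ω : Type*} [MeasurableSpace Ω] {ι : Type*} [Fintype ι] [DecidableEq ι]
variable {ν : Measure Ω} {F X : ι → Ω → ℝ} {m : ℝ} {ub : Matrix ι ι ℝ}
variable {A S G : Matrix ι ι ℝ} {z η W Γ0 a s : ℝ} {c : ι → ℝ}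

/-- (P#1): `|c|² J = m |c|² + <c, ub c> - |c|⁴ / Var <c, F>` -/
theorem Sc.prj_eq (h : Sc ν F X m ub) {c : ι → ℝ} (hc : 0 < ∑ x, c x ^ 2) :
    prj ν (lc c F) (lc c X) = m * (∑ x, c x ^ 2) + (∑ x, ∑ y, c x * ub x y * c y) -
      (∑ x, c x ^ 2) ^ 2 / ∫ ω, lc c F ω ^ 2 ∂ν := by
  have hff0 := h.ff_pos hc
  have hf2 := lc_memLp h.F2 c
  have hX2 := lc_memLp h.X2 c
  have h1 := h.fish' c
  have h2 := h.Yf c
  set ff := ∫ ω, lc c F ω ^ 2 ∂ν with hff
  set xf := ∫ ω, lc c X ω * lc c F ω ∂ν with hxf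
  set xx := ∫ ω, lc c X ω ^ 2 ∂ν with hxx
  have e1 : ∫ ω, (m * lc c F ω + lc c X ω) ^ 2 ∂ν = m ^ 2 * ff + 2 * m * xf + xx := by
    have e : ∀ ω, (m * lc c F ω + lc c X ω) ^ 2 =
        m ^ 2 * lc c F ω ^ 2 + (2 * m) * (lc c X ω * lc c F ω) + 1 * lc c X ω ^ 2 := by
      intro ω; ring
    simp only [e]
    rw [int_lin3 (l2_sq hf2) (l2_mul hX2 hf2) (l2_sq hX2), one_mul]
  have e2 : ∫ ω, (m * lc c F ω + lc c X ω) * lc c F ω ∂ν = m * ff + xf := by
    have e : ∀ ω, (m * lc c F ω + lc c X ω) * lc c F ω =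
        m * lc c F ω ^ 2 + 1 * (lc c X ω * lc c F ω) := by
      intro ω; ring
    simp only [e]
    rw [int_lin2 (l2_sq hf2) (l2_mul hX2 hf2), one_mul]
  rw [e1] at h1
  rw [e2] at h2
  unfold prj
  rw [← hxx, ← hxf, ← hff, ← h1, ← h2]
  field_simp
  ring

/-- the mean Hessian on a mode -/
theorem PD.hess (h : PD ν F X m ub A S G z η W Γ0) (hM : Md A S c a s) {u : ℝ}
    (hu : ∑ x, ∑ y, c x * ub x y * c y = u * ∑ x, c x ^ 2) (hmu : 0 ≤ m + u) :
    |u - (a + 8 * Real.pi ^ 2 * z * s ^ 2 * Real.exp (-(2 * Real.pi ^ 2 * Γ0)))| ≤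
      8 * Real.pi ^ 2 * z * W * bt ι z η + η * Real.sqrt (m + u) := by
  have hpi := Real.pi_pos
  have hc := hM.hc
  have hz := h.hz
  have hη := h.hη
  have hs0 := hM.hs0
  have hs1 := hM.hs1
  have hW := h.hW
  have hf2 := lc_memLp h.sc.F2 c
  have hX2 := lc_memLp h.sc.X2 c
  have hY2 := h.sc.Y_memLp c
  have hσ2 := h.sc.sg_memLp S c
  have he2 := h.er_memLp c
  have hYσ := h.Yσ2 hM
  have hYf := h.sc.Yf c
  have hfish := h.sc.fish' c
  rw [hu] at hfish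
  have hersq := h.er_sq c
  set c2 := ∑ x, c x ^ 2 with hc2
  have hsc2' : Real.sqrt c2 ^ 2 = c2 := Real.sq_sqrt hc.le
  have hβ0 : 0 ≤ bt ι z η := by unfold bt; positivity
  set κG := Real.exp (-(2 * Real.pi ^ 2 * Γ0)) with hκG
  set Y : Ω → ℝ := fun ω => m * lc c F ω + lc c X ω with hY
  have e1 : ∫ ω, Y ω ^ 2 ∂ν = (m + a) * (∫ ω, Y ω * lc c F ω ∂ν) +
      (4 * Real.pi * z * s) * (∫ ω, Y ω * sg S c F ω ∂ν) + ∫ ω, Y ω * er A S z F X c ω ∂ν := by
    have e : ∀ ω, Y ω ^ 2 = (m + a) * (Y ω * lc c F ω) +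
        (4 * Real.pi * z * s) * (Y ω * sg S c F ω) + 1 * (Y ω * er A S z F X c ω) := by
      intro ω
      have h1 := hM.X_eq (F := F) (X := X) (z := z) ω
      simp only [hY]
      rw [h1]
      ring
    simp only [e]
    rw [int_lin3 (l2_mul hY2 hf2) (l2_mul hY2 hσ2) (l2_mul hY2 he2), one_mul]
  have hYY : ∫ ω, Y ω ^ 2 ∂ν = (m + u) * c2 := by
    rw [add_mul]
    exact hfish
  have hYe : |∫ ω, Y ω * er A S z F X c ω ∂ν| ≤
      Real.sqrt ((m + u) * c2) * (η * Real.sqrt c2) := by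
    refine cs_le hY2 he2 (Real.sqrt_nonneg _) (by positivity) ?_ hersq
    rw [Real.sq_sqrt (mul_nonneg hmu hc.le), hYY]
  have e2 : Real.sqrt ((m + u) * c2) * (η * Real.sqrt c2) = η * Real.sqrt (m + u) * c2 := by
    rw [Real.sqrt_mul hmu]
    calc Real.sqrt (m + u) * Real.sqrt c2 * (η * Real.sqrt c2) =
        η * Real.sqrt (m + u) * Real.sqrt c2 ^ 2 := by ring
      _ = _ := by rw [hsc2']
  rw [e2] at hYe
  rw [hYY, hYf] at e1
  have e3 : (u - (a + 8 * Real.pi ^ 2 * z * s ^ 2 * κG)) * c2 =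
      (4 * Real.pi * z * s) * ((∫ ω, Y ω * sg S c F ω ∂ν) - 2 * Real.pi * s * κG * c2) +
        ∫ ω, Y ω * er A S z F X c ω ∂ν := by
    have : (u - a) * c2 = (m + u) * c2 - (m + a) * c2 := by ring
    calc (u - (a + 8 * Real.pi ^ 2 * z * s ^ 2 * κG)) * c2 =
        (m + u) * c2 - (m + a) * c2 - 8 * Real.pi ^ 2 * z * s ^ 2 * κG * c2 := by ring
      _ = _ := by rw [e1]; ring
  have hk0 : 0 ≤ 4 * Real.pi * z * s := by positivity
  have hk1 : 4 * Real.pi * z * s ≤ 4 * Real.pi * z :=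
    mul_le_of_le_one_right (by positivity) hs1
  have h1 : |(u - (a + 8 * Real.pi ^ 2 * z * s ^ 2 * κG)) * c2| ≤
      (8 * Real.pi ^ 2 * z * W * bt ι z η + η * Real.sqrt (m + u)) * c2 := by
    rw [e3]
    refine (abs_add_le _ _).trans ?_
    rw [abs_mul, abs_of_nonneg hk0]
    have h2 : (4 * Real.pi * z * s) * |(∫ ω, Y ω * sg S c F ω ∂ν) -
        2 * Real.pi * s * κG * c2| ≤ (4 * Real.pi * z) * (2 * Real.pi * (W * bt ι z η) * c2) :=
      mul_le_mul hk1 hYσ (abs_nonneg _) (by positivity)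
    calc _ ≤ (4 * Real.pi * z) * (2 * Real.pi * (W * bt ι z η) * c2) +
          η * Real.sqrt (m + u) * c2 := add_le_add h2 hYe
      _ = _ := by ring
  rw [abs_mul, abs_of_pos hc] at h1
  exact le_of_mul_le_mul_right h1 hc

end

end Vale.Agent.P159.H114
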