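import Vale.Agent.P159.H114.PJ4

/-!
P159 (helper114): (P#) for the pinned prior (zero mode almost free): the bound of the characteristic
function is improved by the factor `min (1, 2/q)`; the projected second moment on modes `k ≠ 0`.
-/

namespace Vale.Agent.P159.H114

open MeasureTheory Finset Matrix

noncomputable section

variable {Ω : Type*} [MeasurableSpace Ω] {ι : Type*} [Fintype ι] [DecidableEq ι]
variable {ν : Measure Ω} {F X : ι → Ω → ℝ} {m : ℝ} {ub : Matrix ι ι ℝ}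

/-- the characteristic function along a ray -/
lemma Sc.cf_der (h : Sc ν F X m ub) {A : Matrix ι ι ℝ} {w v : ι → ℝ}
    (hv : v = m • w + A *ᵥ w) {B : ℝ} (hB : 0 ≤ B)
    (hr : ∫ ω, (lc w X ω - lc (A *ᵥ w) F ω) ^ 2 ∂ν ≤ B ^ 2) :
    ∃ r : ℝ → ℝ, (∀ θ, |r θ| ≤ B) ∧ ∀ θ : ℝ, HasDerivAt
      (fun θ : ℝ => Real.exp ((w ⬝ᵥ v) * θ ^ 2 / 2) * ∫ ω, Real.cos (θ * lc v F ω) ∂ν)
      (Real.exp ((w ⬝ᵥ v) * θ ^ 2 / 2) * r θ) θ := by
  have := h.prob
  set q := w ⬝ᵥ v with hqd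
  set ρ : Ω → ℝ := fun ω => lc w X ω - lc (A *ᵥ w) F ω with hρ
  have hρ2 : MemLp ρ 2 ν := (lc_memLp h.X2 w).sub (lc_memLp h.F2 (A *ᵥ w))
  have hvF : ∀ ω, lc v F ω = (m * lc w F ω + lc w X ω) - ρ ω := by
    intro ω
    rw [hρ, hv, lc_add, lc_smul]
    ring
  set φ : ℝ → ℝ := fun θ => ∫ ω, Real.cos (θ * lc v F ω) ∂ν with hφ
  have hsin : ∀ θ : ℝ, MemLp (fun ω => Real.sin (θ * lc v F ω)) 2 ν := by
    intro θ
    have := h.sin_memLp (θ • v)
    simpa only [lc_smul] using this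
  set r : ℝ → ℝ := fun θ => ∫ ω, ρ ω * Real.sin (θ * lc v F ω) ∂ν with hrd
  have hder : ∀ θ : ℝ, ∫ ω, -(lc v F ω * Real.sin (θ * lc v F ω)) ∂ν = -(θ * q * φ θ) + r θ := by
    intro θ
    have e : ∀ ω, -(lc v F ω * Real.sin (θ * lc v F ω)) =
        (-1) * ((m * lc w F ω + lc w X ω) * Real.sin (θ * lc v F ω)) +
          1 * (ρ ω * Real.sin (θ * lc v F ω)) := by
      intro ω
      rw [hvF ω]
      ring
    simp only [e]
    have hY : MemLp (fun ω => m * lc w F ω + lc w X ω) 2 ν :=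
      ((lc_memLp h.F2 w).const_mul m).add (lc_memLp h.X2 w)
    rw [int_lin2 (l2_mul hY (hsin θ)) (l2_mul hρ2 (hsin θ)), h.sum w (hsin θ)]
    have e2 : ∀ x, ∫ ω, (m * F x ω + X x ω) * Real.sin (θ * lc v F ω) ∂ν = θ * v x * φ θ := by
      intro x
      have := h.sin (θ • v) x
      simp only [lc_smul, Pi.smul_apply, smul_eq_mul] at this
      exact this
    simp only [e2]
    have e3 : ∑ x, w x * (θ * v x * φ θ) = θ * q * φ θ := by
      rw [hqd]
      simp only [dotProduct, Finset.mul_sum, Finset.sum_mul]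
      exact Finset.sum_congr rfl fun x _ => by ring
    rw [e3]
    simp only [hrd]
    ring
  refine ⟨r, fun θ => l1_le hρ2 (hsin θ).1 (fun ω => Real.abs_sin_le_one _) hB hr, fun θ => ?_⟩
  have h1 := h.deriv v θ
  rw [hder θ] at h1
  have h2 : HasDerivAt (fun θ : ℝ => Real.exp (q * θ ^ 2 / 2))
      (Real.exp (q * θ ^ 2 / 2) * (q * θ)) θ := by
    have h3 : HasDerivAt (fun θ : ℝ => q * θ ^ 2 / 2) (q * θ) θ := by
      have h4 := ((hasDerivAt_pow 2 θ).const_mul q).div_const 2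
      refine h4.congr_deriv ?_
      push_cast
      ring
    exact h3.exp
  refine (h2.mul h1).congr_deriv ?_
  ring

/-- **characteristic function**, large variance -/
theorem Sc.charfn2 (h : Sc ν F X m ub) {A : Matrix ι ι ℝ} {w v : ι → ℝ}
    (hv : v = m • w + A *ᵥ w) (hq : 0 < w ⬝ᵥ v) {B : ℝ} (hB : 0 ≤ B)
    (hr : ∫ ω, (lc w X ω - lc (A *ᵥ w) F ω) ^ 2 ∂ν ≤ B ^ 2) :
    |∫ ω, Real.cos (lc v F ω) ∂ν - Real.exp (-(w ⬝ᵥ v / 2))| ≤ B * (2 / (w ⬝ᵥ v)) := by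
  have := h.prob
  obtain ⟨r, hr1, hD⟩ := h.cf_der hv hB hr
  set q := w ⬝ᵥ v with hqd
  set φ : ℝ → ℝ := fun θ => ∫ ω, Real.cos (θ * lc v F ω) ∂ν with hφ
  have h0 : φ 0 = 1 := by simp [hφ]
  have h1 : φ 1 = ∫ ω, Real.cos (lc v F ω) ∂ν := by simp [hφ]
  have hDc : ∀ θ : ℝ, HasDerivAt (fun θ : ℝ => Real.exp (q * θ ^ 2 / 2) * φ θ - 1)
      (Real.exp (q * θ ^ 2 / 2) * r θ) θ := fun θ => (hD θ).sub_const 1
  have hBd : ∀ θ : ℝ, HasDerivAt (fun θ : ℝ => B * (2 / q) * (Real.exp (q / 2 * θ) - 1))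
      (B * Real.exp (q / 2 * θ)) θ := by
    intro θ
    have h3 : HasDerivAt (fun θ : ℝ => q / 2 * θ) (q / 2) θ := by
      simpa using (hasDerivAt_id θ).const_mul (q / 2)
    refine ((h3.exp.sub_const 1).const_mul (B * (2 / q))).congr_deriv ?_
    field_simp
  have key := image_norm_le_of_norm_deriv_right_le_deriv_boundary (a := (0 : ℝ)) (b := 1)
    (f := fun θ : ℝ => Real.exp (q * θ ^ 2 / 2) * φ θ - 1)
    (f' := fun θ => Real.exp (q * θ ^ 2 / 2) * r θ)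
    (B := fun θ : ℝ => B * (2 / q) * (Real.exp (q / 2 * θ) - 1))
    (B' := fun θ => B * Real.exp (q / 2 * θ))
    (fun θ _ => (hDc θ).continuousAt.continuousWithinAt)
    (fun θ _ => (hDc θ).hasDerivWithinAt)
    (by simp [h0]) hBd (fun θ hθ => by
      rw [norm_mul, Real.norm_eq_abs, Real.norm_eq_abs, abs_of_pos (Real.exp_pos _), mul_comm B]
      refine mul_le_mul (Real.exp_le_exp.2 ?_) (hr1 θ) (abs_nonneg _) (Real.exp_pos _).le
      have h5 : θ ^ 2 ≤ θ := by nlinarith [hθ.1, hθ.2]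
      nlinarith)
    (Set.right_mem_Icc.2 zero_le_one)
  simp only [one_pow, mul_one, Real.norm_eq_abs] at key
  rw [h1] at key
  have e : (∫ ω, Real.cos (lc v F ω) ∂ν) - Real.exp (-(q / 2)) =
      Real.exp (-(q / 2)) * (Real.exp (q / 2) * (∫ ω, Real.cos (lc v F ω) ∂ν) - 1) := by
    rw [mul_sub, ← mul_assoc, ← Real.exp_add]
    simp
  rw [e, abs_mul, abs_of_pos (Real.exp_pos _)]
  calc Real.exp (-(q / 2)) * |Real.exp (q / 2) * (∫ ω, Real.cos (lc v F ω) ∂ν) - 1|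
      ≤ Real.exp (-(q / 2)) * (B * (2 / q) * (Real.exp (q / 2) - 1)) :=
        mul_le_mul_of_nonneg_left key (Real.exp_pos _).le
    _ ≤ Real.exp (-(q / 2)) * (B * (2 / q) * Real.exp (q / 2)) := by
        refine mul_le_mul_of_nonneg_left ?_ (Real.exp_pos _).le
        exact mul_le_mul_of_nonneg_left (by linarith) (by positivity)
    _ = B * (2 / q) * (Real.exp (-(q / 2)) * Real.exp (q / 2)) := by ring
    _ = B * (2 / q) := by rw [← Real.exp_add]; simp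

/-- **characteristic function**: two scales -/
theorem Sc.charfn3 (h : Sc ν F X m ub) {A : Matrix ι ι ℝ} {w v : ι → ℝ}
    (hv : v = m • w + A *ᵥ w) (hq : 0 ≤ w ⬝ᵥ v) {B0 B1 K : ℝ} (hB0 : 0 ≤ B0) (hB1 : 0 ≤ B1)
    (hr : ∫ ω, (lc w X ω - lc (A *ᵥ w) F ω) ^ 2 ∂ν ≤ (B0 + B1) ^ 2)
    (hK : 2 * B0 ≤ K * (w ⬝ᵥ v)) (hK0 : 0 ≤ K) :
    |∫ ω, Real.cos (lc v F ω) ∂ν - Real.exp (-(w ⬝ᵥ v / 2))| ≤ K + B1 := by
  set q := w ⬝ᵥ v with hqd
  by_cases hq2 : q ≤ 2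
  · have h1 := h.charfn hv hq (add_nonneg hB0 hB1) hr
    refine h1.trans ?_
    have : K * q ≤ K * 2 := mul_le_mul_of_nonneg_left hq2 hK0
    linarith
  · have hq0 : 0 < q := by linarith
    have h1 := h.charfn2 hv hq0 (add_nonneg hB0 hB1) hr
    refine h1.trans ?_
    have h2 : B0 * (2 / q) ≤ K := by
      rw [mul_div_assoc', div_le_iff₀ hq0]
      linarith
    have h3 : B1 * (2 / q) ≤ B1 := by
      refine mul_le_of_le_one_right hB1 ?_
      rw [div_le_one hq0]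
      linarith
    rw [add_mul]
    linarith

/-- characteristic functions from (L1), two scales -/
lemma Sc.cf2 (h : Sc ν F X m ub) {A S G : Matrix ι ι ℝ} {z η : ℝ} (hz : 0 ≤ z) (hη : 0 ≤ η)
    (hL : L1 ν F X A S z η) (hS : ∀ c : ι → ℝ, ∑ x, (S *ᵥ c) x ^ 2 ≤ ∑ x, c x ^ 2)
    (hG : (m • (1 : Matrix ι ι ℝ) + A) * G = 1) (v : ι → ℝ) (hq : 0 ≤ (G *ᵥ v) ⬝ᵥ v)
    {b0 b1 K : ℝ} (hb0 : 0 ≤ b0) (hb1 : 0 ≤ b1) (hw : ∑ x, (G *ᵥ v) x ^ 2 ≤ (b0 + b1) ^ 2)
    (hK : 2 * b0 ≤ K * ((G *ᵥ v) ⬝ᵥ v)) (hK0 : 0 ≤ K) :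
    |∫ ω, Real.cos (lc v F ω) ∂ν - Real.exp (-((G *ᵥ v) ⬝ᵥ v / 2))| ≤
      (K + b1) * bt ι z η := by
  have hpi := Real.pi_pos
  have hβ0 : 0 ≤ bt ι z η := by unfold bt; positivity
  have h2 := h.nl_le hz hη hL hS (G *ᵥ v) (add_nonneg hb0 hb1) hw
  have h3 : (4 * Real.pi * z * Real.sqrt (Fintype.card ι) + η) * (b0 + b1) =
      bt ι z η * b0 + bt ι z η * b1 := by
    unfold bt
    ring
  rw [h3] at h2
  have h4 := h.charfn3 (A := A) (w := G *ᵥ v) (v := v) (K := K * bt ι z η) ?_ hq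
    (mul_nonneg hβ0 hb0) (mul_nonneg hβ0 hb1) h2 ?_ (mul_nonneg hK0 hβ0)
  · refine h4.trans (le_of_eq ?_)
    ring
  · have h1 : v = ((m • (1 : Matrix ι ι ℝ) + A) * G) *ᵥ v := by rw [hG, one_mulVec]
    conv_lhs => rw [h1]
    rw [← mulVec_mulVec, add_mulVec, smul_mulVec, one_mulVec]
  · calc 2 * (bt ι z η * b0) = bt ι z η * (2 * b0) := by ring
      _ ≤ bt ι z η * (K * ((G *ᵥ v) ⬝ᵥ v)) := mul_le_mul_of_nonneg_left hK hβ0
      _ = _ := by ring

/-- product of sines from the two cosines -/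
lemma Sc.ss_of (h : Sc ν F X m ub) {S G : Matrix ι ι ℝ} {K Γ0 : ℝ} (w w' : ι)
    (key : ∀ σ : ℝ, σ ^ 2 = 1 → |∫ ω, Real.cos (lc (th S w + σ • th S w') F ω) ∂ν -
      Real.exp (-(4 * Real.pi ^ 2 * Γ0) - σ * (4 * Real.pi ^ 2 * Gam S G w w'))| ≤ K) :
    |∫ ω, Real.sin (lc (th S w) F ω) * Real.sin (lc (th S w') F ω) ∂ν -
      Real.exp (-(4 * Real.pi ^ 2 * Γ0)) * Real.sinh (4 * Real.pi ^ 2 * Gam S G w w')| ≤ K := by
  have := h.prob
  have k1 := key 1 (by norm_num)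
  have k2 := key (-1) (by norm_num)
  have e0 : ∀ ω, Real.sin (lc (th S w) F ω) * Real.sin (lc (th S w') F ω) =
      (1 / 2) * Real.cos (lc (th S w + (-1 : ℝ) • th S w') F ω) +
        (-(1 / 2)) * Real.cos (lc (th S w + (1 : ℝ) • th S w') F ω) := by
    intro ω
    rw [lc_add, lc_smul, lc_add, lc_smul, one_mul, neg_one_mul, ← sub_eq_add_neg, Real.cos_sub,
      Real.cos_add]
    ring
  simp only [e0]
  rw [int_lin2 ((h.cos_memLp _).integrable one_le_two) ((h.cos_memLp _).integrable one_le_two)]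
  have e3 : Real.exp (-(4 * Real.pi ^ 2 * Γ0)) * Real.sinh (4 * Real.pi ^ 2 * Gam S G w w') =
      (1 / 2) * Real.exp (-(4 * Real.pi ^ 2 * Γ0) - (-1) * (4 * Real.pi ^ 2 * Gam S G w w')) +
        (-(1 / 2)) * Real.exp (-(4 * Real.pi ^ 2 * Γ0) - 1 * (4 * Real.pi ^ 2 * Gam S G w w')) := by
    rw [Real.sinh_eq]
    have e4 : Real.exp (-(4 * Real.pi ^ 2 * Γ0) - (-1) * (4 * Real.pi ^ 2 * Gam S G w w')) =
        Real.exp (-(4 * Real.pi ^ 2 * Γ0)) * Real.exp (4 * Real.pi ^ 2 * Gam S G w w') := by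
      rw [← Real.exp_add]; congr 1; ring
    have e5 : Real.exp (-(4 * Real.pi ^ 2 * Γ0) - 1 * (4 * Real.pi ^ 2 * Gam S G w w')) =
        Real.exp (-(4 * Real.pi ^ 2 * Γ0)) * Real.exp (-(4 * Real.pi ^ 2 * Gam S G w w')) := by
      rw [← Real.exp_add]; congr 1; ring
    rw [e4, e5]
    ring
  rw [e3]
  rw [abs_le] at k1 k2 ⊢
  constructor <;> linarith [k1.1, k1.2, k2.1, k2.2]

/-- the standing hypotheses, pinned version -/
structure PE (ν : Measure Ω) (F X : ι → Ω → ℝ) (m : ℝ) (ub A S G : Matrix ι ι ℝ)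
    (z η W Γ0 : ℝ) : Prop where
  sc : Sc ν F X m ub
  hm : 0 < m
  hz : 0 ≤ z
  hη : 0 ≤ η
  hL : L1 ν F X A S z η
  hS : ∀ c : ι → ℝ, ∑ x, (S *ᵥ c) x ^ 2 ≤ ∑ x, c x ^ 2
  hG : (m • (1 : Matrix ι ι ℝ) + A) * G = 1
  hW : 0 ≤ W
  hΓ0 : 0 ≤ Γ0
  kap : ∀ w, |∫ ω, Real.cos (lc (th S w) F ω) ∂ν - Real.exp (-(2 * Real.pi ^ 2 * Γ0))| ≤
    W * bt ι z η
  ss : ∀ w w', |∫ ω, Real.sin (lc (th S w) F ω) * Real.sin (lc (th S w') F ω) ∂ν -
    Real.exp (-(4 * Real.pi ^ 2 * Γ0)) * Real.sinh (4 * Real.pi ^ 2 * Gam S G w w')| ≤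
    2 * W * bt ι z η

variable {A S G : Matrix ι ι ℝ} {z η W Γ0 a s : ℝ} {c : ι → ℝ}

lemma PE.er_memLp (h : PE ν F X m ub A S G z η W Γ0) (c : ι → ℝ) :
    MemLp (er A S z F X c) 2 ν :=
  ((lc_memLp h.sc.X2 c).sub (lc_memLp h.sc.F2 _)).sub ((h.sc.sg_memLp S _).const_mul _)

lemma PE.er_sq (h : PE ν F X m ub A S G z η W Γ0) (c : ι → ℝ) :
    ∫ ω, er A S z F X c ω ^ 2 ∂ν ≤ (η * Real.sqrt (∑ x, c x ^ 2)) ^ 2 := by
  rw [mul_pow, Real.sq_sqrt (Finset.sum_nonneg fun _ _ => sq_nonneg _)]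
  exact h.hL c

/-- the two exact relations -/
lemma PE.eq1 (h : PE ν F X m ub A S G z η W Γ0) (hM : Md A S c a s) :
    ∑ x, c x ^ 2 = (m + a) * (∫ ω, lc c F ω ^ 2 ∂ν) +
      (4 * Real.pi * z * s) * (∫ ω, sg S c F ω * lc c F ω ∂ν) +
      ∫ ω, er A S z F X c ω * lc c F ω ∂ν := by
  rw [← h.sc.Yf c]
  have hf2 := lc_memLp h.sc.F2 c
  have e1 : ∀ ω, (m * lc c F ω + lc c X ω) * lc c F ω = (m + a) * lc c F ω ^ 2 +
      (4 * Real.pi * z * s) * (sg S c F ω * lc c F ω) + 1 * (er A S z F X c ω * lc c F ω) := by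
    intro ω
    rw [hM.X_eq (F := F) (X := X) (z := z) ω]; ring
  simp only [e1]
  rw [int_lin3 (l2_sq hf2) (l2_mul (h.sc.sg_memLp S c) hf2) (l2_mul (h.er_memLp c) hf2), one_mul]

lemma PE.eq2 (h : PE ν F X m ub A S G z η W Γ0) (hM : Md A S c a s) :
    ∫ ω, (m * lc c F ω + lc c X ω) * sg S c F ω ∂ν =
      (m + a) * (∫ ω, sg S c F ω * lc c F ω ∂ν) +
      (4 * Real.pi * z * s) * (∫ ω, sg S c F ω ^ 2 ∂ν) +
      ∫ ω, er A S z F X c ω * sg S c F ω ∂ν := by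
  have hf2 := lc_memLp h.sc.F2 c
  have hs2 := h.sc.sg_memLp S c
  have e1 : ∀ ω, (m * lc c F ω + lc c X ω) * sg S c F ω = (m + a) * (sg S c F ω * lc c F ω) +
      (4 * Real.pi * z * s) * sg S c F ω ^ 2 + 1 * (er A S z F X c ω * sg S c F ω) := by
    intro ω
    rw [hM.X_eq (F := F) (X := X) (z := z) ω]; ring
  simp only [e1]
  rw [int_lin3 (l2_mul hs2 hf2) (l2_sq hs2) (l2_mul (h.er_memLp c) hs2), one_mul]

lemma PE.Yσ2 (h : PE ν F X m ub A S G z η W Γ0) (hM : Md A S c a s) :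
    |∫ ω, (m * lc c F ω + lc c X ω) * sg S c F ω ∂ν -
      2 * Real.pi * s * Real.exp (-(2 * Real.pi ^ 2 * Γ0)) * ∑ x, c x ^ 2| ≤
      2 * Real.pi * (W * bt ι z η) * ∑ x, c x ^ 2 := by
  have hpi := Real.pi_pos
  have hs0 := hM.hs0
  have hs1 := hM.hs1
  set κG := Real.exp (-(2 * Real.pi ^ 2 * Γ0)) with hκG
  have hWb : 0 ≤ W * bt ι z η := (abs_nonneg _).trans (h.kap (Classical.choice (by
    by_contra hne
    rw [not_nonempty_iff] at hne
    have := hM.hc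
    simp at this)))
  rw [h.sc.Yσ hM.hSc]
  have e1 : ∑ w, (2 * Real.pi * s) * (c w ^ 2 * ∫ ω, Real.cos (lc (th S w) F ω) ∂ν) -
      2 * Real.pi * s * κG * ∑ x, c x ^ 2 =
      ∑ w, (2 * Real.pi * s) * (c w ^ 2 * (∫ ω, Real.cos (lc (th S w) F ω) ∂ν - κG)) := by
    rw [Finset.mul_sum, ← Finset.sum_sub_distrib]
    exact Finset.sum_congr rfl fun w _ => by ring
  rw [e1]
  refine (Finset.abs_sum_le_sum_abs _ _).trans ?_
  rw [Finset.mul_sum]
  refine Finset.sum_le_sum fun w _ => ?_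
  have h1 := h.kap w
  rw [← hκG] at h1
  have h5 : 0 ≤ 2 * Real.pi * s := by positivity
  rw [abs_mul, abs_mul (c w ^ 2), abs_of_nonneg h5, abs_of_nonneg (sq_nonneg (c w))]
  have h2 : 0 ≤ c w ^ 2 := sq_nonneg _
  have h3 := mul_le_mul_of_nonneg_left h1 h2
  have h4 : 0 ≤ c w ^ 2 * (W * bt ι z η) := mul_nonneg h2 hWb
  calc 2 * Real.pi * s * (c w ^ 2 * |∫ ω, Real.cos (lc (th S w) F ω) ∂ν - κG|) ≤
        2 * Real.pi * s * (c w ^ 2 * (W * bt ι z η)) := mul_le_mul_of_nonneg_left h3 h5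
    _ ≤ 2 * Real.pi * 1 * (c w ^ 2 * (W * bt ι z η)) := by
        refine mul_le_mul_of_nonneg_right ?_ h4
        exact mul_le_mul_of_nonneg_left hs1 (by positivity)
    _ = 2 * Real.pi * (W * bt ι z η) * c w ^ 2 := by ring

lemma PE.P_le (h : PE ν F X m ub A S G z η W Γ0) (hM : Md A S c a s) :
    |(m + a) * (∫ ω, sg S c F ω * lc c F ω ∂ν) / (∑ x, c x ^ 2) -
      2 * Real.pi * s * Real.exp (-(2 * Real.pi ^ 2 * Γ0))| ≤
      (4 * Real.pi * W + Real.sqrt (Fintype.card ι)) * bt ι z η := by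
  have hpi := Real.pi_pos
  have hc := hM.hc
  have hW := h.hW
  have hz := h.hz
  have hη := h.hη
  have hs0 := hM.hs0
  have hs1 := hM.hs1
  set c2 := ∑ x, c x ^ 2 with hc2
  set n : ℝ := (Fintype.card ι : ℝ) with hn
  have hn0 : 0 ≤ n := by rw [hn]; exact Nat.cast_nonneg _
  have hsn : 0 ≤ Real.sqrt n := Real.sqrt_nonneg _
  have hsn' : Real.sqrt n ^ 2 = n := Real.sq_sqrt hn0
  have hsc2 : 0 < Real.sqrt c2 := Real.sqrt_pos.2 hc
  have hsc2' : Real.sqrt c2 ^ 2 = c2 := Real.sq_sqrt hc.le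
  have hβ0 : 0 ≤ bt ι z η := by unfold bt; positivity
  set sf := ∫ ω, sg S c F ω * lc c F ω ∂ν with hsf
  set ss := ∫ ω, sg S c F ω ^ 2 ∂ν with hss
  set es := ∫ ω, er A S z F X c ω * sg S c F ω ∂ν with hes
  set Ys := ∫ ω, (m * lc c F ω + lc c X ω) * sg S c F ω ∂ν with hYs
  set κG := Real.exp (-(2 * Real.pi ^ 2 * Γ0)) with hκG
  have hss0 : 0 ≤ ss := integral_nonneg fun ω => sq_nonneg _
  have hss1 : ss ≤ n * c2 := h.sc.sg_int S c
  have heσ : |es| ≤ η * Real.sqrt n * c2 := by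
    have h1 := cs_le (h.er_memLp c) (h.sc.sg_memLp S c) (by positivity) (by positivity)
      (h.er_sq c) (h.sc.sg_sq' S c)
    refine h1.trans (le_of_eq ?_)
    rw [← hc2, ← hn]
    calc η * Real.sqrt c2 * (Real.sqrt n * Real.sqrt c2) = η * Real.sqrt n * Real.sqrt c2 ^ 2 := by
          ring
      _ = η * Real.sqrt n * c2 := by rw [hsc2']
  have eq2 := h.eq2 hM
  rw [← hsf, ← hss, ← hes, ← hYs] at eq2
  have hYσ2 := h.Yσ2 hM
  rw [← hYs, ← hc2, ← hκG] at hYσ2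
  have e1 : (m + a) * sf / c2 - 2 * Real.pi * s * κG =
      ((Ys - 2 * Real.pi * s * κG * c2) - (4 * Real.pi * z * s) * ss - es) / c2 := by
    rw [eq2]
    field_simp
    ring
  rw [e1, abs_div, abs_of_pos hc, div_le_iff₀ hc]
  have hk0 : 0 ≤ 4 * Real.pi * z * s := by positivity
  have hk1 : 4 * Real.pi * z * s ≤ 4 * Real.pi * z :=
    mul_le_of_le_one_right (by positivity) hs1
  have h1 : |(Ys - 2 * Real.pi * s * κG * c2) - (4 * Real.pi * z * s) * ss - es| ≤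
      2 * Real.pi * (W * bt ι z η) * c2 + (4 * Real.pi * z) * (n * c2) + η * Real.sqrt n * c2 := by
    refine (abs_sub _ _).trans (add_le_add ((abs_sub _ _).trans (add_le_add hYσ2 ?_)) heσ)
    rw [abs_of_nonneg (mul_nonneg hk0 hss0)]
    exact mul_le_mul hk1 hss1 hss0 (by positivity)
  refine h1.trans ?_
  have e2 : (4 * Real.pi * z) * (n * c2) + η * Real.sqrt n * c2 =
      Real.sqrt n * bt ι z η * c2 := by
    unfold bt
    rw [← hn]
    calc (4 * Real.pi * z) * (n * c2) + η * Real.sqrt n * c2 =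
        (4 * Real.pi * z) * (Real.sqrt n ^ 2 * c2) + η * Real.sqrt n * c2 := by rw [hsn']
      _ = _ := by ring
  have h5 : 0 ≤ W * bt ι z η * c2 := by positivity
  have h6 : 2 * Real.pi * (W * bt ι z η) * c2 ≤ 4 * Real.pi * (W * bt ι z η) * c2 := by
    have e3 : 4 * Real.pi * (W * bt ι z η) * c2 = 2 * Real.pi * (W * bt ι z η) * c2 +
      2 * Real.pi * (W * bt ι z η * c2) := by ring
    rw [e3]
    have : 0 ≤ 2 * Real.pi * (W * bt ι z η * c2) := by positivity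
    linarith
  calc 2 * Real.pi * (W * bt ι z η) * c2 + (4 * Real.pi * z) * (n * c2) + η * Real.sqrt n * c2
      = 2 * Real.pi * (W * bt ι z η) * c2 + ((4 * Real.pi * z) * (n * c2) +
        η * Real.sqrt n * c2) := by ring
    _ = 2 * Real.pi * (W * bt ι z η) * c2 + Real.sqrt n * bt ι z η * c2 := by rw [e2]
    _ ≤ 4 * Real.pi * (W * bt ι z η) * c2 + Real.sqrt n * bt ι z η * c2 := by linarith
    _ = _ := by ring

lemma PE.Q_le (h : PE ν F X m ub A S G z η W Γ0) (hM : Md A S c a s)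
    (hd : 2 * (bt ι z η / Real.sqrt (m + a)) ≤ 1 / 2) :
    |(m + a) * (∫ ω, lc c F ω ^ 2 ∂ν) / (∑ x, c x ^ 2) - 1| ≤
      2 * (bt ι z η / Real.sqrt (m + a)) := by
  have hpi := Real.pi_pos
  have hc := hM.hc
  have hm := h.hm
  have hz := h.hz
  have hη := h.hη
  have ha := hM.ha
  have hs0 := hM.hs0
  have hs1 := hM.hs1
  have hff0 := h.sc.ff_pos hc
  have eq1 := h.eq1 hM
  set c2 := ∑ x, c x ^ 2 with hc2
  set n : ℝ := (Fintype.card ι : ℝ) with hn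
  have hsc2 : 0 < Real.sqrt c2 := Real.sqrt_pos.2 hc
  have hsc2' : Real.sqrt c2 ^ 2 = c2 := Real.sq_sqrt hc.le
  have hβ0 : 0 ≤ bt ι z η := by unfold bt; positivity
  have hma : 0 < m + a := by linarith
  set ff := ∫ ω, lc c F ω ^ 2 ∂ν with hff
  set sf := ∫ ω, sg S c F ω * lc c F ω ∂ν with hsf
  set ef := ∫ ω, er A S z F X c ω * lc c F ω ∂ν with hef
  have hffs : ff ≤ (Real.sqrt ff) ^ 2 := by rw [Real.sq_sqrt hff0.le]
  have h1 : |sf| ≤ Real.sqrt n * Real.sqrt c2 * Real.sqrt ff :=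
    cs_le (h.sc.sg_memLp S c) (lc_memLp h.sc.F2 c) (by positivity) (Real.sqrt_nonneg _)
      (h.sc.sg_sq' S c) hffs
  have h2 : |ef| ≤ η * Real.sqrt c2 * Real.sqrt ff :=
    cs_le (h.er_memLp c) (lc_memLp h.sc.F2 c) (by positivity) (Real.sqrt_nonneg _) (h.er_sq c)
      hffs
  have hk0 : 0 ≤ 4 * Real.pi * z * s := by positivity
  have hk1 : 4 * Real.pi * z * s ≤ 4 * Real.pi * z :=
    mul_le_of_le_one_right (by positivity) hs1
  have h3 : |(m + a) * ff - c2| ≤ bt ι z η * Real.sqrt c2 * Real.sqrt ff := by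
    have e1 : (m + a) * ff - c2 = -((4 * Real.pi * z * s) * sf + ef) := by rw [eq1]; ring
    rw [e1, abs_neg]
    refine (abs_add_le _ _).trans ?_
    rw [abs_mul, abs_of_nonneg hk0]
    have h4 : (4 * Real.pi * z * s) * |sf| ≤
        (4 * Real.pi * z) * (Real.sqrt n * Real.sqrt c2 * Real.sqrt ff) :=
      mul_le_mul hk1 h1 (abs_nonneg _) (by positivity)
    unfold bt
    rw [← hn]
    have : (4 * Real.pi * z * Real.sqrt n + η) * Real.sqrt c2 * Real.sqrt ff =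
        (4 * Real.pi * z) * (Real.sqrt n * Real.sqrt c2 * Real.sqrt ff) +
          η * Real.sqrt c2 * Real.sqrt ff := by ring
    linarith
  set Q := (m + a) * ff / c2 with hQ
  have hQ0 : 0 < Q := by rw [hQ]; positivity
  have hffQ : ff = Q * c2 / (m + a) := by rw [hQ]; field_simp
  have hsqff : Real.sqrt ff = Real.sqrt Q * Real.sqrt c2 / Real.sqrt (m + a) := by
    rw [hffQ, Real.sqrt_div (by positivity), Real.sqrt_mul hQ0.le]
  refine q_aux hQ0 hd (by positivity) ?_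
  have e1 : Q - 1 = ((m + a) * ff - c2) / c2 := by
    rw [hQ]; field_simp
  rw [e1, abs_div, abs_of_pos hc, div_le_iff₀ hc]
  refine h3.trans ?_
  rw [hsqff]
  have h6 : bt ι z η * Real.sqrt c2 * (Real.sqrt Q * Real.sqrt c2 / Real.sqrt (m + a)) =
      (bt ι z η / Real.sqrt (m + a)) * Real.sqrt Q * c2 := by
    calc bt ι z η * Real.sqrt c2 * (Real.sqrt Q * Real.sqrt c2 / Real.sqrt (m + a)) =
        (bt ι z η / Real.sqrt (m + a)) * Real.sqrt Q * Real.sqrt c2 ^ 2 := by ring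
      _ = _ := by rw [hsc2']
  rw [h6]
  have h8 : (2 * (bt ι z η / Real.sqrt (m + a))) / 2 = bt ι z η / Real.sqrt (m + a) := by ring
  rw [h8]

/-- the sines against their Gaussian value -/
lemma PE.ssG (h : PE ν F X m ub A S G z η W Γ0) (c : ι → ℝ) :
    |∫ ω, sg S c F ω ^ 2 ∂ν - Real.exp (-(4 * Real.pi ^ 2 * Γ0)) *
      ∑ w, ∑ w', c w * c w' * Real.sinh (4 * Real.pi ^ 2 * Gam S G w w')| ≤
      2 * W * bt ι z η * ((Fintype.card ι) * ∑ x, c x ^ 2) := by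
  have hpi := Real.pi_pos
  have hz := h.hz
  have hη := h.hη
  have hβ0 : 0 ≤ bt ι z η := by unfold bt; positivity
  have hW := h.hW
  have e1 : ∫ ω, sg S c F ω ^ 2 ∂ν = ∑ w, ∑ w', c w * c w' *
      ∫ ω, Real.sin (lc (th S w) F ω) * Real.sin (lc (th S w') F ω) ∂ν := by
    have e2 : ∀ ω, sg S c F ω ^ 2 = ∑ w, ∑ w', c w * c w' *
        (Real.sin (lc (th S w) F ω) * Real.sin (lc (th S w') F ω)) := by
      intro ω
      unfold sg
      rw [sq, Finset.sum_mul_sum]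
      exact Finset.sum_congr rfl fun w _ => Finset.sum_congr rfl fun w' _ => by ring
    simp only [e2]
    rw [integral_finset_sum]
    · refine Finset.sum_congr rfl fun w _ => ?_
      rw [integral_finset_sum]
      · exact Finset.sum_congr rfl fun w' _ => integral_const_mul _ _
      · intro w' _
        exact (l2_mul (h.sc.sin_memLp _) (h.sc.sin_memLp _)).const_mul _
    · intro w _
      exact integrable_finset_sum _ fun w' _ =>
        (l2_mul (h.sc.sin_memLp _) (h.sc.sin_memLp _)).const_mul _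
  rw [e1, Finset.mul_sum, ← Finset.sum_sub_distrib]
  have h1 : ∀ w, |∑ w', c w * c w' *
        (∫ ω, Real.sin (lc (th S w) F ω) * Real.sin (lc (th S w') F ω) ∂ν) -
      Real.exp (-(4 * Real.pi ^ 2 * Γ0)) * ∑ w', c w * c w' *
        Real.sinh (4 * Real.pi ^ 2 * Gam S G w w')| ≤
        ∑ w', |c w| * |c w'| * (2 * W * bt ι z η) := by
    intro w
    rw [Finset.mul_sum, ← Finset.sum_sub_distrib]
    refine (Finset.abs_sum_le_sum_abs _ _).trans (Finset.sum_le_sum fun w' _ => ?_)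
    have h2 := h.ss w w'
    have e3 : c w * c w' * (∫ ω, Real.sin (lc (th S w) F ω) * Real.sin (lc (th S w') F ω) ∂ν) -
        Real.exp (-(4 * Real.pi ^ 2 * Γ0)) *
          (c w * c w' * Real.sinh (4 * Real.pi ^ 2 * Gam S G w w')) =
        (c w * c w') * ((∫ ω, Real.sin (lc (th S w) F ω) * Real.sin (lc (th S w') F ω) ∂ν) -
          Real.exp (-(4 * Real.pi ^ 2 * Γ0)) *
            Real.sinh (4 * Real.pi ^ 2 * Gam S G w w')) := by ring
    rw [e3, abs_mul, abs_mul]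
    exact mul_le_mul_of_nonneg_left h2 (by positivity)
  refine (Finset.abs_sum_le_sum_abs _ _).trans ((Finset.sum_le_sum fun w _ => h1 w).trans ?_)
  have e4 : ∑ w, ∑ w', |c w| * |c w'| * (2 * W * bt ι z η) =
      (2 * W * bt ι z η) * (∑ w, |c w|) ^ 2 := by
    rw [sq, Finset.sum_mul_sum, Finset.mul_sum]
    refine Finset.sum_congr rfl fun w _ => ?_
    rw [Finset.mul_sum]
    exact Finset.sum_congr rfl fun w' _ => by ring
  rw [e4]
  exact mul_le_mul_of_nonneg_left (l1_sq c) (by positivity)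

/-- **(P#2)+(P#3)**: the projected second moment of `<c, X>` -/
theorem PE.main (h : PE ν F X m ub A S G z η W Γ0) (hM : Md A S c a s) {β n d1 d2 : ℝ}
    (hβ : β = bt ι z η) (hn : n = Fintype.card ι)
    (hd1 : d1 = (4 * Real.pi * W + Real.sqrt n) * β) (hd2 : d2 = 2 * (β / Real.sqrt (m + a)))
    (hs1 : d1 ≤ 1) (hs2 : d2 ≤ 1 / 2) :
    |prj ν (lc c F) (lc c X) - JG S G z s Γ0 c| ≤
      (∑ x, c x ^ 2) * (2 * (β * η) + η ^ 2 +
        (4 * Real.pi * z) ^ 2 * (2 * n * W * β + (30 * d1 + 98 * d2) / (m + a))) := by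
  have hpi := Real.pi_pos
  have hc := hM.hc
  have hm := h.hm
  have hz := h.hz
  have hη := h.hη
  have ha := hM.ha
  have hs0 := hM.hs0
  have hs1' := hM.hs1
  have hff0 := h.sc.ff_pos hc
  have hP1 := h.P_le hM
  have hQ1 := h.Q_le hM (by rw [← hβ, ← hd2]; exact hs2)
  rw [← hβ, ← hn, ← hd1] at hP1
  rw [← hβ, ← hd2] at hQ1
  have hssG := h.ssG c
  rw [← hβ, ← hn] at hssG
  have hσsq := h.sc.sg_sq' S c
  have hss1 := h.sc.sg_int S c
  rw [← hn] at hσsq hss1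
  have hersq := h.er_sq c
  have hma : 0 < m + a := by linarith
  have hJG := JG_eq (z := z) (Γ0 := Γ0) h.hG hM hma
  have hf2 : MemLp (lc c F) 2 ν := lc_memLp h.sc.F2 c
  have hσ2 := h.sc.sg_memLp S c
  have he2 := h.er_memLp c
  have hXω := hM.X_eq (F := F) (X := X) (z := z)
  set c2 := ∑ x, c x ^ 2 with hc2
  have hn0 : 0 ≤ n := by rw [hn]; exact Nat.cast_nonneg _
  have hsn' : Real.sqrt n ^ 2 = n := Real.sq_sqrt hn0
  have hsc2' : Real.sqrt c2 ^ 2 = c2 := Real.sq_sqrt hc.le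
  have hβ0 : 0 ≤ β := by rw [hβ]; unfold bt; positivity
  set k := 4 * Real.pi * z * s with hk
  have hk0 : 0 ≤ k := by positivity
  have hk1 : k ≤ 4 * Real.pi * z := mul_le_of_le_one_right (by positivity) hs1'
  set f : Ω → ℝ := lc c F with hf
  set σ : Ω → ℝ := sg S c F with hσ
  set ff := ∫ ω, f ω ^ 2 ∂ν with hff
  set sf := ∫ ω, σ ω * f ω ∂ν with hsf
  set ss := ∫ ω, σ ω ^ 2 ∂ν with hss
  have hss0 : 0 ≤ ss := integral_nonneg fun ω => sq_nonneg _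
  set κG := Real.exp (-(2 * Real.pi ^ 2 * Γ0)) with hκG
  set SH := Real.exp (-(4 * Real.pi ^ 2 * Γ0)) *
    ∑ w, ∑ w', c w * c w' * Real.sinh (4 * Real.pi ^ 2 * Gam S G w w') with hSH
  have hM2 : MemLp (fun ω => k * σ ω) 2 ν := hσ2.const_mul k
  have hMsz : ∫ ω, (k * σ ω) ^ 2 ∂ν ≤ (4 * Real.pi * z * Real.sqrt n * Real.sqrt c2) ^ 2 := by
    have e1 : ∀ ω, (k * σ ω) ^ 2 = k ^ 2 * σ ω ^ 2 := fun ω => by ring
    simp only [e1]
    rw [integral_const_mul]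
    have e2 : (4 * Real.pi * z * Real.sqrt n * Real.sqrt c2) ^ 2 =
        (4 * Real.pi * z) ^ 2 * (n * c2) := by
      rw [mul_pow, mul_pow, hsc2', hsn']; ring
    rw [e2]
    exact mul_le_mul (pow_le_pow_left₀ hk0 hk1 2) hss1 hss0 (sq_nonneg _)
  have step1 := prj_pert hf2 hM2 he2 (Y := lc c X) (r := a) hXω hff0 (by positivity)
    (by positivity) hMsz hersq
  have hprjM : prj ν f (fun ω => k * σ ω) =
      k ^ 2 * (ss - c2 / (m + a) * (((m + a) * sf / c2) ^ 2 / ((m + a) * ff / c2))) := by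
    unfold prj
    have e1 : ∀ ω, (k * σ ω) ^ 2 = k ^ 2 * σ ω ^ 2 := fun ω => by ring
    have e2 : ∀ ω, k * σ ω * f ω = k * (σ ω * f ω) := fun ω => by ring
    simp only [e1, e2]
    rw [integral_const_mul, integral_const_mul, ← hss, ← hsf, ← hff]
    field_simp
  have hP0 : |2 * Real.pi * s * κG| ≤ 7 := by
    have hκGle : κG ≤ 1 := by
      rw [hκG, Real.exp_le_one_iff]
      have h0 := h.hΓ0
      have : 0 ≤ 2 * Real.pi ^ 2 * Γ0 := by positivity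
      linarith
    have hκG0 : 0 < κG := Real.exp_pos _
    rw [abs_of_nonneg (by positivity)]
    have h1 : s * κG ≤ 1 := by
      have := mul_le_mul hs1' hκGle hκG0.le zero_le_one
      linarith
    have h2 : 2 * Real.pi ≤ 7 := by linarith [Real.pi_lt_d2]
    calc 2 * Real.pi * s * κG = (2 * Real.pi) * (s * κG) := by ring
      _ ≤ 7 * 1 := mul_le_mul h2 h1 (by positivity) (by norm_num)
      _ = 7 := by norm_num
  have hpq := pq_pert hP1 hQ1 hs1 hs2 hP0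
  have step2 : |prj ν f (fun ω => k * σ ω) - JG S G z s Γ0 c| ≤
      (4 * Real.pi * z) ^ 2 * (2 * W * β * (n * c2) + c2 / (m + a) * (30 * d1 + 98 * d2)) := by
    rw [hprjM, hJG, ← mul_sub, abs_mul, abs_of_nonneg (sq_nonneg k)]
    refine mul_le_mul (pow_le_pow_left₀ hk0 hk1 2) ?_ (abs_nonneg _) (sq_nonneg _)
    have e1 : ss - c2 / (m + a) * (((m + a) * sf / c2) ^ 2 / ((m + a) * ff / c2)) -
        (SH - c2 / (m + a) * (2 * Real.pi * s * κG) ^ 2) =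
        (ss - SH) - c2 / (m + a) * (((m + a) * sf / c2) ^ 2 / ((m + a) * ff / c2) -
          (2 * Real.pi * s * κG) ^ 2) := by ring
    rw [e1]
    refine (abs_sub _ _).trans (add_le_add hssG ?_)
    rw [abs_mul, abs_of_pos (by positivity : 0 < c2 / (m + a))]
    exact mul_le_mul_of_nonneg_left hpq (by positivity)
  have e9 : 2 * (4 * Real.pi * z * Real.sqrt n * Real.sqrt c2) * (η * Real.sqrt c2) +
      (η * Real.sqrt c2) ^ 2 = c2 * (2 * ((4 * Real.pi * z * Real.sqrt n) * η) + η ^ 2) := by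
    calc 2 * (4 * Real.pi * z * Real.sqrt n * Real.sqrt c2) * (η * Real.sqrt c2) +
        (η * Real.sqrt c2) ^ 2 =
        Real.sqrt c2 ^ 2 * (2 * ((4 * Real.pi * z * Real.sqrt n) * η) + η ^ 2) := by ring
      _ = _ := by rw [hsc2']
  rw [e9] at step1
  have e10 : (4 * Real.pi * z * Real.sqrt n) * η ≤ β * η := by
    refine mul_le_mul_of_nonneg_right ?_ hη
    rw [hβ]
    unfold bt
    rw [← hn]
    linarith
  have tri : |prj ν f (lc c X) - JG S G z s Γ0 c| ≤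
      |prj ν f (lc c X) - prj ν f (fun ω => k * σ ω)| +
        |prj ν f (fun ω => k * σ ω) - JG S G z s Γ0 c| := abs_sub_le _ _ _
  refine tri.trans ((add_le_add step1 step2).trans ?_)
  have e11 : c2 * (2 * (β * η) + η ^ 2 +
        (4 * Real.pi * z) ^ 2 * (2 * n * W * β + (30 * d1 + 98 * d2) / (m + a))) =
      c2 * (2 * (β * η) + η ^ 2) + (4 * Real.pi * z) ^ 2 * (2 * W * β * (n * c2) +
        c2 / (m + a) * (30 * d1 + 98 * d2)) := by
    ring
  rw [e11]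
  refine add_le_add (mul_le_mul_of_nonneg_left ?_ hc.le) le_rfl
  linarith

/-- the mean Hessian on a mode -/
theorem PE.hess (h : PE ν F X m ub A S G z η W Γ0) (hM : Md A S c a s) {u : ℝ}
    (hu : ∑ x, ∑ y, c x * ub x y * c y = u * ∑ x, c x ^ 2) (hmu : 0 ≤ m + u) :
    |u - (a + 8 * Real.pi ^ 2 * z * s ^ 2 * Real.exp (-(2 * Real.pi ^ 2 * Γ0)))| ≤
      8 * Real.pi ^ 2 * z * W * bt ι z η + η * Real.sqrt (m + u) := by
  have hpi := Real.pi_pos
  have hc := hM.hc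
  have hz := h.hz
  have hη := h.hη
  have hs0 := hM.hs0
  have hs1 := hM.hs1
  have hW := h.hW
  have hf2 := lc_memLp h.sc.F2 c
  have hX2 := lc_memLp h.sc.X2 c
  have hY2 := h.sc.Y_memLp c
  have hσ2 := h.sc.sg_memLp S c
  have he2 := h.er_memLp c
  have hYσ := h.Yσ2 hM
  have hYf := h.sc.Yf c
  have hfish := h.sc.fish' c
  rw [hu] at hfish
  have hersq := h.er_sq c
  set c2 := ∑ x, c x ^ 2 with hc2
  have hsc2' : Real.sqrt c2 ^ 2 = c2 := Real.sq_sqrt hc.le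
  have hβ0 : 0 ≤ bt ι z η := by unfold bt; positivity
  set κG := Real.exp (-(2 * Real.pi ^ 2 * Γ0)) with hκG
  set Y : Ω → ℝ := fun ω => m * lc c F ω + lc c X ω with hY
  have e1 : ∫ ω, Y ω ^ 2 ∂ν = (m + a) * (∫ ω, Y ω * lc c F ω ∂ν) +
      (4 * Real.pi * z * s) * (∫ ω, Y ω * sg S c F ω ∂ν) + ∫ ω, Y ω * er A S z F X c ω ∂ν := by
    have e : ∀ ω, Y ω ^ 2 = (m + a) * (Y ω * lc c F ω) +
        (4 * Real.pi * z * s) * (Y ω * sg S c F ω) + 1 * (Y ω * er A S z F X c ω) := by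
      intro ω
      have h1 := hM.X_eq (F := F) (X := X) (z := z) ω
      simp only [hY]
      rw [h1]
      ring
    simp only [e]
    rw [int_lin3 (l2_mul hY2 hf2) (l2_mul hY2 hσ2) (l2_mul hY2 he2), one_mul]
  have hYY : ∫ ω, Y ω ^ 2 ∂ν = (m + u) * c2 := by
    rw [add_mul]
    exact hfish
  have hYe : |∫ ω, Y ω * er A S z F X c ω ∂ν| ≤
      Real.sqrt ((m + u) * c2) * (η * Real.sqrt c2) := by
    refine cs_le hY2 he2 (Real.sqrt_nonneg _) (by positivity) ?_ hersq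
    rw [Real.sq_sqrt (mul_nonneg hmu hc.le), hYY]
  have e2 : Real.sqrt ((m + u) * c2) * (η * Real.sqrt c2) = η * Real.sqrt (m + u) * c2 := by
    rw [Real.sqrt_mul hmu]
    calc Real.sqrt (m + u) * Real.sqrt c2 * (η * Real.sqrt c2) =
        η * Real.sqrt (m + u) * Real.sqrt c2 ^ 2 := by ring
      _ = _ := by rw [hsc2']
  rw [e2] at hYe
  rw [hYY, hYf] at e1
  have e3 : (u - (a + 8 * Real.pi ^ 2 * z * s ^ 2 * κG)) * c2 =
      (4 * Real.pi * z * s) * ((∫ ω, Y ω * sg S c F ω ∂ν) - 2 * Real.pi * s * κG * c2) +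
        ∫ ω, Y ω * er A S z F X c ω ∂ν := by
    have : (u - a) * c2 = (m + u) * c2 - (m + a) * c2 := by ring
    calc (u - (a + 8 * Real.pi ^ 2 * z * s ^ 2 * κG)) * c2 =
        (m + u) * c2 - (m + a) * c2 - 8 * Real.pi ^ 2 * z * s ^ 2 * κG * c2 := by ring
      _ = _ := by rw [e1]; ring
  have hk0 : 0 ≤ 4 * Real.pi * z * s := by positivity
  have hk1 : 4 * Real.pi * z * s ≤ 4 * Real.pi * z :=
    mul_le_of_le_one_right (by positivity) hs1
  have h1 : |(u - (a + 8 * Real.pi ^ 2 * z * s ^ 2 * κG)) * c2| ≤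
      (8 * Real.pi ^ 2 * z * W * bt ι z η + η * Real.sqrt (m + u)) * c2 := by
    rw [e3]
    refine (abs_add_le _ _).trans ?_
    rw [abs_mul, abs_of_nonneg hk0]
    have h2 : (4 * Real.pi * z * s) * |(∫ ω, Y ω * sg S c F ω ∂ν) -
        2 * Real.pi * s * κG * c2| ≤ (4 * Real.pi * z) * (2 * Real.pi * (W * bt ι z η) * c2) :=
      mul_le_mul hk1 hYσ (abs_nonneg _) (by positivity)
    calc _ ≤ (4 * Real.pi * z) * (2 * Real.pi * (W * bt ι z η) * c2) +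
          η * Real.sqrt (m + u) * c2 := add_le_add h2 hYe
      _ = _ := by ring
  rw [abs_mul, abs_of_pos hc] at h1
  exact le_of_mul_le_mul_right h1 hc

end

end Vale.Agent.P159.H114
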