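import Mathlib

/-!
P159 (helper114): algebra of `phs t v = t v / (t + v)`: from the difference of the two stiffnesses
`X` (mean posterior) and `Y` (prior) in `phs` letters to the difference itself.
-/

namespace Vale.Agent.P159.H114

noncomputable section

/-- `t v / (t + v)` -/
def phs (t v : ℝ) : ℝ := t * v / (t + v)

lemma phs_zero (t : ℝ) : phs t 0 = 0 := by simp [phs]

lemma phs_nonneg {t v : ℝ} (ht : 0 < t) (hv : 0 ≤ v) : 0 ≤ phs t v := by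
  unfold phs
  positivity

lemma phs_le {t v : ℝ} (ht : 0 < t) (hv : 0 ≤ v) : phs t v ≤ v := by
  unfold phs
  rw [div_le_iff₀ (by positivity)]
  nlinarith

/-- difference of the originals -/
lemma sub_phs {t v w : ℝ} (ht : 0 < t) (hv : 0 ≤ v) (hw : 0 ≤ w) :
    v - w = (phs t v - phs t w) * ((1 + v / t) * (1 + w / t)) := by
  unfold phs
  have h1 : t + v ≠ 0 := by positivity
  have h2 : t + w ≠ 0 := by positivity
  field_simp
  ring

/-- small values -/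
lemma le_of_phs {t v r : ℝ} (ht : 0 < t) (hv : 0 ≤ v) (h : phs t v ≤ r * t) (hr : r ≤ 1 / 2) :
    v ≤ 2 * phs t v := by
  unfold phs at h ⊢
  have h1 : 0 < t + v := by positivity
  rw [div_le_iff₀ h1] at h
  have h2 : v ≤ t := by
    by_contra hc
    push Not at hc
    have h3 : r * t * (t + v) ≤ 1 / 2 * t * (t + v) := by
      have : 0 ≤ t * (t + v) := by positivity
      nlinarith
    nlinarith
  rw [← mul_div_assoc, le_div_iff₀ h1]
  nlinarith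

lemma g_bd {a b : ℝ} (hb : 0 ≤ b) (hba : b ≤ a) (ha : a ≤ 2) : (1 + a) * (1 + b) ≤ 9 := by
  have h := mul_le_mul (show 1 + a ≤ 3 by linarith) (show 1 + b ≤ 3 by linarith)
    (by linarith) (by norm_num)
  linarith

lemma g0_bd {a b ρ : ℝ} (hb : 0 ≤ b) (hba : b ≤ a) (ha : a ≤ ρ) (hρ : ρ ≤ 1) :
    1 ≤ (1 + a) * (1 + b) ∧ (1 + a) * (1 + b) ≤ 4 ∧ (1 + a) * (1 + b) - 1 ≤ 3 * ρ := by
  have ha0 : 0 ≤ a := hb.trans hba
  have h1 : a * b ≤ ρ * 1 := mul_le_mul ha (by linarith) hb (by linarith)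
  have h2 : 0 ≤ a * b := mul_nonneg ha0 hb
  have e : (1 + a) * (1 + b) = 1 + a + b + a * b := by ring
  rw [e]
  refine ⟨by linarith, by linarith, by linarith⟩

lemma y_bd {a j j0 g g0 J D x : ℝ} (hj : 0 ≤ j) (hjJ : j ≤ J) (hj0 : 0 ≤ j0) (hj0J : j0 ≤ J)
    (hg : 0 ≤ g) (hg9 : g ≤ 9) (hg0 : 0 ≤ g0) (hg04 : g0 ≤ 4) (hx : |x| ≤ D)
    (ha : a = x + (j0 * g0 - j * g)) : |a| ≤ D + 13 * J := by
  have hJ : 0 ≤ J := hj.trans hjJ
  have h1 : j * g ≤ J * 9 := mul_le_mul hjJ hg9 hg hJ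
  have h2 : j0 * g0 ≤ J * 4 := mul_le_mul hj0J hg04 hg0 hJ
  have h3 : 0 ≤ j * g := mul_nonneg hj hg
  have h4 : 0 ≤ j0 * g0 := mul_nonneg hj0 hg0
  have h5 : |j0 * g0 - j * g| ≤ 13 * J := by
    rw [abs_le]
    constructor <;> linarith
  rw [ha]
  exact (abs_add_le _ _).trans (add_le_add hx h5)

lemma gg_bd {t a b x y D J : ℝ} (ht : 0 < t) (ha0 : 0 ≤ a) (ha : a ≤ 2) (hb0 : 0 ≤ b)
    (hb : b ≤ 1) (hx : |x| ≤ D) (hy : |y| ≤ D + 13 * J) :
    |((1 + a) * x + (1 + b) * y) / t| ≤ (5 * D + 26 * J) / t := by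
  rw [abs_div, abs_of_pos ht]
  refine div_le_div_of_nonneg_right ?_ ht.le
  refine (abs_add_le _ _).trans ?_
  rw [abs_mul, abs_mul, abs_of_pos (by linarith : 0 < 1 + a), abs_of_pos (by linarith : 0 < 1 + b)]
  have h1 : (1 + a) * |x| ≤ 3 * D := mul_le_mul (by linarith) hx (abs_nonneg _) (by norm_num)
  have h2 : (1 + b) * |y| ≤ 2 * (D + 13 * J) :=
    mul_le_mul (by linarith) hy (abs_nonneg _) (by norm_num)
  linarith

/-- scalar core: `X ≥ Y` the two stiffnesses at `k`, `X0 ≥ Y0` at zero -/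
lemma phs_core {t X Y X0 Y0 ρ J1 D1 : ℝ} (ht : 0 < t) (hY : 0 ≤ Y) (hYX : Y ≤ X) (hY0 : 0 ≤ Y0)
    (hYX0 : Y0 ≤ X0) (hX0 : X0 ≤ ρ * t) (hρ : ρ ≤ 1) (hX : X ≤ 2 * t)
    (hj : phs t X - phs t Y ≤ J1) (hj0 : phs t X0 - phs t Y0 ≤ J1) (hD : |X - X0| ≤ D1) :
    |(Y - Y0) - (X - X0) - ((phs t X0 - phs t Y0) - (phs t X - phs t Y))| ≤
      3 * ρ * |(phs t X0 - phs t Y0) - (phs t X - phs t Y)| +
        J1 * (5 * D1 + 26 * J1) / t := by
  have hX' : 0 ≤ X := hY.trans hYX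
  have hX0' : 0 ≤ X0 := hY0.trans hYX0
  have e1 := sub_phs ht hX' hY
  have e2 := sub_phs ht hX0' hY0
  have hy : 0 ≤ Y / t := by positivity
  have hy0 : 0 ≤ Y0 / t := by positivity
  have hx2 : X / t ≤ 2 := by rw [div_le_iff₀ ht]; exact hX
  have hyx : Y / t ≤ X / t := div_le_div_of_nonneg_right hYX ht.le
  have hx0ρ : X0 / t ≤ ρ := by rw [div_le_iff₀ ht]; exact hX0
  have hy0ρ : Y0 / t ≤ X0 / t := div_le_div_of_nonneg_right hYX0 ht.le
  have hx : 0 ≤ X / t := hy.trans hyx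
  have hx0 : 0 ≤ X0 / t := hy0.trans hy0ρ
  obtain ⟨g01, g04, g0ρ⟩ := g0_bd hy0 hy0ρ hx0ρ hρ
  have g9 := g_bd hy hyx hx2
  have gp : 0 < (1 + X / t) * (1 + Y / t) := by positivity
  have eg : (1 + X / t) * (1 + Y / t) - (1 + X0 / t) * (1 + Y0 / t) =
      ((1 + Y / t) * (X - X0) + (1 + X0 / t) * (Y - Y0)) / t := by
    field_simp
    ring
  generalize phs t X - phs t Y = j at *
  generalize phs t X0 - phs t Y0 = j0 at *
  generalize (1 + X / t) * (1 + Y / t) = g at *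
  generalize (1 + X0 / t) * (1 + Y0 / t) = g0 at *
  have hj0n : 0 ≤ j0 :=
    nonneg_of_mul_nonneg_left (by rw [← e2]; linarith) (by linarith : 0 < g0)
  have hjn : 0 ≤ j := nonneg_of_mul_nonneg_left (by rw [← e1]; linarith) gp
  have hJ : 0 ≤ J1 := hjn.trans hj
  have h1 : |Y - Y0| ≤ D1 + 13 * J1 :=
    y_bd hjn hj hj0n hj0 gp.le g9 (by linarith) g04 hD (by linarith)
  have h2 : |g - g0| ≤ (5 * D1 + 26 * J1) / t := by
    rw [eg]
    exact gg_bd ht hy (hyx.trans hx2) hx0 (hx0ρ.trans hρ) hD h1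
  have e3 : (Y - Y0) - (X - X0) - (j0 - j) = (j0 - j) * (g0 - 1) + j * (g0 - g) := by
    have : (Y - Y0) - (X - X0) = j0 * g0 - j * g := by linarith
    rw [this]
    ring
  rw [e3]
  refine (abs_add_le _ _).trans ?_
  rw [abs_mul, abs_mul, abs_of_nonneg (by linarith : 0 ≤ g0 - 1), abs_of_nonneg hjn,
    abs_sub_comm g0 g]
  have h3 : |j0 - j| * (g0 - 1) ≤ 3 * ρ * |j0 - j| := by
    rw [mul_comm]
    exact mul_le_mul_of_nonneg_right g0ρ (abs_nonneg _)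
  have h4 : j * |g - g0| ≤ J1 * ((5 * D1 + 26 * J1) / t) :=
    mul_le_mul hj h2 (abs_nonneg _) hJ
  rw [← mul_div_assoc] at h4
  exact add_le_add h3 h4

end

end Vale.Agent.P159.H114
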