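import Vale.Agent.P159.H462.Q4

/-!
P159 (helper114), P6: pure numbers, from the sizes of the hypotheses of `P6h` to `y ^ (2 + c)`.
-/

open Finset MeasureTheory Filter Topology

set_option linter.unusedSectionVars false

namespace Vale.Agent.P159.H114.Ry

open Vale.Agent.P159.H462 (E6)

theorem ev_pow_exp (K : ℝ) (n : ℕ) {κ : ℝ} (hκ : 0 < κ) :
    ∀ᶠ L : ℝ in atTop, K * L ^ n ≤ Real.exp (κ * L) := by
  have h := (isLittleO_pow_exp_pos_mul_atTop (k := n) hκ).def (c := (|K| + 1)⁻¹) (by positivity)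
  filter_upwards [h, eventually_ge_atTop (0 : ℝ)] with L h1 h2
  rw [Real.norm_eq_abs, Real.norm_eq_abs, abs_of_nonneg (by positivity),
    abs_of_pos (Real.exp_pos _), inv_mul_eq_div, le_div_iff₀ (by positivity)] at h1
  have h3 : K * L ^ n ≤ L ^ n * (|K| + 1) := by
    have h4 : 0 ≤ L ^ n := by positivity
    nlinarith [le_abs_self K]
  linarith

/-- the numbers along `L = log (1 / y)` -/
theorem num_L {x1 th c KA KB CC Kρ : ℝ} (hx : 0 < x1) (hth : 0 < th) (hc : c ≤ x1)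
    (hCC : 3 ≤ CC) :
    ∀ᶠ L : ℝ in atTop, 1 ≤ L ∧ 8 * CC * L * Real.exp (-(9 / 5 * th * L)) ≤ Real.log 4 ∧
      KA * (Kρ * (2 * L)) ^ 3 * (4 * CC * L) * 18 ≤
        1 / 2 * Real.exp ((22 / 5 * x1 - c) * L) ∧
      8 * KB * (4 * CC * L) ≤ Real.exp L := by
  have h4 : 0 < Real.log 4 := Real.log_pos (by norm_num)
  have e1 := ev_pow_exp (8 * CC / Real.log 4) 1 (κ := 9 / 5 * th) (by positivity)
  have e2 := ev_pow_exp (2 * (KA * Kρ ^ 3 * 8 * (4 * CC) * 18)) 4 (κ := 22 / 5 * x1 - c)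
    (by linarith)
  have e3 := ev_pow_exp (8 * KB * (4 * CC)) 1 (κ := 1) one_pos
  filter_upwards [e1, e2, e3, eventually_ge_atTop (1 : ℝ)] with L a1 a2 a3 hL
  refine ⟨hL, ?_, ?_, ?_⟩
  · rw [Real.exp_neg, ← div_eq_mul_inv, div_le_iff₀ (Real.exp_pos _)]
    rw [pow_one, div_mul_eq_mul_div, div_le_iff₀ h4] at a1
    linarith
  · have e : KA * (Kρ * (2 * L)) ^ 3 * (4 * CC * L) * 18 =
        1 / 2 * (2 * (KA * Kρ ^ 3 * 8 * (4 * CC) * 18) * L ^ 4) := by ring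
    rw [e]
    linarith
  · rw [pow_one, one_mul] at a3
    linarith

/-- the two terms -/
theorem num_core {x1 th c KA KB CW CC Kρ L : ℝ} {kW : ℕ} (hx : 0 < x1) (hx1 : x1 ≤ 1)
    (hth : 0 < th) (hc0 : 0 ≤ c) (hc : c ≤ x1) (hKA : 0 ≤ KA) (hKB : 0 ≤ KB) (hCW : 0 ≤ CW)
    (hKρ : 0 ≤ Kρ) (hCC : CC = kW * CW + 3 + c) (hL : 1 ≤ L)
    (n1 : 8 * CC * L * Real.exp (-(9 / 5 * th * L)) ≤ Real.log 4)
    (n2 : KA * (Kρ * (2 * L)) ^ 3 * (4 * CC * L) * 18 ≤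
      1 / 2 * Real.exp ((22 / 5 * x1 - c) * L)) (n3 : 8 * KB * (4 * CC * L) ≤ Real.exp L)
    {W e0 η12 η23 ρ R : ℝ} (hW0 : 0 ≤ W) (hW : W ≤ Real.exp (CW * L)) (he0 : 0 ≤ e0)
    (he : e0 ≤ Real.exp (-((CC + CW) * L))) (hR0 : 0 ≤ R)
    (hR : R ≤ 17 * Real.exp (-((2 - x1) * L)) + W * e0) (hη0 : 0 < η12)
    (hη : η12 ≤ Real.exp (-(9 / 5 * th * L))) (hθ0 : 0 ≤ η23)
    (hθ : η23 ≤ Real.exp (-(27 / 5 * x1 * L))) (hρ0 : 0 ≤ ρ) (hρ : ρ ≤ Kρ * (1 + L)) :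
    KA * η23 * ρ ^ 3 * (4 * CC * L) * R +
      KB * W ^ kW * (4 * CC * L) * E6 W e0 η12 (4 * CC * L) (Real.exp (CC * L)) ≤
        Real.exp (-((2 + c) * L)) := by
  have hCC3 : 3 ≤ CC := by
    rw [hCC]
    have : 0 ≤ (kW : ℝ) * CW := by positivity
    linarith
  have hL0 : 0 < L := by linarith
  have hCC0 : 0 < CC := by linarith
  -- the first term
  have a1 : R ≤ 18 * Real.exp (-((2 - x1) * L)) := by
    have b1 : W * e0 ≤ Real.exp (CW * L) * Real.exp (-((CC + CW) * L)) :=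
      mul_le_mul hW he he0 (Real.exp_pos _).le
    rw [← Real.exp_add] at b1
    have b2 : Real.exp (CW * L + -((CC + CW) * L)) ≤ Real.exp (-((2 - x1) * L)) :=
      Real.exp_le_exp.2 (by nlinarith)
    linarith
  have a2 : ρ ^ 3 ≤ (Kρ * (2 * L)) ^ 3 := by
    refine pow_le_pow_left₀ hρ0 (hρ.trans ?_) 3
    exact mul_le_mul_of_nonneg_left (by linarith) hKρ
  have a3 : KA * η23 * ρ ^ 3 * (4 * CC * L) * R ≤
      1 / 2 * Real.exp (-((2 + c) * L)) := by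
    calc KA * η23 * ρ ^ 3 * (4 * CC * L) * R
        ≤ KA * Real.exp (-(27 / 5 * x1 * L)) * (Kρ * (2 * L)) ^ 3 * (4 * CC * L) *
          (18 * Real.exp (-((2 - x1) * L))) := by gcongr
      _ = (KA * (Kρ * (2 * L)) ^ 3 * (4 * CC * L) * 18) *
          (Real.exp (-(27 / 5 * x1 * L)) * Real.exp (-((2 - x1) * L))) := by ring
      _ ≤ (1 / 2 * Real.exp ((22 / 5 * x1 - c) * L)) *
          (Real.exp (-(27 / 5 * x1 * L)) * Real.exp (-((2 - x1) * L))) :=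
          mul_le_mul_of_nonneg_right n2 (by positivity)
      _ = 1 / 2 * Real.exp (-((2 + c) * L)) := by
          rw [mul_assoc, ← Real.exp_add, ← Real.exp_add]
          ring_nf
  -- the second term
  have b1 : W ^ kW ≤ Real.exp (kW * (CW * L)) := by
    have := pow_le_pow_left₀ hW0 hW kW
    rwa [← Real.exp_nat_mul] at this
  have b2 : Real.exp (CC * L) * Real.exp (-(4 * CC * L / 2)) = Real.exp (-(CC * L)) := by
    rw [← Real.exp_add]
    ring_nf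
  have b3 : Real.exp (CC * L) * (4 : ℝ) ^ (-(1 / (4 * η12))) ≤ Real.exp (-(CC * L)) := by
    have c1 : (4 : ℝ) ^ (-(1 / (4 * η12))) ≤ Real.exp (-(2 * (CC * L))) := by
      rw [Real.rpow_def_of_pos (by norm_num : (0 : ℝ) < 4)]
      refine Real.exp_le_exp.2 ?_
      have c2 : 8 * CC * L * η12 ≤ Real.log 4 :=
        (mul_le_mul_of_nonneg_left hη (by positivity)).trans n1
      rw [mul_neg, neg_le_neg_iff, mul_one_div, le_div_iff₀ (by positivity)]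
      linarith
    calc Real.exp (CC * L) * (4 : ℝ) ^ (-(1 / (4 * η12)))
        ≤ Real.exp (CC * L) * Real.exp (-(2 * (CC * L))) :=
          mul_le_mul_of_nonneg_left c1 (Real.exp_pos _).le
      _ = Real.exp (-(CC * L)) := by
          rw [← Real.exp_add]
          ring_nf
  have b4 : 1 / Real.exp (CC * L) = Real.exp (-(CC * L)) := by
    rw [Real.exp_neg, one_div]
  have b5 : e0 ≤ Real.exp (-(CC * L)) :=
    he.trans (Real.exp_le_exp.2 (by nlinarith [mul_nonneg hCW hL0.le]))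
  have b6 : E6 W e0 η12 (4 * CC * L) (Real.exp (CC * L)) ≤ 4 * Real.exp (-(CC * L)) := by
    unfold H462.E6
    rw [b2, b4]
    linarith
  have b7 : 0 ≤ E6 W e0 η12 (4 * CC * L) (Real.exp (CC * L)) := by
    unfold H462.E6
    positivity
  have a4 : KB * W ^ kW * (4 * CC * L) * E6 W e0 η12 (4 * CC * L) (Real.exp (CC * L)) ≤
      1 / 2 * Real.exp (-((2 + c) * L)) := by
    calc KB * W ^ kW * (4 * CC * L) * E6 W e0 η12 (4 * CC * L) (Real.exp (CC * L))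
        ≤ KB * Real.exp (kW * (CW * L)) * (4 * CC * L) * (4 * Real.exp (-(CC * L))) := by gcongr
      _ = (8 * KB * (4 * CC * L)) *
          (1 / 2 * (Real.exp (kW * (CW * L)) * Real.exp (-(CC * L)))) := by ring
      _ ≤ Real.exp L * (1 / 2 * (Real.exp (kW * (CW * L)) * Real.exp (-(CC * L)))) :=
          mul_le_mul_of_nonneg_right n3 (by positivity)
      _ = 1 / 2 * Real.exp (-((2 + c) * L)) := by
          have e : Real.exp L * (1 / 2 * (Real.exp (kW * (CW * L)) * Real.exp (-(CC * L)))) =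
            1 / 2 * (Real.exp L * (Real.exp (kW * (CW * L)) * Real.exp (-(CC * L)))) := by ring
          rw [e, ← Real.exp_add, ← Real.exp_add, hCC]
          ring_nf
  linarith

/-- **pure numbers of (P6)**; the exponent of `e0` is explicit (it does not see `Kρ`) -/
theorem p6_num {x1 th c KA KB CW Kρ : ℝ} (kW : ℕ) (hx : 0 < x1) (hx1 : x1 ≤ 1) (hth : 0 < th)
    (hc0 : 0 ≤ c) (hc : c ≤ x1) (hKA : 0 ≤ KA) (hKB : 0 ≤ KB) (hCW : 0 ≤ CW) (hKρ : 0 ≤ Kρ) :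
    ∃ E : ℝ, 0 < E ∧ E ≤ 1 ∧ ∀ y ε W e0 η12 η23 ρ R : ℝ, 0 < y → y ≤ E → 0 < ε →
      ε ≤ y ^ (9 / 5 : ℝ) → 0 ≤ W → W ≤ y ^ (-CW) → 0 ≤ e0 → e0 ≤ y ^ (kW * CW + 3 + c + CW) →
      0 ≤ R →
      R ≤ 17 * y ^ (2 - x1) + W * e0 → 0 < η12 → η12 ≤ ε ^ th → 0 ≤ η23 → η23 ≤ ε ^ (3 * x1) →
      0 ≤ ρ → ρ ≤ Kρ * (1 + Real.log (1 / y)) →
      ∃ Λ lam : ℝ, 1 ≤ Λ ∧ 1 ≤ lam ∧
        KA * η23 * ρ ^ 3 * Λ * R + KB * W ^ kW * Λ * E6 W e0 η12 Λ lam ≤ y ^ (2 + c) := by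
  set CC : ℝ := kW * CW + 3 + c with hCC
  have hCC3 : 3 ≤ CC := by
    have : 0 ≤ (kW : ℝ) * CW := by positivity
    linarith
  obtain ⟨L0, hL0⟩ := (num_L (KA := KA) (KB := KB) (Kρ := Kρ) hx hth hc hCC3).exists_forall_of_atTop
  have h1 := (hL0 L0 le_rfl).1
  refine ⟨Real.exp (-L0), Real.exp_pos _, Real.exp_le_one_iff.2 (by linarith), ?_⟩
  intro y ε W e0 η12 η23 ρ R hy hyE hε hεy hW0 hW he0 he hR0 hR hη0 hη hθ0 hθ hρ0 hρ
  set L : ℝ := Real.log (1 / y) with hLd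
  have hLy : Real.log y = -L := by
    rw [hLd, one_div, Real.log_inv, neg_neg]
  have hL : L0 ≤ L := by
    have h2 := Real.log_le_log hy hyE
    rw [Real.log_exp, hLy] at h2
    linarith
  obtain ⟨m1, m2, m3, m4⟩ := hL0 L hL
  have hp : ∀ a : ℝ, y ^ a = Real.exp (-(a * L)) := fun a => by
    rw [Real.rpow_def_of_pos hy, hLy]
    ring_nf
  have hpe : ∀ a : ℝ, 0 ≤ a → ε ^ a ≤ Real.exp (-(9 / 5 * a * L)) := fun a ha => by
    calc ε ^ a ≤ (y ^ (9 / 5 : ℝ)) ^ a := Real.rpow_le_rpow hε.le hεy ha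
      _ = y ^ (9 / 5 * a) := by rw [← Real.rpow_mul hy.le]
      _ = _ := hp _
  rw [hp] at hW he hR
  refine ⟨4 * CC * L, Real.exp (CC * L), by nlinarith, Real.one_le_exp (by nlinarith), ?_⟩
  rw [hp]
  refine num_core (CW := CW) (kW := kW) (Kρ := Kρ) hx hx1 hth hc0 hc hKA hKB hCW hKρ hCC m1 m2 m3
    m4 hW0 (hW.trans (le_of_eq ?_)) he0 he hR0 hR hη0 (hη.trans (hpe th hth.le)) hθ0
    (hθ.trans ((hpe (3 * x1) (by linarith)).trans (le_of_eq ?_))) hρ0 hρ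
  · rw [neg_mul, neg_neg]
  · ring_nf

end Vale.Agent.P159.H114.Ry
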