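import Vale.Agent.P159.H114.Ry1
import Vale.Agent.P159.H972.ParL

/-!
P159 (helper114), P6: elementary sizes of the instance (`m = 2 ^ (n - j)`, cells `2 ^ j`, tori of `TT`).
-/

open Finset MeasureTheory Filter Topology

set_option linter.unusedSectionVars false

namespace Vale.Agent.P159.H114.Ry

open Vale.Agent.P159.H972

theorem two_lgE {c e : ℝ} (he : 0 < e) :
    e ^ (-c) = (2 : ℝ) ^ (c * Real.logb 2 (1 / e)) := by
  rw [mul_comm, Real.rpow_mul (by norm_num), Real.rpow_logb (by norm_num) (by norm_num)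
    (by positivity), Real.rpow_neg he.le, one_div, Real.inv_rpow he.le]

theorem two_lg_ge {c e : ℝ} (he : 0 < e) : e ^ (-c) ≤ (2 : ℝ) ^ lg c e := by
  rw [two_lgE he, ← Real.rpow_natCast]
  exact Real.rpow_le_rpow_of_exponent_le one_le_two (Nat.le_ceil _)

theorem two_lg_le {c e : ℝ} (hc : 0 ≤ c) (he : 0 < e) (he1 : e ≤ 1) :
    (2 : ℝ) ^ lg c e ≤ 2 * e ^ (-c) := by
  have h0 : 0 ≤ c * Real.logb 2 (1 / e) := mul_nonneg hc (H972.logb_nonneg' he he1)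
  rw [two_lgE he, ← Real.rpow_natCast]
  calc (2 : ℝ) ^ ((lg c e : ℕ) : ℝ) ≤ (2 : ℝ) ^ (c * Real.logb 2 (1 / e) + 1) :=
        Real.rpow_le_rpow_of_exponent_le one_le_two (Nat.ceil_lt_add_one h0).le
    _ = 2 * (2 : ℝ) ^ (c * Real.logb 2 (1 / e)) := by
        rw [Real.rpow_add (by norm_num), Real.rpow_one]
        ring

/-- exponent of the crude weight -/
noncomputable def CWx (C1 : ℝ) : ℝ := 8 * C1 + 5

/-- the ratio `2 ^ r / 2 ^ n` -/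
theorem tt_up (P : Par) {n r : ℕ} {ε y : ℝ} (hy : 0 < y)
    (hy2 : (2 : ℝ) ^ (1 + 4 * P.q0) ≤ y⁻¹)
    (hε0 : y ^ (39 / 20 : ℝ) ≤ ε) (hε1 : ε ≤ 1) (hr : P.TT n ε r) :
    (2 : ℝ) ^ (r - n) ≤ y ^ (-(39 / 20 * (P.th + 4 * P.q0 * P.thp) + 1)) := by
  have hε : 0 < ε := (Real.rpow_pos_of_pos hy _).trans_le hε0
  have hpos : 0 ≤ P.th + 4 * P.q0 * P.thp := by
    have := P.th0
    have := P.thp0
    positivity
  have h1 : (2 : ℝ) ^ (r - n) ≤ (2 : ℝ) ^ (P.kE ε + P.q0 * (4 * P.w ε)) :=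
    pow_le_pow_right₀ one_le_two (by have := hr.2; omega)
  have h3 : (2 : ℝ) ^ P.kE ε ≤ 2 * ε ^ (-P.th) := two_lg_le P.th0.le hε hε1
  have h4 : (2 : ℝ) ^ P.w ε ≤ 2 * ε ^ (-P.thp) := two_lg_le P.thp0.le hε hε1
  have h5 : (2 : ℝ) ^ (P.q0 * (4 * P.w ε)) ≤ (2 * ε ^ (-P.thp)) ^ (4 * P.q0) := by
    rw [show P.q0 * (4 * P.w ε) = P.w ε * (4 * P.q0) by ring, pow_mul]
    exact pow_le_pow_left₀ (by positivity) h4 _
  have h6 : (2 * ε ^ (-P.th)) * (2 * ε ^ (-P.thp)) ^ (4 * P.q0) =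
      (2 : ℝ) ^ (1 + 4 * P.q0) * ε ^ (-(P.th + 4 * P.q0 * P.thp)) := by
    rw [mul_pow, ← Real.rpow_natCast (ε ^ (-P.thp)), ← Real.rpow_mul hε.le, pow_add, pow_one]
    have e : ε ^ (-(P.th + 4 * P.q0 * P.thp)) =
        ε ^ (-P.th) * ε ^ (-P.thp * ((4 * P.q0 : ℕ) : ℝ)) := by
      rw [← Real.rpow_add hε]
      congr 1
      push_cast
      ring
    rw [e]
    ring
  have h7 : ε ^ (-(P.th + 4 * P.q0 * P.thp)) ≤
      y ^ (-(39 / 20 * (P.th + 4 * P.q0 * P.thp))) := by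
    have h8 := Real.rpow_le_rpow (Real.rpow_pos_of_pos hy _).le hε0 hpos
    rw [← Real.rpow_mul hy.le] at h8
    rw [Real.rpow_neg hε.le, Real.rpow_neg hy.le]
    exact inv_anti₀ (Real.rpow_pos_of_pos hy _) h8
  have h9 : (2 : ℝ) ^ (1 + 4 * P.q0) ≤ y ^ (-(1 : ℝ)) := by
    rw [Real.rpow_neg_one]
    exact hy2
  calc (2 : ℝ) ^ (r - n) ≤ (2 : ℝ) ^ (P.kE ε + P.q0 * (4 * P.w ε)) := h1
    _ = (2 : ℝ) ^ P.kE ε * (2 : ℝ) ^ (P.q0 * (4 * P.w ε)) := pow_add _ _ _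
    _ ≤ (2 * ε ^ (-P.th)) * (2 * ε ^ (-P.thp)) ^ (4 * P.q0) :=
        mul_le_mul h3 h5 (by positivity) (by positivity)
    _ = (2 : ℝ) ^ (1 + 4 * P.q0) * ε ^ (-(P.th + 4 * P.q0 * P.thp)) := h6
    _ ≤ y ^ (-(1 : ℝ)) * y ^ (-(39 / 20 * (P.th + 4 * P.q0 * P.thp))) :=
        mul_le_mul h9 h7 (by positivity) (by positivity)
    _ = _ := by
        rw [← Real.rpow_add hy]
        congr 1
        ring

/-- the inverse of the cell size -/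
theorem sz_lam {n j : ℕ} {ε y C1 : ℝ} (hC1 : 1 ≤ C1) (hy : 0 < y) (hy1 : y ≤ 1)
    (hε0 : y ^ (39 / 20 : ℝ) ≤ ε) (hjn : j ≤ n)
    (hlam : (ε * y) ^ (9 / 8 * C1) ≤ (2 : ℝ) ^ j / 2 ^ n) :
    (2 : ℝ) ^ (n - j) ≤ y ^ (-(4 * C1)) := by
  have hmj : (2 : ℝ) ^ (n - j) * 2 ^ j = 2 ^ n := by
    rw [← pow_add, Nat.sub_add_cancel hjn]
  have h1 : y ^ (4 * C1) ≤ (2 : ℝ) ^ j / 2 ^ n := by
    refine le_trans ?_ hlam
    have h2 : y ^ (59 / 20 : ℝ) ≤ ε * y := by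
      have e : (59 / 20 : ℝ) = 39 / 20 + 1 := by norm_num
      rw [e, Real.rpow_add hy, Real.rpow_one]
      exact mul_le_mul_of_nonneg_right hε0 hy.le
    have h3 := Real.rpow_le_rpow (Real.rpow_pos_of_pos hy _).le h2
      (show 0 ≤ 9 / 8 * C1 by positivity)
    rw [← Real.rpow_mul hy.le] at h3
    refine le_trans ?_ h3
    exact Real.rpow_le_rpow_of_exponent_ge hy hy1 (by linarith)
  have h4 : (2 : ℝ) ^ j / 2 ^ n = ((2 : ℝ) ^ (n - j))⁻¹ := by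
    rw [← hmj]
    field_simp
  rw [h4] at h1
  rw [Real.rpow_neg hy.le]
  rwa [le_inv_comm₀ (by positivity) (Real.rpow_pos_of_pos hy _)]

/-- the window over the block -/
theorem sz_rho {n j D0 : ℕ} {y C1 A0 : ℝ} (hC1 : 1 ≤ C1) (hA0 : 1 ≤ A0) (hy : 0 < y)
    (hy1 : y ≤ 1) (hjn : j ≤ n) (hl : (2 : ℝ) ^ (n - j) ≤ y ^ (-(4 * C1)))
    (hD : (D0 : ℝ) * 2 ^ j ≤ 2 * A0 * (((n : ℝ) - j) * Real.log 2) * 2 ^ n) :
    ((D0 : ℝ) + 2 ^ (n - j)) / 2 ^ (n - j) ≤ (8 * A0 * C1 + 1) * (1 + Real.log (1 / y)) := by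
  have hm0 : (0 : ℝ) < 2 ^ (n - j) := by positivity
  have hmj : (2 : ℝ) ^ (n - j) * 2 ^ j = 2 ^ n := by
    rw [← pow_add, Nat.sub_add_cancel hjn]
  have hL0 : 0 ≤ Real.log (1 / y) := Real.log_nonneg (by rw [le_div_iff₀ hy]; linarith)
  have hLs : ((n : ℝ) - j) * Real.log 2 ≤ 4 * C1 * Real.log (1 / y) := by
    have h1 : ((n : ℝ) - j) * Real.log 2 = Real.log ((2 : ℝ) ^ (n - j)) := by
      rw [Real.log_pow, Nat.cast_sub hjn]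
    rw [h1]
    have h2 := Real.log_le_log hm0 hl
    rw [Real.log_rpow hy] at h2
    have h3 : Real.log (1 / y) = -Real.log y := by rw [one_div, Real.log_inv]
    rw [h3]
    linarith
  have h1 : (D0 : ℝ) / 2 ^ (n - j) ≤ 2 * A0 * (((n : ℝ) - j) * Real.log 2) := by
    rw [div_le_iff₀ hm0]
    have h2 : (D0 : ℝ) * 2 ^ j ≤
        (2 * A0 * (((n : ℝ) - j) * Real.log 2) * 2 ^ (n - j)) * 2 ^ j := by
      rw [mul_assoc _ ((2 : ℝ) ^ (n - j)), hmj]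
      exact hD
    exact le_of_mul_le_mul_right h2 (by positivity)
  rw [add_div, div_self hm0.ne']
  have h3 : 2 * A0 * (((n : ℝ) - j) * Real.log 2) ≤ 2 * A0 * (4 * C1 * Real.log (1 / y)) :=
    mul_le_mul_of_nonneg_left hLs (by positivity)
  have h4 : 0 ≤ 8 * A0 * C1 := by positivity
  have e : (8 * A0 * C1 + 1) * (1 + Real.log (1 / y)) =
      2 * A0 * (4 * C1 * Real.log (1 / y)) + 8 * A0 * C1 + 1 + Real.log (1 / y) := by ring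
  rw [e]
  linarith

/-- the lower bound of the torus -/
theorem tt_lo (P : Par) {n r : ℕ} {ε y : ℝ} (hy : 0 < y) (hε : 0 < ε)
    (hε1 : ε ≤ y ^ (9 / 5 : ℝ)) (hr : P.TT n ε r) :
    Real.exp (9 / 5 * P.th * Real.log (1 / y)) ≤ (2 : ℝ) ^ (r - n) := by
  have h3 : ε ^ (-P.th) ≤ (2 : ℝ) ^ P.kE ε := two_lg_ge hε
  have h4 : (2 : ℝ) ^ P.kE ε ≤ 2 ^ (r - n) :=
    pow_le_pow_right₀ one_le_two (by have := hr.1; omega)
  refine le_trans ?_ (h3.trans h4)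
  have h5 := Real.rpow_le_rpow hε.le hε1 P.th0.le
  rw [← Real.rpow_mul hy.le] at h5
  have h6 : y ^ (-(9 / 5 * P.th)) ≤ ε ^ (-P.th) := by
    rw [Real.rpow_neg hε.le, Real.rpow_neg hy.le]
    exact inv_anti₀ (Real.rpow_pos_of_pos hε _) h5
  refine le_trans (le_of_eq ?_) h6
  rw [Real.rpow_def_of_pos hy, one_div, Real.log_inv]
  ring_nf

/-- the window fits -/
theorem sz_fit {n j r D0 : ℕ} {κ Kρ L : ℝ} (hjn : j ≤ n) (hnr : n ≤ r) (hL : 1 ≤ L) (hK : 0 < Kρ)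
    (hρ : ((D0 : ℝ) + 2 ^ (n - j)) / 2 ^ (n - j) ≤ Kρ * (1 + L))
    (h1 : 16 * Kρ * L ≤ Real.exp (κ * L)) (h2 : Real.exp (κ * L) ≤ (2 : ℝ) ^ (r - n)) :
    4 * (D0 + 2 ^ (n - j)) < 2 ^ r / 2 ^ j := by
  rw [Nat.pow_div (hjn.trans hnr) two_pos]
  have hm0 : (0 : ℝ) < 2 ^ (n - j) := by positivity
  have e1 : (2 : ℝ) ^ (r - j) = 2 ^ (r - n) * 2 ^ (n - j) := by
    rw [← pow_add]
    congr 1
    omega
  have h3 : 4 * (((D0 : ℝ) + 2 ^ (n - j)) / 2 ^ (n - j)) < 2 ^ (r - n) := by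
    have h4 : 4 * (Kρ * (1 + L)) ≤ 8 * Kρ * L := by
      have := mul_le_mul_of_nonneg_left hL hK.le
      linarith
    have h6 : 8 * Kρ * L < 16 * Kρ * L := by
      have : 0 < Kρ * L := by positivity
      linarith
    linarith
  have h4 : 4 * ((D0 : ℝ) + 2 ^ (n - j)) < 2 ^ (r - j) := by
    rw [e1]
    have h5 := mul_lt_mul_of_pos_right h3 hm0
    have e : 4 * (((D0 : ℝ) + 2 ^ (n - j)) / 2 ^ (n - j)) * 2 ^ (n - j) =
        4 * ((D0 : ℝ) + 2 ^ (n - j)) := by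
      field_simp
    rwa [e] at h5
  have h5 : ((4 * (D0 + 2 ^ (n - j)) : ℕ) : ℝ) < ((2 ^ (r - j) : ℕ) : ℝ) := by
    push_cast
    exact h4
  exact_mod_cast h5

/-- `ν m² ≤ 1`, `1 / ν` -/
theorem sz_nu {n j : ℕ} (hjn : j ≤ n) :
    tn n * ((2 ^ j : ℕ) : ℝ) ^ 2 * ((2 ^ (n - j) : ℕ) : ℝ) ^ 2 ≤ 1 ∧
    (tn n * ((2 ^ j : ℕ) : ℝ) ^ 2)⁻¹ = ((2 : ℝ) ^ (n - j)) ^ 2 := by
  have hmj : (2 : ℝ) ^ (n - j) * 2 ^ j = 2 ^ n := by
    rw [← pow_add, Nat.sub_add_cancel hjn]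
  have e2 : (4 : ℝ) ^ n = (2 ^ n) ^ 2 := by
    rw [← pow_mul, mul_comm n 2, pow_mul]
    norm_num
  push_cast
  unfold H972.tn
  rw [e2, ← hmj]
  constructor
  · refine le_of_eq ?_
    field_simp
  · field_simp

/-- weights -/
theorem sz_W {n j r : ℕ} {y C1 a CW : ℝ} (hy : 0 < y) (hy1 : y ≤ 1) (hjn : j ≤ n)
    (hnr : n ≤ r) (hl : (2 : ℝ) ^ (n - j) ≤ y ^ (-(4 * C1))) (hu : (2 : ℝ) ^ (r - n) ≤ y ^ (-a))
    (ha : 0 ≤ a) (hCW : 2 * a + 8 * C1 ≤ CW) :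
    (tn n * ((2 ^ j : ℕ) : ℝ) ^ 2)⁻¹ ≤ y ^ (-CW) ∧ ((2 ^ r / 2 ^ j : ℕ) : ℝ) ^ 2 ≤ y ^ (-CW) := by
  have h1 := pow_le_pow_left₀ (by positivity) hl 2
  rw [← Real.rpow_natCast (y ^ (-(4 * C1))), ← Real.rpow_mul hy.le] at h1
  constructor
  · rw [(sz_nu hjn).2]
    refine h1.trans (Real.rpow_le_rpow_of_exponent_ge hy hy1 ?_)
    push_cast
    linarith
  · have e1 : ((2 ^ r / 2 ^ j : ℕ) : ℝ) = 2 ^ (r - n) * 2 ^ (n - j) := by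
      rw [Nat.pow_div (hjn.trans hnr) two_pos]
      push_cast
      rw [← pow_add]
      congr 1
      omega
    rw [e1]
    have h1 := mul_le_mul hu hl (by positivity) (Real.rpow_pos_of_pos hy _).le
    rw [← Real.rpow_add hy] at h1
    have h2 := pow_le_pow_left₀ (by positivity) h1 2
    rw [← Real.rpow_natCast (y ^ _) 2, ← Real.rpow_mul hy.le] at h2
    refine h2.trans (Real.rpow_le_rpow_of_exponent_ge hy hy1 ?_)
    push_cast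
    linarith

/-- **elementary sizes** of the instance: block `m = 2 ^ (n - j)` -/
structure Sz (C1 Kc Kρ : ℝ) (n j r D0 : ℕ) (y : ℝ) : Prop where
  m1 : 1 ≤ 2 ^ (n - j)
  νm : tn n * ((2 ^ j : ℕ) : ℝ) ^ 2 * ((2 ^ (n - j) : ℕ) : ℝ) ^ 2 ≤ 1
  Wν : (tn n * ((2 ^ j : ℕ) : ℝ) ^ 2)⁻¹ ≤ y ^ (-CWx C1)
  WN : ((2 ^ r / 2 ^ j : ℕ) : ℝ) ^ 2 ≤ y ^ (-CWx C1)
  Wc : Kc ≤ y ^ (-CWx C1)
  W1 : 1 ≤ y ^ (-CWx C1)
  ρ : ((D0 : ℝ) + (2 ^ (n - j) : ℕ)) / (2 ^ (n - j) : ℕ) ≤ Kρ * (1 + Real.log (1 / y))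
  fit : 4 * (D0 + 2 ^ (n - j)) < 2 ^ r / 2 ^ j

theorem p6_sz (P : Par) (hP : P.th + 4 * P.q0 * P.thp ≤ 1 / 2) {C1 A0 : ℝ} (Kc : ℝ)
    (hC1 : 1 ≤ C1) (hA0 : 1 ≤ A0) :
    ∃ E : ℝ, 0 < E ∧ E ≤ 1 / 2 ∧ ∀ (n j r D0 : ℕ) (ε y : ℝ), 0 < y → y ≤ E →
      y ^ (39 / 20 : ℝ) ≤ ε → ε ≤ y ^ (9 / 5 : ℝ) → j ≤ n →
      (ε * y) ^ (9 / 8 * C1) ≤ (2 : ℝ) ^ j / 2 ^ n → P.TT n ε r →
      (D0 : ℝ) * 2 ^ j ≤ 2 * A0 * (((n : ℝ) - j) * Real.log 2) * 2 ^ n →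
      Sz C1 Kc (8 * A0 * C1 + 1) n j r D0 y := by
  have hth := P.th0
  have hthp := P.thp0
  have hK0 : 0 < 8 * A0 * C1 + 1 := by positivity
  obtain ⟨L0, hL0⟩ := (((ev_pow_exp (16 * (8 * A0 * C1 + 1)) 1 (κ := 9 / 5 * P.th)
    (by positivity)).and (ev_pow_exp Kc 0 (κ := 1) one_pos)).and
    (eventually_ge_atTop (1 : ℝ))).exists_forall_of_atTop
  have hq : (0 : ℝ) < 2 ^ (1 + 4 * P.q0) := by positivity
  refine ⟨min (Real.exp (-L0)) (min (1 / 2) (2 ^ (1 + 4 * P.q0))⁻¹), by positivity,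
    (min_le_right _ _).trans (min_le_left _ _), ?_⟩
  intro n j r D0 ε y hy hyE hε0 hε1 hjn hlam hr hD
  have hy2 : y ≤ 1 / 2 := hyE.trans ((min_le_right _ _).trans (min_le_left _ _))
  have hyq : (2 : ℝ) ^ (1 + 4 * P.q0) ≤ y⁻¹ := by
    rw [le_inv_comm₀ hq hy]
    exact hyE.trans ((min_le_right _ _).trans (min_le_right _ _))
  have hy1 : y ≤ 1 := by linarith
  set L : ℝ := Real.log (1 / y) with hLd
  have hLy : Real.log y = -L := by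
    rw [hLd, one_div, Real.log_inv, neg_neg]
  have hL : L0 ≤ L := by
    have h2 := Real.log_le_log hy (hyE.trans (min_le_left _ _))
    rw [Real.log_exp, hLy] at h2
    linarith
  obtain ⟨⟨m1, m2⟩, m3⟩ := hL0 L hL
  rw [pow_one] at m1
  rw [pow_zero, mul_one, one_mul] at m2
  have hε : 0 < ε := (Real.rpow_pos_of_pos hy _).trans_le hε0
  have hεy : ε ≤ 1 := hε1.trans (Real.rpow_le_one hy.le hy1 (by norm_num))
  have ha : 0 ≤ 39 / 20 * (P.th + 4 * P.q0 * P.thp) + 1 := by positivity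
  have hCW : 1 ≤ CWx C1 := by
    unfold CWx
    linarith
  have hlam1 := sz_lam hC1 hy hy1 hε0 hjn hlam
  have hu := tt_up P hy hyq hε0 hεy hr
  have hlo := tt_lo P hy hε hε1 hr
  have hnr : n ≤ r := by have := hr.1; omega
  have hρ := sz_rho hC1 hA0 hy hy1 hjn hlam1 hD
  have hW := sz_W (CW := CWx C1) hy hy1 hjn hnr hlam1 hu ha (by unfold CWx; linarith)
  have hyW : y ^ (-(1 : ℝ)) ≤ y ^ (-CWx C1) :=
    Real.rpow_le_rpow_of_exponent_ge hy hy1 (by linarith)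
  have hyL : y ^ (-(1 : ℝ)) = Real.exp L := by
    rw [Real.rpow_def_of_pos hy, hLy]
    ring_nf
  refine ⟨Nat.one_le_two_pow, (sz_nu hjn).1, hW.1, hW.2, ?_, ?_, ?_, ?_⟩
  · rw [hyL] at hyW
    exact m2.trans hyW
  · refine le_trans ?_ hyW
    rw [hyL]
    exact Real.one_le_exp (by linarith)
  · push_cast
    exact hρ
  · exact sz_fit hjn hnr m3 hK0 hρ m1 hlo

/-- an absolute exponent of the cell size is enough for `e0` -/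
theorem e0_le {n j : ℕ} {ε y C1 c β₀ : ℝ} {kW : ℕ} (hC1 : 1 ≤ C1) (hy : 0 < y) (hy1 : y ≤ 1)
    (hε : 0 < ε) (hε1 : ε ≤ y ^ (9 / 5 : ℝ)) (hjn : j ≤ n) (hc : c ≤ 1)
    (hlam : (2 : ℝ) ^ j / 2 ^ n ≤ (ε * y) ^ C1) (hβ : 13 * ((kW : ℝ) + 1) + 4 ≤ 14 / 5 * β₀) :
    Real.exp (-(β₀ * (((n : ℝ) - j) * Real.log 2))) ≤ y ^ (kW * CWx C1 + 3 + c + CWx C1) := by
  have hβ0 : 0 ≤ β₀ := by
    have : (0 : ℝ) ≤ kW := Nat.cast_nonneg _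
    linarith
  have e1 : Real.exp (-(β₀ * (((n : ℝ) - j) * Real.log 2))) = ((2 : ℝ) ^ j / 2 ^ n) ^ β₀ := by
    have hp : (0 : ℝ) < 2 ^ j / 2 ^ n := by positivity
    rw [Real.rpow_def_of_pos hp, Real.log_div (by positivity) (by positivity), Real.log_pow,
      Real.log_pow]
    ring_nf
  rw [e1]
  have h1 : (2 : ℝ) ^ j / 2 ^ n ≤ y ^ (14 / 5 * C1) := by
    refine hlam.trans ?_
    have h2 : ε * y ≤ y ^ (14 / 5 : ℝ) := by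
      have e : (14 / 5 : ℝ) = 9 / 5 + 1 := by norm_num
      rw [e, Real.rpow_add hy, Real.rpow_one]
      exact mul_le_mul_of_nonneg_right hε1 hy.le
    have h3 := Real.rpow_le_rpow (by positivity) h2 (show 0 ≤ C1 by linarith)
    rwa [← Real.rpow_mul hy.le] at h3
  have h2 := Real.rpow_le_rpow (by positivity) h1 hβ0
  rw [← Real.rpow_mul hy.le] at h2
  refine h2.trans (Real.rpow_le_rpow_of_exponent_ge hy hy1 ?_)
  unfold CWx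
  have hk : (0 : ℝ) ≤ kW := Nat.cast_nonneg _
  have h3 : (13 * ((kW : ℝ) + 1) + 4) * C1 ≤ 14 / 5 * β₀ * C1 :=
    mul_le_mul_of_nonneg_right hβ (by linarith)
  nlinarith [mul_nonneg hk (show 0 ≤ C1 - 1 by linarith)]

end Vale.Agent.P159.H114.Ry
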