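import Vale.Agent.P159.H114.Ry2
import Vale.Agent.P159.H159.Mz5
import Vale.Agent.P159.H767.Nr16
import Vale.Agent.P159.H462.Q4

/-!
P159 (helper114), P6: the inputs `P6t` of the three tori and the elementary sizes at the cells of the V
context, one `b`, order of constants (`β`, `A0` absolute).
-/

open Finset MeasureTheory Filter Topology

set_option linter.unusedSectionVars false
set_option linter.unusedDecidableInType false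

namespace Vale.Agent.P159.H114.Ry

open Vale.Agent.P159.TM.Spec (V)
open Vale.Agent.P159.H37 (gau)
open Vale.Agent.P159.H864 (yt)
open Vale.Agent.P159.H462 (Dom P6t)
open Vale.Agent.P159.H363 (acl)
open Vale.Agent.P159.H889 (Cx)
open Vale.Agent.P159.H972 (Par tn Good GP)
open Vale.Agent.P159.H801 (Ev)
open Vale.Agent.P159.H767 (Lv Sm1 sm1_ev lv_of_cx)
open Vale.Agent.P159.H358 (Ls)
open Vale.Agent.P159.H159 (LvI LocM LocF farV_ev)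

/-- `th + 4 q0 thp` is small -/
theorem rho_ev {b1 b2 pf ρ : ℝ} (hρ : 0 < ρ) (Q : ℕ) :
    Ev b1 b2 pf Q fun P _ => P.th + 4 * P.q0 * P.thp ≤ ρ := by
  refine Ev.of ⟨0, fun W _ => ⟨1, one_pos, fun ys _ _ => ⟨0, fun X0 _ => ⟨ρ / 16, by positivity,
    fun x1 hx1 hx1' => ⟨ρ / (16 * (Q + 3)), by positivity, fun thp hthp hthp' =>
    ⟨ρ / 4, by positivity, fun th hth hth' => ⟨0, fun C0 _ => ⟨1, one_pos, fun c1 _ _ =>
    ⟨1, one_pos, fun P hP => ?_⟩⟩⟩⟩⟩⟩⟩⟩⟩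
  rw [hP.eth, hP.ethp, hP.eq0]
  have hthp2 : ((Q : ℝ) + 3) * thp ≤ ρ / 16 := by
    rw [le_div_iff₀ (by positivity)] at hthp'
    linarith
  have h2 : (⌈x1 / thp⌉₊ : ℝ) ≤ x1 / thp + 1 := (Nat.ceil_lt_add_one (by positivity)).le
  have h3 : (⌈x1 / thp⌉₊ : ℝ) * thp ≤ x1 + thp := by
    calc (⌈x1 / thp⌉₊ : ℝ) * thp ≤ (x1 / thp + 1) * thp := by gcongr
      _ = x1 + thp := by field_simp
  push_cast
  linarith

/-- the window -/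
theorem win_ex {A0 : ℝ} (hA0 : 1 ≤ A0) {n j : ℕ} (hjn : j ≤ n) (hL : 1 ≤ Ls n j) :
    ∃ D0 : ℕ, A0 * Ls n j * 2 ^ n ≤ D0 * 2 ^ j ∧ (D0 : ℝ) * 2 ^ j ≤ 2 * A0 * Ls n j * 2 ^ n := by
  have hx : 1 ≤ A0 * Ls n j * 2 ^ (n - j) := by
    have h1 : (1 : ℝ) ≤ A0 * Ls n j := by nlinarith
    have h2 : (1 : ℝ) ≤ 2 ^ (n - j) := one_le_pow₀ one_le_two
    nlinarith
  have e1 : (2 : ℝ) ^ n = 2 ^ (n - j) * 2 ^ j := by rw [← pow_add, Nat.sub_add_cancel hjn]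
  have hj : (0 : ℝ) < 2 ^ j := by positivity
  refine ⟨⌈A0 * Ls n j * 2 ^ (n - j)⌉₊, ?_, ?_⟩
  · rw [e1, ← mul_assoc]
    exact mul_le_mul_of_nonneg_right (Nat.le_ceil _) hj.le
  · rw [e1, ← mul_assoc]
    refine mul_le_mul_of_nonneg_right ?_ hj.le
    have := (Nat.ceil_lt_add_one (show 0 ≤ A0 * Ls n j * 2 ^ (n - j) by linarith)).le
    linarith

/-- the state of helper159 from the V context -/
theorem lvI_of {P : Par} {b C1 c1 : ℝ} {n j : ℕ} {e y : ℝ} (hX : Cx P b C1 c1 n j e y)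
    (hs : Sm1 C1 c1 P.thp e) (hC1 : 1 ≤ C1) (hC0 : P.C0 ≤ C1) (hc1 : 0 < c1) {r1 r2 : ℕ}
    (h1 : P.TT n e r1) (h2 : P.TT n e r2) :
    LvI P b c1 n j e (e ^ (-(P.thp / 20)) * y) r1 r2 := by
  have L := lv_of_cx hX
  have hsn := L.sn hs hC1
  have hns := L.ns hs hC1 hc1
  rw [Nat.cast_sub hsn] at hns
  exact ⟨hX.e0, hX.es, hX.G, L.sE hs hC1 hC0 P.C00.le, hX.ns, hns, L.lam hs hC1, h1, h2,
    hX.vy r1 h1, hX.vy r2 h2, L.yy hs⟩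

/-- **the inputs of (P6) of one torus and the elementary sizes**, order of constants: `β`, `A0`,
parameters, `C1`, `Kc`, smallness of `y` -/
theorem p6t_ev {b1 b2 b : ℝ} (hb1 : 0 < b1) (hb : b1 ≤ b) (hb2 : 0 < b2) {β : ℝ} (hβ : 0 ≤ β) :
    ∃ A00 : ℝ, 1 ≤ A00 ∧ ∀ A0 : ℝ, A00 ≤ A0 → ∀ (K : ℝ) (Q : ℕ), Ev b1 b2 (9 / 10) Q fun P c1 =>
      P.th + 4 * P.q0 * P.thp ≤ 1 / 2 ∧ ∀ C1 : ℝ, 1 ≤ C1 → P.C0 ≤ C1 → C1 ≤ K * P.C0 →
      ∀ Kc : ℝ, ∃ E : ℝ, 0 < E ∧ E ≤ 1 / 2 ∧ ∀ (n j : ℕ) (e y : ℝ), Cx P b C1 c1 n j e y →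
        y ≤ E → e ≤ y ^ (9 / 5 : ℝ) → j ≤ n ∧ 1 ≤ Ls n j ∧
        (∀ (c : ℝ) (kW : ℕ), c ≤ 1 → 13 * ((kW : ℝ) + 1) + 4 ≤ 14 / 5 * β →
          Real.exp (-(β * Ls n j)) ≤ y ^ (kW * CWx C1 + 3 + c + CWx C1)) ∧ ∀ D0 : ℕ,
        A0 * Ls n j * 2 ^ n ≤ D0 * 2 ^ j → (D0 : ℝ) * 2 ^ j ≤ 2 * A0 * Ls n j * 2 ^ n →
        ∀ (r1 r2 : ℕ) [NeZero (2 ^ r1 / 2 ^ j)] [NeZero (2 ^ r2 / 2 ^ j)], P.TT n e r1 →
        P.TT n e r2 →
        Sz C1 Kc (8 * A0 * C1 + 1) n j r2 D0 y ∧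
        P6t (2 ^ r1) (2 ^ r2) (2 ^ j) b (tn n) D0 (2 ^ (n - j)) (1 / b)
          (Real.exp (-(β * Ls n j))) (y ^ (-CWx C1)) := by
  have hb0 : 0 < b := hb1.trans_le hb
  obtain ⟨A00, hA00, hvt⟩ := farV_ev (b2 := b2) (pf := 9 / 10) hb1 hb hb2 (by norm_num) hβ
  refine ⟨A00, hA00, fun A0 hA0 K Q => ?_⟩
  refine (((hvt A0 hA0 Q).and (sm1_ev (b1 := b1) (b2 := b2) K Q)).and
    (rho_ev (b1 := b1) (b2 := b2) (pf := 9 / 10) (show (0 : ℝ) < 1 / 2 by norm_num) Q)).mono ?_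
  rintro P c1 _ ⟨⟨hvt, hc1, -, -, -, hsm⟩, hρ⟩
  refine ⟨hρ, fun C1 hC1 hC0 hCK Kc => ?_⟩
  obtain ⟨E, hE, hE2, hsz⟩ := p6_sz P hρ Kc hC1 (hA00.trans hA0)
  refine ⟨E, hE, hE2, ?_⟩
  intro n j e y hX hyE hey
  have L := lv_of_cx hX
  have hs := hsm C1 hC1 hCK e hX.e0 hX.es
  have hsn := L.sn hs hC1
  have hns := L.ns hs hC1 hc1
  have htn := H972.tn_pos n
  have hL1 : 1 ≤ Ls n j := by
    have lv : H358.Lvl P b c1 n j e (tn n) :=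
      ⟨hX.e0, hX.es, hX.G, le_rfl, by linarith, hsn, hX.ns, hns, L.lam hs hC1⟩
    exact lv.L1 hs.a6
  have hLL : Ls n j = ((n : ℝ) - j) * Real.log 2 := by
    unfold H358.Ls
    rw [Nat.cast_sub hsn]
  refine ⟨hsn, hL1, fun c kW hc hβ' => ?_, ?_⟩
  · rw [hLL]
    exact e0_le hC1 hX.y0 (by linarith) hX.e0 hey hsn hc hX.s2 hβ'
  intro D0 hD1 hD2 r1 r2 _ _ h1 h2
  have hD3 : (D0 : ℝ) * 2 ^ j ≤ 2 * A0 * (((n : ℝ) - j) * Real.log 2) * 2 ^ n := by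
    rwa [← hLL]
  have Z := hsz n j r2 D0 e y hX.y0 hyE hX.y1 hey hsn hX.s1 h2 hD3
  obtain ⟨-, hF, -⟩ := hvt n j e _ r1 r2 (lvI_of hX hs hC1 hC0 hc1 h1 h2) D0 hD1 hD2
  have hl : 2 ^ j ∣ 2 ^ r2 := pow_dvd_pow 2 (hsn.trans ((Nat.le_add_right _ _).trans h2.1))
  refine ⟨Z, hl, H375.dom_acl (N := 2 ^ r2) (l := 2 ^ j) (b := b) hb0 hl htn (le_refl (tn n)),
    Z.fit, fun x => ?_, Z.WN⟩
  exact (hF x).2

/-- a smaller constant of the domination -/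
theorem p6t_mono {B M l : ℕ} [NeZero B] [NeZero M] [NeZero (B / l)] [NeZero (M / l)] {b T : ℝ}
    {D0 m : ℕ} {c c' e0 W : ℝ} (h : P6t B M l b T D0 m c e0 W) (h0 : 0 < c') (h1 : c' ≤ c) :
    P6t B M l b T D0 m c' e0 W where
  hl := h.hl
  dom :=
    { ti := h.dom.ti
      hν := h.dom.hν
      hc := h0
      nn := h.dom.nn
      le := h.dom.le
      zero := h.dom.zero
      ge := fun k => by
        refine le_trans ?_ (h.dom.ge k)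
        have hν := h.dom.hν
        have hE := H462.EE_nonneg k
        have h2 := mul_le_mul_of_nonneg_right h1 hE
        have h3 := mul_nonneg h0.le hE
        rw [div_le_div_iff₀ (by linarith) (by linarith)]
        nlinarith [mul_le_mul_of_nonneg_left h2 (mul_nonneg hν.le hν.le)] }
  fit := h.fit
  loc := h.loc
  W := h.W

end Vale.Agent.P159.H114.Ry
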