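import Vale.Agent.P159.H114.L2a

/-!
P159 (helper114): consequences of the Stein identities for a random field `F` with score
`m F + X`; characteristic functions.
-/

namespace Vale.Agent.P159.H114

open MeasureTheory Finset Matrix

noncomputable section

variable {Ω : Type*} [MeasurableSpace Ω] {ι : Type*} [Fintype ι] [DecidableEq ι]

/-- linear combination of a field -/
def lc (c : ι → ℝ) (F : ι → Ω → ℝ) (ω : Ω) : ℝ := ∑ x, c x * F x ω

/-- a random field `F` with score `m F + X` and mean Hessian `ub` of the potential -/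
structure Sc (ν : Measure Ω) (F X : ι → Ω → ℝ) (m : ℝ) (ub : Matrix ι ι ℝ) : Prop where
  prob : IsProbabilityMeasure ν
  F2 : ∀ x, MemLp (F x) 2 ν
  X2 : ∀ x, MemLp (X x) 2 ν
  lin : ∀ x y, ∫ ω, (m * F x ω + X x ω) * F y ω ∂ν = if x = y then 1 else 0
  sin : ∀ (v : ι → ℝ) (x : ι), ∫ ω, (m * F x ω + X x ω) * Real.sin (lc v F ω) ∂ν =
    v x * ∫ ω, Real.cos (lc v F ω) ∂ν
  fish : ∀ x y, ∫ ω, (m * F x ω + X x ω) * (m * F y ω + X y ω) ∂ν =
    (if x = y then m else 0) + ub x y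

variable {ν : Measure Ω} {F X : ι → Ω → ℝ} {m : ℝ} {ub : Matrix ι ι ℝ}

omit [DecidableEq ι] in
lemma lc_memLp {Y : ι → Ω → ℝ} (hY : ∀ x, MemLp (Y x) 2 ν) (c : ι → ℝ) :
    MemLp (lc c Y) 2 ν := by
  have h : lc c Y = ∑ x, fun ω => c x * Y x ω := by
    funext ω
    simp [lc]
  rw [h]
  exact memLp_finset_sum' _ fun x _ => (hY x).const_mul (c x)

omit [MeasurableSpace Ω] [DecidableEq ι] in
lemma lc_add (c c' : ι → ℝ) (F : ι → Ω → ℝ) (ω : Ω) : lc (c + c') F ω = lc c F ω + lc c' F ω := by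
  simp only [lc, Pi.add_apply, add_mul, Finset.sum_add_distrib]

omit [MeasurableSpace Ω] [DecidableEq ι] in
lemma lc_smul (t : ℝ) (c : ι → ℝ) (F : ι → Ω → ℝ) (ω : Ω) : lc (t • c) F ω = t * lc c F ω := by
  simp only [lc, Pi.smul_apply, smul_eq_mul, Finset.mul_sum, mul_assoc]

omit [MeasurableSpace Ω] [DecidableEq ι] in
lemma lc_sub (c c' : ι → ℝ) (F : ι → Ω → ℝ) (ω : Ω) : lc (c - c') F ω = lc c F ω - lc c' F ω := by
  simp only [lc, Pi.sub_apply, sub_mul, Finset.sum_sub_distrib]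

omit [MeasurableSpace Ω] [DecidableEq ι] in
lemma lc_score (c : ι → ℝ) (F X : ι → Ω → ℝ) (m : ℝ) (ω : Ω) :
    ∑ x, c x * (m * F x ω + X x ω) = m * lc c F ω + lc c X ω := by
  simp only [lc, Finset.mul_sum, ← Finset.sum_add_distrib]
  exact Finset.sum_congr rfl fun x _ => by ring

/-- the score against a function -/
lemma Sc.sum (h : Sc ν F X m ub) (c : ι → ℝ) {g : Ω → ℝ} (hg : MemLp g 2 ν) :
    ∫ ω, (m * lc c F ω + lc c X ω) * g ω ∂ν =
      ∑ x, c x * ∫ ω, (m * F x ω + X x ω) * g ω ∂ν := by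
  have e : ∀ ω, (m * lc c F ω + lc c X ω) * g ω =
      ∑ x, c x * ((m * F x ω + X x ω) * g ω) := by
    intro ω
    rw [← lc_score, Finset.sum_mul]
    exact Finset.sum_congr rfl fun x _ => by ring
  simp only [e]
  rw [integral_finset_sum]
  · exact Finset.sum_congr rfl fun x _ => integral_const_mul _ _
  · intro x _
    have h1 : MemLp (fun ω => m * F x ω + X x ω) 2 ν := ((h.F2 x).const_mul m).add (h.X2 x)
    exact (l2_mul h1 hg).const_mul _

lemma Sc.lin' (h : Sc ν F X m ub) (c d : ι → ℝ) :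
    ∫ ω, (m * lc c F ω + lc c X ω) * lc d F ω ∂ν = c ⬝ᵥ d := by
  rw [h.sum c (lc_memLp h.F2 d)]
  refine Finset.sum_congr rfl fun x _ => ?_
  congr 1
  have h1 : MemLp (fun ω => m * F x ω + X x ω) 2 ν := ((h.F2 x).const_mul m).add (h.X2 x)
  have e : ∀ ω, (m * F x ω + X x ω) * lc d F ω = ∑ y, d y * ((m * F x ω + X x ω) * F y ω) := by
    intro ω
    unfold lc
    rw [Finset.mul_sum]
    exact Finset.sum_congr rfl fun y _ => by ring
  simp only [e]
  rw [integral_finset_sum]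
  · simp only [integral_const_mul, h.lin]
    simp
  · intro y _
    exact (l2_mul h1 (h.F2 y)).const_mul _

lemma Sc.fish' (h : Sc ν F X m ub) (c : ι → ℝ) :
    ∫ ω, (m * lc c F ω + lc c X ω) ^ 2 ∂ν = m * (∑ x, c x ^ 2) + ∑ x, ∑ y, c x * ub x y * c y := by
  have hY : ∀ x, MemLp (fun ω => m * F x ω + X x ω) 2 ν := fun x =>
    ((h.F2 x).const_mul m).add (h.X2 x)
  have hc : MemLp (fun ω => m * lc c F ω + lc c X ω) 2 ν :=
    ((lc_memLp h.F2 c).const_mul m).add (lc_memLp h.X2 c)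
  have e0 : ∀ ω, (m * lc c F ω + lc c X ω) ^ 2 =
      (m * lc c F ω + lc c X ω) * (m * lc c F ω + lc c X ω) := fun ω => sq _
  simp only [e0]
  rw [h.sum c hc, Finset.mul_sum, ← Finset.sum_add_distrib]
  refine Finset.sum_congr rfl fun x _ => ?_
  have e : ∀ ω, (m * F x ω + X x ω) * (m * lc c F ω + lc c X ω) =
      ∑ y, c y * ((m * F x ω + X x ω) * (m * F y ω + X y ω)) := by
    intro ω
    rw [← lc_score, Finset.mul_sum]
    exact Finset.sum_congr rfl fun y _ => by ring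
  simp only [e]
  rw [integral_finset_sum]
  · have e3 : ∀ y, ∫ ω, c y * ((m * F x ω + X x ω) * (m * F y ω + X y ω)) ∂ν =
        c y * (if x = y then m else 0) + c y * ub x y := by
      intro y
      rw [integral_const_mul, h.fish x y, mul_add]
    simp only [e3]
    rw [Finset.sum_add_distrib, mul_add, Finset.mul_sum univ (fun y => c y * ub x y)]
    congr 1
    · have e4 : ∑ y, c y * (if x = y then m else 0) = c x * m := by simp
      rw [e4]
      ring
    · exact Finset.sum_congr rfl fun y _ => by ring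
  · intro y _
    exact (l2_mul (hY x) (hY y)).const_mul _

lemma Sc.aem (h : Sc ν F X m ub) (v : ι → ℝ) : AEStronglyMeasurable (lc v F) ν :=
  (lc_memLp h.F2 v).1

lemma Sc.sin_memLp (h : Sc ν F X m ub) (v : ι → ℝ) :
    MemLp (fun ω => Real.sin (lc v F ω)) 2 ν := by
  have := h.prob
  refine MemLp.of_bound (Real.continuous_sin.comp_aestronglyMeasurable (h.aem v)) 1
    (Filter.Eventually.of_forall fun ω => ?_)
  rw [Real.norm_eq_abs]
  exact Real.abs_sin_le_one _

lemma Sc.cos_memLp (h : Sc ν F X m ub) (v : ι → ℝ) :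
    MemLp (fun ω => Real.cos (lc v F ω)) 2 ν := by
  have := h.prob
  refine MemLp.of_bound (Real.continuous_cos.comp_aestronglyMeasurable (h.aem v)) 1
    (Filter.Eventually.of_forall fun ω => ?_)
  rw [Real.norm_eq_abs]
  exact Real.abs_cos_le_one _

/-- the characteristic function is differentiable -/
lemma Sc.deriv (h : Sc ν F X m ub) (v : ι → ℝ) (θ : ℝ) :
    HasDerivAt (fun θ : ℝ => ∫ ω, Real.cos (θ * lc v F ω) ∂ν)
      (∫ ω, -(lc v F ω * Real.sin (θ * lc v F ω)) ∂ν) θ := by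
  have := h.prob
  have hL := lc_memLp h.F2 v
  have hi : Integrable (fun ω => |lc v F ω|) ν := (hL.integrable one_le_two).abs
  have hm : ∀ θ : ℝ, AEStronglyMeasurable (fun ω => θ * lc v F ω) ν := fun θ =>
    (h.aem v).const_mul θ
  refine (hasDerivAt_integral_of_dominated_loc_of_deriv_le (μ := ν) (𝕜 := ℝ) (E := ℝ)
    (F := fun (θ : ℝ) ω => Real.cos (θ * lc v F ω))
    (F' := fun (θ : ℝ) ω => -(lc v F ω * Real.sin (θ * lc v F ω)))
    (bound := fun ω => |lc v F ω|)
    (s := Set.univ) Filter.univ_mem ?_ ?_ ?_ ?_ hi ?_).2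
  · exact Filter.Eventually.of_forall fun θ =>
      Real.continuous_cos.comp_aestronglyMeasurable (hm θ)
  · have := MemLp.of_bound (μ := ν) (p := 1)
      (Real.continuous_cos.comp_aestronglyMeasurable (hm θ)) 1
      (Filter.Eventually.of_forall fun ω => by
        rw [Real.norm_eq_abs]; exact Real.abs_cos_le_one _)
    exact this.integrable le_rfl
  · exact ((h.aem v).mul (Real.continuous_sin.comp_aestronglyMeasurable (hm θ))).neg
  · refine Filter.Eventually.of_forall fun ω x _ => ?_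
    rw [norm_neg, norm_mul, Real.norm_eq_abs, Real.norm_eq_abs]
    have := Real.abs_sin_le_one (x * lc v F ω)
    have h0 := abs_nonneg (lc v F ω)
    nlinarith
  · refine Filter.Eventually.of_forall fun ω x _ => ?_
    have h1 : HasDerivAt (fun x : ℝ => x * lc v F ω) (lc v F ω) x := by
      simpa using (hasDerivAt_id x).mul_const (lc v F ω)
    have h2 := h1.cos
    refine h2.congr_deriv ?_
    ring

/-- **characteristic function**: Gaussian up to the `L²` size of the nonlinear part -/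
theorem Sc.charfn (h : Sc ν F X m ub) {A : Matrix ι ι ℝ} {w v : ι → ℝ}
    (hv : v = m • w + A *ᵥ w) (hq : 0 ≤ w ⬝ᵥ v) {B : ℝ} (hB : 0 ≤ B)
    (hr : ∫ ω, (lc w X ω - lc (A *ᵥ w) F ω) ^ 2 ∂ν ≤ B ^ 2) :
    |∫ ω, Real.cos (lc v F ω) ∂ν - Real.exp (-(w ⬝ᵥ v / 2))| ≤ B := by
  have := h.prob
  set q := w ⬝ᵥ v with hqd
  set ρ : Ω → ℝ := fun ω => lc w X ω - lc (A *ᵥ w) F ω with hρ
  have hρ2 : MemLp ρ 2 ν := (lc_memLp h.X2 w).sub (lc_memLp h.F2 (A *ᵥ w))
  have hvF : ∀ ω, lc v F ω = (m * lc w F ω + lc w X ω) - ρ ω := by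
    intro ω
    rw [hρ, hv, lc_add, lc_smul]
    ring
  set φ : ℝ → ℝ := fun θ => ∫ ω, Real.cos (θ * lc v F ω) ∂ν with hφ
  have hsin : ∀ θ : ℝ, MemLp (fun ω => Real.sin (θ * lc v F ω)) 2 ν := by
    intro θ
    have := h.sin_memLp (θ • v)
    simpa only [lc_smul] using this
  set r : ℝ → ℝ := fun θ => ∫ ω, ρ ω * Real.sin (θ * lc v F ω) ∂ν with hrd
  have hder : ∀ θ : ℝ, ∫ ω, -(lc v F ω * Real.sin (θ * lc v F ω)) ∂ν = -(θ * q * φ θ) + r θ := by
    intro θ
    have e : ∀ ω, -(lc v F ω * Real.sin (θ * lc v F ω)) =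
        (-1) * ((m * lc w F ω + lc w X ω) * Real.sin (θ * lc v F ω)) +
          1 * (ρ ω * Real.sin (θ * lc v F ω)) := by
      intro ω
      rw [hvF ω]
      ring
    simp only [e]
    have hY : MemLp (fun ω => m * lc w F ω + lc w X ω) 2 ν :=
      ((lc_memLp h.F2 w).const_mul m).add (lc_memLp h.X2 w)
    rw [int_lin2 (l2_mul hY (hsin θ)) (l2_mul hρ2 (hsin θ)), h.sum w (hsin θ)]
    have e2 : ∀ x, ∫ ω, (m * F x ω + X x ω) * Real.sin (θ * lc v F ω) ∂ν = θ * v x * φ θ := by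
      intro x
      have := h.sin (θ • v) x
      simp only [lc_smul, Pi.smul_apply, smul_eq_mul] at this
      exact this
    simp only [e2]
    have e3 : ∑ x, w x * (θ * v x * φ θ) = θ * q * φ θ := by
      rw [hqd]
      simp only [dotProduct, Finset.mul_sum, Finset.sum_mul]
      exact Finset.sum_congr rfl fun x _ => by ring
    rw [e3]
    simp only [hrd]
    ring
  have hr1 : ∀ θ, |r θ| ≤ B := by
    intro θ
    exact l1_le hρ2 (hsin θ).1 (fun ω => Real.abs_sin_le_one _) hB hr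
  -- the integrating factor
  have hD : ∀ θ ∈ Set.Icc (0 : ℝ) 1, HasDerivWithinAt (fun θ => Real.exp (q * θ ^ 2 / 2) * φ θ)
      (Real.exp (q * θ ^ 2 / 2) * r θ) (Set.Icc (0 : ℝ) 1) θ := by
    intro θ _
    have h1 := h.deriv v θ
    rw [hder θ] at h1
    have h2 : HasDerivAt (fun θ : ℝ => Real.exp (q * θ ^ 2 / 2))
        (Real.exp (q * θ ^ 2 / 2) * (q * θ)) θ := by
      have h3 : HasDerivAt (fun θ : ℝ => q * θ ^ 2 / 2) (q * θ) θ := by
        have h4 := ((hasDerivAt_pow 2 θ).const_mul q).div_const 2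
        refine h4.congr_deriv ?_
        push_cast
        ring
      exact h3.exp
    have h5 := (h2.mul h1).hasDerivWithinAt (s := Set.Icc (0 : ℝ) 1)
    refine h5.congr_deriv ?_
    ring
  have hbd : ∀ θ ∈ Set.Ico (0 : ℝ) 1, ‖Real.exp (q * θ ^ 2 / 2) * r θ‖ ≤ Real.exp (q / 2) * B := by
    intro θ hθ
    rw [norm_mul, Real.norm_eq_abs, Real.norm_eq_abs, abs_of_pos (Real.exp_pos _)]
    refine mul_le_mul (Real.exp_le_exp.2 ?_) (hr1 θ) (abs_nonneg _) (Real.exp_pos _).le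
    have : θ ^ 2 ≤ 1 := by nlinarith [hθ.1, hθ.2]
    nlinarith
  have hfin := norm_image_sub_le_of_norm_deriv_le_segment_01' hD hbd
  have h0 : φ 0 = 1 := by simp [hφ]
  have h1 : φ 1 = ∫ ω, Real.cos (lc v F ω) ∂ν := by simp [hφ]
  rw [← h1]
  simp only [one_pow, mul_one, ne_eq, OfNat.ofNat_ne_zero, not_false_eq_true, zero_pow, mul_zero,
    zero_div, Real.exp_zero, one_mul, h0, Real.norm_eq_abs] at hfin
  have e : φ 1 - Real.exp (-(q / 2)) = Real.exp (-(q / 2)) * (Real.exp (q / 2) * φ 1 - 1) := by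
    rw [mul_sub, ← mul_assoc, ← Real.exp_add]
    simp
  rw [e, abs_mul, abs_of_pos (Real.exp_pos _)]
  calc Real.exp (-(q / 2)) * |Real.exp (q / 2) * φ 1 - 1|
      ≤ Real.exp (-(q / 2)) * (Real.exp (q / 2) * B) :=
        mul_le_mul_of_nonneg_left hfin (Real.exp_pos _).le
    _ = B := by rw [← mul_assoc, ← Real.exp_add]; simp

end

end Vale.Agent.P159.H114
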