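import Vale.Agent.P159.H114.Se2

/-!
P159 (helper114): the one-level flow equation, pinned prior (`LQ.star`).
-/

namespace Vale.Agent.P159.H114

open MeasureTheory Finset Matrix
open Vale.Agent.P159.H37
open Vale.Agent.P159.H864 (TI sym mlt ti_mlt sym_mlt cobV MC GM Gck PiCk cobV_mul_tr)
open Vale.Agent.P159.H730 (wC Cbk)
open Vale.Agent.P159.TM.H764 (Gh cN sN dt ch EE frm grd pw)
open Vale.Agent.P159.TM.Spec (V)
open Vale.Agent.P159.TM.SpecC (wT ms)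

noncomputable section

set_option linter.unusedSectionVars false

/-- flat profile of the neutral self energy and size of the window, pinned prior -/
structure FP (n : ℕ) [NeZero n] (P : V n → ℝ) (a η ξ B κ : ℝ) : Prop where
  hξ0 : 0 < ξ
  hξ : B ≤ ξ
  hξN : B * ξ ≤ n
  hη : 0 ≤ η
  hF : ∀ k, |P k - a * EE k| ≤ η * EE k * (1 + EE k * ξ ^ 2)
  ha : |a - Real.pi / 2| * (1 + Real.log (n / ξ)) ≤ κ
  hηκ : η * (1 + Real.log (1 + 9 * (n : ℝ) ^ 2)) ≤ κ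

section fh

variable {n : ℕ} [NeZero n] {P : V n → ℝ} {a η ξ B κ : ℝ}

lemma FP.mono (h : FP n P a η ξ B κ) {B' κ' : ℝ} (hB : B' ≤ B) (hκ : κ ≤ κ') :
    FP n P a η ξ B' κ' where
  hξ0 := h.hξ0
  hξ := hB.trans h.hξ
  hξN := (mul_le_mul_of_nonneg_right hB h.hξ0.le).trans h.hξN
  hη := h.hη
  hF := h.hF
  ha := h.ha.trans hκ
  hηκ := h.hηκ.trans hκ

lemma FP.lg0 (h : FP n P a η ξ B κ) (hB : 1 ≤ B) : 0 ≤ Real.log (n / ξ) := by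
  refine Real.log_nonneg ?_
  rw [le_div_iff₀ h.hξ0]
  have := h.hξN
  have := h.hξ0
  nlinarith

lemma FP.a_le (h : FP n P a η ξ B κ) (hB : 1 ≤ B) (hκ : κ ≤ 1) : a ≤ 3 := by
  have h1 := h.lg0 hB
  have h2 := h.ha
  have h3 : |a - Real.pi / 2| ≤ 1 := by
    have : |a - Real.pi / 2| ≤ |a - Real.pi / 2| * (1 + Real.log (n / ξ)) :=
      le_mul_of_one_le_right (abs_nonneg _) (by linarith)
    linarith
  have h4 := (abs_le.1 h3).2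
  have := Real.pi_lt_d2
  linarith

lemma FP.η_le (h : FP n P a η ξ B κ) (hκ : κ ≤ 1) : η ≤ 1 := by
  have h2 := h.hηκ
  have hη := h.hη
  have h3 : 0 ≤ Real.log (1 + 9 * (n : ℝ) ^ 2) := Real.log_nonneg (by nlinarith)
  have h6 : η ≤ η * (1 + Real.log (1 + 9 * (n : ℝ) ^ 2)) :=
    le_mul_of_one_le_right hη (by linarith)
  linarith

/-- small axis momenta -/
lemma FP.pw_lg (h : FP n P a η ξ B κ) (hB : 1 ≤ B) {C2 : ℝ} (hC2 : 0 ≤ C2)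
    (hBC : 300 * (C2 + 1) ^ 2 ≤ B) {j : ZMod n} (hj : |pw j| * n ≤ C2) :
    (pw j * ξ) ^ 2 * (1 + Real.log (n / ξ)) ≤ 1 / 300 := by
  have hx := h.hξ0
  have hn : (0 : ℝ) < n := by exact_mod_cast NeZero.pos n
  have h1 := h.hξN
  have hq : 0 < (n : ℝ) / ξ := by positivity
  have h2 := Real.log_le_sub_one_of_pos hq
  have h3 : (pw j * ξ) ^ 2 = (|pw j| * n) ^ 2 * (ξ / n) ^ 2 := by
    rw [mul_pow, mul_pow, sq_abs, div_pow]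
    field_simp
  have h4 : (|pw j| * n) ^ 2 ≤ (C2 + 1) ^ 2 :=
    pow_le_pow_left₀ (by positivity) (by linarith) 2
  calc (pw j * ξ) ^ 2 * (1 + Real.log (n / ξ)) ≤ (pw j * ξ) ^ 2 * (n / ξ) :=
        mul_le_mul_of_nonneg_left (by linarith) (sq_nonneg _)
    _ = (|pw j| * n) ^ 2 * (ξ / n) := by
        rw [h3]
        field_simp
    _ ≤ (C2 + 1) ^ 2 * (ξ / n) := mul_le_mul_of_nonneg_right h4 (by positivity)
    _ ≤ 1 / 300 := by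
        rw [← mul_div_assoc, div_le_div_iff₀ hn (by norm_num)]
        have h5 : 300 * (C2 + 1) ^ 2 * ξ ≤ B * ξ := mul_le_mul_of_nonneg_right hBC hx.le
        linarith

lemma FP.pw_le (h : FP n P a η ξ B κ) (hB : 1 ≤ B) {C2 : ℝ} (hC2 : 0 ≤ C2)
    (hBC : 300 * (C2 + 1) ^ 2 ≤ B) {j : ZMod n} (hj : |pw j| * n ≤ C2) :
    (pw j * ξ) ^ 2 ≤ 1 / 300 := by
  refine le_trans ?_ (h.pw_lg hB hC2 hBC hj)
  exact le_mul_of_one_le_right (sq_nonneg _) (by linarith [h.lg0 hB])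

lemma FP.P_le (h : FP n P a η ξ B κ) (hB : 1 ≤ B) (hκ : κ ≤ 1) {C2 : ℝ} (hC2 : 0 ≤ C2)
    (hBC : 300 * (C2 + 1) ^ 2 ≤ B) {j : ZMod n} (hj : |pw j| * n ≤ C2) :
    P (ax j) ≤ 5 * pw j ^ 2 := by
  have h1 := (abs_le.1 (h.hF (ax j))).2
  have h2 := EE_ax_le j
  have h3 := h.a_le hB hκ
  have h4 := h.η_le hκ
  have h5 := H462.EE_nonneg (ax j)
  have h6 := h.pw_le hB hC2 hBC hj
  have hη := h.hη
  have h7 : EE (ax j) * ξ ^ 2 ≤ 1 / 300 := by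
    refine le_trans ?_ h6
    rw [mul_pow]
    exact mul_le_mul_of_nonneg_right h2 (by positivity)
  have h8 : η * EE (ax j) * (1 + EE (ax j) * ξ ^ 2) ≤ 1 * EE (ax j) * (2 : ℝ) := by
    refine mul_le_mul (mul_le_mul_of_nonneg_right h4 h5) (by linarith) ?_ (by positivity)
    have : 0 ≤ EE (ax j) * ξ ^ 2 := by positivity
    linarith
  have h9 : a * EE (ax j) ≤ 3 * EE (ax j) := mul_le_mul_of_nonneg_right h3 h5
  linarith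

end fh

variable {N l : ℕ} [NeZero N] [NeZero (N / l)] {b t0 t τ : ℝ}
variable {P : V (N / l) → ℝ} {c0 y e : ℝ}

/-- main part of the difference of the projected second moments -/
lemma LQ.jd (h : LQ N l b t0 t τ P c0 y e)
    (hs : 160 * (k0 (c0 ^ 4) * Lm N t * ep N t y e) ≤ 1)
    {ξ lg A0 δ Cg : ℝ} (hξ : t * l ^ 2 * ξ ^ 2 = 1) {i j : ZMod (N / l)} (hi : ax i ≠ 0)
    (hj : ax j ≠ 0) (hij : pw i ^ 2 ≤ pw j ^ 2) (hK : 0 ≤ δ * lg + Cg)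
    (hGi : |gS N l t τ P 0 - sS P (t * l ^ 2) (ax i) ^ 2 * gS N l t τ P (ax i) -
      A0 * (ξ ^ 4 * pw i ^ 2) * lg| ≤ ξ ^ 4 * pw i ^ 2 * (δ * lg + Cg))
    (hG : |gS N l t τ P 0 - sS P (t * l ^ 2) (ax j) ^ 2 * gS N l t τ P (ax j) -
      A0 * (ξ ^ 4 * pw j ^ 2) * lg| ≤ ξ ^ 4 * pw j ^ 2 * (δ * lg + Cg)) :
    |((phs t (PbC N l b t0 t τ (ax i)) - phs t (PiCk N l b t0 τ (ax i))) -
        (phs t (PbC N l b t0 t τ (ax j)) - phs t (PiCk N l b t0 τ (ax j)))) -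
      16 * Real.pi ^ 2 * (y ^ 2 * (A0 * lg * ((pw j ^ 2 - pw i ^ 2) / l ^ 2)))| ≤
      16 * Real.pi ^ 2 * (y ^ 2 * (2 * (pw j ^ 2 / l ^ 2) * (δ * lg + Cg))) +
        2 * (t * eJ N t y e (c0 ^ 4)) := by
  have h1 := h.jdiff hs hj hi
  have hl := h.lpos
  have hpi := Real.pi_pos
  have hy := h.hy
  set G := sS P (t * l ^ 2) (ax i) ^ 2 * gS N l t τ P (ax i) -
    sS P (t * l ^ 2) (ax j) ^ 2 * gS N l t τ P (ax j) with hGd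
  set JD := ((phs t (PbC N l b t0 t τ (ax i)) - phs t (PiCk N l b t0 τ (ax i))) -
        (phs t (PbC N l b t0 t τ (ax j)) - phs t (PiCk N l b t0 τ (ax j)))) with hJD
  have e0 : ∀ X : ℝ, t ^ 2 * l ^ 2 * (ξ ^ 4 * X) = X / l ^ 2 := by
    intro X
    have : t ^ 2 * l ^ 2 * (ξ ^ 4 * X) = (t * l ^ 2 * ξ ^ 2) ^ 2 * (X / l ^ 2) := by
      field_simp
    rw [this, hξ, one_pow, one_mul]
  have hG2 : |G - A0 * (ξ ^ 4 * (pw j ^ 2 - pw i ^ 2)) * lg| ≤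
      2 * (ξ ^ 4 * pw j ^ 2) * (δ * lg + Cg) := by
    have a1 := abs_le.1 hGi
    have a2 := abs_le.1 hG
    have a3 : ξ ^ 4 * pw i ^ 2 * (δ * lg + Cg) ≤ ξ ^ 4 * pw j ^ 2 * (δ * lg + Cg) :=
      mul_le_mul_of_nonneg_right (mul_le_mul_of_nonneg_left hij (by positivity)) hK
    have e1 : A0 * (ξ ^ 4 * (pw j ^ 2 - pw i ^ 2)) * lg =
        A0 * (ξ ^ 4 * pw j ^ 2) * lg - A0 * (ξ ^ 4 * pw i ^ 2) * lg := by ring
    rw [e1, abs_le, hGd]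
    constructor <;> linarith [a1.1, a1.2, a2.1, a2.2]
  have e1 : JD - 16 * Real.pi ^ 2 * (y ^ 2 * (A0 * lg * ((pw j ^ 2 - pw i ^ 2) / l ^ 2))) =
      (JD - 16 * Real.pi ^ 2 * y ^ 2 * (t ^ 2 * l ^ 2) * G) +
      16 * Real.pi ^ 2 * y ^ 2 * (t ^ 2 * l ^ 2) *
        (G - A0 * (ξ ^ 4 * (pw j ^ 2 - pw i ^ 2)) * lg) := by
    rw [← e0]
    ring
  rw [e1]
  refine (abs_add_le _ _).trans ?_
  rw [abs_mul, abs_of_nonneg (by positivity : 0 ≤ 16 * Real.pi ^ 2 * y ^ 2 *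
    (t ^ 2 * (l : ℝ) ^ 2))]
  have h2 := mul_le_mul_of_nonneg_left hG2 (by positivity : 0 ≤ 16 * Real.pi ^ 2 * y ^ 2 *
    (t ^ 2 * (l : ℝ) ^ 2))
  have e2 : 16 * Real.pi ^ 2 * y ^ 2 * (t ^ 2 * (l : ℝ) ^ 2) *
        (2 * (ξ ^ 4 * pw j ^ 2) * (δ * lg + Cg)) =
      16 * Real.pi ^ 2 * (y ^ 2 * (2 * (pw j ^ 2 / l ^ 2) * (δ * lg + Cg))) := by
    rw [← e0 (pw j ^ 2)]
    ring
  rw [e2] at h2
  linarith

/-- scalar estimates of the factor `ρ` -/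
lemma rho_alg {ε L lg v : ℝ} (hlgL : 1 + lg ≤ L) (hε : 0 ≤ ε) (hLe : 160 * (L * ε) ≤ 1)
    (hv : v * (1 + lg) ≤ 1 / 300) (hlg : 0 ≤ lg) (hv0 : 0 ≤ v) :
    0 ≤ 35 * ε + 25 * v ∧ 3 * (35 * ε + 25 * v) ≤ 1 ∧ 3 * (35 * ε + 25 * v) * lg ≤ 1 := by
  have h7 : ε * (1 + lg) ≤ ε * L := mul_le_mul_of_nonneg_left hlgL hε
  have e1 : 3 * (35 * ε + 25 * v) * (1 + lg) = 105 * (ε * (1 + lg)) +
      75 * (v * (1 + lg)) := by ring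
  have h8 : 3 * (35 * ε + 25 * v) * (1 + lg) ≤ 1 := by
    rw [e1]
    linarith
  have h9 : 0 ≤ 3 * (35 * ε + 25 * v) * lg := by positivity
  have h10 : 0 ≤ 3 * (35 * ε + 25 * v) := by positivity
  refine ⟨by positivity, by linarith, by linarith⟩

/-- sizes of the stiffnesses at the two momenta -/
lemma LQ.sizes (h : LQ N l b t0 t τ P c0 y e)
    (hs : 160 * (k0 (c0 ^ 4) * Lm N t * ep N t y e) ≤ 1)
    {ξ : ℝ} (hx0 : 0 < ξ) (hξ : t * l ^ 2 * ξ ^ 2 = 1) {i j : ZMod (N / l)}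
    (hij : pw i ^ 2 ≤ pw j ^ 2) (hpw1 : (pw i * ξ) ^ 2 ≤ 1 / 300)
    (hpw : (pw j * ξ) ^ 2 ≤ 1 / 300) (hPi : P (ax i) ≤ 5 * pw i ^ 2)
    (hPj : P (ax j) ≤ 5 * pw j ^ 2) :
    PbC N l b t0 t τ (ax j) ≤ t ∧
    PbC N l b t0 t τ (ax i) ≤ (35 * ep N t y e + 25 * (pw i * ξ) ^ 2) * t ∧
    |PbC N l b t0 t τ (ax j) - PbC N l b t0 t τ (ax i)| ≤
      10 * (5 * (pw j ^ 2 / l ^ 2) + t * rH N t y e (c0 ^ 4)) ∧
    pw j ^ 2 / (l : ℝ) ^ 2 ≤ t / 300 := by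
  have ht := h.ht
  have hl := h.lpos
  have hS := h.sml hs
  have hP0 := h.hP0
  obtain ⟨_, hX0⟩ := h.x0 hs hP0
  have e0 : ∀ i : ZMod (N / l), pw i ^ 2 / (l : ℝ) ^ 2 = (pw i * ξ) ^ 2 * t := by
    intro i
    have : (pw i * ξ) ^ 2 * t = pw i ^ 2 / l ^ 2 * (t * l ^ 2 * ξ ^ 2) := by
      field_simp
    rw [this, hξ, mul_one]
  have hlm : ∀ i : ZMod (N / l), (pw i * ξ) ^ 2 ≤ 1 / 300 → pw i ^ 2 / (l : ℝ) ^ 2 ≤ t / 300 := by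
    intro i hi
    rw [e0]
    have := mul_le_mul_of_nonneg_right hi ht.le
    linarith
  have hp : ∀ i : ZMod (N / l), P (ax i) ≤ 5 * pw i ^ 2 →
      P (ax i) / (l : ℝ) ^ 2 ≤ 5 * (pw i ^ 2 / l ^ 2) := by
    intro i hi
    rw [← mul_div_assoc]
    exact div_le_div_of_nonneg_right hi (by positivity)
  have hlmi := hlm i hpw1
  have hlmj := hlm j hpw
  have hpi1 := hp i hPi
  have hpj1 := hp j hPj
  obtain ⟨hX, hD⟩ := h.xk' hs hP0 (k := ax j) (by linarith)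
  obtain ⟨hXi, hDi⟩ := h.xk' hs hP0 (k := ax i) (by linarith)
  have hij' : pw i ^ 2 / (l : ℝ) ^ 2 ≤ pw j ^ 2 / l ^ 2 :=
    div_le_div_of_nonneg_right hij (by positivity)
  have hrl := hS.r_le
  refine ⟨hX, ?_, ?_, hlmj⟩
  · have a1 := (abs_le.1 hDi).2
    have a2 : t * rH N t y e (c0 ^ 4) ≤ t * (3 * ep N t y e) := mul_le_mul_of_nonneg_left hrl ht.le
    rw [e0] at hpi1
    have e1 : (35 * ep N t y e + 25 * (pw i * ξ) ^ 2) * t = 20 * ep N t y e * t +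
      5 * (5 * ((pw i * ξ) ^ 2 * t)) + 5 * (t * (3 * ep N t y e)) := by ring
    rw [e1]
    linarith
  · have a1 := abs_le.1 hD
    have a2 := abs_le.1 hDi
    rw [abs_le]
    constructor <;> linarith [a1.1, a1.2, a2.1, a2.2]

/-- `n/ξ = Λ` -/
lemma LQ.nxi (h : LQ N l b t0 t τ P c0 y e) {ξ : ℝ} (hx0 : 0 < ξ) (hξ : t * l ^ 2 * ξ ^ 2 = 1) :
    ((N / l : ℕ) : ℝ) / ξ = Lm N t := by
  have hl := h.lpos
  have hu := xi_unit h.ht hl hx0 hξ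
  rw [div_eq_iff hx0.ne', h.Nl]
  calc (N : ℝ) / l = N / l * (Real.sqrt t * l * ξ) := by rw [hu, mul_one]
    _ = _ := by unfold Lm; field_simp

lemma LQ.lgL (h : LQ N l b t0 t τ P c0 y e) {ξ : ℝ} (hx0 : 0 < ξ) (hξ : t * l ^ 2 * ξ ^ 2 = 1) :
    1 + Real.log ((N / l : ℕ) / ξ) ≤ Lm N t := by
  rw [h.nxi hx0 hξ]
  have h6 := Real.log_le_sub_one_of_pos (show 0 < Lm N t by linarith [h.Lm1])
  linarith

/-- **the one-level flow equation**, with explicit constants of helper813's lattice sum -/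
lemma LQ.star (h : LQ N l b t0 t τ P c0 y e)
    (hs : 160 * (k0 (c0 ^ 4) * Lm N t * ep N t y e) ≤ 1)
    {ξ a η B κ A0 δ Cg C2 : ℝ} (hξ : t * l ^ 2 * ξ ^ 2 = 1)
    (hF : FP (N / l) P a η ξ B κ) (hB : 1 ≤ B) (hκ : κ ≤ 1) (hC2 : 0 ≤ C2)
    (hBC : 300 * (C2 + 1) ^ 2 ≤ B) {i j : ZMod (N / l)} (hi : ax i ≠ 0) (hj : ax j ≠ 0)
    (hij : pw i ^ 2 ≤ pw j ^ 2) (hiC : |pw i| * (N / l : ℕ) ≤ C2) (hjC : |pw j| * (N / l : ℕ) ≤ C2)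
    (hA0 : 0 ≤ A0) (hδ : 0 ≤ δ) (hCg : 0 ≤ Cg) (hA : gA N l t τ P ≤ Cg * ξ ^ 2)
    (hGi : |gS N l t τ P 0 - sS P (t * l ^ 2) (ax i) ^ 2 * gS N l t τ P (ax i) -
      A0 * (ξ ^ 4 * pw i ^ 2) * Real.log ((N / l : ℕ) / ξ)| ≤
        ξ ^ 4 * pw i ^ 2 * (δ * Real.log ((N / l : ℕ) / ξ) + Cg))
    (hG : |gS N l t τ P 0 - sS P (t * l ^ 2) (ax j) ^ 2 * gS N l t τ P (ax j) -
      A0 * (ξ ^ 4 * pw j ^ 2) * Real.log ((N / l : ℕ) / ξ)| ≤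
        ξ ^ 4 * pw j ^ 2 * (δ * Real.log ((N / l : ℕ) / ξ) + Cg)) :
    |((PiCk N l b t0 τ (ax j) - PiCk N l b t0 τ (ax i)) -
        (PbC N l b t0 t τ (ax j) - PbC N l b t0 t τ (ax i))) -
      (16 * Real.pi ^ 2) * (y ^ 2 * (A0 * Real.log ((N / l : ℕ) / ξ) *
        ((pw j ^ 2 - pw i ^ 2) / l ^ 2)))| ≤
      (16 * Real.pi ^ 2) * (y ^ 2 * (2 * (pw j ^ 2 / l ^ 2) *
        (δ * Real.log ((N / l : ℕ) / ξ) + Cg))) +
      (16 * Real.pi ^ 2) * (y ^ 2 * (pw j ^ 2 / l ^ 2 * (A0 + 2 * δ + 2 * Cg))) +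
        250 * ((16 * Real.pi ^ 2 * Cg) * (y ^ 2 * (pw j ^ 2 / l ^ 2))) +
        (60 * (16 * Real.pi ^ 2 * Cg) + 52 * (16 * Real.pi ^ 2 * Cg) ^ 2 + 400) *
          (t * eJ N t y e (c0 ^ 4)) := by
  have ht := h.ht
  have hl := h.lpos
  have hS := h.sml hs
  have hx0 := hF.hξ0
  have hlg := hF.lg0 hB
  obtain ⟨hX, hXρ, hD', hlmt⟩ := h.sizes hs hx0 hξ hij (hF.pw_le hB hC2 hBC hiC)
    (hF.pw_le hB hC2 hBC hjC) (hF.P_le hB hκ hC2 hBC hiC) (hF.P_le hB hκ hC2 hBC hjC)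
  obtain ⟨hρ0, hρ1, hρ2⟩ := rho_alg (h.lgL hx0 hξ) hS.ep0 hS.Le (hF.pw_lg hB hC2 hBC hiC) hlg
    (sq_nonneg _)
  have hYk := H864.PiCk_nonneg h.hb h.hl h.hτ (h.lt.le.trans h.htt) (ax j)
  have hY0 := H864.PiCk_nonneg h.hb h.hl h.hτ (h.lt.le.trans h.htt) (ax i)
  have hYX := PiCk_le_PbC (N := N) h.hb h.hl h.hτ h.lt h.htt (ax j)
  have hYX0 := PiCk_le_PbC (N := N) h.hb h.hl h.hτ h.lt h.htt (ax i)
  have hcore := phs_core ht hYk hYX hY0 hYX0 hXρ (by linarith)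
    (by linarith) (h.j_le hs hξ hA hj) (h.j_le hs hξ hA hi) hD'
  have hK : 0 ≤ δ * Real.log ((N / l : ℕ) / ξ) + Cg := by positivity
  have hjd := h.jd hs hξ hi hj hij hK hGi hG
  have hr1 : rH N t y e (c0 ^ 4) ≤ 1 := by
    have := hS.r_le
    have := hS.ep_le
    linarith
  have hld0 : 0 ≤ (pw j ^ 2 - pw i ^ 2) / (l : ℝ) ^ 2 :=
    div_nonneg (by linarith) (by positivity)
  have hld : (pw j ^ 2 - pw i ^ 2) / (l : ℝ) ^ 2 ≤ pw j ^ 2 / l ^ 2 :=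
    div_le_div_of_nonneg_right (by linarith [sq_nonneg (pw i)]) (by positivity)
  exact fin_alg2 (D := 16 * Real.pi ^ 2) ht hCg rfl hS.eJ0 hS.eJ_le hS.r0 hr1 hS.y4 hS.y2r
    hlg (by positivity) (by linarith) hld0 hld hA0 hδ hρ0 hρ1 hρ2 rfl rfl hjd hcore rfl

end

end Vale.Agent.P159.H114
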