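import Vale.Agent.P159.H114.Se3

/-!
P159 (helper114): **the one-level flow equation, pinned prior** (`star2`), from helper813's lattice
sum with the pinned prior (`P4pin`).
-/

namespace Vale.Agent.P159.H114

open MeasureTheory Finset Matrix
open Vale.Agent.P159.H37
open Vale.Agent.P159.H864 (TI sym mlt ti_mlt sym_mlt cobV MC GM Gck PiCk cobV_mul_tr)
open Vale.Agent.P159.H730 (wC Cbk)
open Vale.Agent.P159.TM.H764 (Gh cN sN dt ch EE frm grd pw)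
open Vale.Agent.P159.TM.Spec (V)
open Vale.Agent.P159.TM.SpecC (wT ms)

noncomputable section

set_option linter.unusedSectionVars false

/-- helper813's lattice sum with the pinned prior (statement) -/
def P4pin (A0 : ℝ) : Prop := ∀ c0 C0 C2 ε : ℝ, 0 < c0 → c0 ≤ 1 → 0 ≤ C0 → 0 < ε →
    ∃ C B κ : ℝ, 0 ≤ C ∧ 1 ≤ B ∧ 0 < κ ∧ ∀ (N : ℕ) [NeZero N] (ξ τ2 a η : ℝ)
      (P : ZMod N × ZMod N → ℝ), B ≤ ξ → B * ξ ≤ N → 0 < τ2 →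
      (N : ℝ) ^ 2 * τ2 * (1 + Real.log (N / ξ)) ≤ 1 → 0 ≤ η →
      (∀ k, c0 * EE k ≤ P k) →
      (∀ k, |P k - a * EE k| ≤ η * EE k * (1 + EE k * ξ ^ 2)) →
      |a - Real.pi / 2| * (1 + Real.log (N / ξ)) ≤ κ →
      η * (1 + Real.log (1 + 9 * (N : ℝ) ^ 2)) ≤ κ →
      ∑ x, |H813.gk (H813.GamP N (1 / ξ ^ 2) τ2 P) x| ≤ C * ξ ^ 2 ∧
      ∀ (j : ZMod N) (s : ℝ), pw j ≠ 0 → |pw j| * N ≤ C2 → 0 ≤ s → s ≤ 1 →
        1 - s ≤ C0 * (ξ * pw j) ^ 2 →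
        |∑ x, H813.gk (H813.GamP N (1 / ξ ^ 2) τ2 P) x -
            s ^ 2 * ∑ x, H813.gk (H813.GamP N (1 / ξ ^ 2) τ2 P) x * cN (j * x.1) -
          A0 * (ξ ^ 4 * pw j ^ 2) * Real.log (N / ξ)| ≤
            ξ ^ 4 * pw j ^ 2 * (ε * Real.log (N / ξ) + C)

lemma pw_ne {n : ℕ} [NeZero n] {j : ZMod n} (hj : j ≠ 0) : pw j ≠ 0 := by
  unfold pw
  have hn : (0 : ℝ) < n := by exact_mod_cast NeZero.pos n
  have h1 : j.valMinAbs ≠ 0 := fun h => hj ((ZMod.valMinAbs_eq_zero j).1 h)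
  have h2 : (j.valMinAbs : ℝ) ≠ 0 := by exact_mod_cast h1
  have := Real.pi_pos
  positivity

lemma ax_ne {n : ℕ} [NeZero n] {j : ZMod n} (hj : j ≠ 0) : ax j ≠ 0 := by
  intro h
  exact hj (congrArg Prod.fst h)

/-- **the one-level flow equation, pinned prior.** -/
theorem star2 {A0 : ℝ} (hA0 : 0 < A0) (hmult : P4pin A0) (c0 C2 ε : ℝ) (hc0 : 0 < c0)
    (hc01 : c0 ≤ 1) (hC2 : 0 ≤ C2) (hε : 0 < ε) :
    ∃ C B κ : ℝ, 0 ≤ C ∧ 1 ≤ B ∧ 0 < κ ∧ ∀ (N l : ℕ) [NeZero N] [NeZero (N / l)]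
      (b t0 t τ y e a η ξ : ℝ) (P : V (N / l) → ℝ), LQ N l b t0 t τ P c0 y e →
      t * l ^ 2 * ξ ^ 2 = 1 → FP (N / l) P a η ξ B κ →
      (N : ℝ) ^ 2 * τ * (1 + Real.log (Lm N t)) ≤ 1 →
      160 * (k0 (c0 ^ 4) * Lm N t * ep N t y e) ≤ 1 → ∀ i j : ZMod (N / l), i ≠ 0 → j ≠ 0 →
      pw i ^ 2 ≤ pw j ^ 2 → |pw i| * (N / l : ℕ) ≤ C2 → |pw j| * (N / l : ℕ) ≤ C2 →
      |((PiCk N l b t0 τ (ax j) - PiCk N l b t0 τ (ax i)) -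
        (PbC N l b t0 t τ (ax j) - PbC N l b t0 t τ (ax i))) -
        16 * Real.pi ^ 2 * A0 * Real.log (Lm N t) * (y ^ 2 * ((pw j ^ 2 - pw i ^ 2) / l ^ 2))| ≤
        (ε * Real.log (Lm N t) + C) * (y ^ 2 * (pw j ^ 2 / l ^ 2)) +
          C * (t * eJ N t y e (c0 ^ 4)) := by
  have hpi := Real.pi_pos
  obtain ⟨Cg, B1, κ1, hCg, hB1, hκ1, hmain⟩ := hmult c0 5 C2 (ε / (32 * Real.pi ^ 2)) hc0 hc01
    (by norm_num) (by positivity)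
  set δ := ε / (32 * Real.pi ^ 2) with hδ
  have hδ0 : 0 < δ := by rw [hδ]; positivity
  set q := 16 * Real.pi ^ 2 * Cg with hq
  have hq0 : 0 ≤ q := by rw [hq]; positivity
  set C' := 32 * Real.pi ^ 2 * Cg + 16 * Real.pi ^ 2 * (A0 + 2 * δ + 2 * Cg) + 250 * q +
    (60 * q + 52 * q ^ 2 + 400) with hC'
  refine ⟨C', max B1 (300 * (C2 + 1) ^ 2), min κ1 1, by positivity, hB1.trans (le_max_left _ _),
    by positivity, ?_⟩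
  intro N l _ _ b t0 t τ y e a η ξ P hLQ hξ hF hτN hs i j hi hj hij hiC hjC
  have ht := hLQ.ht
  have hl := hLQ.lpos
  have hx0 := hF.hξ0
  have hF1 := hF.mono (le_max_left B1 (300 * (C2 + 1) ^ 2)) (min_le_left κ1 1)
  have hBM : 1 ≤ max B1 (300 * (C2 + 1) ^ 2) := hB1.trans (le_max_left _ _)
  have e1 : 1 / ξ ^ 2 = t * l ^ 2 := inv_unit hF.hξ0 hξ
  have hnx := hLQ.nxi hx0 hξ
  have hτ2 : ((N / l : ℕ) : ℝ) ^ 2 * (τ * l ^ 2) * (1 + Real.log ((N / l : ℕ) / ξ)) ≤ 1 := by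
    rw [hnx, hLQ.Nl]
    refine le_trans (le_of_eq ?_) hτN
    field_simp
  have hτ0 : 0 < τ * (l : ℝ) ^ 2 := by
    have := hLQ.hτ
    positivity
  obtain ⟨hA, hG⟩ := hmain (N / l) ξ (τ * l ^ 2) a η P hF1.hξ hF1.hξN hτ0 hτ2 hF1.hη
    hLQ.qd.hlo hF1.hF hF1.ha hF1.hηκ
  rw [e1] at hA hG
  -- the multiplier
  have hsj : ∀ j : ZMod (N / l), |pw j| * (N / l : ℕ) ≤ C2 →
      1 - sS P (t * l ^ 2) (ax j) ≤ 5 * (ξ * pw j) ^ 2 := by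
    intro j hj
    have h1 := hLQ.sS_le (ax j)
    have h2 := hF.P_le hBM (min_le_right _ _) hC2 (le_max_right _ _) hj
    refine h1.trans ?_
    have h3 : P (ax j) / (l : ℝ) ^ 2 / t = P (ax j) * ξ ^ 2 := by
      have : P (ax j) / (l : ℝ) ^ 2 / t = P (ax j) / (l ^ 2 * t) * (t * l ^ 2 * ξ ^ 2) := by
        rw [hξ, mul_one, div_div]
      rw [this]
      field_simp
    rw [h3]
    have h4 : P (ax j) * ξ ^ 2 ≤ 5 * pw j ^ 2 * ξ ^ 2 :=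
      mul_le_mul_of_nonneg_right h2 (by positivity)
    linarith
  have hGj := hG j (sS P (t * l ^ 2) (ax j)) (pw_ne hj) hjC (hLQ.qd.sS0 _) (hLQ.qd.sS1 _)
    (hsj j hjC)
  have hGi := hG i (sS P (t * l ^ 2) (ax i)) (pw_ne hi) hiC (hLQ.qd.sS0 _) (hLQ.qd.sS1 _)
    (hsj i hiC)
  rw [← gS_zero, ← gS_ax] at hGj hGi
  have h := hLQ.star hs hξ hF hBM (min_le_right _ _) hC2 (le_max_right _ _) (ax_ne hi) (ax_ne hj)
    hij hiC hjC hA0.le hδ0.le hCg hA hGi hGj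
  have hlg := hF.lg0 hBM
  rw [hnx] at h hlg
  have hy2 : 0 ≤ y ^ 2 * (pw j ^ 2 / (l : ℝ) ^ 2) := by positivity
  have hE : 0 ≤ t * eJ N t y e (c0 ^ 4) := mul_nonneg ht.le (hLQ.sml hs).eJ0
  set lg := Real.log (Lm N t) with hlgd
  set lm := pw j ^ 2 / (l : ℝ) ^ 2 with hlmd
  set lmd := (pw j ^ 2 - pw i ^ 2) / (l : ℝ) ^ 2 with hlmdd
  have e3 : 16 * Real.pi ^ 2 * (y ^ 2 * (A0 * lg * lmd)) =
      16 * Real.pi ^ 2 * A0 * lg * (y ^ 2 * lmd) := by ring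
  rw [e3] at h
  refine h.trans ?_
  have e4 : 32 * Real.pi ^ 2 * δ = ε := by
    rw [hδ]
    field_simp
  have e5 : 16 * Real.pi ^ 2 * (y ^ 2 * (2 * lm * (δ * lg + Cg))) +
      16 * Real.pi ^ 2 * (y ^ 2 * (lm * (A0 + 2 * δ + 2 * Cg))) + 250 * (q * (y ^ 2 * lm)) +
      (60 * q + 52 * q ^ 2 + 400) * (t * eJ N t y e (c0 ^ 4)) =
      ((32 * Real.pi ^ 2 * δ) * lg + (32 * Real.pi ^ 2 * Cg +
        16 * Real.pi ^ 2 * (A0 + 2 * δ + 2 * Cg) + 250 * q)) * (y ^ 2 * lm) +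
      (60 * q + 52 * q ^ 2 + 400) * (t * eJ N t y e (c0 ^ 4)) := by ring
  rw [e5, e4]
  refine add_le_add (mul_le_mul_of_nonneg_right ?_ hy2) (mul_le_mul_of_nonneg_right ?_ hE)
  · have : 0 ≤ 60 * q + 52 * q ^ 2 + 400 := by positivity
    rw [hC']
    linarith
  · have : 0 ≤ 32 * Real.pi ^ 2 * Cg + 16 * Real.pi ^ 2 * (A0 + 2 * δ + 2 * Cg) + 250 * q := by
      positivity
    rw [hC']
    linarith

end

end Vale.Agent.P159.H114
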