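import Vale.Agent.P159.H114.Se4
import Vale.Agent.P159.H813.P4pin5

/-!
P159 (helper114): helper813's lattice sum in the form used by `star2`.
-/

namespace Vale.Agent.P159.H114

noncomputable section

theorem p4pin : ∃ A0 : ℝ, 0 < A0 ∧ P4pin A0 := by
  obtain ⟨A0, hA0, h⟩ := H813.P4_pin
  refine ⟨A0, hA0, fun c0 C0 C2 ε hc0 hc01 hC0 hε => ?_⟩
  obtain ⟨C, B, κ, hC, hB, hκ, hm⟩ := h c0 C0 C2 ε hc0 hc01 hC0 hε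
  refine ⟨C, B, κ, hC, hB, hκ, ?_⟩
  intro N _ ξ τ2 a η P h1 h2 h3 h4 h5 h6 h7 h8 h9
  obtain ⟨⟨k1, k2⟩, -, -⟩ := hm N ξ a η τ2 P h1 h2 h3 (by rw [mul_comm τ2]; exact h4) h5 h6 h7 h8 h9
  refine ⟨k1, fun j s hj0 hj1 hs0 hs1 hs2 => k2 j s (fun h => hj0 ?_) hj1 hs0 hs1 hs2⟩
  rw [h]
  unfold TM.H764.pw
  simp

end

end Vale.Agent.P159.H114
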