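import Vale.Agent.P159.H114.Chain6
import Vale.Agent.P159.H972.StepG

/-!
P159 (helper114): (P#) in helper972's letters: what is used from the `V` state (helper813's STAR0 and
EXT0, helper462's torus change), and the sharp letter of a state.
-/

namespace Vale.Agent.P159.H114

open Finset Filter Topology
open Vale.Agent.P159.TM.H764 (cN dt EE pw)
open Vale.Agent.P159.TM.Spec (V)
open Vale.Agent.P159.H462 (aq Pst)
open Vale.Agent.P159.H972 (Par tn)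

noncomputable section

set_option linter.unusedSectionVars false

/-- one torus `N`, cells `l`, scalar mass `T`, tiny prior `τ`, size `y` of the state:
`star` (STAR0), `near` (size of `V0`), `ext` (EXT0), with errors `y ^ (2 + c)`, `y ^ (1 + c)` -/
structure LV (q : ℕ) (μ : Fin (q + 1) → ℝ) (c : ℝ) (N l : ℕ) [NeZero N] [NeZero (N / l)]
    (b T τ y : ℝ) (xq : V (N / l) → ℝ) : Prop where
  star : ∀ i : Fin (q + 1), |Pc N l b T τ (ax (jm (N / l) i)) - xq (ax (jm (N / l) i)) -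
    8 * Real.pi ^ 2 * (y * (T * (l : ℝ) ^ 2)) ^ 2 * Sig (N / l) (T * (l : ℝ) ^ 2) (τ * (l : ℝ) ^ 2)
      (Pst N l b T) (ax (jm (N / l) i))| ≤ y ^ (2 + c) * EE (ax (jm (N / l) i))
  near : ∀ i : Fin (q + 1), |xq (ax (jm (N / l) i)) - Pst N l b T (ax (jm (N / l) i))| ≤
    y ^ (1 + c) * EE (ax (jm (N / l) i))
  ext : |pS q μ (N / l) xq - aq N l b T| ≤ y ^ (2 + c)

/-- tori of the `V` state -/
def TV (P : Par) (n : ℕ) (e : ℝ) (r : ℕ) : Prop :=
  n + P.kE e ≤ r ∧ r ≤ n + P.kE e + (P.q0 - 2) * (4 * P.w e)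

instance (r j : ℕ) : NeZero (2 ^ r / 2 ^ min j r) :=
  ⟨(Nat.div_pos (Nat.pow_le_pow_right two_pos (min_le_right _ _)) (by positivity)).ne'⟩

/-- the letter on the torus `2 ^ r`, cells `2 ^ j` -/
def aT (b : ℝ) (n r j : ℕ) : ℝ := aq (2 ^ r) (2 ^ min j r) b (tn n)

/-- **the sharp data of a state** (level `n`, size `ε`, activity `y`), cells `2 ^ j` -/
structure SD (P : Par) (b : ℝ) (q : ℕ) (μ : Fin (q + 1) → ℝ) (c C1 C2 : ℝ) (n : ℕ) (ε y : ℝ)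
    (j : ℕ) : Prop where
  up : (2 : ℝ) ^ j ≤ 2 ^ n * y ^ C1
  lo : 2 ^ n * y ^ C2 ≤ (2 : ℝ) ^ j
  lv : ∀ r, TV P n ε r → ∀ᶠ τ in 𝓝[>] (0 : ℝ), ∃ xq,
    LV q μ c (2 ^ r) (2 ^ min j r) b (tn n) τ y xq
  tor : ∀ r r', TV P n ε r → TV P n ε r' → |aT b n r j - aT b n r' j| ≤ y ^ (2 + c)

/-- **the sharp letter of a state** -/
def SlV (P : Par) (b : ℝ) (q : ℕ) (μ : Fin (q + 1) → ℝ) (c C1 C2 : ℝ) (n : ℕ) (ε y s : ℝ) : Prop :=
  ∃ j, SD P b q μ c C1 C2 n ε y j ∧ s = (aT b n (n + P.kE ε) j)⁻¹ - 2 / Real.pi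

end

end Vale.Agent.P159.H114
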