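import Vale.Agent.P159.H114.SlD

/-!
P159 (helper114): (P#), second form of the interface: everything on the big tori
`N/ξ ≥ ε ^ (-2 x₁)` only (helper462's torus change).
-/

namespace Vale.Agent.P159.H114

open Finset Filter Topology
open Vale.Agent.P159.TM.H764 (cN dt EE pw)
open Vale.Agent.P159.TM.Spec (V)
open Vale.Agent.P159.H462 (aq Pst)
open Vale.Agent.P159.H972 (Par tn)

noncomputable section

set_option linter.unusedSectionVars false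

/-- big tori of the `V` state -/
def TB (P : Par) (n : ℕ) (e : ℝ) (r : ℕ) : Prop := TV P n e r ∧ n + 2 * P.xE e ≤ r

/-- **the sharp data of a state** (level `n`, size `ε`, activity `y`), cells `2 ^ j` -/
structure SD2 (P : Par) (b : ℝ) (q : ℕ) (μ : Fin (q + 1) → ℝ) (c C1 C2 : ℝ) (n : ℕ) (ε y : ℝ)
    (j : ℕ) : Prop where
  up : (2 : ℝ) ^ j ≤ 2 ^ n * y ^ C1
  lo : 2 ^ n * y ^ C2 ≤ (2 : ℝ) ^ j
  lv : ∀ r, TB P n ε r → ∀ᶠ τ in 𝓝[>] (0 : ℝ), ∃ xq,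
    LV q μ c (2 ^ r) (2 ^ min j r) b (tn n) τ y xq
  tor : ∀ r r', TB P n ε r → TB P n ε r' → |aT b n r j - aT b n r' j| ≤ y ^ (2 + c)

/-- **the sharp letter of a state** -/
def SlV2 (P : Par) (b : ℝ) (q : ℕ) (μ : Fin (q + 1) → ℝ) (c C1 C2 : ℝ) (n : ℕ) (ε y s : ℝ) :
    Prop :=
  ∃ j, SD2 P b q μ c C1 C2 n ε y j ∧ s = (aT b n (n + 3 * P.xE ε) j)⁻¹ - 2 / Real.pi

end

end Vale.Agent.P159.H114
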