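import Vale.Agent.P159.H114.SlD
import Vale.Agent.P159.H859.NeuE
import Vale.Agent.P159.H280.Top2
import Vale.Agent.P159.H375.FineT

/-!
P159 (helper114): flat profile of the cells at the natural scalar mass from the flat profile of the
sites.
-/

namespace Vale.Agent.P159.H114

open Finset Filter Topology
open Vale.Agent.P159.TM.H764 (cN dt EE pw)
open Vale.Agent.P159.TM.Spec (V)
open Vale.Agent.P159.H462 (aq Pst)
open Vale.Agent.P159.H972 (Par tn FL)
open Vale.Agent.P159.H864 (cen rd rd1)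
open Vale.Agent.P159.H963 (PinC Pin Gnh)
open Vale.Agent.P159.H37 (Pik)

noncomputable section

set_option linter.unusedSectionVars false

variable {N l : ℕ} [NeZero N] [NeZero (N / l)] {b : ℝ}

/-- at a central alias the two Laplacians are close -/
lemma EE_rd_sub (hl : l ∣ N) {p : V N} (hp : cen l p) :
    |(l : ℝ) ^ 2 * EE p - EE (rd p : V (N / l))| ≤ EE (rd p : V (N / l)) ^ 2 := by
  have key : ∀ z : ZMod N, 2 * l * z.valMinAbs.natAbs ≤ N →
      |(l : ℝ) ^ 2 * (1 - cN z) - (1 - cN (rd1 z : ZMod (N / l)))| ≤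
        2 * (1 - cN (rd1 z : ZMod (N / l))) ^ 2 ∧ 0 ≤ 1 - cN (rd1 z : ZMod (N / l)) := by
    intro z hz
    have h1 := H864.pw_cen hz
    have hlp0 : 0 < l := H864.l_pos hl
    have hlp : (0 : ℝ) < l := by exact_mod_cast hlp0
    have hl1 : (1 : ℝ) ≤ l := by exact_mod_cast hlp0
    have h2 : cN (rd1 z : ZMod (N / l)) = Real.cos (l * pw z) := by
      have h3 : (rd1 z : ZMod (N / l)) = ((z.valMinAbs : ℤ) : ZMod (N / l)) := by
        rw [← H864.rd1_intCast hl, ZMod.coe_valMinAbs]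
      rw [h3, TM.H764.cN_int]
      congr 1
      unfold pw
      have hNl := H864.Nl (N := N) hl
      have hn : (0 : ℝ) < ((N / l : ℕ) : ℝ) := by exact_mod_cast NeZero.pos (N / l)
      rw [← hNl]
      field_simp
    rw [h2, TM.H764.cN_pw]
    have h4 : |(l : ℝ) * pw z| ≤ Real.pi := by
      rw [abs_mul, abs_of_pos hlp, mul_comm]
      exact h1
    set x : ℝ := (l : ℝ) * pw z with hx
    have h5 := TM.H764.one_sub_cos_low h4
    have h6 := Real.one_sub_sq_div_two_le_cos (x := pw z)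
    have h6x := Real.one_sub_sq_div_two_le_cos (x := x)
    have h7 := TM.H764.one_sub_cos_ge (pw z)
    have h7x := TM.H764.one_sub_cos_ge x
    have hpi : Real.pi ^ 2 ≤ 9.87 := by
      have := Real.pi_lt_d4
      nlinarith [Real.pi_pos]
    have hl2 : 1 ≤ (l : ℝ) ^ 2 := one_le_pow₀ hl1
    have ex2 : x ^ 2 = (l : ℝ) ^ 2 * pw z ^ 2 := by rw [hx]; ring
    have ex4 : (l : ℝ) ^ 2 * pw z ^ 4 ≤ x ^ 4 := by
      have e : x ^ 4 = (l : ℝ) ^ 2 * ((l : ℝ) ^ 2 * pw z ^ 4) := by rw [hx]; ring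
      rw [e]
      exact le_mul_of_one_le_left (by positivity) hl2
    have a1 : (l : ℝ) ^ 2 * (1 - Real.cos (pw z)) ≤ x ^ 2 / 2 := by
      rw [ex2]
      have := mul_le_mul_of_nonneg_left h6 (sq_nonneg (l : ℝ))
      nlinarith
    have a2 : x ^ 2 / 2 - x ^ 4 / 24 ≤ (l : ℝ) ^ 2 * (1 - Real.cos (pw z)) := by
      have := mul_le_mul_of_nonneg_left h7 (sq_nonneg (l : ℝ))
      nlinarith
    have a3 : x ^ 2 ≤ 4.94 * (1 - Real.cos x) := by
      have h8 : Real.pi ^ 2 * (2 / Real.pi ^ 2 * x ^ 2) ≤ Real.pi ^ 2 * (1 - Real.cos x) :=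
        mul_le_mul_of_nonneg_left h5 (sq_nonneg _)
      have h9 : Real.pi ^ 2 * (2 / Real.pi ^ 2 * x ^ 2) = 2 * x ^ 2 := by
        have := Real.pi_ne_zero
        field_simp
      have h10 : 0 ≤ 1 - Real.cos x := by
        have := Real.cos_le_one x
        linarith
      have h11 : Real.pi ^ 2 * (1 - Real.cos x) ≤ 9.87 * (1 - Real.cos x) :=
        mul_le_mul_of_nonneg_right hpi h10
      linarith
    have h10 : 0 ≤ 1 - Real.cos x := by
      have := Real.cos_le_one x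
      linarith
    have a4 : x ^ 4 ≤ 24.5 * (1 - Real.cos x) ^ 2 := by
      have h12 := pow_le_pow_left₀ (sq_nonneg x) a3 2
      nlinarith [sq_nonneg (1 - Real.cos x)]
    refine ⟨abs_le.2 ⟨?_, ?_⟩, h10⟩
    · nlinarith [sq_nonneg (1 - Real.cos x)]
    · nlinarith [sq_nonneg (1 - Real.cos x)]
  obtain ⟨h1, g1⟩ := key p.1 hp.1
  obtain ⟨h2, g2⟩ := key p.2 hp.2
  have e1 : EE p = 2 * (1 - cN p.1) + 2 * (1 - cN p.2) := rfl
  have e2 : EE (rd p : V (N / l)) =
      2 * (1 - cN (rd1 p.1 : ZMod (N / l))) + 2 * (1 - cN (rd1 p.2 : ZMod (N / l))) := rfl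
  rw [e1, e2]
  rw [abs_le] at h1 h2 ⊢
  constructor <;> nlinarith [mul_nonneg g1 g2]

/-- `EE k ≥ 16/n²` for `k ≠ 0` -/
lemma EE_low {n : ℕ} [NeZero n] {k : V n} (hk : k ≠ 0) : 16 / (n : ℝ) ^ 2 ≤ EE k := by
  have hn : (0 : ℝ) < n := by exact_mod_cast NeZero.pos n
  have hpi := Real.pi_pos
  have h1 := H197.EE_ge k
  have h2 : ∀ j : ZMod n, j ≠ 0 → 4 * Real.pi ^ 2 / (n : ℝ) ^ 2 ≤ pw j ^ 2 := by
    intro j hj
    unfold pw
    have h3 : (1 : ℝ) ≤ (j.valMinAbs : ℝ) ^ 2 := by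
      have h4 : j.valMinAbs ≠ 0 := by
        rwa [Ne, ZMod.valMinAbs_eq_zero]
      have h5 : 1 ≤ j.valMinAbs ^ 2 := by
        have := Int.one_le_abs h4
        nlinarith [sq_abs j.valMinAbs, abs_nonneg j.valMinAbs]
      exact_mod_cast h5
    rw [div_pow, mul_pow]
    refine div_le_div_of_nonneg_right ?_ (by positivity)
    nlinarith [sq_nonneg Real.pi, mul_nonneg (sq_nonneg Real.pi) (sub_nonneg.2 h3)]
  have h3 : 4 * Real.pi ^ 2 / (n : ℝ) ^ 2 ≤ pw k.1 ^ 2 + pw k.2 ^ 2 := by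
    by_cases h : k.1 = 0
    · have h4 : k.2 ≠ 0 := fun h5 => hk (Prod.ext h h5)
      have := h2 k.2 h4
      have := sq_nonneg (pw k.1)
      linarith
    · have := h2 k.1 h
      have := sq_nonneg (pw k.2)
      linarith
  refine le_trans ?_ h1
  have h4 : 16 / (n : ℝ) ^ 2 = 4 / Real.pi ^ 2 * (4 * Real.pi ^ 2 / (n : ℝ) ^ 2) := by
    field_simp
    norm_num
  rw [h4]
  exact mul_le_mul_of_nonneg_left h3 (by positivity)

lemma EE_le_8 {n : ℕ} [NeZero n] (k : V n) : EE k ≤ 8 := by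
  unfold EE
  have h1 := TM.H764.cN_pw k.1
  have h2 := TM.H764.cN_pw k.2
  have h3 := Real.neg_one_le_cos (pw k.1)
  have h4 := Real.neg_one_le_cos (pw k.2)
  rw [h1, h2]
  linarith

lemma EE_zero {n : ℕ} [NeZero n] : EE (0 : V n) = 0 := by
  have h1 : EE (0 : V n) = 2 * (1 - cN (0 : ZMod n)) + 2 * (1 - cN (0 : ZMod n)) := rfl
  rw [h1, TM.H764.cN_pw]
  have : pw (0 : ZMod n) = 0 := by
    unfold pw
    simp
  rw [this, Real.cos_zero]
  ring

/-- the bare lower bound -/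
lemma Pst_ge (hb : 0 < b) (hl : l ∣ N) {T : ℝ} (hT : 0 < T) (k : V (N / l)) :
    1 / b * EE k ≤ Pst N l b T k := by
  have hlp : (0 : ℝ) < l := by exact_mod_cast H864.l_pos hl
  unfold H462.Pst
  split_ifs with hk
  · rw [hk, EE_zero, mul_zero]
  · have h1 := H859.Gnck_dom hb.le hl hT le_rfl (κ := 1 / b) (by positivity)
      (by rw [mul_one_div, div_self hb.ne']) k
    have h2 : 0 < T + 1 / b / (l : ℝ) ^ 2 * EE k := by
      have := H462.EE_nonneg k
      positivity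
    have h3 : 0 < H864.sym (H963.Gnc N l b T T) k := H963.sym_Gnc_pos hb hl hT le_rfl hk
    have h4 := inv_anti₀ h3 h1
    rw [inv_inv] at h4
    have h5 : 1 / b / (l : ℝ) ^ 2 * EE k ≤ PinC N l b T T k := by
      unfold H963.PinC
      linarith
    calc 1 / b * EE k = (l : ℝ) ^ 2 * (1 / b / (l : ℝ) ^ 2 * EE k) := by
          field_simp
      _ ≤ _ := mul_le_mul_of_nonneg_left h5 (by positivity)

end

end Vale.Agent.P159.H114
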