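import Vale.Agent.P159.H114.Slp7

/-!
P159 (helper114): the sharp relation between two levels, large tori (`2 ^ r / 2 ^ n ≤ 2 ^ (R w)`).
-/

namespace Vale.Agent.P159.H114

open Finset Filter Topology
open Vale.Agent.P159.TM.H764 (cN dt EE pw)
open Vale.Agent.P159.TM.Spec (V)
open Vale.Agent.P159.H462 (aq Pst)
open Vale.Agent.P159.H972 (Par tn FL)

noncomputable section

set_option linter.unusedSectionVars false

variable {b : ℝ}

/-- **two levels**, tori up to `2 ^ (n + R w)` -/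
theorem lev_twoR (hb : 0 < b) (hh : 0 < helicity b) (hs : 1 / helicity b < 5 / 2) :
    ∃ A k : ℝ, 0 < A ∧ 0 < k ∧ ∀ (C1 C2 θ c c2 c3 qx : ℝ) (q : ℕ) (μ : Fin (q + 1) → ℝ), RW q μ →
      21 ≤ 2 * C1 → 30 ≤ 2 * C1 * k → 0 ≤ C2 → 0 < θ → 0 < c3 → c3 < c → c3 < c2 → c2 ≤ 2 →
      0 < qx → ∀ R : ℝ, 1 ≤ R → ∀ η0 : ℝ, 0 < η0 → ∃ W δ e : ℝ, 0 < δ ∧ 0 < e ∧
      ∀ (n m r j j' w : ℕ) [NeZero (2 ^ r / 2 ^ j)] [NeZero (2 ^ r / 2 ^ j')]
        (y y' a a' η η' X1 : ℝ), 0 < y → y ≤ e → 0 < y' → y' ≤ e →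
        |Real.log y' - Real.log y| ≤ δ → m = n + w → W ≤ w → (r : ℝ) ≤ n + R * w →
        LD C1 C2 θ c2 qx b n r j y a η → LD C1 C2 θ c2 qx b m r j' y' a' η' →
        (∀ᶠ τ in 𝓝[>] (0 : ℝ), ∃ xq, LV q μ c (2 ^ r) (2 ^ j) b (tn n) τ y xq) →
        (∀ᶠ τ in 𝓝[>] (0 : ℝ), ∃ xq, LV q μ c (2 ^ r) (2 ^ j') b (tn m) τ y' xq) →
        |X1 - aq (2 ^ r) (2 ^ j) b (tn n)| ≤ y ^ (2 + c) →
        |(1 / X1 - 2 / Real.pi) - (1 / aq (2 ^ r) (2 ^ j') b (tn m) - 2 / Real.pi) -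
          (4 / Real.pi ^ 2 * A * Real.log 2) * (w * y ^ 2)| ≤ η0 * (w * y ^ 2) := by
  obtain ⟨A, k1, hA, hk1, hlev⟩ := lev_one (b := b) hb hh hs
  obtain ⟨k2, hk2, hpn⟩ := pN_num (b := b) hb
  refine ⟨A, min k1 k2, hA, lt_min hk1 hk2, ?_⟩
  intro C1 C2 θ c c2 c3 qx q μ hμ hC1 hC1k hC2 hθ hc3 hc3c hc3c2 hc22 hqx R hR η0 hη0
  have hC10 : 0 < C1 := by linarith
  have hC1k1 : 30 ≤ 2 * C1 * k1 :=
    hC1k.trans (mul_le_mul_of_nonneg_left (min_le_left _ _) (by positivity))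
  have hC1k2 : 30 ≤ 2 * C1 * k2 :=
    hC1k.trans (mul_le_mul_of_nonneg_left (min_le_right _ _) (by positivity))
  obtain ⟨C, hC, hev⟩ := hlev C1 C2 θ c c2 c3 qx q μ hμ hC1 hC1k1 hC2 hθ hc3 hc3c hc3c2 hc22 hqx
    (η0 / (24 * R)) (by positivity)
  have hev2 := hpn C1 C2 θ 1 q μ hC1 hC1k2 hθ one_pos
  obtain ⟨ρ, hρ⟩ : ∃ ρ : ℝ, ρ = min (1 / 4) (η0 / (4 * (A + 1))) := ⟨_, rfl⟩
  have hρ0 : 0 < ρ := by rw [hρ]; positivity
  have hρ4 : ρ ≤ 1 / 4 := by rw [hρ]; exact min_le_left _ _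
  have hρA : 2 * ρ * A ≤ η0 / 2 := by
    have h1 : ρ ≤ η0 / (4 * (A + 1)) := by rw [hρ]; exact min_le_right _ _
    rw [le_div_iff₀ (by positivity)] at h1
    nlinarith
  obtain ⟨e, he, hE⟩ := ev_ex (ev_one.and (hev.and (hev2.and
    ((ev_pow 3 (show 0 < 1 + c3 by linarith) hρ0).and
      ((ev_pow 12 hqx hρ0).and (ev_pow 3 (show 0 < 2 + c by linarith) hρ0))))))
  obtain ⟨δ', hδ'⟩ : ∃ δ' : ℝ, δ' = min 1 (η0 / (8 * R * (A + 1))) := ⟨_, rfl⟩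
  have hδ'0 : 0 < δ' := by rw [hδ']; positivity
  have hδ'1 : δ' ≤ 1 := by rw [hδ']; exact min_le_left _ _
  have hR0 : 0 < R := by linarith
  have hδ'A : A * R * δ' ≤ η0 / 8 := by
    have h1 : δ' ≤ η0 / (8 * R * (A + 1)) := by rw [hδ']; exact min_le_right _ _
    rw [le_div_iff₀ (by positivity)] at h1
    have h2 : 0 ≤ δ' * R := by positivity
    nlinarith
  refine ⟨8 * (3 * C + 2) / η0, min (1 / 2) (δ' / 4), e, by positivity, he, ?_⟩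
  intro n m r j j' w _ _ y y' a a' η η' X1 hy hye hy' hye' hlog hm hW hr hD hD' hLV hLV' hX1
  obtain ⟨⟨-, hy16⟩, hv, hp, g1, g2, g3⟩ := hE y hy hye
  obtain ⟨⟨-, hy16'⟩, hv', hp', g1', g2', g3'⟩ := hE y' hy' hye'
  obtain ⟨v1, v2, v3, v4⟩ := hv n r j a η hD
  obtain ⟨v1', v2', v3', v4'⟩ := hv' m r j' a' η' hD'
  have hyle : y ≤ 1 := hy16.trans (by norm_num)
  obtain ⟨hsq, hy3⟩ := sq_near hy hy' (min_le_left _ _) hlog
  have hsq' : |y ^ 2 - y' ^ 2| ≤ δ' * y ^ 2 := by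
    refine hsq.trans (mul_le_mul_of_nonneg_right ?_ (sq_nonneg y))
    have := min_le_right (1 / 2 : ℝ) (δ' / 4)
    linarith
  have htn : 0 < tn n := by rw [tn_eq]; positivity
  have htm : 0 < tn m := by rw [tn_eq]; positivity
  -- the tiny mass
  obtain ⟨τ, ⟨xq, hL⟩, ⟨xq', hL'⟩, ⟨hτ, ht1⟩, ⟨-, ht2⟩, ⟨-, ht3⟩, ⟨-, ht4⟩, ⟨-, ht5⟩⟩ :=
    (hLV.and (hLV'.and ((ev_tau (K := 1) htn).and ((ev_tau (K := 1) htm).and
      ((ev_tau (K := ((2 ^ r : ℕ) : ℝ) ^ 2 * (1 + Real.log ((2 : ℝ) ^ r / 2 ^ n))) one_pos).and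
      ((ev_tau (K := ((2 ^ r : ℕ) : ℝ) ^ 2 * (1 + Real.log ((2 : ℝ) ^ r / 2 ^ m))) one_pos).and
        (ev_tau (K := ((2 ^ r : ℕ) : ℝ) ^ 2) one_pos))))))).exists
  have k1 := v1 τ xq hτ (by linarith) hL
  have k4 := v1' τ xq' hτ (by linarith) hL'
  have kk := hp n m r j j' y' a η τ hD.nb hD'.nb hy' hy3 v4 v3 hD.fl hτ (by linarith) (by linarith)
    ht5
  rw [one_mul] at kk
  have kk1 : |pN q μ (2 ^ r) (2 ^ j) b (tn n) τ - pN q μ (2 ^ r) (2 ^ j') b (tn m) τ| ≤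
      1 * y ^ 2 := by rw [one_mul]; exact kk
  have hl2 : 0 ≤ Real.log 2 := Real.log_nonneg (by norm_num)
  have hl21 : Real.log 2 ≤ 1 := by
    have := Real.log_two_lt_d9
    linarith
  have hw0 : (0 : ℝ) ≤ w := Nat.cast_nonneg w
  have hnr : (n : ℝ) ≤ r := by exact_mod_cast hD.nb.nr
  have hmr : (m : ℝ) ≤ r := by exact_mod_cast hD'.nb.nr
  have hmw : (m : ℝ) = n + w := by rw [hm]; push_cast; ring
  have hr4 : (r : ℝ) ≤ n + R * w := hr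
  have hch := chain2 (pw := R * w) hA.le (by positivity : 0 ≤ η0 / (24 * R)) hC
    (L1 := Real.log ((2 : ℝ) ^ r / 2 ^ n)) (L4 := Real.log ((2 : ℝ) ^ r / 2 ^ m))
    (by rw [log_scale]; exact mul_nonneg (by linarith) hl2)
    (by
      rw [log_scale]
      calc ((r : ℝ) - n) * Real.log 2 ≤ ((r : ℝ) - n) * 1 :=
            mul_le_mul_of_nonneg_left hl21 (by linarith)
        _ ≤ _ := by linarith)
    (by rw [log_scale]; exact mul_nonneg (by linarith) hl2)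
    (by
      rw [log_scale]
      calc ((r : ℝ) - m) * Real.log 2 ≤ ((r : ℝ) - m) * 1 :=
            mul_le_mul_of_nonneg_left hl21 (by linarith)
        _ ≤ _ := by linarith)
    hδ'1 hsq' k1 k4 kk1
  have elg : Real.log ((2 : ℝ) ^ r / 2 ^ n) - Real.log ((2 : ℝ) ^ r / 2 ^ m) = w * Real.log 2 := by
    rw [log_scale, log_scale, hmw]
    ring
  rw [elg] at hch
  -- the letters
  have hp0 : 0 ≤ y ^ (1 + c3) := Real.rpow_nonneg hy.le _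
  have n1 := v2 τ xq hL
  have n4 := v2' τ xq' hL'
  have m1 : |X1 - Real.pi / 2| ≤ ρ := by
    have e1 : X1 - Real.pi / 2 = (X1 - aq (2 ^ r) (2 ^ j) b (tn n)) +
        (aq (2 ^ r) (2 ^ j) b (tn n) - a) + (a - Real.pi / 2) := by ring
    rw [e1]
    refine (abs_add_le _ _).trans ((add_le_add (abs_add_le _ _) le_rfl).trans ?_)
    have := hD.ha
    linarith
  have m4 : |aq (2 ^ r) (2 ^ j') b (tn m) - Real.pi / 2| ≤ ρ := by
    have e1 : aq (2 ^ r) (2 ^ j') b (tn m) - Real.pi / 2 =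
        (aq (2 ^ r) (2 ^ j') b (tn m) - a') + (a' - Real.pi / 2) := by ring
    rw [e1]
    refine (abs_add_le _ _).trans ?_
    have := hD'.ha
    have : 0 ≤ y' ^ (2 + c) := Real.rpow_nonneg hy'.le _
    have : 0 ≤ y' ^ (1 + c3) := Real.rpow_nonneg hy'.le _
    have : 0 ≤ y' ^ qx := Real.rpow_nonneg hy'.le _
    linarith
  have hyc : y ^ (2 + c) ≤ y ^ 2 := by
    have h3 : y ^ (2 + c) ≤ y ^ (2 : ℝ) :=
      Real.rpow_le_rpow_of_exponent_ge hy hyle (by linarith)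
    rwa [Real.rpow_two] at h3
  have hfin : |aq (2 ^ r) (2 ^ j') b (tn m) - X1 - A * (w * Real.log 2) * y ^ 2| ≤
      (3 * (η0 / (24 * R) * (R * w)) + A * (R * w) * δ' + (3 * C + 1) + 1) * y ^ 2 := by
    have e1 : aq (2 ^ r) (2 ^ j') b (tn m) - X1 - A * (w * Real.log 2) * y ^ 2 =
        (aq (2 ^ r) (2 ^ j') b (tn m) - aq (2 ^ r) (2 ^ j) b (tn n) -
          A * (w * Real.log 2) * y ^ 2) - (X1 - aq (2 ^ r) (2 ^ j) b (tn n)) := by ring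
    rw [e1]
    refine (abs_sub _ _).trans ?_
    rw [add_mul _ 1, one_mul]
    exact add_le_add hch (hX1.trans hyc)
  refine sharp_window hA.le hw0 hρ0.le hρ4 m1 m4 hfin ?_ hρA
  have h1 : 8 * (3 * C + 2) ≤ η0 * w := by
    rw [div_le_iff₀ hη0] at hW
    linarith
  have h2 : A * (R * w) * δ' ≤ η0 / 8 * w := by
    calc A * (R * w) * δ' = (A * R * δ') * w := by ring
      _ ≤ _ := mul_le_mul_of_nonneg_right hδ'A hw0
  have h3 : 3 * (η0 / (24 * R) * (R * w)) = η0 / 8 * w := by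
    field_simp
    ring
  linarith

end

end Vale.Agent.P159.H114
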