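import Vale.Agent.P159.H114.Slp8

/-!
P159 (helper114): **(P#)**: the sharp relation `SLP7` from the sharp data `SD` of the states.
-/

namespace Vale.Agent.P159.H114

open Finset Filter Topology
open Vale.Agent.P159.TM.H764 (cN dt EE pw)
open Vale.Agent.P159.TM.Spec (V)
open Vale.Agent.P159.H462 (aq Pst)
open Vale.Agent.P159.H972 (Par tn FL Good lg)
open Vale.Agent.P159.H801 (Hst SLP7 FLC xa)

noncomputable section

set_option linter.unusedSectionVars false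

variable {b : ℝ} {P : Par}

lemma logb_le_of {y y' : ℝ} (hy : 0 < y) (hy' : 0 < y')
    (h : |Real.log y' - Real.log y| ≤ 1 / 2) : Real.logb 2 (1 / y') ≤ Real.logb 2 (1 / y) + 1 := by
  have h2 := Real.log_two_gt_d9
  have hl2 : 0 < Real.log 2 := by linarith
  unfold Real.logb
  rw [one_div, one_div, Real.log_inv, Real.log_inv, div_le_iff₀ hl2, add_mul,
    div_mul_cancel₀ _ hl2.ne']
  have := (abs_le.1 h).1
  linarith

/-- sizes of `K` at the two levels -/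
lemma kE_next {σ c1 y y' ε ε' : ℝ} {n m N0 : ℕ} {S : ℕ → ℝ → ℝ → Prop}
    (hA : P.Adm) (hσ0 : 0 ≤ σ) (hσ : σ ≤ 1 / 4) (hy : 0 < y) (hyle : y ≤ 1) (hy' : 0 < y')
    (hyle' : y' ≤ 1)
    (hH : Hst S σ P.es c1 N0 n ε y) (hH' : Hst S σ P.es c1 N0 m ε' y')
    (hlog : |Real.log y' - Real.log y| ≤ 1 / 2) (hw : 5 ≤ P.w ε) : P.kE ε' ≤ 3 * P.w ε := by
  have hε : 0 < ε := (Real.rpow_pos_of_pos hy _).trans_le hH.sg
  have hε' : 0 < ε' := (Real.rpow_pos_of_pos hy' _).trans_le hH'.sg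
  have hε1 : ε ≤ 1 := hH.he.trans (P.es1.trans (by norm_num))
  have hl := logb_le_of hy hy' hlog
  have hly : 0 ≤ Real.logb 2 (1 / y) := H972.logb_nonneg' hy hyle
  have h1 : Real.logb 2 (1 / ε') ≤ 2 * Real.logb 2 (1 / y') := by
    have h2 : 1 / ε' ≤ (1 / y') ^ (2 : ℝ) := by
      rw [one_div, one_div, Real.inv_rpow hy'.le]
      refine inv_anti₀ (Real.rpow_pos_of_pos hy' _) ?_
      exact (Real.rpow_le_rpow_of_exponent_ge hy' hyle' (by linarith)).trans hH'.sg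
    have h3 := Real.logb_le_logb_of_le one_lt_two (by positivity) h2
    rwa [Real.logb_rpow_eq_mul_logb_of_pos (by positivity)] at h3
  have h4 : Real.logb 2 (1 / y) ≤ Real.logb 2 (1 / ε) := by
    refine Real.logb_le_logb_of_le one_lt_two (by positivity) ?_
    refine one_div_le_one_div_of_le hε ?_
    have h5 := hH.sh.trans (Real.rpow_le_rpow_of_exponent_ge hy hyle
      (show (1 : ℝ) ≤ 2 - 4 * σ by linarith))
    rwa [Real.rpow_one] at h5
  have hth := P.th0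
  have hthp := P.thp0
  have hc := Nat.le_ceil (P.thp * Real.logb 2 (1 / ε))
  have h0 : 0 ≤ Real.logb 2 (1 / ε) := H972.logb_nonneg' hε hε1
  have h5 : P.th * Real.logb 2 (1 / ε') ≤ ((3 * P.w ε : ℕ) : ℝ) := by
    have e1 : ((P.w ε : ℕ) : ℝ) = (⌈P.thp * Real.logb 2 (1 / ε)⌉₊ : ℝ) := rfl
    have h6 : P.th * Real.logb 2 (1 / ε') ≤ P.thp * (2 * Real.logb 2 (1 / ε) + 2) := by
      have h7 : Real.logb 2 (1 / ε') ≤ 2 * Real.logb 2 (1 / ε) + 2 := by linarith
      calc P.th * Real.logb 2 (1 / ε') ≤ P.th * (2 * Real.logb 2 (1 / ε) + 2) :=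
            mul_le_mul_of_nonneg_left h7 hth.le
        _ ≤ _ := mul_le_mul_of_nonneg_right hA.hth (by linarith)
    have h8 : P.thp * 2 ≤ 2 := by have := hA.thp1; linarith
    have h9 : (5 : ℝ) ≤ (P.w ε : ℕ) := by exact_mod_cast hw
    push_cast
    rw [e1] at h9 ⊢
    linarith
  unfold H972.Par.kE H972.lg
  exact Nat.ceil_le.2 h5

/-- **(P#)** -/
theorem slp_of (hb : 0 < b) (hh : 0 < helicity b) (hs : 1 / helicity b < 5 / 2) :
    ∃ A k : ℝ, 0 < A ∧ 0 < k ∧ ∀ (P : Par), P.Adm → ∀ (C1 C2 c c3 qx σ c1 : ℝ) (q : ℕ)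
      (μ : Fin (q + 1) → ℝ) (N0 : ℕ) (S : ℕ → ℝ → ℝ → Prop) (a : ℕ → ℝ), RW q μ →
      21 ≤ 2 * C1 → 30 ≤ 2 * C1 * k → 0 ≤ C2 → 0 < c3 → c3 < c → 0 ≤ σ → σ ≤ 1 / 4 →
      c3 < (2 - 4 * σ) * P.pf - 1 → 0 < qx → FLC P b a →
      (∀ n ε y, S n ε y → Good P b n ε ∧ 0 < y) →
      (∃ e, 0 < e ∧ ∀ n ε y, Hst S σ P.es c1 N0 n ε y → y ≤ e → |xa a n| ≤ y ^ qx →
        ∃ j, SD P b q μ c C1 C2 n ε y j) →
      SLP7 S (xa a) P.w σ P.es c1 A (1 + c3) qx N0 (SlV P b q μ c C1 C2) := by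
  obtain ⟨A, k, hA, hk, h2⟩ := lev_two (b := b) hb hh hs
  obtain ⟨A', k', hA', hk', h1⟩ := lev_one (b := b) hb hh hs
  refine ⟨4 / Real.pi ^ 2 * A * Real.log 2, min k k', ?_, lt_min hk hk', ?_⟩
  · have := Real.log_pos one_lt_two
    have := Real.pi_pos
    positivity
  intro P hP C1 C2 c c3 qx σ c1 q μ N0 S a hμ hC1 hC1k hC2 hc3 hc3c hσ0 hσ hc3p hqx hFL hS hSD
  have hC10 : 0 < C1 := by linarith
  have hC1k1 : 30 ≤ 2 * C1 * k :=
    hC1k.trans (mul_le_mul_of_nonneg_left (min_le_left _ _) (by positivity))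
  have hC1k2 : 30 ≤ 2 * C1 * k' :=
    hC1k.trans (mul_le_mul_of_nonneg_left (min_le_right _ _) (by positivity))
  have hc22 : (2 - 4 * σ) * P.pf - 1 ≤ 2 := by
    have h3 := hP.pf1
    have h4 := hP.pf0
    nlinarith
  obtain ⟨es, hes, hSD⟩ := hSD
  refine ⟨by linarith, ?_, ?_, ?_⟩
  · -- existence
    refine ⟨es, hes, fun n ε y hH hy hx => ?_⟩
    obtain ⟨j, hj⟩ := hSD n ε y hH hy hx
    exact ⟨_, j, hj, rfl⟩
  · -- distance to the stiffness
    obtain ⟨C, hC, hev⟩ := h1 C1 C2 P.th c ((2 - 4 * σ) * P.pf - 1) c3 qx q μ hμ hC1 hC1k2 hC2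
      P.th0 hc3 hc3c hc3p hc22 hqx 1 one_pos
    obtain ⟨e, he, hE⟩ := ev_ex (ev_one.and (hev.and
      ((ev_pow 1 hqx (show (0 : ℝ) < 1 / 10 by norm_num)).and
        (ev_pow 1 (show 0 < 1 + c3 by linarith) (show (0 : ℝ) < 1 / 4 by norm_num)))))
    refine ⟨e, he, fun n ε y s hH hy hx hs => ?_⟩
    obtain ⟨hG, hy0⟩ := hS n ε y hH.hS
    obtain ⟨⟨-, hy16⟩, hv, g1, g2⟩ := hE y hy0 hy
    rw [one_mul] at g1 g2
    obtain ⟨j, hj, hsj⟩ := hs
    have hyle : y ≤ 1 := hy16.trans (by norm_num)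
    have hε : 0 < ε := (Real.rpow_pos_of_pos hy0 _).trans_le hH.sg
    have hε1 : ε ≤ 1 := hH.he.trans (P.es1.trans (by norm_num))
    have hD := ld_of hP hσ0 hσ hFL hG hH hy0 hy16 hx g1 hj (TV.base n ε)
      (by have := H972.kE_le_w hP.hth hε hε1; omega)
    have hjr : j ≤ n + P.kE ε := (hD.nb.jn hy0 hyle hC10.le).trans (Nat.le_add_right _ _)
    haveI := neZ hjr
    obtain ⟨-, v2, -, -⟩ := hv n (n + P.kE ε) j (a n) _ hD
    obtain ⟨τ, xq, hL⟩ := (lv_eq hjr (hj.lv _ (TV.base n ε))).exists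
    have n1 := v2 τ xq hL
    obtain ⟨ha1, ha2, ha3⟩ := a_near hx g1
    rw [hsj, aT_eq hjr]
    set X := aq (2 ^ (n + P.kE ε)) (2 ^ j) b (tn n) with hX
    have hX1 : 3 / 4 ≤ X := by
      have := (abs_le.1 (n1.trans g2)).1
      linarith
    have hax : 3 / 4 ≤ X * a n := by nlinarith
    -- `|1/X - 1/a| ≤ |X - a| / (X a)`; `X a ≥ 1` since `a ≥ π/2 - 4/10`
    have ha4 : 1.1 ≤ a n := by
      have h5 := (abs_le.1 ha1).1
      have := Real.pi_gt_d2
      linarith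
    have hXa : 1 ≤ X * a n := by
      have h6 : 0.95 ≤ X := by
        have := (abs_le.1 (n1.trans g2)).1
        have h7 : y ^ (1 + c3) ≤ y := by
          have := Real.rpow_le_rpow_of_exponent_ge hy0 hyle (show (1 : ℝ) ≤ 1 + c3 by linarith)
          rwa [Real.rpow_one] at this
        have := (abs_le.1 n1).1
        linarith
      nlinarith
    have e1 : X⁻¹ - 2 / Real.pi - xa a n = -(X - a n) / (X * a n) := by
      unfold H801.xa
      have : X ≠ 0 := by positivity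
      have : a n ≠ 0 := by positivity
      field_simp
      ring
    rw [e1, abs_div, abs_neg, abs_of_pos (by linarith : 0 < X * a n),
      div_le_iff₀ (by linarith : 0 < X * a n)]
    exact n1.trans (le_mul_of_one_le_right (Real.rpow_nonneg hy0.le _) hXa)
  · -- the window
    intro η0 hη0
    obtain ⟨W, δ, e, hδ, he, hE⟩ := h2 C1 C2 P.th c ((2 - 4 * σ) * P.pf - 1) c3 qx q μ hμ hC1 hC1k1
      hC2 P.th0 hc3 hc3c hc3p hc22 hqx η0 hη0
    -- `w ε` is large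
    obtain ⟨e', he', hE'⟩ := ev_ex (ev_one.and
      ((ev_pow 1 hqx (show (0 : ℝ) < 1 / 10 by norm_num)).and
        (ev_pow (2 ^ (max W 5 + 1)) P.thp0 one_pos)))
    refine ⟨min e e', lt_min he he', min δ (1 / 2), by positivity, ?_⟩
    intro n m ε ε' y y' s s' hH hH' hm hye hye' hx hx' hlog hs hs'
    obtain ⟨hG, hy0⟩ := hS n ε y hH.hS
    obtain ⟨hG', hy0'⟩ := hS m ε' y' hH'.hS
    obtain ⟨⟨-, hy16⟩, g1, g2⟩ := hE' y hy0 (hye.trans (min_le_right _ _))
    obtain ⟨⟨-, hy16'⟩, g1', -⟩ := hE' y' hy0' (hye'.trans (min_le_right _ _))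
    rw [one_mul] at g1 g1'
    have hyle : y ≤ 1 := hy16.trans (by norm_num)
    have hyle' : y' ≤ 1 := hy16'.trans (by norm_num)
    have hε : 0 < ε := (Real.rpow_pos_of_pos hy0 _).trans_le hH.sg
    have hε1 : ε ≤ 1 := hH.he.trans (P.es1.trans (by norm_num))
    have hε' : 0 < ε' := (Real.rpow_pos_of_pos hy0' _).trans_le hH'.sg
    have hε1' : ε' ≤ 1 := hH'.he.trans (P.es1.trans (by norm_num))
    have hεy : ε ≤ y := by
      have h5 := hH.sh.trans (Real.rpow_le_rpow_of_exponent_ge hy0 hyle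
        (show (1 : ℝ) ≤ 2 - 4 * σ by linarith))
      rwa [Real.rpow_one] at h5
    have hwW : max W 5 + 1 ≤ P.w ε := by
      have h5 : (2 : ℝ) ^ (max W 5 + 1) ≤ 2 ^ ((P.w ε : ℕ) : ℝ) := by
        have h6 : (2 : ℝ) ^ (max W 5 + 1) ≤ y ^ (-P.thp) := by
          rw [Real.rpow_neg hy0.le, ← one_div, le_div_iff₀ (Real.rpow_pos_of_pos hy0 _)]
          exact g2
        have h7 : y ^ (-P.thp) ≤ ε ^ (-P.thp) :=
          Real.rpow_le_rpow_of_nonpos hε hεy (by have := P.thp0; linarith)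
        rw [Real.rpow_natCast]
        exact h6.trans (h7.trans (two_lg_ge hε))
      exact (Real.rpow_le_rpow_left_iff one_lt_two).1 h5
    have hW : W ≤ (P.w ε : ℕ) := by
      have := le_max_left W 5
      linarith
    have hw5 : 5 ≤ P.w ε := by
      have h5 : (5 : ℝ) ≤ (P.w ε : ℕ) := by
        have := le_max_right W 5
        linarith
      exact_mod_cast h5
    have hlog2 : |Real.log y' - Real.log y| ≤ 1 / 2 := hlog.trans (min_le_right _ _)
    have hk3 := kE_next hP hσ0 hσ hy0 hyle hy0' hyle' hH hH' hlog2 hw5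
    obtain ⟨j, hj, hsj⟩ := hs
    obtain ⟨j', hj', hsj'⟩ := hs'
    have hkw := H972.kE_le_w hP.hth hε hε1
    have hq3 : 1 ≤ P.q0 - 2 := by
      have h5 := hP.hq2
      have h6 := P.x10
      have h7 : (2 : ℝ) < P.q0 := by
        by_contra hc
        push Not at hc
        have : ((P.q0 : ℝ) - 2) * P.thp ≤ 0 :=
          mul_nonpos_of_nonpos_of_nonneg (by linarith) P.thp0.le
        linarith
      have h8 : 2 < P.q0 := by exact_mod_cast h7
      omega
    have hTV : TV P n ε (m + P.kE ε') := by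
      have h5 : 1 * (4 * P.w ε) ≤ (P.q0 - 2) * (4 * P.w ε) := Nat.mul_le_mul_right _ hq3
      exact ⟨by omega, by omega⟩
    have hr4 : m + P.kE ε' ≤ n + 4 * P.w ε := by omega
    have hD := ld_of hP hσ0 hσ hFL hG hH hy0 hy16 hx g1 hj hTV hr4
    have hD' := ld_of hP hσ0 hσ hFL hG' hH' hy0' hy16' hx' g1' hj' (TV.base m ε')
      (by have := H972.kE_le_w hP.hth hε' hε1'; omega)
    have hjr : j ≤ m + P.kE ε' := (hD.nb.jn hy0 hyle hC10.le).trans hD.nb.nr
    have hjr' : j' ≤ m + P.kE ε' := (hD'.nb.jn hy0' hyle' hC10.le).trans hD'.nb.nr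
    haveI := neZ hjr
    haveI := neZ hjr'
    have hX := hj.tor _ _ (TV.base n ε) hTV
    rw [aT_eq (r := m + P.kE ε') hjr] at hX
    have hfin := hE n m (m + P.kE ε') j j' (P.w ε) y y' (a n) (a m) _ _ (aT b n (n + P.kE ε) j)
      hy0 (hye.trans (min_le_left _ _)) hy0' (hye'.trans (min_le_left _ _))
      (hlog.trans (min_le_left _ _)) hm hW hr4 hD hD' (lv_eq hjr (hj.lv _ hTV))
      (lv_eq hjr' (hj'.lv _ (TV.base m ε'))) hX
    rw [hsj, hsj', aT_eq (r := m + P.kE ε') hjr']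
    rw [one_div, one_div] at hfin
    exact hfin

end

end Vale.Agent.P159.H114
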