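import Vale.Agent.P159.H114.SlD2
import Vale.Agent.P159.H114.Slp10
import Vale.Agent.P159.H114.Slp9

/-!
P159 (helper114): **(P#)**, second form: the sharp relation `SLP7` from `SD2`.
-/

namespace Vale.Agent.P159.H114

open Finset Filter Topology
open Vale.Agent.P159.TM.H764 (cN dt EE pw)
open Vale.Agent.P159.TM.Spec (V)
open Vale.Agent.P159.H462 (aq Pst)
open Vale.Agent.P159.H972 (Par tn FL Good lg)
open Vale.Agent.P159.H801 (Hst SLP7 FLC xa)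

noncomputable section

set_option linter.unusedSectionVars false

variable {b : ℝ} {P : Par}

lemma nat_le_lg {c e : ℝ} : c * Real.logb 2 (1 / e) ≤ (lg c e : ℝ) := Nat.le_ceil _

lemma lg_le_nat {c e : ℝ} (hc : 0 ≤ c) (he : 0 < e) (he1 : e ≤ 1) :
    (lg c e : ℝ) ≤ c * Real.logb 2 (1 / e) + 1 := by
  have h0 : 0 ≤ c * Real.logb 2 (1 / e) := mul_nonneg hc (H972.logb_nonneg' he he1)
  exact (Nat.ceil_lt_add_one h0).le

/-- `log 1/ε` against `log 1/y` -/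
lemma logb_hst {σ c1 y ε : ℝ} {n N0 : ℕ} {S : ℕ → ℝ → ℝ → Prop} (hy : 0 < y)
    (hε : 0 < ε) (hH : Hst S σ P.es c1 N0 n ε y) :
    Real.logb 2 (1 / ε) ≤ (2 - σ) * Real.logb 2 (1 / y) ∧
      (2 - 4 * σ) * Real.logb 2 (1 / y) ≤ Real.logb 2 (1 / ε) := by
  constructor
  · have h1 : 1 / ε ≤ (1 / y) ^ (2 - σ) := by
      rw [one_div, one_div, Real.inv_rpow hy.le]
      exact inv_anti₀ (Real.rpow_pos_of_pos hy _) hH.sg
    have h2 := Real.logb_le_logb_of_le one_lt_two (by positivity) h1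
    rwa [Real.logb_rpow_eq_mul_logb_of_pos (by positivity)] at h2
  · have h1 : (1 / y) ^ (2 - 4 * σ) ≤ 1 / ε := by
      rw [one_div, one_div, Real.inv_rpow hy.le]
      exact inv_anti₀ hε hH.sh
    have h2 := Real.logb_le_logb_of_le one_lt_two
      (Real.rpow_pos_of_pos (by positivity) _) h1
    rwa [Real.logb_rpow_eq_mul_logb_of_pos (by positivity)] at h2

/-- the torus of the next state is a big torus of the state -/
lemma xE_next {σ c1 y y' ε ε' : ℝ} {n m N0 : ℕ} {S : ℕ → ℝ → ℝ → Prop}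
    (hA : P.Adm) (hσ0 : 0 ≤ σ) (hσ : σ ≤ 1 / 20) (hy : 0 < y) (hyle : y ≤ 1) (hy' : 0 < y')
    (hyle' : y' ≤ 1)
    (hH : Hst S σ P.es c1 N0 n ε y) (hH' : Hst S σ P.es c1 N0 m ε' y')
    (hlog : |Real.log y' - Real.log y| ≤ 1 / 2) (hx : 24 ≤ P.x1 * Real.logb 2 (1 / y)) :
    P.w ε + 3 * P.xE ε' ≤ 4 * P.xE ε ∧ 2 * P.xE ε ≤ 3 * P.xE ε' := by
  have hε : 0 < ε := (Real.rpow_pos_of_pos hy _).trans_le hH.sg
  have hε' : 0 < ε' := (Real.rpow_pos_of_pos hy' _).trans_le hH'.sg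
  have hε1 : ε ≤ 1 := hH.he.trans (P.es1.trans (by norm_num))
  have hε1' : ε' ≤ 1 := hH'.he.trans (P.es1.trans (by norm_num))
  have hl := logb_le_of hy hy' hlog
  have hl' := logb_le_of hy' hy (by rw [abs_sub_comm]; exact hlog)
  obtain ⟨a1, a2⟩ := logb_hst (P := P) hy hε hH
  obtain ⟨a3, a4⟩ := logb_hst (P := P) hy' hε' hH'
  have hx10 := P.x10
  have hx11 := hA.x11
  have hthp0 := P.thp0
  have hhx := hA.hx
  have hth0 := P.th0
  obtain ⟨Y, hY⟩ : ∃ Y, Y = Real.logb 2 (1 / y) := ⟨_, rfl⟩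
  obtain ⟨Y', hY'⟩ : ∃ Y', Y' = Real.logb 2 (1 / y') := ⟨_, rfl⟩
  obtain ⟨E, hE⟩ : ∃ E, E = Real.logb 2 (1 / ε) := ⟨_, rfl⟩
  obtain ⟨E', hE'⟩ : ∃ E', E' = Real.logb 2 (1 / ε') := ⟨_, rfl⟩
  have hY0 : 0 ≤ Y := by rw [hY]; exact H972.logb_nonneg' hy hyle
  have hY0' : 0 ≤ Y' := by rw [hY']; exact H972.logb_nonneg' hy' hyle'
  have w1 := lg_le_nat P.thp0.le hε hε1
  have x1 := lg_le_nat P.x10.le hε hε1
  have x1' := lg_le_nat P.x10.le hε' hε1'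
  have x2 := nat_le_lg (c := P.x1) (e := ε)
  have x2' := nat_le_lg (c := P.x1) (e := ε')
  rw [← hE] at w1 x1 x2 a1 a2
  rw [← hE'] at x1' x2' a3 a4
  rw [← hY] at a1 a2 hl hl' hx
  rw [← hY'] at a3 a4 hl hl'
  have ew : ((P.w ε : ℕ) : ℝ) = (lg P.thp ε : ℝ) := rfl
  have ex : ((P.xE ε : ℕ) : ℝ) = (lg P.x1 ε : ℝ) := rfl
  have ex' : ((P.xE ε' : ℕ) : ℝ) = (lg P.x1 ε' : ℝ) := rfl
  have hσY : σ * Y ≤ 1 / 20 * Y := mul_le_mul_of_nonneg_right hσ hY0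
  have hσY0 : 0 ≤ σ * Y := mul_nonneg hσ0 hY0
  have hσY' : σ * Y' ≤ 1 / 20 * Y' := mul_le_mul_of_nonneg_right hσ hY0'
  have hσY0' : 0 ≤ σ * Y' := mul_nonneg hσ0 hY0'
  have hE2 : E ≤ 2 * Y := by linarith
  have hE1 : 1.8 * Y ≤ E := by linarith
  have hE2' : E' ≤ 2 * (Y + 1) := by linarith
  have hE1' : 1.8 * (Y - 1) ≤ E' := by linarith
  have p1 : P.x1 * (1.8 * Y) ≤ P.x1 * E := mul_le_mul_of_nonneg_left hE1 hx10.le
  have p2 : P.x1 * E ≤ P.x1 * (2 * Y) := mul_le_mul_of_nonneg_left hE2 hx10.le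
  have p3 : P.x1 * E' ≤ P.x1 * (2 * (Y + 1)) := mul_le_mul_of_nonneg_left hE2' hx10.le
  have p4 : P.x1 * (1.8 * (Y - 1)) ≤ P.x1 * E' := mul_le_mul_of_nonneg_left hE1' hx10.le
  have p5 : P.thp * E ≤ P.x1 / 96 * (2 * Y) := by
    refine (mul_le_mul_of_nonneg_left hE2 hthp0.le).trans ?_
    exact mul_le_mul_of_nonneg_right (by linarith) (by positivity)
  constructor
  · have h : ((P.w ε + 3 * P.xE ε' : ℕ) : ℝ) ≤ ((4 * P.xE ε : ℕ) : ℝ) := by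
      push_cast
      rw [ew, ex, ex']
      linarith
    exact_mod_cast h
  · have h : ((2 * P.xE ε : ℕ) : ℝ) ≤ ((3 * P.xE ε' : ℕ) : ℝ) := by
      push_cast
      rw [ex, ex']
      linarith
    exact_mod_cast h

/-- the base torus is big -/
lemma TB.base (hA : P.Adm) {e : ℝ} (he : 0 < e) (he1 : e ≤ 1) (n : ℕ) :
    TB P n e (n + 3 * P.xE e) := by
  have hthx : P.th ≤ P.x1 := by
    have := hA.hx
    have := P.thp0
    have := P.th0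
    linarith
  have h1 : P.kE e ≤ P.xE e := H972.lg_mono hthx he he1
  have h6 : P.xE e ≤ (P.q0 - 2) * P.w e := by
    apply H972.xE_le_w _ he he1
    rw [Nat.cast_sub hA.hq]
    exact hA.hq2
  have h7 : (P.q0 - 2) * (4 * P.w e) = 4 * ((P.q0 - 2) * P.w e) := by ring
  exact ⟨⟨by omega, by omega⟩, by omega⟩

/-- the data of a level on one torus -/
lemma ld_of2 {C1 C2 c qx σ c1 y ε : ℝ} {q : ℕ} {μ : Fin (q + 1) → ℝ} {n r j N0 : ℕ}
    {S : ℕ → ℝ → ℝ → Prop} {a : ℕ → ℝ} (hA : P.Adm) (hσ0 : 0 ≤ σ) (hσ : σ ≤ 1 / 4)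
    (hFL : FLC P b a) (hG : Good P b n ε)
    (hH : Hst S σ P.es c1 N0 n ε y) (hy : 0 < y) (hy16 : y ≤ 1 / 16)
    (hx : |xa a n| ≤ y ^ qx) (hyq : y ^ qx ≤ 1 / 10) (hS : SD2 P b q μ c C1 C2 n ε y j)
    (hr : TV P n ε r) (hL9 : (2 : ℝ) ^ r / 2 ^ n ≤ y ^ (-9 : ℝ)) :
    LD C1 C2 P.th ((2 - 4 * σ) * P.pf - 1) qx b n r j y (a n) (17 * ε ^ P.pf) := by
  have hyle : y ≤ 1 := hy16.trans (by norm_num)
  have hε : 0 < ε := (Real.rpow_pos_of_pos hy _).trans_le hH.sg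
  have hεs := hH.he
  have hε1 : ε ≤ 1 := hεs.trans (P.es1.trans (by norm_num))
  have hnr : n ≤ r := by
    have := hr.1
    omega
  have hth0 := P.th0
  have hLr : (2 : ℝ) ^ r / 2 ^ n = 2 ^ (r - n) := by
    rw [div_eq_iff (by positivity), ← pow_add, Nat.sub_add_cancel hnr]
  refine ⟨⟨hnr, hL9, ?_, hS.up, hS.lo⟩, by positivity, ?_, ?_, ?_⟩
  · rw [hLr]
    have h1 : (2 : ℝ) ^ P.kE ε ≤ 2 ^ (r - n) := by
      have := hr.1
      exact pow_le_pow_right₀ one_le_two (by omega)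
    refine le_trans ?_ h1
    refine le_trans ?_ (two_lg_ge hε)
    have h2 : ε ≤ y := by
      refine hH.sh.trans ?_
      have h3 := Real.rpow_le_rpow_of_exponent_ge hy hyle (show (1 : ℝ) ≤ 2 - 4 * σ by linarith)
      rwa [Real.rpow_one] at h3
    exact Real.rpow_le_rpow_of_nonpos hε h2 (by linarith)
  · refine mul_le_mul_of_nonneg_left ?_ (by norm_num)
    have h1 := Real.rpow_le_rpow hε.le hH.sh hA.pf0.le
    rw [← Real.rpow_mul hy.le] at h1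
    refine h1.trans (le_of_eq ?_)
    congr 1
    ring
  · exact (a_near hx hyq).1
  · exact hFL n ε hε hεs hG ε le_rfl hεs r hr.tt

/-- size of the big tori -/
lemma two_le_pow {c y ε : ℝ} (hc : 0 ≤ c) (hc1 : c ≤ 1) (hy : 0 < y) (hε : 0 < ε)
    (hε1 : ε ≤ 1) (hyε : y ^ (2 : ℝ) ≤ ε) : (2 : ℝ) ^ lg c ε ≤ 2 * y ^ (-2 : ℝ) := by
  refine (two_lg_le hc hε hε1).trans (mul_le_mul_of_nonneg_left ?_ (by norm_num))
  have h3 : ε ^ (-c) ≤ ε ^ (-1 : ℝ) :=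
    Real.rpow_le_rpow_of_exponent_ge hε hε1 (by linarith)
  have h4 : ε ^ (-1 : ℝ) ≤ (y ^ (2 : ℝ)) ^ (-1 : ℝ) :=
    Real.rpow_le_rpow_of_nonpos (Real.rpow_pos_of_pos hy _) hyε (by norm_num)
  rw [← Real.rpow_mul hy.le] at h4
  refine h3.trans (h4.trans (le_of_eq ?_))
  norm_num

end

end Vale.Agent.P159.H114
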