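import Vale.Agent.P159.H114.Slp11

/-!
P159 (helper114): **(P#)**, second form: the sharp relation `SLP7` from `SD2`.
-/

namespace Vale.Agent.P159.H114

open Finset Filter Topology
open Vale.Agent.P159.TM.H764 (cN dt EE pw)
open Vale.Agent.P159.TM.Spec (V)
open Vale.Agent.P159.H462 (aq Pst)
open Vale.Agent.P159.H972 (Par tn FL Good lg)
open Vale.Agent.P159.H801 (Hst SLP7 FLC xa)

noncomputable section

set_option linter.unusedSectionVars false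

variable {b : ℝ} {P : Par}

/-- size of the base torus -/
lemma L9_base {y ε : ℝ} (hA : P.Adm) (hy : 0 < y) (hy16 : y ≤ 1 / 16) (hε : 0 < ε) (hε1 : ε ≤ 1)
    (hyε : y ^ (2 : ℝ) ≤ ε) (n : ℕ) :
    (2 : ℝ) ^ (n + 3 * P.xE ε) / 2 ^ n ≤ y ^ (-9 : ℝ) := by
  have h1 : (2 : ℝ) ^ (n + 3 * P.xE ε) / 2 ^ n = (2 ^ P.xE ε) ^ 3 := by
    rw [pow_add, mul_comm 3, pow_mul]
    field_simp
  have h2 : (2 : ℝ) ^ P.xE ε ≤ 2 * y ^ (-2 : ℝ) := two_le_pow P.x10.le hA.x11 hy hε hε1 hyε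
  have h3 := pow_le_pow_left₀ (by positivity) h2 3
  rw [h1]
  refine h3.trans ?_
  have h4 : (2 * y ^ (-2 : ℝ)) ^ 3 = 8 * y ^ (-6 : ℝ) := by
    rw [mul_pow, ← Real.rpow_natCast (y ^ (-2 : ℝ)) 3, ← Real.rpow_mul hy.le]
    norm_num
  have h5 : y ^ (-9 : ℝ) = y ^ (-3 : ℝ) * y ^ (-6 : ℝ) := by
    rw [← Real.rpow_add hy]
    norm_num
  rw [h4, h5]
  refine mul_le_mul_of_nonneg_right ?_ (Real.rpow_nonneg hy.le _)
  have h6 : (16 : ℝ) ≤ y ^ (-1 : ℝ) := by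
    rw [Real.rpow_neg_one, ← one_div, le_div_iff₀ hy]
    linarith
  have h7 : y ^ (-1 : ℝ) ≤ y ^ (-3 : ℝ) :=
    Real.rpow_le_rpow_of_exponent_ge hy (hy16.trans (by norm_num)) (by norm_num)
  linarith

/-- size of the torus of the next state -/
lemma L9_next {y y' ε ε' : ℝ} {n m : ℕ} (hA : P.Adm) (hy : 0 < y) (hyK : 11664 * y ≤ 1)
    (hy' : 0 < y') (hyy : y ≤ 3 * y') (hε : 0 < ε) (hε1 : ε ≤ 1) (hε' : 0 < ε') (hε1' : ε' ≤ 1)
    (hyε : y ^ (2 : ℝ) ≤ ε) (hyε' : y' ^ (2 : ℝ) ≤ ε') (hm : m = n + P.w ε) :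
    (2 : ℝ) ^ (m + 3 * P.xE ε') / 2 ^ n ≤ y ^ (-9 : ℝ) := by
  have h1 : (2 : ℝ) ^ (m + 3 * P.xE ε') / 2 ^ n = 2 ^ P.w ε * (2 ^ P.xE ε') ^ 3 := by
    rw [hm, pow_add, pow_add, mul_comm 3, pow_mul]
    field_simp
  have h2 : (2 : ℝ) ^ P.xE ε' ≤ 2 * y' ^ (-2 : ℝ) := two_le_pow P.x10.le hA.x11 hy' hε' hε1' hyε'
  have h2w : (2 : ℝ) ^ P.w ε ≤ 2 * y ^ (-2 : ℝ) := two_le_pow P.thp0.le hA.thp1 hy hε hε1 hyε
  have h3 := pow_le_pow_left₀ (by positivity) h2 3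
  have h4 : (2 * y' ^ (-2 : ℝ)) ^ 3 = 8 * y' ^ (-6 : ℝ) := by
    rw [mul_pow, ← Real.rpow_natCast (y' ^ (-2 : ℝ)) 3, ← Real.rpow_mul hy'.le]
    norm_num
  have h5 : y' ^ (-6 : ℝ) ≤ 729 * y ^ (-6 : ℝ) := by
    have h6 : y / 3 ≤ y' := by linarith
    have h7 := Real.rpow_le_rpow_of_nonpos (by positivity) h6 (show (-6 : ℝ) ≤ 0 by norm_num)
    refine h7.trans (le_of_eq ?_)
    rw [Real.div_rpow hy.le (by norm_num)]
    have h8 : (3 : ℝ) ^ (-6 : ℝ) = 1 / 729 := by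
      rw [Real.rpow_neg (by norm_num)]
      norm_num
    rw [h8]
    ring
  rw [h1]
  rw [h4] at h3
  have h6 : (2 : ℝ) ^ P.w ε * (2 ^ P.xE ε') ^ 3 ≤
      (2 * y ^ (-2 : ℝ)) * (8 * (729 * y ^ (-6 : ℝ))) :=
    mul_le_mul h2w (h3.trans (mul_le_mul_of_nonneg_left h5 (by norm_num))) (by positivity)
      (mul_nonneg zero_le_two (Real.rpow_nonneg hy.le _))
  refine h6.trans ?_
  have h7 : (2 * y ^ (-2 : ℝ)) * (8 * (729 * y ^ (-6 : ℝ))) = 11664 * y ^ (-8 : ℝ) := by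
    have : y ^ (-8 : ℝ) = y ^ (-2 : ℝ) * y ^ (-6 : ℝ) := by
      rw [← Real.rpow_add hy]
      norm_num
    rw [this]
    ring
  have h8 : y ^ (-9 : ℝ) = y ^ (-1 : ℝ) * y ^ (-8 : ℝ) := by
    rw [← Real.rpow_add hy]
    norm_num
  rw [h7, h8]
  refine mul_le_mul_of_nonneg_right ?_ (Real.rpow_nonneg hy.le _)
  rw [Real.rpow_neg_one, ← one_div, le_div_iff₀ hy]
  exact hyK

/-- **(P#)** -/
theorem slp_of2 (hb : 0 < b) (hh : 0 < helicity b) (hs : 1 / helicity b < 5 / 2) :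
    ∃ A k : ℝ, 0 < A ∧ 0 < k ∧ ∀ (P : Par), P.Adm → ∀ (C1 C2 c c3 qx σ c1 : ℝ) (q : ℕ)
      (μ : Fin (q + 1) → ℝ) (N0 : ℕ) (S : ℕ → ℝ → ℝ → Prop) (a : ℕ → ℝ), RW q μ →
      21 ≤ 2 * C1 → 30 ≤ 2 * C1 * k → 0 ≤ C2 → 0 < c3 → c3 < c → 0 ≤ σ → σ ≤ 1 / 20 →
      c3 < (2 - 4 * σ) * P.pf - 1 → 0 < qx → FLC P b a →
      (∀ n ε y, S n ε y → Good P b n ε ∧ 0 < y) →
      (∃ e, 0 < e ∧ ∀ n ε y, Hst S σ P.es c1 N0 n ε y → y ≤ e → |xa a n| ≤ y ^ qx →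
        ∃ j, SD2 P b q μ c C1 C2 n ε y j) →
      SLP7 S (xa a) P.w σ P.es c1 A (1 + c3) qx N0 (SlV2 P b q μ c C1 C2) := by
  obtain ⟨A, k, hA, hk, h2⟩ := lev_twoR (b := b) hb hh hs
  obtain ⟨A', k', hA', hk', h1⟩ := lev_one (b := b) hb hh hs
  refine ⟨4 / Real.pi ^ 2 * A * Real.log 2, min k k', ?_, lt_min hk hk', ?_⟩
  · have := Real.log_pos one_lt_two
    have := Real.pi_pos
    positivity
  intro P hP C1 C2 c c3 qx σ c1 q μ N0 S a hμ hC1 hC1k hC2 hc3 hc3c hσ0 hσ20 hc3p hqx hFL hS hSD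
  have hσ : σ ≤ 1 / 4 := hσ20.trans (by norm_num)
  have hC10 : 0 < C1 := by linarith
  have hC1k1 : 30 ≤ 2 * C1 * k :=
    hC1k.trans (mul_le_mul_of_nonneg_left (min_le_left _ _) (by positivity))
  have hC1k2 : 30 ≤ 2 * C1 * k' :=
    hC1k.trans (mul_le_mul_of_nonneg_left (min_le_right _ _) (by positivity))
  have hc22 : (2 - 4 * σ) * P.pf - 1 ≤ 2 := by
    have h3 := hP.pf1
    have h4 := hP.pf0
    nlinarith
  have hy2 : ∀ n ε y, Hst S σ P.es c1 N0 n ε y → 0 < y → y ≤ 1 → y ^ (2 : ℝ) ≤ ε :=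
    fun n ε y hH hy hy1 =>
      (Real.rpow_le_rpow_of_exponent_ge hy hy1 (by linarith)).trans hH.sg
  obtain ⟨es, hes, hSD⟩ := hSD
  refine ⟨by linarith, ?_, ?_, ?_⟩
  · -- existence
    refine ⟨es, hes, fun n ε y hH hy hx => ?_⟩
    obtain ⟨j, hj⟩ := hSD n ε y hH hy hx
    exact ⟨_, j, hj, rfl⟩
  · -- distance to the stiffness
    obtain ⟨C, hC, hev⟩ := h1 C1 C2 P.th c ((2 - 4 * σ) * P.pf - 1) c3 qx q μ hμ hC1 hC1k2 hC2
      P.th0 hc3 hc3c hc3p hc22 hqx 1 one_pos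
    obtain ⟨e, he, hE⟩ := ev_ex (ev_one.and (hev.and
      ((ev_pow 1 hqx (show (0 : ℝ) < 1 / 10 by norm_num)).and
        (ev_pow 1 (show 0 < 1 + c3 by linarith) (show (0 : ℝ) < 1 / 4 by norm_num)))))
    refine ⟨e, he, fun n ε y s hH hy hx hs => ?_⟩
    obtain ⟨hG, hy0⟩ := hS n ε y hH.hS
    obtain ⟨⟨-, hy16⟩, hv, g1, g2⟩ := hE y hy0 hy
    rw [one_mul] at g1 g2
    obtain ⟨j, hj, hsj⟩ := hs
    have hyle : y ≤ 1 := hy16.trans (by norm_num)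
    have hε : 0 < ε := (Real.rpow_pos_of_pos hy0 _).trans_le hH.sg
    have hε1 : ε ≤ 1 := hH.he.trans (P.es1.trans (by norm_num))
    have hTB := TB.base hP hε hε1 n
    have hD := ld_of2 hP hσ0 hσ hFL hG hH hy0 hy16 hx g1 hj hTB.1
      (L9_base hP hy0 hy16 hε hε1 (hy2 n ε y hH hy0 hyle) n)
    have hjr : j ≤ n + 3 * P.xE ε := (hD.nb.jn hy0 hyle hC10.le).trans (Nat.le_add_right _ _)
    haveI := neZ hjr
    obtain ⟨-, v2, -, -⟩ := hv n (n + 3 * P.xE ε) j (a n) _ hD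
    obtain ⟨τ, xq, hL⟩ := (lv_eq hjr (hj.lv _ hTB)).exists
    have n1 := v2 τ xq hL
    obtain ⟨ha1, ha2, ha3⟩ := a_near hx g1
    rw [hsj, aT_eq hjr]
    set X := aq (2 ^ (n + 3 * P.xE ε)) (2 ^ j) b (tn n) with hX
    have ha4 : 1.1 ≤ a n := by
      have h5 := (abs_le.1 ha1).1
      have := Real.pi_gt_d2
      linarith
    have h6 : 0.95 ≤ X := by
      have h7 : y ^ (1 + c3) ≤ y := by
        have := Real.rpow_le_rpow_of_exponent_ge hy0 hyle (show (1 : ℝ) ≤ 1 + c3 by linarith)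
        rwa [Real.rpow_one] at this
      have := (abs_le.1 n1).1
      linarith
    have hXa : 1 ≤ X * a n := by nlinarith
    have hX0 : 0 < X := by linarith
    have e1 : X⁻¹ - 2 / Real.pi - xa a n = -(X - a n) / (X * a n) := by
      unfold H801.xa
      have : a n ≠ 0 := by positivity
      field_simp
      ring
    rw [e1, abs_div, abs_neg, abs_of_pos (by linarith : 0 < X * a n),
      div_le_iff₀ (by linarith : 0 < X * a n)]
    exact n1.trans (le_mul_of_one_le_right (Real.rpow_nonneg hy0.le _) hXa)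
  · -- the window
    intro η0 hη0
    have hR1 : (1 : ℝ) ≤ 4 * P.q0 := by
      have : (2 : ℝ) ≤ P.q0 := by exact_mod_cast hP.hq
      linarith
    obtain ⟨W, δ, e, hδ, he, hE⟩ := h2 C1 C2 P.th c ((2 - 4 * σ) * P.pf - 1) c3 qx q μ hμ hC1 hC1k1
      hC2 P.th0 hc3 hc3c hc3p hc22 hqx (4 * P.q0) hR1 η0 hη0
    obtain ⟨e', he', hE'⟩ := ev_ex (ev_one.and
      ((ev_pow 1 hqx (show (0 : ℝ) < 1 / 10 by norm_num)).and
        ((ev_pow (2 ^ (max W 5 + 1)) P.thp0 one_pos).and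
          ((ev_pow (2 ^ (24 : ℝ)) P.x10 one_pos).and (ev_pow 11664 one_pos one_pos)))))
    refine ⟨min e e', lt_min he he', min δ (1 / 2), by positivity, ?_⟩
    intro n m ε ε' y y' s s' hH hH' hm hye hye' hx hx' hlog hs hs'
    obtain ⟨hG, hy0⟩ := hS n ε y hH.hS
    obtain ⟨hG', hy0'⟩ := hS m ε' y' hH'.hS
    obtain ⟨⟨-, hy16⟩, g1, g2, g3, g4⟩ := hE' y hy0 (hye.trans (min_le_right _ _))
    obtain ⟨⟨-, hy16'⟩, g1', -⟩ := hE' y' hy0' (hye'.trans (min_le_right _ _))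
    rw [one_mul] at g1 g1'
    rw [Real.rpow_one] at g4
    have hyle : y ≤ 1 := hy16.trans (by norm_num)
    have hyle' : y' ≤ 1 := hy16'.trans (by norm_num)
    have hε : 0 < ε := (Real.rpow_pos_of_pos hy0 _).trans_le hH.sg
    have hε1 : ε ≤ 1 := hH.he.trans (P.es1.trans (by norm_num))
    have hε' : 0 < ε' := (Real.rpow_pos_of_pos hy0' _).trans_le hH'.sg
    have hε1' : ε' ≤ 1 := hH'.he.trans (P.es1.trans (by norm_num))
    have hεy : ε ≤ y := by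
      have h5 := hH.sh.trans (Real.rpow_le_rpow_of_exponent_ge hy0 hyle
        (show (1 : ℝ) ≤ 2 - 4 * σ by linarith))
      rwa [Real.rpow_one] at h5
    have hwW : max W 5 + 1 ≤ P.w ε := by
      have h5 : (2 : ℝ) ^ (max W 5 + 1) ≤ 2 ^ ((P.w ε : ℕ) : ℝ) := by
        have h6 : (2 : ℝ) ^ (max W 5 + 1) ≤ y ^ (-P.thp) := by
          rw [Real.rpow_neg hy0.le, ← one_div, le_div_iff₀ (Real.rpow_pos_of_pos hy0 _)]
          exact g2
        have h7 : y ^ (-P.thp) ≤ ε ^ (-P.thp) :=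
          Real.rpow_le_rpow_of_nonpos hε hεy (by have := P.thp0; linarith)
        rw [Real.rpow_natCast]
        exact h6.trans (h7.trans (two_lg_ge hε))
      exact (Real.rpow_le_rpow_left_iff one_lt_two).1 h5
    have hW : W ≤ (P.w ε : ℕ) := by
      have := le_max_left W 5
      linarith
    have h24 : 24 ≤ P.x1 * Real.logb 2 (1 / y) := by
      have h5 : (2 : ℝ) ^ (24 : ℝ) ≤ (1 / y) ^ P.x1 := by
        rw [one_div, Real.inv_rpow hy0.le, ← one_div,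
          le_div_iff₀ (Real.rpow_pos_of_pos hy0 _)]
        exact g3
      have h6 := Real.logb_le_logb_of_le one_lt_two (by positivity) h5
      rwa [Real.logb_rpow (by norm_num) (by norm_num),
        Real.logb_rpow_eq_mul_logb_of_pos (by positivity)] at h6
    have hlog2 : |Real.log y' - Real.log y| ≤ 1 / 2 := hlog.trans (min_le_right _ _)
    obtain ⟨hx4, hx2⟩ := xE_next hP hσ0 hσ20 hy0 hyle hy0' hyle' hH hH' hlog2 h24
    have hyy : y ≤ 3 * y' := (sq_near hy0' hy0 le_rfl (by rw [abs_sub_comm]; exact hlog2)).2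
    obtain ⟨j, hj, hsj⟩ := hs
    obtain ⟨j', hj', hsj'⟩ := hs'
    have hTBn := TB.base hP hε hε1 n
    have hTBm := TB.base hP hε' hε1' m
    have hxw : P.xE ε ≤ (P.q0 - 2) * P.w ε := by
      apply H972.xE_le_w _ hε hε1
      rw [Nat.cast_sub hP.hq]
      exact hP.hq2
    have hkx : P.kE ε ≤ 2 * P.xE ε := by
      have hthx : P.th ≤ P.x1 := by
        have := hP.hx
        have := P.thp0
        have := P.th0
        linarith
      have : P.kE ε ≤ P.xE ε := H972.lg_mono hthx hε hε1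
      omega
    have hTB : TB P n ε (m + 3 * P.xE ε') := by
      have h5 : (P.q0 - 2) * (4 * P.w ε) = 4 * ((P.q0 - 2) * P.w ε) := by ring
      exact ⟨⟨by omega, by omega⟩, by omega⟩
    have hr4 : ((m + 3 * P.xE ε' : ℕ) : ℝ) ≤ n + 4 * P.q0 * (P.w ε : ℕ) := by
      have h5 : m + 3 * P.xE ε' ≤ n + 4 * (P.q0 * P.w ε) := by
        have h6 : (P.q0 - 2) * P.w ε ≤ P.q0 * P.w ε := Nat.mul_le_mul_right _ (Nat.sub_le _ _)
        omega
      have h6 : ((m + 3 * P.xE ε' : ℕ) : ℝ) ≤ ((n + 4 * (P.q0 * P.w ε) : ℕ) : ℝ) := by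
        exact_mod_cast h5
      refine h6.trans (le_of_eq ?_)
      push_cast
      ring
    have hD := ld_of2 hP hσ0 hσ hFL hG hH hy0 hy16 hx g1 hj hTB.1
      (L9_next hP hy0 g4 hy0' hyy hε hε1 hε' hε1' (hy2 n ε y hH hy0 hyle)
        (hy2 m ε' y' hH' hy0' hyle') hm)
    have hD' := ld_of2 hP hσ0 hσ hFL hG' hH' hy0' hy16' hx' g1' hj' hTBm.1
      (L9_base hP hy0' hy16' hε' hε1' (hy2 m ε' y' hH' hy0' hyle') m)
    have hjr : j ≤ m + 3 * P.xE ε' := (hD.nb.jn hy0 hyle hC10.le).trans hD.nb.nr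
    have hjr' : j' ≤ m + 3 * P.xE ε' := (hD'.nb.jn hy0' hyle' hC10.le).trans hD'.nb.nr
    haveI := neZ hjr
    haveI := neZ hjr'
    have hX := hj.tor _ _ hTBn hTB
    rw [aT_eq (r := m + 3 * P.xE ε') hjr] at hX
    have hfin := hE n m (m + 3 * P.xE ε') j j' (P.w ε) y y' (a n) (a m) _ _
      (aT b n (n + 3 * P.xE ε) j)
      hy0 (hye.trans (min_le_left _ _)) hy0' (hye'.trans (min_le_left _ _))
      (hlog.trans (min_le_left _ _)) hm hW hr4 hD hD' (lv_eq hjr (hj.lv _ hTB))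
      (lv_eq hjr' (hj'.lv _ hTBm)) hX
    rw [hsj, hsj', aT_eq (r := m + 3 * P.xE ε') hjr']
    rw [one_div, one_div] at hfin
    exact hfin

end

end Vale.Agent.P159.H114
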