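import Vale.Agent.P159.H114.Slp1

/-!
P159 (helper114): flat profile of the cells at the natural scalar mass from the flat profile of the
sites (helper375's `PinC_rel`, helper280's TOP1 / TOP3).
-/

namespace Vale.Agent.P159.H114

open Finset Filter Topology
open Vale.Agent.P159.TM.H764 (cN dt EE pw)
open Vale.Agent.P159.TM.Spec (V)
open Vale.Agent.P159.H462 (aq Pst)
open Vale.Agent.P159.H972 (Par tn FL)
open Vale.Agent.P159.H864 (cen rd rd1)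
open Vale.Agent.P159.H963 (PinC Pin Gnh)
open Vale.Agent.P159.H37 (Pik)

noncomputable section

set_option linter.unusedSectionVars false

/-- arithmetic of the low momenta, first part -/
lemma flat_b3 {u v ν D C F G b W s : ℝ} (hu : 0 ≤ u) (hs0 : 0 ≤ s) (hu2 : u ^ 2 = ν * (u * s))
    (hv0 : 0 ≤ v) (hv3 : v ≤ 3 * u) (hν : 0 < ν) (hG : 1 ≤ G) (hνG : ν ≤ G / 16 * u) (hF : 0 ≤ F)
    (hC : 0 ≤ C) (hb : 0 ≤ b) (hGF : G * F ≤ W) (hGν : G * ν ≤ W) (hνW : ν ≤ W) :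
    2 * D ^ 2 * (C * F * (ν + v) + 6 * b * (ν + v) ^ 2) ≤
      D ^ 2 * (8 * C + 228 * b) * W * (u * (1 + s)) := by
  have hus : 0 ≤ u * s := mul_nonneg hu hs0
  have hW0 : 0 ≤ W := hν.le.trans hνW
  have hGu : u ≤ G * u := le_mul_of_one_le_left hu hG
  have hX : ν + v ≤ 4 * G * u := by linarith
  have hX2 : (ν + v) ^ 2 ≤ G * ν * u + 18 * (ν * (u * s)) := by
    have h1 : v ^ 2 ≤ 9 * u ^ 2 := by
      have := pow_le_pow_left₀ hv0 hv3 2
      linarith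
    have h2 : ν ^ 2 ≤ ν * (G / 16 * u) := by
      rw [pow_two]
      exact mul_le_mul_of_nonneg_left hνG hν.le
    have h3 : 0 ≤ G * ν * u := by positivity
    have h4 : (ν + v) ^ 2 ≤ 2 * ν ^ 2 + 2 * v ^ 2 := by nlinarith [sq_nonneg (ν - v)]
    rw [← hu2]
    linarith
  have b1 : C * F * (ν + v) ≤ 4 * C * W * u := by
    calc C * F * (ν + v) ≤ C * F * (4 * G * u) := mul_le_mul_of_nonneg_left hX (by positivity)
      _ = 4 * C * u * (G * F) := by ring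
      _ ≤ 4 * C * u * W := mul_le_mul_of_nonneg_left hGF (by positivity)
      _ = _ := by ring
  have b2 : 6 * b * (ν + v) ^ 2 ≤ 6 * b * (W * u) + 108 * b * (W * (u * s)) := by
    calc 6 * b * (ν + v) ^ 2 ≤ 6 * b * (G * ν * u + 18 * (ν * (u * s))) :=
          mul_le_mul_of_nonneg_left hX2 (by positivity)
      _ = 6 * b * (G * ν * u) + 108 * b * (ν * (u * s)) := by ring
      _ ≤ _ := by gcongr
  have h1 : C * F * (ν + v) + 6 * b * (ν + v) ^ 2 ≤ (4 * C + 114 * b) * W * (u * (1 + s)) := by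
    have h2 : 0 ≤ C * W * (u * s) := by positivity
    have h3 : 0 ≤ b * W * u := by positivity
    have h4 : 0 ≤ b * W * (u * s) := by positivity
    have e : (4 * C + 114 * b) * W * (u * (1 + s)) = 4 * C * W * u + 4 * (C * W * (u * s)) +
        114 * (b * W * u) + 114 * (b * W * (u * s)) := by ring
    rw [e]
    have e2 : 6 * b * (W * u) + 108 * b * (W * (u * s)) = 6 * (b * W * u) +
        108 * (b * W * (u * s)) := by ring
    rw [e2] at b2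
    linarith
  have h2 := mul_le_mul_of_nonneg_left h1 (by positivity : 0 ≤ 2 * D ^ 2)
  refine h2.trans (le_of_eq ?_)
  ring

/-- arithmetic of the low momenta, second part -/
lemma flat_b4 {u v ν η a a' lz Q W s : ℝ} (hu : 0 ≤ u) (hs0 : 0 ≤ s) (hu2 : u ^ 2 = ν * (u * s))
    (hv0 : 0 ≤ v) (hvu : |v - u| ≤ u ^ 2) (hv3 : v ≤ 3 * u) (hν : 0 < ν) (hη : 0 ≤ η)
    (hlz0 : 0 ≤ lz) (hlz : lz ≤ η * v / 16) (ha' : |a' - a| ≤ η) (ha : |a| ≤ 2)
    (hQ : |Q - lz - a' * v| ≤ η * v ^ 2 / ν) (hηW : η ≤ W) (hνW : ν ≤ W) :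
    |Q - a * u| ≤ 15 * W * (u * (1 + s)) := by
  have hus : 0 ≤ u * s := mul_nonneg hu hs0
  have hW0 : 0 ≤ W := hη.trans hηW
  have hηu : η * v ^ 2 / ν ≤ 9 * (W * (u * s)) := by
    rw [div_le_iff₀ hν]
    have h1 : v ^ 2 ≤ 9 * (ν * (u * s)) := by
      rw [← hu2]
      have := pow_le_pow_left₀ hv0 hv3 2
      linarith
    calc η * v ^ 2 ≤ W * (9 * (ν * (u * s))) := mul_le_mul hηW h1 (sq_nonneg _) hW0
      _ = _ := by ring
  have e : Q - a * u = (Q - lz - a' * v) + lz + (a' - a) * v + a * (v - u) := by ring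
  rw [e]
  have h1 : |(a' - a) * v| ≤ 3 * (W * u) := by
    rw [abs_mul, abs_of_nonneg hv0]
    calc |a' - a| * v ≤ W * (3 * u) := mul_le_mul (ha'.trans hηW) hv3 hv0 hW0
      _ = _ := by ring
  have h2 : |a * (v - u)| ≤ 2 * (W * (u * s)) := by
    rw [abs_mul]
    calc |a| * |v - u| ≤ 2 * (ν * (u * s)) :=
          mul_le_mul ha (hvu.trans (le_of_eq hu2)) (abs_nonneg _) (by norm_num)
      _ ≤ _ := by gcongr
  have h3 : |lz| ≤ W * u := by
    rw [abs_of_nonneg hlz0]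
    have h4 : η * v / 16 ≤ W * (3 * u) / 16 :=
      div_le_div_of_nonneg_right (mul_le_mul hηW hv3 hv0 hW0) (by norm_num)
    have : 0 ≤ W * u := mul_nonneg hW0 hu
    linarith
  refine (abs_add_le _ _).trans ?_
  refine (add_le_add (abs_add_le _ _) le_rfl).trans ?_
  refine (add_le_add (add_le_add (abs_add_le _ _) le_rfl) le_rfl).trans ?_
  have h4 : 0 ≤ W * u := mul_nonneg hW0 hu
  have h5 : 0 ≤ W * (u * s) := mul_nonneg hW0 hus
  have e2 : 15 * W * (u * (1 + s)) = 15 * (W * u) + 15 * (W * (u * s)) := by ring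
  rw [e2]
  linarith

/-- arithmetic of the low momenta -/
lemma flat_low {u v ν D C F G b η a a' lz Q R : ℝ} (hu : 0 ≤ u) (hv0 : 0 ≤ v) (hvu : |v - u| ≤ u ^ 2)
    (hv3 : v ≤ 3 * u) (hν : 0 < ν) (hG : 1 ≤ G) (hνG : ν ≤ G / 16 * u) (hF : 0 ≤ F) (hC : 0 ≤ C)
    (hb : 0 ≤ b) (hη : 0 ≤ η) (hlz0 : 0 ≤ lz) (hlz : lz ≤ η * v / 16) (ha' : |a' - a| ≤ η)
    (ha : |a| ≤ 2) (hQ : |Q - lz - a' * v| ≤ η * v ^ 2 / ν)
    (hR : |R - Q| ≤ 2 * D ^ 2 * (C * F * (ν + v) + 6 * b * (ν + v) ^ 2)) :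
    |R - a * u| ≤ (D ^ 2 * (8 * C + 228 * b) + 15) * (η + G * (F + ν)) * (u * (1 + u / ν)) := by
  obtain ⟨s, hs⟩ : ∃ s, s = u / ν := ⟨_, rfl⟩
  have hs0 : 0 ≤ s := by rw [hs]; positivity
  have hu2 : u ^ 2 = ν * (u * s) := by
    rw [hs]
    field_simp
  rw [← hs]
  obtain ⟨W, hW⟩ : ∃ W, W = η + G * (F + ν) := ⟨_, rfl⟩
  rw [← hW]
  have hG0 : 0 ≤ G := zero_le_one.trans hG
  have g1 : 0 ≤ G * F := mul_nonneg hG0 hF
  have g2 : ν ≤ G * ν := le_mul_of_one_le_left hν.le hG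
  have hGF : G * F ≤ W := by rw [hW, mul_add]; linarith
  have hGν : G * ν ≤ W := by rw [hW, mul_add]; linarith
  have hνW : ν ≤ W := g2.trans hGν
  have hηW : η ≤ W := by rw [hW, mul_add]; linarith
  have b3 := flat_b3 (D := D) (C := C) (b := b) hu hs0 hu2 hv0 hv3 hν hG hνG hF hC hb hGF hGν hνW
  have b4 := flat_b4 hu hs0 hu2 hv0 hvu hv3 hν hη hlz0 hlz ha' ha hQ hηW hνW
  have e : R - a * u = (R - Q) + (Q - a * u) := by ring
  rw [e]
  refine (abs_add_le _ _).trans ((add_le_add (hR.trans b3) b4).trans (le_of_eq ?_))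
  ring

/-- arithmetic of the high momenta -/
lemma flat_high {u ν s0 R a K η G F : ℝ} (hu : s0 ≤ u) (hs0 : 0 < s0) (hν : 0 < ν) (hG : 1 ≤ G)
    (hF : 0 ≤ F) (hη : 0 ≤ η) (ha : |a| ≤ 2) (hR0 : 0 ≤ R) (hR : R ≤ K * u) (hK : 0 ≤ K) :
    |R - a * u| ≤ ((K + 2) / s0) * (η + G * (F + ν)) * (u * (1 + u / ν)) := by
  have hu0 : 0 < u := hs0.trans_le hu
  have h1 : |R - a * u| ≤ (K + 2) * u := by
    refine (abs_sub _ _).trans ?_
    rw [abs_mul, abs_of_nonneg hR0, abs_of_pos hu0]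
    have := mul_le_mul_of_nonneg_right ha hu0.le
    linarith
  have h2 : 1 ≤ 1 / s0 * u := by
    rw [one_div_mul_eq_div, le_div_iff₀ hs0]
    linarith
  have h3 : 1 / s0 * u = 1 / s0 * (ν * (u / ν)) := by
    field_simp
  have h4 : ν * (u / ν) ≤ (η + G * (F + ν)) * (1 + u / ν) := by
    have h5 : ν ≤ η + G * (F + ν) := by nlinarith [mul_nonneg (zero_le_one.trans hG) hF]
    have h6 : 0 ≤ u / ν := by positivity
    exact mul_le_mul h5 (by linarith) h6 (by linarith)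
  calc |R - a * u| ≤ (K + 2) * u * 1 := by rw [mul_one]; exact h1
    _ ≤ (K + 2) * u * (1 / s0 * u) := mul_le_mul_of_nonneg_left h2 (by positivity)
    _ = (K + 2) * u * (1 / s0 * (ν * (u / ν))) := by rw [h3]
    _ ≤ (K + 2) * u * (1 / s0 * ((η + G * (F + ν)) * (1 + u / ν))) := by gcongr
    _ = _ := by ring

variable {b : ℝ}

/-- low momenta -/
lemma cell_low {Ct C c D s0 T1 t1 : ℝ} (hb : 0 < b) (hD : D = 1 + Ct) (hCt : 0 < Ct) (hC : 0 < C)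
    (hs0d : s0 = 1 / (72 * D * (b + 1))) (hT1a : T1 ≤ t1) (hT1b : T1 ≤ 1) (hT10 : 0 < T1)
    (hT1c : T1 * (8 * D * (C + 6 * b + 1)) ≤ 1)
    (htop : ∀ (N : ℕ) [NeZero N] (t : ℝ), 0 < t → t ≤ t1 → ∀ k : V N, k ≠ 0 →
      Pik N b t k ≤ Ct * (t + EE k))
    (N l : ℕ) [NeZero N] [NeZero (N / l)] (T : ℝ) (hT : 0 < T) (hTT1 : T ≤ T1)
    (hl : l ∣ N) (hν : T * (l : ℝ) ^ 2 ≤ T1)
    (hF1 : √(T * (N : ℝ) ^ 2) * (T * (l : ℝ) ^ 2) ^ c ≤ T1) (p : V N) (hp0 : p ≠ 0)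
    (h3u : (l : ℝ) ^ 2 * EE p ≤ 3 * s0) :
    0 < T + Pin N b T p ∧ T + Pin N b T p ≤ D * (T + EE p) ∧
    H375.eFin C c N l T (T + EE p) =
      C / (T + EE p) * (√(T * (N : ℝ) ^ 2) * (T * (l : ℝ) ^ 2) ^ c) ∧
    0 ≤ H375.eFin C c N l T (T + EE p) + 6 * (l : ℝ) ^ 2 / (1 / b) ∧
    (T + Pin N b T p) * (H375.eFin C c N l T (T + EE p) + 6 * (l : ℝ) ^ 2 / (1 / b)) ≤ 1 / 2 := by
  have hlp : (0 : ℝ) < l := by exact_mod_cast H864.l_pos hl
  have hNp : (0 : ℝ) < N := by exact_mod_cast NeZero.pos N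
  have hEp0 := H462.EE_nonneg p
  have hD0 : 1 ≤ D := by rw [hD]; linarith
  set F := √(T * (N : ℝ) ^ 2) * (T * (l : ℝ) ^ 2) ^ c with hFd
  have hF0 : 0 ≤ F := by positivity
  have hpp : T + Pin N b T p ≤ D * (T + EE p) := by
    have h1 := (H963.Pin_le_Pik hb hT hp0).trans (htop N T hT (hTT1.trans hT1a) p hp0)
    rw [hD, add_mul, one_mul]
    linarith
  have hpp0 : 0 < T + Pin N b T p := by
    have := H963.Pin_nonneg (N := N) hb hT hp0
    linarith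
  have h0 : 0 < T + EE p := by linarith
  have e1 : H375.eFin C c N l T (T + EE p) = C / (T + EE p) * F := by
    unfold H375.eFin
    rw [hFd]
    ring
  have h1 : 0 ≤ H375.eFin C c N l T (T + EE p) + 6 * (l : ℝ) ^ 2 / (1 / b) := by
    rw [e1]
    positivity
  refine ⟨hpp0, hpp, e1, h1, ?_⟩
  refine (mul_le_mul_of_nonneg_right hpp h1).trans ?_
  rw [e1]
  have e2 : D * (T + EE p) * (C / (T + EE p) * F + 6 * (l : ℝ) ^ 2 / (1 / b)) =
      D * C * F + 6 * D * b * (T * (l : ℝ) ^ 2 + (l : ℝ) ^ 2 * EE p) := by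
    field_simp
  rw [e2]
  have h2 : D * C * F ≤ D * C * T1 := mul_le_mul_of_nonneg_left hF1 (by positivity)
  have h3 : 6 * D * b * (T * (l : ℝ) ^ 2 + (l : ℝ) ^ 2 * EE p) ≤ 6 * D * b * (T1 + 3 * s0) :=
    mul_le_mul_of_nonneg_left (by linarith) (by positivity)
  have h4 : 6 * D * b * (3 * s0) ≤ 1 / 4 := by
    rw [hs0d]
    have h5 : 6 * D * b * (3 * (1 / (72 * D * (b + 1)))) = (1 / 4) * (b / (b + 1)) := by
      field_simp
      norm_num
    rw [h5]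
    have h6 : b / (b + 1) ≤ 1 := by
      rw [div_le_one (by positivity)]
      linarith
    linarith
  have h5 : D * C * T1 + 6 * D * b * T1 ≤ 1 / 8 := by
    have h6 : 0 ≤ T1 * D := by positivity
    linarith
  linarith

/-- low momenta, flatness -/
lemma cell_flat_low {D C F c T η a a' z : ℝ} {N l : ℕ} [NeZero N] [NeZero (N / l)]
    (hb : 0 < b) (hC : 0 < C) (hT : 0 < T) (hTN : 9 ≤ T * (N : ℝ) ^ 2) (hl : l ∣ N)
    (hF0 : 0 ≤ F) (hη : 0 ≤ η) (ha : |a| ≤ 2) (hz0 : 0 ≤ z) (haa : |a' - a| ≤ η) {p : V N}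
    (hp : cen l p) (hp0 : p ≠ 0) (hz16 : z ≤ η * EE p / 16)
    (hflp : |Pin N b T p - z - a' * EE p| ≤ η * EE p ^ 2 / T)
    (hpp0 : 0 < T + Pin N b T p) (hpp : T + Pin N b T p ≤ D * (T + EE p))
    (e1 : H375.eFin C c N l T (T + EE p) = C / (T + EE p) * F)
    (h1 : 0 ≤ H375.eFin C c N l T (T + EE p) + 6 * (l : ℝ) ^ 2 / (1 / b))
    (hk : (rd p : V (N / l)) ≠ 0)
    (hrel : |PinC N l b T T (rd p) - Pin N b T p| ≤ 2 * (T + Pin N b T p) ^ 2 *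
      (H375.eFin C c N l T (T + EE p) + 6 * (l : ℝ) ^ 2 / (1 / b))) :
    |(l : ℝ) ^ 2 * PinC N l b T T (rd p) - a * EE (rd p : V (N / l))| ≤
      (D ^ 2 * (8 * C + 228 * b) + 15) * (η + (1 + T * (N : ℝ) ^ 2) * (F + T * (l : ℝ) ^ 2)) *
        (EE (rd p : V (N / l)) * (1 + EE (rd p : V (N / l)) / (T * (l : ℝ) ^ 2))) := by
  have hlp : (0 : ℝ) < l := by exact_mod_cast H864.l_pos hl
  have hNp : (0 : ℝ) < N := by exact_mod_cast NeZero.pos N
  have h3u := H280.EE_cen_rd hl hp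
  have hsub := EE_rd_sub hl hp
  have hu0 := H462.EE_nonneg (rd p : V (N / l))
  have hEp0 := H462.EE_nonneg p
  have hlow := EE_low hk
  obtain ⟨u, hu⟩ : ∃ u, u = EE (rd p : V (N / l)) := ⟨_, rfl⟩
  obtain ⟨R, hRd⟩ : ∃ R, R = (l : ℝ) ^ 2 * PinC N l b T T (rd p) := ⟨_, rfl⟩
  obtain ⟨v, hv⟩ : ∃ v, v = (l : ℝ) ^ 2 * EE p := ⟨_, rfl⟩
  obtain ⟨ν, hνd⟩ : ∃ ν, ν = T * (l : ℝ) ^ 2 := ⟨_, rfl⟩
  obtain ⟨G, hG⟩ : ∃ G, G = 1 + T * (N : ℝ) ^ 2 := ⟨_, rfl⟩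
  have hν0 : 0 < ν := by rw [hνd]; positivity
  have hG1 : 1 ≤ G := by rw [hG]; linarith
  have hv0 : 0 ≤ v := by rw [hv]; positivity
  have hX : (l : ℝ) ^ 2 * (T + EE p) = ν + v := by rw [hνd, hv]; ring
  have hνG : ν ≤ G / 16 * u := by
    have h2 : ((N / l : ℕ) : ℝ) = N / l := Nat.cast_div hl hlp.ne'
    rw [h2, ← hu] at hlow
    have h3 : 16 / ((N : ℝ) / l) ^ 2 = 16 * ν / (T * (N : ℝ) ^ 2) := by
      rw [hνd]
      field_simp
    rw [← hu] at hu0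
    rw [h3, div_le_iff₀ (by positivity)] at hlow
    have h4 : u * (T * (N : ℝ) ^ 2) ≤ u * G := mul_le_mul_of_nonneg_left (by rw [hG]; linarith) hu0
    linarith
  have hR : |R - (l : ℝ) ^ 2 * Pin N b T p| ≤
      2 * D ^ 2 * (C * F * (ν + v) + 6 * b * (ν + v) ^ 2) := by
    rw [hRd, ← mul_sub, abs_mul, abs_of_pos (by positivity : 0 < (l : ℝ) ^ 2)]
    refine (mul_le_mul_of_nonneg_left hrel (by positivity)).trans ?_
    have h0 : 0 < T + EE p := by linarith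
    have h2 : (T + Pin N b T p) ^ 2 ≤ (D * (T + EE p)) ^ 2 := pow_le_pow_left₀ hpp0.le hpp 2
    calc (l : ℝ) ^ 2 * (2 * (T + Pin N b T p) ^ 2 * (H375.eFin C c N l T (T + EE p) +
          6 * (l : ℝ) ^ 2 / (1 / b))) ≤
        (l : ℝ) ^ 2 * (2 * (D * (T + EE p)) ^ 2 * (H375.eFin C c N l T (T + EE p) +
          6 * (l : ℝ) ^ 2 / (1 / b))) := by gcongr
      _ = 2 * D ^ 2 * (C * F * ((l : ℝ) ^ 2 * (T + EE p)) +
          6 * b * ((l : ℝ) ^ 2 * (T + EE p)) ^ 2) := by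
          rw [e1]
          field_simp
      _ = _ := by rw [hX]
  have hQ : |(l : ℝ) ^ 2 * Pin N b T p - (l : ℝ) ^ 2 * z - a' * v| ≤ η * v ^ 2 / ν := by
    have e2 : (l : ℝ) ^ 2 * Pin N b T p - (l : ℝ) ^ 2 * z - a' * v =
        (l : ℝ) ^ 2 * (Pin N b T p - z - a' * EE p) := by rw [hv]; ring
    rw [e2, abs_mul, abs_of_pos (by positivity : 0 < (l : ℝ) ^ 2)]
    refine (mul_le_mul_of_nonneg_left hflp (by positivity)).trans (le_of_eq ?_)
    rw [hv, hνd]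
    field_simp
  have hlz : (l : ℝ) ^ 2 * z ≤ η * v / 16 := by
    have := mul_le_mul_of_nonneg_left hz16 (sq_nonneg (l : ℝ))
    refine this.trans (le_of_eq ?_)
    rw [hv]
    ring
  rw [← hu, ← hRd, ← hνd, ← hG]
  rw [← hu] at hu0 h3u hsub
  rw [← hv] at h3u hsub
  exact flat_low (D := D) (C := C) (F := F) (G := G) (b := b) (a := a) hu0 hv0 hsub h3u
    hν0 hG1 hνG hF0 hC.le hb.le hη (by positivity) hlz haa ha hQ hR

/-- the profile at low momenta of the sites -/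
lemma Pin_le5 {N : ℕ} [NeZero N] {T η a' z : ℝ} (hT : 0 < T) (hη1 : η ≤ 1) (ha3 : a' ≤ 3)
    (hzN : z * (N : ℝ) ^ 2 ≤ η) {p : V N} (hp : p ≠ 0) (hpT : EE p ≤ 1 * T)
    (hfl : |Pin N b T p - z - a' * EE p| ≤ η * EE p ^ 2 / T) : Pin N b T p ≤ 5 * EE p := by
  have hNp : (0 : ℝ) < N := by exact_mod_cast NeZero.pos N
  have h1 := (abs_le.1 hfl).2
  have h2 := EE_low hp
  have h3 := H462.EE_nonneg p
  have h4 : z ≤ EE p := by
    have h5 : z ≤ 1 / (N : ℝ) ^ 2 := by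
      rw [le_div_iff₀ (by positivity)]
      exact hzN.trans hη1
    have h6 : 1 / (N : ℝ) ^ 2 ≤ 16 / (N : ℝ) ^ 2 :=
      div_le_div_of_nonneg_right (by norm_num) (by positivity)
    exact h5.trans (h6.trans h2)
  have h5 : η * EE p ^ 2 / T ≤ EE p := by
    rw [div_le_iff₀ hT]
    have h6 : EE p ^ 2 ≤ EE p * T := by
      rw [pow_two]
      exact mul_le_mul_of_nonneg_left (hpT.trans (by rw [one_mul])) h3
    have h7 : η * EE p ^ 2 ≤ 1 * (EE p * T) := mul_le_mul hη1 h6 (sq_nonneg _) zero_le_one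
    rwa [one_mul] at h7
  have h8 : a' * EE p ≤ 3 * EE p := mul_le_mul_of_nonneg_right ha3 h3
  linarith

/-- **flat profile of the cells** -/
theorem cell_flat (hb : 0 < b) (hh : 0 < helicity b) (hs : 1 / helicity b < 5 / 2) :
    ∃ K c T1 : ℝ, 1 ≤ K ∧ 0 < c ∧ 0 < T1 ∧ ∀ (N l : ℕ) [NeZero N] [NeZero (N / l)] (T a η : ℝ),
      0 < T → T ≤ T1 → 9 ≤ T * (N : ℝ) ^ 2 → l ∣ N → T * (l : ℝ) ^ 2 ≤ T1 →
      √(T * (N : ℝ) ^ 2) * (T * (l : ℝ) ^ 2) ^ c ≤ T1 → FL b T a η N → 0 ≤ η → η ≤ 1 → |a| ≤ 2 →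
      ∀ k : V (N / l), |Pst N l b T k - a * EE k| ≤
        K * (η + (1 + T * (N : ℝ) ^ 2) * (√(T * (N : ℝ) ^ 2) * (T * (l : ℝ) ^ 2) ^ c +
          T * (l : ℝ) ^ 2)) * (EE k * (1 + EE k / (T * (l : ℝ) ^ 2))) := by
  obtain ⟨Ct, t1, hCt, ht1, htop⟩ := H280.top1 hb hh hs
  obtain ⟨C, c, hC, hc, hU⟩ := H375.PinC_rel (b := b) hb
  obtain ⟨D, hD⟩ : ∃ D : ℝ, D = 1 + Ct := ⟨_, rfl⟩
  have hD0 : 1 ≤ D := by rw [hD]; linarith
  obtain ⟨s0, hs0d⟩ : ∃ s0 : ℝ, s0 = 1 / (72 * D * (b + 1)) := ⟨_, rfl⟩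
  have hs0 : 0 < s0 := by rw [hs0d]; positivity
  obtain ⟨T1, hT1d⟩ : ∃ T1 : ℝ, T1 = min (min t1 1) (1 / (8 * D * (C + 6 * b + 1))) := ⟨_, rfl⟩
  have hT10 : 0 < T1 := by rw [hT1d]; positivity
  have hT1a : T1 ≤ t1 := by rw [hT1d]; exact (min_le_left _ _).trans (min_le_left _ _)
  have hT1b : T1 ≤ 1 := by rw [hT1d]; exact (min_le_left _ _).trans (min_le_right _ _)
  have hT1c : T1 * (8 * D * (C + 6 * b + 1)) ≤ 1 := by
    have : T1 ≤ 1 / (8 * D * (C + 6 * b + 1)) := by rw [hT1d]; exact min_le_right _ _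
    rwa [le_div_iff₀ (by positivity)] at this
  obtain ⟨K1, hK1⟩ : ∃ K1 : ℝ, K1 = D ^ 2 * (8 * C + 228 * b) + 15 := ⟨_, rfl⟩
  obtain ⟨K0, hK0⟩ : ∃ K0 : ℝ, K0 = 1000 * (1 + Ct) * (1 + 5) * (1 + 1 / 1) := ⟨_, rfl⟩
  obtain ⟨K2, hK2⟩ : ∃ K2 : ℝ, K2 = (K0 + 2) / s0 := ⟨_, rfl⟩
  have hK10 : 15 ≤ K1 := by rw [hK1]; have : 0 ≤ D ^ 2 * (8 * C + 228 * b) := by positivity
                            linarith
  have hK00 : 0 ≤ K0 := by rw [hK0]; positivity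
  have hK20 : 0 ≤ K2 := by rw [hK2]; positivity
  refine ⟨K1 + K2, c, T1, by linarith, hc, hT10, ?_⟩
  intro N l _ _ T a η hT hTT1 hTN hl hν hF1 hFL hη hη1 ha k
  have hlp : (0 : ℝ) < l := by exact_mod_cast H864.l_pos hl
  have hNp : (0 : ℝ) < N := by exact_mod_cast NeZero.pos N
  set ν := T * (l : ℝ) ^ 2 with hνd
  have hν0 : 0 < ν := by positivity
  set F := √(T * (N : ℝ) ^ 2) * ν ^ c with hFd
  have hF0 : 0 ≤ F := by positivity
  set G := 1 + T * (N : ℝ) ^ 2 with hG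
  have hG1 : 1 ≤ G := by rw [hG]; linarith
  have hW0 : 0 ≤ η + G * (F + ν) := by positivity
  by_cases hk : k = 0
  · rw [hk, EE_zero]
    unfold H462.Pst
    simp
  have hu0 := H462.EE_nonneg k
  set u := EE k with hu
  have hfac : 0 ≤ (η + G * (F + ν)) * (u * (1 + u / ν)) := by positivity
  have eP : Pst N l b T k = (l : ℝ) ^ 2 * PinC N l b T T k := by
    unfold H462.Pst
    rw [if_neg hk]
  obtain ⟨p, hp, hpk⟩ := H864.exists_cen hl k
  have hp0 := H280.ne_of_rd hl hpk hk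
  have hEp0 := H462.EE_nonneg p
  have hEpl := EE_low hp0
  obtain ⟨z, a', hz0, hzN, haa, hfl⟩ := hFL
  have hflp := hfl p hp0
  have hz16 : z ≤ η * EE p / 16 := by
    have h1 : z ≤ η / (N : ℝ) ^ 2 := by
      rw [le_div_iff₀ (by positivity)]
      exact hzN
    have h2 : η / (N : ℝ) ^ 2 ≤ η * EE p / 16 := by
      have h3 : η * (16 / (N : ℝ) ^ 2) ≤ η * EE p := mul_le_mul_of_nonneg_left hEpl hη
      have h4 : η / (N : ℝ) ^ 2 = η * (16 / (N : ℝ) ^ 2) / 16 := by ring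
      rw [h4]
      exact div_le_div_of_nonneg_right h3 (by norm_num)
    exact h1.trans h2
  have ha3 : a' ≤ 3 := by
    have h1 := (abs_le.1 haa).2
    have h2 := (abs_le.1 ha).2
    linarith
  by_cases hus : u ≤ s0
  · -- low momenta
    have h3u := H280.EE_cen_rd hl hp
    rw [hpk] at h3u
    obtain ⟨hpp0, hpp, e1, h1, hcond⟩ := cell_low hb hD hCt hC hs0d hT1a hT1b hT10 hT1c htop N l T
      hT hTT1 hl hν hF1 p hp0 (h3u.trans (by linarith))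
    have hrel := hU N l T T hT le_rfl hTN hl (hν.trans hT1b) (1 / b) (by positivity)
      (fun q => H276.Gnh_dom hb hT q) p hp hp0 hcond
    have hmain := cell_flat_low (D := D) (C := C) (F := F) (c := c) hb hC hT hTN hl hF0 hη ha hz0
      haa hp hp0 hz16 hflp hpp0 hpp e1 h1 (by rw [hpk]; exact hk) hrel
    rw [hpk] at hmain
    rw [eP]
    refine hmain.trans ?_
    rw [← hK1, mul_assoc, mul_assoc]
    exact mul_le_mul_of_nonneg_right (by linarith) hfac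
  · -- high momenta
    push Not at hus
    have htop3 := H280.top3 (C0 := 5) (κ := 1) hb hCt htop hl hT le_rfl (hTT1.trans hT1a)
      (hν.trans hT1b) one_pos (by norm_num)
      (fun p' hp' hpT => Pin_le5 hT hη1 ha3 hzN hp' hpT (hfl p' hp')) hk
    have hR0 : 0 ≤ Pst N l b T k := H462.Pst_nonneg hb hl hT k
    have hRle : Pst N l b T k ≤ K0 * u := by
      rw [eP]
      calc (l : ℝ) ^ 2 * PinC N l b T T k ≤ (l : ℝ) ^ 2 * (1000 * (1 + Ct) * (1 + 5) *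
            (1 + 1 / 1) * (EE k / (l : ℝ) ^ 2)) := mul_le_mul_of_nonneg_left htop3 (by positivity)
        _ = K0 * u := by
            rw [hK0, hu]
            field_simp
    have h := flat_high hus.le hs0 hν0 hG1 hF0 hη ha hR0 hRle hK00
    refine h.trans ?_
    rw [← hK2, mul_assoc, mul_assoc]
    exact mul_le_mul_of_nonneg_right (by linarith) hfac

end

end Vale.Agent.P159.H114
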