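import Vale.Agent.P159.H114.Slp2

/-!
P159 (helper114): one level and two levels in the letters of `LV`.
-/

namespace Vale.Agent.P159.H114

open Finset Filter Topology
open Vale.Agent.P159.TM.H764 (cN dt EE pw)
open Vale.Agent.P159.TM.Spec (V)
open Vale.Agent.P159.H462 (aq Pst)
open Vale.Agent.P159.H972 (Par tn FL)
open Vale.Agent.P159.H864 (cen rd rd1)
open Vale.Agent.P159.H963 (PinC Pin Gnh)

noncomputable section

set_option linter.unusedSectionVars false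

variable {b : ℝ}

/-- **one level** -/
theorem lvl (hb : 0 < b) : ∃ A : ℝ, 0 < A ∧ ∀ (q : ℕ) (μ : Fin (q + 1) → ℝ), RW q μ →
    ∀ ε0 : ℝ, 0 < ε0 → ∃ C B κ : ℝ, 0 ≤ C ∧ 1 ≤ B ∧ 0 < κ ∧ ∀ (N l : ℕ) [NeZero N]
      [NeZero (N / l)] (T τ y a η ξ c : ℝ) (xq : V (N / l) → ℝ), l ∣ N → 0 < T →
      T * (l : ℝ) ^ 2 * ξ ^ 2 = 1 → FP (N / l) (Pst N l b T) a η ξ B κ → 0 < τ →
      (N : ℝ) ^ 2 * τ * (1 + Real.log (((N / l : ℕ) : ℝ) / ξ)) ≤ 1 → 2 * (q + 1) < N / l →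
      0 < y → y ≤ 1 → 0 ≤ c → LV q μ c N l b T τ y xq →
      |pN q μ N l b T τ - aq N l b T - A * Real.log (((N / l : ℕ) : ℝ) / ξ) * y ^ 2| ≤
        (ε0 * Real.log (((N / l : ℕ) : ℝ) / ξ) + C) * y ^ 2 := by
  obtain ⟨A, hA, h⟩ := star_V
  refine ⟨A, hA, ?_⟩
  intro q μ hμ ε0 hε0
  have hc0 : 0 < min (1 / b) 1 := lt_min (by positivity) one_pos
  obtain ⟨C, B, κ, hC, hB, hκ, h2⟩ := h q μ hμ (min (1 / b) 1) ε0 hc0 (min_le_right _ _) hε0
  refine ⟨C + 1, B, κ, by positivity, hB, hκ, ?_⟩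
  intro N l _ _ T τ y a η ξ c xq hl hT hξ hF hτ hNτ hq hy hy1 hc hLV
  have hlp : (0 : ℝ) < l := by exact_mod_cast H864.l_pos hl
  have hNl : ((N / l : ℕ) : ℝ) = N / l := Nat.cast_div hl hlp.ne'
  have hlo : ∀ k : V (N / l), min (1 / b) 1 * EE k ≤ Pst N l b T k := fun k =>
    (mul_le_mul_of_nonneg_right (min_le_left _ _) (H462.EE_nonneg k)).trans (Pst_ge hb hl hT k)
  have hyc : y ^ (2 + c) ≤ y ^ 2 := by
    have h3 : y ^ (2 + c) ≤ y ^ (2 : ℝ) :=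
      Real.rpow_le_rpow_of_exponent_ge hy hy1 (by linarith)
    rwa [Real.rpow_two] at h3
  have hn2 : ((N / l : ℕ) : ℝ) ^ 2 * (τ * (l : ℝ) ^ 2) *
      (1 + Real.log (((N / l : ℕ) : ℝ) / ξ)) ≤ 1 := by
    have e : ((N / l : ℕ) : ℝ) ^ 2 * (τ * (l : ℝ) ^ 2) = (N : ℝ) ^ 2 * τ := by
      rw [hNl]
      field_simp
    rw [e]
    exact hNτ
  have h3 := h2 (N / l) (T * (l : ℝ) ^ 2) (τ * (l : ℝ) ^ 2) y (y ^ (2 + c)) a η ξ (Pst N l b T)
    (Pc N l b T τ) xq hξ hF hlo (by positivity) hn2 hq (Real.rpow_nonneg hy.le _) hyc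
    hLV.star
  have h4 := hLV.ext.trans hyc
  have h5 : pS q μ (N / l) (Pc N l b T τ) = pN q μ N l b T τ := rfl
  rw [h5] at h3
  rw [abs_le] at h3 h4 ⊢
  constructor <;> nlinarith [h3.1, h3.2, h4.1, h4.2]

/-- chain of two levels on one torus -/
lemma chain2 {X1 X4 B1 B4 y y' L1 L4 A ε C δ δ' pw : ℝ} (hA : 0 ≤ A) (hε : 0 ≤ ε) (hC : 0 ≤ C)
    (hL10 : 0 ≤ L1) (hL1 : L1 ≤ pw) (hL40 : 0 ≤ L4) (hL4 : L4 ≤ pw) (hδ' : δ' ≤ 1)
    (hy : |y ^ 2 - y' ^ 2| ≤ δ' * y ^ 2)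
    (h1 : |B1 - X1 - A * L1 * y ^ 2| ≤ (ε * L1 + C) * y ^ 2)
    (h4 : |B4 - X4 - A * L4 * y' ^ 2| ≤ (ε * L4 + C) * y' ^ 2) (h14 : |B1 - B4| ≤ δ * y ^ 2) :
    |X4 - X1 - A * (L1 - L4) * y ^ 2| ≤
      (3 * (ε * pw) + A * pw * δ' + (3 * C + δ)) * y ^ 2 := by
  have hy2 : 0 ≤ y ^ 2 := sq_nonneg y
  have hy2' : 0 ≤ y' ^ 2 := sq_nonneg y'
  have hyy : y' ^ 2 ≤ 2 * y ^ 2 := by
    have h5 := (abs_le.1 hy).1
    have h6 : δ' * y ^ 2 ≤ 1 * y ^ 2 := mul_le_mul_of_nonneg_right hδ' hy2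
    linarith
  have hpw0 : 0 ≤ pw := hL10.trans hL1
  have a1 : (ε * L1 + C) * y ^ 2 ≤ (ε * pw + C) * y ^ 2 :=
    mul_le_mul_of_nonneg_right (add_le_add (mul_le_mul_of_nonneg_left hL1 hε) le_rfl) hy2
  have a4 : (ε * L4 + C) * y' ^ 2 ≤ (ε * pw + C) * (2 * y ^ 2) :=
    mul_le_mul (add_le_add (mul_le_mul_of_nonneg_left hL4 hε) le_rfl) hyy hy2' (by positivity)
  have a5 : |A * L4 * (y ^ 2 - y' ^ 2)| ≤ A * pw * δ' * y ^ 2 := by
    rw [abs_mul, abs_of_nonneg (by positivity : 0 ≤ A * L4)]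
    calc A * L4 * |y ^ 2 - y' ^ 2| ≤ A * pw * (δ' * y ^ 2) :=
          mul_le_mul (mul_le_mul_of_nonneg_left hL4 hA) hy (abs_nonneg _) (by positivity)
      _ = _ := by ring
  have b1 := abs_le.1 h1
  have b4 := abs_le.1 h4
  have b14 := abs_le.1 h14
  have b5 := abs_le.1 a5
  have e : X4 - X1 - A * (L1 - L4) * y ^ 2 =
      (B1 - X1 - A * L1 * y ^ 2) - (B4 - X4 - A * L4 * y' ^ 2) - (B1 - B4) +
        A * L4 * (y ^ 2 - y' ^ 2) := by ring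
  rw [e, abs_le]
  constructor
  · linarith [b1.1, b4.2, b14.2, b5.1]
  · linarith [b1.2, b4.1, b14.1, b5.2]

/-- the letter is close to the stiffness -/
lemma near_of {N l q : ℕ} [NeZero N] [NeZero (N / l)] {μ : Fin (q + 1) → ℝ} (hμ : RW q μ)
    {T τ y a η ξ c B κ : ℝ} {xq : V (N / l) → ℝ}
    (hF : FP (N / l) (Pst N l b T) a η ξ B κ) (hB : 1 ≤ B) (hq : 2 * (q + 1) < N / l)
    (hLV : LV q μ c N l b T τ y xq) (hy : 0 < y) (ha : |a| ≤ 2) :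
    |aq N l b T - a| ≤ y ^ (2 + c) + Mw q μ * (y ^ (1 + c) + η * (1 + 40 * (q + 1) ^ 2) +
      20 * (q + 1) ^ 2 / ((N / l : ℕ) : ℝ) ^ 2) := by
  have hn : 0 < N / l := NeZero.pos _
  have hnr : (0 : ℝ) < ((N / l : ℕ) : ℝ) := by exact_mod_cast hn
  have hKK := KK_pos hn one_pos
  have hpi := Real.pi_pos
  have hξ0 := hF.hξ0
  have hξn : ξ ≤ ((N / l : ℕ) : ℝ) := by
    have := hF.hξN
    nlinarith
  have hη := hF.hη
  have hq1 : (1 : ℝ) ≤ ((q : ℝ) + 1) ^ 2 := one_le_pow₀ (by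
    have : (0 : ℝ) ≤ q := by positivity
    linarith)
  -- the sum of the symbol
  set g : V (N / l) → ℝ := fun k => xq k - a * (2 * (1 - cN k.1)) with hg
  have hg1 : ∀ i : Fin (q + 1), |xq (ax (jm (N / l) i)) - a * pw (jm (N / l) i) ^ 2| ≤
      (y ^ (1 + c) + η * (1 + 40 * (q + 1) ^ 2) + 20 * (q + 1) ^ 2 / ((N / l : ℕ) : ℝ) ^ 2) *
        pw (jm (N / l) i) ^ 2 := by
    intro i
    have h1 := hLV.near i
    have h2 := hF.hF (ax (jm (N / l) i))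
    have h3 := EE_ax_le (jm (N / l) i)
    have h4 := H462.EE_nonneg (ax (jm (N / l) i))
    have h5 : pw (jm (N / l) i) ^ 2 ≤ 40 * (q + 1) ^ 2 / ((N / l : ℕ) : ℝ) ^ 2 := by
      have h6 := pw_jm_le hq i
      have h7 := pow_le_pow_left₀ (by positivity) h6 2
      rw [mul_pow, sq_abs] at h7
      rw [le_div_iff₀ (by positivity)]
      refine h7.trans ?_
      have h8 : Real.pi ^ 2 ≤ 10 := by
        have := Real.pi_lt_d2
        nlinarith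
      have e : (2 * Real.pi * ((q : ℝ) + 1)) ^ 2 = 4 * Real.pi ^ 2 * (q + 1) ^ 2 := by ring
      rw [e]
      nlinarith
    have h6 : |EE (ax (jm (N / l) i)) - pw (jm (N / l) i) ^ 2| ≤
        pw (jm (N / l) i) ^ 2 * pw (jm (N / l) i) ^ 2 / 12 := by
      have h7 := H197.EE_ge' (ax (jm (N / l) i))
      have e1 : pw (ax (jm (N / l) i)).1 = pw (jm (N / l) i) := rfl
      have e2 : pw (ax (jm (N / l) i)).2 = 0 := by
        unfold ax pw
        simp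
      rw [e1, e2] at h7
      rw [abs_le]
      constructor
      · nlinarith
      · have : 0 ≤ pw (jm (N / l) i) ^ 2 * pw (jm (N / l) i) ^ 2 / 12 := by positivity
        linarith
    set u := EE (ax (jm (N / l) i)) with hu
    set w := pw (jm (N / l) i) ^ 2 with hw
    have hw0 : 0 ≤ w := by rw [hw]; positivity
    have h8 : u * ξ ^ 2 ≤ 40 * (q + 1) ^ 2 := by
      have h9 : u ≤ 40 * (q + 1) ^ 2 / ((N / l : ℕ) : ℝ) ^ 2 := h3.trans h5
      calc u * ξ ^ 2 ≤ 40 * (q + 1) ^ 2 / ((N / l : ℕ) : ℝ) ^ 2 * ((N / l : ℕ) : ℝ) ^ 2 :=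
            mul_le_mul h9 (pow_le_pow_left₀ hξ0.le hξn 2) (by positivity) (by positivity)
        _ = _ := by field_simp
    have h9 : |Pst N l b T (ax (jm (N / l) i)) - a * u| ≤ η * (1 + 40 * (q + 1) ^ 2) * w := by
      refine h2.trans ?_
      calc η * u * (1 + u * ξ ^ 2) ≤ η * w * (1 + 40 * (q + 1) ^ 2) := by gcongr
        _ = _ := by ring
    have h10 : |xq (ax (jm (N / l) i)) - Pst N l b T (ax (jm (N / l) i))| ≤ y ^ (1 + c) * w :=
      h1.trans (mul_le_mul_of_nonneg_left h3 (Real.rpow_nonneg hy.le _))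
    have h11 : |a * (u - w)| ≤ 20 * (q + 1) ^ 2 / ((N / l : ℕ) : ℝ) ^ 2 * w := by
      rw [abs_mul]
      calc |a| * |u - w| ≤ 2 * (w * w / 12) := mul_le_mul ha h6 (abs_nonneg _) (by norm_num)
        _ ≤ w * (40 * (q + 1) ^ 2 / ((N / l : ℕ) : ℝ) ^ 2) / 6 := by
            have := mul_le_mul_of_nonneg_left h5 hw0
            linarith
        _ ≤ _ := by
            have : 0 ≤ (q + 1) ^ 2 / ((N / l : ℕ) : ℝ) ^ 2 * w := by positivity
            have e : w * (40 * ((q : ℝ) + 1) ^ 2 / ((N / l : ℕ) : ℝ) ^ 2) / 6 =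
              (20 / 3) * ((q + 1) ^ 2 / ((N / l : ℕ) : ℝ) ^ 2 * w) := by ring
            have e2 : 20 * ((q : ℝ) + 1) ^ 2 / ((N / l : ℕ) : ℝ) ^ 2 * w =
              20 * ((q + 1) ^ 2 / ((N / l : ℕ) : ℝ) ^ 2 * w) := by ring
            rw [e, e2]
            linarith
    have e : xq (ax (jm (N / l) i)) - a * w = (xq (ax (jm (N / l) i)) -
        Pst N l b T (ax (jm (N / l) i))) + (Pst N l b T (ax (jm (N / l) i)) - a * u) +
        a * (u - w) := by ring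
    rw [e]
    refine (abs_add_le _ _).trans ((add_le_add (abs_add_le _ _) le_rfl).trans ?_)
    have e2 : (y ^ (1 + c) + η * (1 + 40 * ((q : ℝ) + 1) ^ 2) +
        20 * (q + 1) ^ 2 / ((N / l : ℕ) : ℝ) ^ 2) * w = y ^ (1 + c) * w +
        η * (1 + 40 * (q + 1) ^ 2) * w + 20 * (q + 1) ^ 2 / ((N / l : ℕ) : ℝ) ^ 2 * w := by ring
    rw [e2]
    exact add_le_add (add_le_add h10 h9) h11
  set Kt := y ^ (1 + c) + η * (1 + 40 * ((q : ℝ) + 1) ^ 2) +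
    20 * (q + 1) ^ 2 / ((N / l : ℕ) : ℝ) ^ 2 with hKt
  have hKt0 : 0 ≤ Kt := by
    rw [hKt]
    have := Real.rpow_nonneg hy.le (1 + c)
    positivity
  have hD : ∀ i : Fin (q + 1), |xq (ax (jm (N / l) i)) - a * pw (jm (N / l) i) ^ 2| ≤
      (Kt * KK (N / l) 1) * nd q i + 0 := by
    intro i
    refine (hg1 i).trans (le_of_eq ?_)
    rw [pw_sq_nd hq i]
    ring
  have hsum := rw_bound (μ := μ) (by positivity) le_rfl hD
  have e1 : pS q μ (N / l) xq - a = (∑ i, μ i * (xq (ax (jm (N / l) i)) -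
      a * pw (jm (N / l) i) ^ 2)) / KK (N / l) 1 := by
    have e2 : ∀ i : Fin (q + 1), μ i * (xq (ax (jm (N / l) i)) - a * pw (jm (N / l) i) ^ 2) =
        μ i * xq (ax (jm (N / l) i)) - (μ i * nd q i) * (a * KK (N / l) 1) := by
      intro i
      rw [pw_sq_nd hq i]
      ring
    simp only [e2]
    rw [Finset.sum_sub_distrib, ← Finset.sum_mul, hμ.s1, one_mul]
    unfold pS
    field_simp
  have h12 : |pS q μ (N / l) xq - a| ≤ Mw q μ * Kt := by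
    rw [e1, abs_div, abs_of_pos hKK, div_le_iff₀ hKK]
    refine hsum.trans (le_of_eq ?_)
    ring
  have h13 := hLV.ext
  have e3 : aq N l b T - a = -(pS q μ (N / l) xq - aq N l b T) + (pS q μ (N / l) xq - a) := by ring
  rw [e3]
  refine (abs_add_le _ _).trans ?_
  rw [abs_neg]
  exact add_le_add h13 h12

end

end Vale.Agent.P159.H114
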