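import Vale.Agent.P159.H114.Slp3
import Vale.Agent.P159.H276.DownT

/-!
P159 (helper114): numbers of the sharp relation: levels `2 ^ n`, tori `2 ^ r`, cells `2 ^ j`.
-/

namespace Vale.Agent.P159.H114

open Finset Filter Topology
open Vale.Agent.P159.TM.H764 (cN dt EE pw)
open Vale.Agent.P159.TM.Spec (V)
open Vale.Agent.P159.H462 (aq Pst)
open Vale.Agent.P159.H972 (Par tn FL)
open Vale.Agent.P159.H864 (cen rd rd1)
open Vale.Agent.P159.H963 (PinC Pin Gnh)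

noncomputable section

set_option linter.unusedSectionVars false

variable {b : ℝ}

lemma ev_one : ∀ᶠ y in 𝓝[>] (0 : ℝ), 0 < y ∧ y ≤ 1 / 16 := by
  filter_upwards [Ioc_mem_nhdsGT (show (0 : ℝ) < 1 / 16 by norm_num)] with y hy using hy

lemma tendsto_pow0 {a : ℝ} (ha : 0 < a) : Tendsto (fun y : ℝ => y ^ a) (𝓝[>] 0) (𝓝 0) := by
  have h := (Real.continuousAt_rpow_const 0 a (Or.inr ha.le)).tendsto
  rw [Real.zero_rpow ha.ne'] at h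
  exact h.mono_left nhdsWithin_le_nhds

lemma ev_pow {a r : ℝ} (K : ℝ) (ha : 0 < a) (hr : 0 < r) :
    ∀ᶠ y in 𝓝[>] (0 : ℝ), K * y ^ a ≤ r := by
  have h := (tendsto_pow0 ha).const_mul K
  rw [mul_zero] at h
  exact h.eventually (ge_mem_nhds hr)

lemma ev_log {a r : ℝ} {K : ℝ} (hK : 0 ≤ K) (ha : 0 < a) (hr : 0 < r) :
    ∀ᶠ y in 𝓝[>] (0 : ℝ), y ^ a * (1 + K * Real.log (1 / y)) ≤ r := by
  filter_upwards [ev_one, ev_pow (1 : ℝ) ha (half_pos hr),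
    ev_pow (K * (2 / a)) (half_pos ha) (half_pos hr)] with y hy h1 h2
  have hy0 := hy.1
  have h3 : Real.log (1 / y) ≤ (1 / y) ^ (a / 2) / (a / 2) :=
    Real.log_le_rpow_div (by positivity) (half_pos ha)
  have h4 : (1 / y) ^ (a / 2) = (y ^ (a / 2))⁻¹ := by
    rw [one_div, Real.inv_rpow hy0.le]
  have hp : 0 < y ^ (a / 2) := Real.rpow_pos_of_pos hy0 _
  have h5 : y ^ a = y ^ (a / 2) * y ^ (a / 2) := by
    rw [← Real.rpow_add hy0]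
    congr 1
    ring
  have h6 : y ^ a * (K * Real.log (1 / y)) ≤ K * (2 / a) * y ^ (a / 2) := by
    calc y ^ a * (K * Real.log (1 / y)) ≤ y ^ a * (K * ((1 / y) ^ (a / 2) / (a / 2))) := by gcongr
      _ = K * (2 / a) * y ^ (a / 2) := by
          rw [h4, h5]
          field_simp
  rw [one_mul] at h1
  have e : y ^ a * (1 + K * Real.log (1 / y)) = y ^ a + y ^ a * (K * Real.log (1 / y)) := by ring
  rw [e]
  linarith

/-! ### scales -/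

lemma tn_eq (n : ℕ) : tn n = ((2 : ℝ) ^ n)⁻¹ ^ 2 := by
  unfold H972.tn
  rw [inv_pow, ← pow_mul, mul_comm, pow_mul]
  norm_num

lemma sc1 {r j : ℕ} (h : j ≤ r) (n : ℕ) :
    ((2 ^ r / 2 ^ j : ℕ) : ℝ) = (2 : ℝ) ^ r / 2 ^ n * (2 ^ n / 2 ^ j) := by
  rw [Nat.cast_div (Nat.pow_dvd_pow 2 h) (by positivity)]
  push_cast
  field_simp

lemma sc2 (n j : ℕ) : tn n * ((2 ^ j : ℕ) : ℝ) ^ 2 * ((2 : ℝ) ^ n / 2 ^ j) ^ 2 = 1 := by
  rw [tn_eq]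
  push_cast
  field_simp

lemma sc2' (n j : ℕ) : tn n * ((2 ^ j : ℕ) : ℝ) ^ 2 = (((2 : ℝ) ^ n / 2 ^ j) ^ 2)⁻¹ :=
  eq_inv_of_mul_eq_one_left (sc2 n j)

lemma sc3 (n r : ℕ) : tn n * ((2 ^ r : ℕ) : ℝ) ^ 2 = ((2 : ℝ) ^ r / 2 ^ n) ^ 2 := by
  rw [tn_eq]
  push_cast
  field_simp

/-- the numbers of a level -/
structure Nb (C1 C2 θ y : ℝ) (n r j : ℕ) : Prop where
  nr : n ≤ r
  L9 : (2 : ℝ) ^ r / 2 ^ n ≤ y ^ (-9 : ℝ)
  Lθ : y ^ (-θ) ≤ (2 : ℝ) ^ r / 2 ^ n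
  up : (2 : ℝ) ^ j ≤ 2 ^ n * y ^ C1
  lo : 2 ^ n * y ^ C2 ≤ (2 : ℝ) ^ j

section nb

variable {C1 C2 θ y : ℝ} {n r j : ℕ}

lemma Nb.X1 (h : Nb C1 C2 θ y n r j) (hy : 0 < y) : y ^ (-C1) ≤ (2 : ℝ) ^ n / 2 ^ j := by
  have h1 := h.up
  have h2 := Real.rpow_pos_of_pos hy C1
  rw [Real.rpow_neg hy.le, inv_eq_one_div, div_le_div_iff₀ h2 (by positivity), one_mul]
  exact h1

lemma Nb.X2 (h : Nb C1 C2 θ y n r j) (hy : 0 < y) : (2 : ℝ) ^ n / 2 ^ j ≤ y ^ (-C2) := by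
  have h1 := h.lo
  have h2 := Real.rpow_pos_of_pos hy C2
  rw [Real.rpow_neg hy.le, inv_eq_one_div, div_le_div_iff₀ (by positivity) h2, one_mul]
  exact h1

lemma Nb.jn (h : Nb C1 C2 θ y n r j) (hy : 0 < y) (hy1 : y ≤ 1) (hC1 : 0 ≤ C1) : j ≤ n := by
  have h1 := h.up
  have h2 : y ^ C1 ≤ 1 := Real.rpow_le_one hy.le hy1 hC1
  have h3 : (2 : ℝ) ^ j ≤ 2 ^ n := by
    refine h1.trans ?_
    have : (2 : ℝ) ^ n * y ^ C1 ≤ 2 ^ n * 1 := mul_le_mul_of_nonneg_left h2 (by positivity)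
    linarith
  exact (pow_le_pow_iff_right₀ one_lt_two).1 h3

/-- the fine error -/
lemma Nb.F (h : Nb C1 C2 θ y n r j) (hy : 0 < y) {c : ℝ} (hc : 0 ≤ c) :
    √(tn n * ((2 ^ r : ℕ) : ℝ) ^ 2) * (tn n * ((2 ^ j : ℕ) : ℝ) ^ 2) ^ c ≤
      y ^ (2 * C1 * c - 9) ∧ tn n * ((2 ^ j : ℕ) : ℝ) ^ 2 ≤ y ^ (2 * C1) := by
  have h1 := h.X1 hy
  have h2 : (0 : ℝ) < y ^ (-C1) := Real.rpow_pos_of_pos hy _
  have h3 : tn n * ((2 ^ j : ℕ) : ℝ) ^ 2 ≤ y ^ (2 * C1) := by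
    rw [sc2']
    have h4 : (y ^ (-C1)) ^ 2 ≤ ((2 : ℝ) ^ n / 2 ^ j) ^ 2 := pow_le_pow_left₀ h2.le h1 2
    have h5 := inv_anti₀ (by positivity) h4
    refine h5.trans (le_of_eq ?_)
    rw [← Real.rpow_natCast (y ^ (-C1)) 2, ← Real.rpow_mul hy.le, ← Real.rpow_neg hy.le]
    congr 1
    push_cast
    ring
  refine ⟨?_, h3⟩
  rw [sc3, Real.sqrt_sq (by positivity)]
  have h4 : (0 : ℝ) ≤ tn n * ((2 ^ j : ℕ) : ℝ) ^ 2 := by
    rw [sc2']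
    positivity
  have h5 : (tn n * ((2 ^ j : ℕ) : ℝ) ^ 2) ^ c ≤ y ^ (2 * C1 * c) := by
    rw [Real.rpow_mul hy.le]
    exact Real.rpow_le_rpow h4 h3 hc
  calc (2 : ℝ) ^ r / 2 ^ n * (tn n * ((2 ^ j : ℕ) : ℝ) ^ 2) ^ c ≤
      y ^ (-9 : ℝ) * y ^ (2 * C1 * c) :=
        mul_le_mul h.L9 h5 (Real.rpow_nonneg h4 _) (Real.rpow_nonneg hy.le _)
    _ = y ^ (2 * C1 * c - 9) := by
        rw [← Real.rpow_add hy]
        congr 1
        ring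

lemma Nb.W (h : Nb C1 C2 θ y n r j) (hy : 0 < y) (hy1 : y ≤ 1) {c : ℝ} (hc : 0 ≤ c)
    (hC1 : 21 ≤ 2 * C1) (hC1c : 30 ≤ 2 * C1 * c) :
    (1 + tn n * ((2 ^ r : ℕ) : ℝ) ^ 2) * (√(tn n * ((2 ^ r : ℕ) : ℝ) ^ 2) *
      (tn n * ((2 ^ j : ℕ) : ℝ) ^ 2) ^ c + tn n * ((2 ^ j : ℕ) : ℝ) ^ 2) ≤ 4 * y ^ (3 : ℝ) := by
  obtain ⟨h1, h2⟩ := h.F hy hc
  have h3 : y ^ (2 * C1 * c - 9) ≤ y ^ (21 : ℝ) :=
    Real.rpow_le_rpow_of_exponent_ge hy hy1 (by linarith)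
  have h4 : y ^ (2 * C1) ≤ y ^ (21 : ℝ) := Real.rpow_le_rpow_of_exponent_ge hy hy1 hC1
  have h5 : 1 + tn n * ((2 ^ r : ℕ) : ℝ) ^ 2 ≤ 2 * y ^ (-18 : ℝ) := by
    rw [sc3]
    have h6 : ((2 : ℝ) ^ r / 2 ^ n) ^ 2 ≤ (y ^ (-9 : ℝ)) ^ 2 :=
      pow_le_pow_left₀ (by positivity) h.L9 2
    have h7 : (y ^ (-9 : ℝ)) ^ 2 = y ^ (-18 : ℝ) := by
      rw [← Real.rpow_natCast (y ^ (-9 : ℝ)) 2, ← Real.rpow_mul hy.le]
      norm_num
    have h8 : 1 ≤ y ^ (-18 : ℝ) := Real.one_le_rpow_of_pos_of_le_one_of_nonpos hy hy1 (by norm_num)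
    linarith
  have h6 : 0 ≤ √(tn n * ((2 ^ r : ℕ) : ℝ) ^ 2) * (tn n * ((2 ^ j : ℕ) : ℝ) ^ 2) ^ c +
      tn n * ((2 ^ j : ℕ) : ℝ) ^ 2 := by
    have : (0 : ℝ) ≤ tn n * ((2 ^ j : ℕ) : ℝ) ^ 2 := by
      rw [sc2']
      positivity
    positivity
  calc _ ≤ 2 * y ^ (-18 : ℝ) * (y ^ (21 : ℝ) + y ^ (21 : ℝ)) :=
        mul_le_mul h5 (add_le_add (h1.trans h3) (h2.trans h4)) h6
          (mul_nonneg zero_le_two (Real.rpow_nonneg hy.le _))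
    _ = 4 * (y ^ (-18 : ℝ) * y ^ (21 : ℝ)) := by ring
    _ = 4 * y ^ (3 : ℝ) := by
        rw [← Real.rpow_add hy]
        norm_num

end nb

/-- **flat profile of the cells, numbers** -/
theorem fp_of (hb : 0 < b) (hh : 0 < helicity b) (hs : 1 / helicity b < 5 / 2) :
    ∃ c T1 : ℝ, 0 < c ∧ 0 < T1 ∧ ∀ (C1 C2 c1 c2 B κ θ qx : ℝ) (q : ℕ), 21 ≤ 2 * C1 →
      30 ≤ 2 * C1 * c → 0 ≤ C2 → 0 < c1 → c1 < c2 → c2 ≤ 2 → 0 < κ → 0 < θ → 0 < qx →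
      ∀ᶠ y in 𝓝[>] (0 : ℝ), ∀ (n r j : ℕ) [NeZero (2 ^ r / 2 ^ j)] (a η : ℝ),
        Nb C1 C2 θ y n r j → 0 ≤ η → η ≤ 17 * y ^ (1 + c2) → |a - Real.pi / 2| ≤ 4 * y ^ qx →
        FL b (tn n) a η (2 ^ r) →
        FP (2 ^ r / 2 ^ j) (Pst (2 ^ r) (2 ^ j) b (tn n)) a (y ^ (1 + c1)) (2 ^ n / 2 ^ j) B κ ∧
        2 * (q + 1) < 2 ^ r / 2 ^ j ∧ |a| ≤ 2 ∧ η ≤ 1 ∧ tn n ≤ T1 ∧
        (9 : ℝ) ≤ tn n * ((2 ^ r : ℕ) : ℝ) ^ 2 := by
  obtain ⟨K, c, T1, hK, hc, hT1, h⟩ := cell_flat hb hh hs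
  refine ⟨c, T1, hc, hT1, ?_⟩
  intro C1 C2 c1 c2 B κ θ qx q hC1 hC1c hC2 hc1 hc12 hc22 hκ hθ hqx
  have hC10 : 0 < C1 := by linarith
  filter_upwards [ev_one, ev_pow (K * 21) (sub_pos.2 hc12) one_pos,
    ev_pow 1 (show 0 < 2 * C1 by positivity) hT1,
    ev_pow 1 (show 0 < 2 * C1 * c - 9 by linarith) hT1,
    ev_pow B hθ one_pos, ev_pow 3 hθ one_pos, ev_pow (2 * (q + 1) + 1) hθ one_pos,
    ev_pow B hC10 one_pos, ev_pow 4 hqx (show (0 : ℝ) < 4 / 10 by norm_num),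
    ev_pow 17 (show 0 < 1 + c2 by linarith) one_pos,
    ev_log (K := 9) (by norm_num) hqx (show 0 < κ / 4 by positivity),
    ev_log (K := 2 * (9 + C2)) (by positivity) (show 0 < 1 + c1 by linarith)
      (show 0 < κ / 4 by positivity)] with y hy1 g1 g2 g3 g4 g5 g6 g7 g8 g9 g10 g11
  intro n r j _ a η hN hη0 hη ha hFL
  obtain ⟨hy0, hy16⟩ := hy1
  have hyle : y ≤ 1 := hy16.trans (by norm_num)
  have hjn := hN.jn hy0 hyle hC10.le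
  have hjr : j ≤ r := hjn.trans hN.nr
  have hl : (2 ^ j : ℕ) ∣ 2 ^ r := Nat.pow_dvd_pow 2 hjr
  have hX1 := hN.X1 hy0
  have hX2 := hN.X2 hy0
  obtain ⟨hF1, hF2⟩ := hN.F hy0 hc.le
  have hθ1 : ∀ x : ℝ, x * y ^ θ ≤ 1 → x ≤ y ^ (-θ) := by
    intro x hx
    rw [Real.rpow_neg hy0.le, ← one_div, le_div_iff₀ (Real.rpow_pos_of_pos hy0 _)]
    exact hx
  have hL3 : (3 : ℝ) ≤ (2 : ℝ) ^ r / 2 ^ n := (hθ1 3 g5).trans hN.Lθ
  have hLB : B ≤ (2 : ℝ) ^ r / 2 ^ n := (hθ1 B g4).trans hN.Lθ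
  have hLq : 2 * ((q : ℝ) + 1) + 1 ≤ (2 : ℝ) ^ r / 2 ^ n := (hθ1 _ g6).trans hN.Lθ
  have hXB : B ≤ (2 : ℝ) ^ n / 2 ^ j := by
    refine le_trans ?_ hX1
    rw [Real.rpow_neg hy0.le, ← one_div, le_div_iff₀ (Real.rpow_pos_of_pos hy0 _)]
    exact g7
  have hη1 : η ≤ 1 := hη.trans g9
  have ha2 : |a| ≤ 2 := by
    have h1 := abs_le.1 (ha.trans g8)
    have h2 := Real.pi_gt_three
    have h3 := Real.pi_lt_d2
    rw [abs_le]
    constructor <;> linarith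
  have hX1' : (1 : ℝ) ≤ 2 ^ n / 2 ^ j := by
    rw [le_div_iff₀ (by positivity), one_mul]
    exact pow_le_pow_right₀ one_le_two hjn
  have htnT : tn n ≤ T1 := by
    have h1 : tn n ≤ tn n * ((2 ^ j : ℕ) : ℝ) ^ 2 := by
      refine le_mul_of_one_le_right (by rw [tn_eq]; positivity) ?_
      refine one_le_pow₀ ?_
      push_cast
      exact one_le_pow₀ one_le_two
    rw [one_mul] at g2
    exact h1.trans (hF2.trans g2)
  have h9 : (9 : ℝ) ≤ tn n * ((2 ^ r : ℕ) : ℝ) ^ 2 := by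
    rw [sc3]
    nlinarith
  have htn0 : 0 < tn n := by rw [tn_eq]; positivity
  have hflat := h (2 ^ r) (2 ^ j) (tn n) a η htn0 htnT h9 hl
    (hF2.trans (by rw [one_mul] at g2; exact g2)) (hF1.trans (by rw [one_mul] at g3; exact g3))
    hFL hη0 hη1 ha2
  have hW := hN.W hy0 hyle hc.le hC1 hC1c
  have hKW : K * (η + (1 + tn n * ((2 ^ r : ℕ) : ℝ) ^ 2) * (√(tn n * ((2 ^ r : ℕ) : ℝ) ^ 2) *
      (tn n * ((2 ^ j : ℕ) : ℝ) ^ 2) ^ c + tn n * ((2 ^ j : ℕ) : ℝ) ^ 2)) ≤ y ^ (1 + c1) := by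
    have h1 : y ^ (3 : ℝ) ≤ y ^ (1 + c2) :=
      Real.rpow_le_rpow_of_exponent_ge hy0 hyle (by linarith)
    have h2 : y ^ (1 + c2) = y ^ (1 + c1) * y ^ (c2 - c1) := by
      rw [← Real.rpow_add hy0]
      congr 1
      ring
    have h3 : 0 ≤ y ^ (1 + c1) := Real.rpow_nonneg hy0.le _
    calc _ ≤ K * (17 * y ^ (1 + c2) + 4 * y ^ (1 + c2)) :=
          mul_le_mul_of_nonneg_left (add_le_add hη (hW.trans (by linarith))) (by linarith)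
      _ = y ^ (1 + c1) * (K * 21 * y ^ (c2 - c1)) := by rw [h2]; ring
      _ ≤ y ^ (1 + c1) * 1 := mul_le_mul_of_nonneg_left g1 h3
      _ = _ := mul_one _
  have hcast := sc1 hjr n
  have hX0 : (0 : ℝ) < 2 ^ n / 2 ^ j := by positivity
  have hlogy : 0 ≤ Real.log (1 / y) := Real.log_nonneg (by
    rw [le_div_iff₀ hy0]
    linarith)
  have hlogneg : ∀ x : ℝ, Real.log (y ^ (-x)) = x * Real.log (1 / y) := by
    intro x
    rw [Real.log_rpow hy0, one_div, Real.log_inv]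
    ring
  refine ⟨⟨hX0, hXB, ?_, Real.rpow_nonneg hy0.le _, ?_, ?_, ?_⟩, ?_, ha2, hη1, htnT, h9⟩
  · rw [hcast]
    exact mul_le_mul_of_nonneg_right hLB hX0.le
  · intro k
    refine (hflat k).trans ?_
    have hE := H462.EE_nonneg k
    have e : EE k / (tn n * ((2 ^ j : ℕ) : ℝ) ^ 2) = EE k * ((2 : ℝ) ^ n / 2 ^ j) ^ 2 := by
      rw [sc2', div_inv_eq_mul]
    rw [e, mul_assoc (y ^ (1 + c1))]
    exact mul_le_mul_of_nonneg_right hKW (by positivity)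
  · rw [hcast, mul_div_assoc, div_self hX0.ne', mul_one]
    have h1 : Real.log ((2 : ℝ) ^ r / 2 ^ n) ≤ 9 * Real.log (1 / y) := by
      rw [← hlogneg]
      exact Real.log_le_log (by positivity) hN.L9
    have h2 : 0 ≤ 1 + Real.log ((2 : ℝ) ^ r / 2 ^ n) := by
      have := Real.log_nonneg (show (1 : ℝ) ≤ (2 : ℝ) ^ r / 2 ^ n by linarith)
      linarith
    calc |a - Real.pi / 2| * (1 + Real.log ((2 : ℝ) ^ r / 2 ^ n)) ≤
        4 * y ^ qx * (1 + 9 * Real.log (1 / y)) :=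
          mul_le_mul ha (by linarith) h2 (by positivity)
      _ = 4 * (y ^ qx * (1 + 9 * Real.log (1 / y))) := by ring
      _ ≤ 4 * (κ / 4) := mul_le_mul_of_nonneg_left g10 (by norm_num)
      _ = κ := by ring
  · have h1 : (((2 ^ r / 2 ^ j : ℕ) : ℝ)) ≤ y ^ (-(9 + C2)) := by
      rw [hcast]
      calc (2 : ℝ) ^ r / 2 ^ n * (2 ^ n / 2 ^ j) ≤ y ^ (-9 : ℝ) * y ^ (-C2) :=
            mul_le_mul hN.L9 hX2 hX0.le (Real.rpow_nonneg hy0.le _)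
        _ = _ := by
            rw [← Real.rpow_add hy0]
            congr 1
            ring
    have h2 : 1 + 9 * (((2 ^ r / 2 ^ j : ℕ) : ℝ)) ^ 2 ≤ 10 * (y ^ (-(9 + C2))) ^ 2 := by
      have h3 := pow_le_pow_left₀ (by positivity) h1 2
      have h4 : 1 ≤ (y ^ (-(9 + C2))) ^ 2 := one_le_pow₀
        (Real.one_le_rpow_of_pos_of_le_one_of_nonpos hy0 hyle (by linarith))
      linarith
    have h3 : Real.log (1 + 9 * (((2 ^ r / 2 ^ j : ℕ) : ℝ)) ^ 2) ≤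
        3 + 2 * ((9 + C2) * Real.log (1 / y)) := by
      have hp : 0 < y ^ (-(9 + C2)) := Real.rpow_pos_of_pos hy0 _
      refine (Real.log_le_log (by positivity) h2).trans ?_
      rw [Real.log_mul (by norm_num) (by positivity), Real.log_pow, hlogneg]
      have h4 : Real.log 10 ≤ 3 := by
        rw [Real.log_le_iff_le_exp (by norm_num)]
        have h5 := Real.exp_one_gt_d9
        have h6 : Real.exp 3 = Real.exp 1 ^ 3 := by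
          rw [← Real.exp_nat_mul]
          norm_num
        rw [h6]
        have h7 : (2.7 : ℝ) ^ 3 ≤ Real.exp 1 ^ 3 := pow_le_pow_left₀ (by norm_num) (by linarith) 3
        norm_num at h7
        linarith
      push_cast
      linarith
    have h4 : 0 ≤ y ^ (1 + c1) := Real.rpow_nonneg hy0.le _
    calc y ^ (1 + c1) * (1 + Real.log (1 + 9 * (((2 ^ r / 2 ^ j : ℕ) : ℝ)) ^ 2)) ≤
        y ^ (1 + c1) * (4 * (1 + 2 * (9 + C2) * Real.log (1 / y))) := by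
          refine mul_le_mul_of_nonneg_left ?_ h4
          have : 0 ≤ (9 + C2) * Real.log (1 / y) := by positivity
          linarith
      _ = 4 * (y ^ (1 + c1) * (1 + 2 * (9 + C2) * Real.log (1 / y))) := by ring
      _ ≤ 4 * (κ / 4) := mul_le_mul_of_nonneg_left g11 (by norm_num)
      _ = κ := by ring
  · have h1 : ((2 * (q + 1) : ℕ) : ℝ) < ((2 ^ r / 2 ^ j : ℕ) : ℝ) := by
      rw [hcast]
      push_cast
      have h2 : (2 : ℝ) ^ r / 2 ^ n ≤ (2 : ℝ) ^ r / 2 ^ n * (2 ^ n / 2 ^ j) :=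
        le_mul_of_one_le_right (by positivity) hX1'
      linarith
    exact_mod_cast h1

end

end Vale.Agent.P159.H114
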