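import Vale.Agent.P159.H114.Slp4

/-!
P159 (helper114): two levels on one torus, numbers.
-/

namespace Vale.Agent.P159.H114

open Finset Filter Topology
open Vale.Agent.P159.TM.H764 (cN dt EE pw)
open Vale.Agent.P159.TM.Spec (V)
open Vale.Agent.P159.H462 (aq Pst)
open Vale.Agent.P159.H972 (Par tn FL)
open Vale.Agent.P159.H864 (cen rd rd1)
open Vale.Agent.P159.H963 (PinC Pin Gnh)

noncomputable section

set_option linter.unusedSectionVars false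

variable {b : ℝ}

/-- upper bound of the self energy of the sites at low momenta and tiny mass -/
lemma Pin_six (hb : 0 < b) {N q : ℕ} [NeZero N] {T a η τ : ℝ} (hT : 0 < T) (hη1 : η ≤ 1)
    (ha : |a| ≤ 2) (hFL : FL b T a η N) (hτ : 0 < τ) (hτT : τ ≤ T) (hq : 2 * (q + 1) < N)
    (hTN : 40 * ((q : ℝ) + 1) ^ 2 ≤ T * (N : ℝ) ^ 2) (i : Fin (q + 1)) :
    τ + Pin N b τ (ax (jm N i)) ≤ 6 * (τ + EE (ax (jm N i))) := by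
  have hNp : (0 : ℝ) < N := by exact_mod_cast NeZero.pos N
  have hne : ax (jm N i) ≠ 0 := ax_ne (jm_ne (by have := i.2; omega))
  obtain ⟨z, a', hz0, hzN, haa, hfl⟩ := hFL
  have ha3 : a' ≤ 3 := by
    have h1 := (abs_le.1 haa).2
    have h2 := (abs_le.1 ha).2
    linarith
  have hE := H462.EE_nonneg (ax (jm N i))
  have hET : EE (ax (jm N i)) ≤ 1 * T := by
    have h1 := EE_sp hq i
    have h2 : nd q i ≤ (q + 1) ^ 2 := by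
      unfold nd
      have h3 : ((i : ℕ) : ℝ) + 1 ≤ q + 1 := by
        have : (i : ℕ) ≤ q := by have := i.2; omega
        have : ((i : ℕ) : ℝ) ≤ q := by exact_mod_cast this
        linarith
      exact pow_le_pow_left₀ (by positivity) h3 2
    have h4 : KK N 1 ≤ 40 / N ^ 2 := by
      unfold KK
      rw [div_pow]
      refine div_le_div_of_nonneg_right ?_ (by positivity)
      have h8 := Real.pi_lt_d4
      have : Real.pi ^ 2 ≤ 3.1416 ^ 2 := pow_le_pow_left₀ Real.pi_pos.le h8.le 2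
      push_cast
      nlinarith
    have h5 : nd q i * KK N 1 ≤ (q + 1) ^ 2 * (40 / N ^ 2) :=
      mul_le_mul h2 h4 (KK_pos (NeZero.pos N) one_pos).le (by positivity)
    have h6 : ((q : ℝ) + 1) ^ 2 * (40 / N ^ 2) ≤ T := by
      rw [← mul_div_assoc, div_le_iff₀ (by positivity)]
      linarith
    linarith
  have h1 := Pin_le5 hT hη1 ha3 hzN hne hET (hfl _ hne)
  have h2 := H276.Pin_mono (N := N) hb hτ hτT hne
  linarith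

/-- the error of one cell -/
lemma fine_num {C1 C2 θ y C c K : ℝ} {n r j q : ℕ} (hC : 0 < C) (hc : 0 < c) (hb : 0 < b)
    (hK : K = C + 250 * ((q : ℝ) + 1) ^ 2 * b) (hC1 : 21 ≤ 2 * C1) (hC1c : 30 ≤ 2 * C1 * c)
    (hN : Nb C1 C2 θ y n r j) (hy : 0 < y) (hy1 : y ≤ 1) (h9 : (9 : ℝ) ≤ tn n * ((2 ^ r : ℕ) : ℝ) ^ 2) :
    C * (√(tn n * ((2 ^ r : ℕ) : ℝ) ^ 2) * (tn n * ((2 ^ j : ℕ) : ℝ) ^ 2) ^ c) +
      250 * (q + 1) ^ 2 * b * ((2 ^ j : ℕ) : ℝ) ^ 2 / ((2 ^ r : ℕ) : ℝ) ^ 2 ≤ K * y ^ (3 : ℝ) := by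
  obtain ⟨h1, h2⟩ := hN.F hy hc.le
  have h3 : y ^ (2 * C1 * c - 9) ≤ y ^ (3 : ℝ) :=
    Real.rpow_le_rpow_of_exponent_ge hy hy1 (by linarith)
  have h4 : y ^ (2 * C1) ≤ y ^ (3 : ℝ) := Real.rpow_le_rpow_of_exponent_ge hy hy1 (by linarith)
  have hp : (0 : ℝ) < ((2 ^ r : ℕ) : ℝ) := by positivity
  have h5 : ((2 ^ j : ℕ) : ℝ) ^ 2 / ((2 ^ r : ℕ) : ℝ) ^ 2 ≤ y ^ (3 : ℝ) := by
    rw [div_le_iff₀ (by positivity)]
    have h6 : ((2 ^ j : ℕ) : ℝ) ^ 2 ≤ (tn n * ((2 ^ r : ℕ) : ℝ) ^ 2) * ((2 ^ j : ℕ) : ℝ) ^ 2 :=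
      le_mul_of_one_le_left (by positivity) (by linarith)
    have h7 : (tn n * ((2 ^ j : ℕ) : ℝ) ^ 2) * ((2 ^ r : ℕ) : ℝ) ^ 2 ≤
        y ^ (3 : ℝ) * ((2 ^ r : ℕ) : ℝ) ^ 2 :=
      mul_le_mul_of_nonneg_right (h2.trans h4) (by positivity)
    linarith
  have h6 : 250 * ((q : ℝ) + 1) ^ 2 * b * ((2 ^ j : ℕ) : ℝ) ^ 2 / ((2 ^ r : ℕ) : ℝ) ^ 2 ≤
      250 * (q + 1) ^ 2 * b * y ^ (3 : ℝ) := by
    rw [mul_div_assoc]
    exact mul_le_mul_of_nonneg_left h5 (by positivity)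
  have h7 := mul_le_mul_of_nonneg_left (h1.trans h3) hC.le
  rw [hK, add_mul]
  exact add_le_add h7 h6

/-- **two cells at the same tiny mass, numbers** -/
theorem pN_num (hb : 0 < b) : ∃ c : ℝ, 0 < c ∧ ∀ (C1 C2 θ δ : ℝ) (q : ℕ) (μ : Fin (q + 1) → ℝ),
    21 ≤ 2 * C1 → 30 ≤ 2 * C1 * c → 0 < θ → 0 < δ →
    ∀ᶠ y in 𝓝[>] (0 : ℝ), ∀ (n m r j j' : ℕ) [NeZero (2 ^ r / 2 ^ j)] [NeZero (2 ^ r / 2 ^ j')]
      (y' a η τ : ℝ), Nb C1 C2 θ y n r j → Nb C1 C2 θ y' m r j' → 0 < y' → y' ≤ 3 * y → η ≤ 1 →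
      |a| ≤ 2 → FL b (tn n) a η (2 ^ r) → 0 < τ → τ ≤ tn n → τ ≤ tn m →
      ((2 ^ r : ℕ) : ℝ) ^ 2 * τ ≤ 1 →
      |pN q μ (2 ^ r) (2 ^ j) b (tn n) τ - pN q μ (2 ^ r) (2 ^ j') b (tn m) τ| ≤ δ * y ^ 2 := by
  obtain ⟨C, c, hC, hc, hU⟩ := pN_two (b := b) hb
  refine ⟨c, hc, ?_⟩
  intro C1 C2 θ δ q μ hC1 hC1c hθ hδ
  have hC10 : 0 < C1 := by linarith
  obtain ⟨K, hK⟩ : ∃ K : ℝ, K = C + 250 * ((q : ℝ) + 1) ^ 2 * b := ⟨_, rfl⟩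
  have hK0 : 0 < K := by rw [hK]; positivity
  have hM := Mw_nonneg q μ
  filter_upwards [ev_one, ev_pow (7 * ((q : ℝ) + 1) * 3 ^ θ) hθ one_pos,
    ev_pow (7 * ((q : ℝ) + 1)) hθ one_pos,
    ev_pow (6 * (27 * K)) (show (0 : ℝ) < 3 by norm_num) (show (0 : ℝ) < 1 / 2 by norm_num),
    ev_pow (Mw q μ * (8 * 6 ^ 2 * (27 * K))) one_pos hδ] with y hy1 g1 g2 g4 g5
  intro n m r j j' _ _ y' a η τ hN hN' hy'0 hy'3 hη1 ha hFL hτ hτn hτm hτN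
  obtain ⟨hy0, hy16⟩ := hy1
  have hyle : y ≤ 1 := hy16.trans (by norm_num)
  have hy'le : y' ≤ 1 := by linarith
  have hjn := hN.jn hy0 hyle hC10.le
  have hjm := hN'.jn hy'0 hy'le hC10.le
  have hjr : j ≤ r := hjn.trans hN.nr
  have hjr' : j' ≤ r := hjm.trans hN'.nr
  have hl : (2 ^ j : ℕ) ∣ 2 ^ r := Nat.pow_dvd_pow 2 hjr
  have hl' : (2 ^ j' : ℕ) ∣ 2 ^ r := Nat.pow_dvd_pow 2 hjr'
  have hθ1 : ∀ x z : ℝ, 0 < z → x * z ^ θ ≤ 1 → x ≤ z ^ (-θ) := by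
    intro x z hz hx
    rw [Real.rpow_neg hz.le, ← one_div, le_div_iff₀ (Real.rpow_pos_of_pos hz _)]
    exact hx
  have hq0 : (1 : ℝ) ≤ (q : ℝ) + 1 := by
    have : (0 : ℝ) ≤ q := by positivity
    linarith
  have hL7 : 7 * ((q : ℝ) + 1) ≤ (2 : ℝ) ^ r / 2 ^ n := (hθ1 _ y hy0 g2).trans hN.Lθ
  have hL7' : 7 * ((q : ℝ) + 1) ≤ (2 : ℝ) ^ r / 2 ^ m := by
    refine le_trans ?_ hN'.Lθ
    refine hθ1 _ y' hy'0 ?_
    have h1 : y' ^ θ ≤ 3 ^ θ * y ^ θ := by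
      rw [← Real.mul_rpow (by norm_num) hy0.le]
      exact Real.rpow_le_rpow hy'0.le hy'3 hθ.le
    calc 7 * ((q : ℝ) + 1) * y' ^ θ ≤ 7 * ((q : ℝ) + 1) * (3 ^ θ * y ^ θ) :=
          mul_le_mul_of_nonneg_left h1 (by positivity)
      _ = 7 * ((q : ℝ) + 1) * 3 ^ θ * y ^ θ := by ring
      _ ≤ 1 := g1
  have hXm : (1 : ℝ) ≤ 2 ^ m / 2 ^ j' := by
    rw [le_div_iff₀ (by positivity), one_mul]
    exact pow_le_pow_right₀ one_le_two hjm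
  have hXn : (1 : ℝ) ≤ 2 ^ n / 2 ^ j := by
    rw [le_div_iff₀ (by positivity), one_mul]
    exact pow_le_pow_right₀ one_le_two hjn
  have hsq : ∀ x : ℝ, 7 * ((q : ℝ) + 1) ≤ x → 40 * ((q : ℝ) + 1) ^ 2 ≤ x ^ 2 := by
    intro x hx
    have h1 := pow_le_pow_left₀ (by positivity) hx 2
    nlinarith [sq_nonneg ((q : ℝ) + 1)]
  have h40 : 40 * ((q : ℝ) + 1) ^ 2 ≤ tn n * ((2 ^ r : ℕ) : ℝ) ^ 2 := by
    rw [sc3]
    exact hsq _ hL7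
  have h40' : 40 * ((q : ℝ) + 1) ^ 2 ≤ tn m * ((2 ^ r : ℕ) : ℝ) ^ 2 := by
    rw [sc3]
    exact hsq _ hL7'
  have h1q : (1 : ℝ) ≤ ((q : ℝ) + 1) ^ 2 := one_le_pow₀ hq0
  have h9 : (9 : ℝ) ≤ tn n * ((2 ^ r : ℕ) : ℝ) ^ 2 := by linarith
  have h9' : (9 : ℝ) ≤ tn m * ((2 ^ r : ℕ) : ℝ) ^ 2 := by linarith
  have hlq : ∀ (i k : ℕ), (1 : ℝ) ≤ 2 ^ i / 2 ^ k → 7 * ((q : ℝ) + 1) ≤ (2 : ℝ) ^ r / 2 ^ i →
      2 * 2 ^ k * (q + 1) < 2 ^ r := by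
    intro i k h1 h2
    have h3 : (2 * (q + 1) : ℝ) < (2 : ℝ) ^ r / 2 ^ i * (2 ^ i / 2 ^ k) := by
      have : (2 : ℝ) ^ r / 2 ^ i ≤ (2 : ℝ) ^ r / 2 ^ i * (2 ^ i / 2 ^ k) :=
        le_mul_of_one_le_right (by positivity) h1
      linarith
    have h4 : (2 : ℝ) ^ r / 2 ^ i * (2 ^ i / 2 ^ k) = 2 ^ r / 2 ^ k := by
      field_simp
    rw [h4, lt_div_iff₀ (by positivity)] at h3
    have h5 : (((2 * 2 ^ k * (q + 1) : ℕ)) : ℝ) < ((2 ^ r : ℕ) : ℝ) := by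
      push_cast
      linarith
    exact_mod_cast h5
  have hqN : 2 * (q + 1) < 2 ^ r := by
    have h1 := hlq n j hXn hL7
    have h2 : 2 * 1 * (q + 1) ≤ 2 * 2 ^ j * (q + 1) :=
      Nat.mul_le_mul_right _ (Nat.mul_le_mul_left 2 Nat.one_le_two_pow)
    omega
  have htn : 0 < tn n := by rw [tn_eq]; positivity
  have htm : 0 < tn m := by rw [tn_eq]; positivity
  have hTl : tn n * ((2 ^ j : ℕ) : ℝ) ^ 2 ≤ 1 := by
    rw [sc2']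
    exact inv_le_one_of_one_le₀ (one_le_pow₀ hXn)
  have hTl' : tn m * ((2 ^ j' : ℕ) : ℝ) ^ 2 ≤ 1 := by
    rw [sc2']
    exact inv_le_one_of_one_le₀ (one_le_pow₀ hXm)
  have hy3 : y ^ (3 : ℝ) ≤ 27 * y ^ (3 : ℝ) := by
    have := Real.rpow_nonneg hy0.le (3 : ℝ)
    linarith
  have hy3' : y' ^ (3 : ℝ) ≤ 27 * y ^ (3 : ℝ) := by
    have h1 := Real.rpow_le_rpow hy'0.le hy'3 (show (0 : ℝ) ≤ 3 by norm_num)
    rw [Real.mul_rpow (by norm_num) hy0.le] at h1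
    refine h1.trans (le_of_eq ?_)
    norm_num
  have k1 := (fine_num (C2 := C2) (q := q) hC hc hb hK hC1 hC1c hN hy0 hyle h9).trans
    (mul_le_mul_of_nonneg_left hy3 hK0.le)
  have k2 := (fine_num (C2 := C2) (q := q) hC hc hb hK hC1 hC1c hN' hy'0 hy'le h9').trans
    (mul_le_mul_of_nonneg_left hy3' hK0.le)
  have hmain := hU q μ (2 ^ r) (2 ^ j) (2 ^ j') (tn n) (tn m) τ hτ hτn hτm h9 h9' hl hl' hTl hTl'
    hτN 6 (by norm_num)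
    (fun i => Pin_six hb htn hη1 ha hFL hτ hτn hqN h40 i)
    (hlq n j hXn hL7) (hlq m j' hXm hL7') (K * (27 * y ^ (3 : ℝ))) k1 k2 (by linarith)
  refine hmain.trans ?_
  have e : y ^ (3 : ℝ) = y ^ (1 : ℝ) * y ^ 2 := by
    rw [← Real.rpow_natCast y 2, ← Real.rpow_add hy0]
    norm_num
  rw [e]
  calc Mw q μ * (8 * 6 ^ 2 * (K * (27 * (y ^ (1 : ℝ) * y ^ 2)))) =
      Mw q μ * (8 * 6 ^ 2 * (27 * K)) * y ^ (1 : ℝ) * y ^ 2 := by ring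
    _ ≤ δ * y ^ 2 := mul_le_mul_of_nonneg_right g5 (sq_nonneg y)

end

end Vale.Agent.P159.H114
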