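import Vale.Agent.P159.H114.Slp5

/-!
P159 (helper114): one level, numbers: flow equation and distance to the stiffness.
-/

namespace Vale.Agent.P159.H114

open Finset Filter Topology
open Vale.Agent.P159.TM.H764 (cN dt EE pw)
open Vale.Agent.P159.TM.Spec (V)
open Vale.Agent.P159.H462 (aq Pst)
open Vale.Agent.P159.H972 (Par tn FL)
open Vale.Agent.P159.H864 (cen rd rd1)
open Vale.Agent.P159.H963 (PinC Pin Gnh)

noncomputable section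

set_option linter.unusedSectionVars false

variable {b : ℝ}

/-- level `n`, torus `2 ^ r`, cells `2 ^ j`, size `y`, stiffness `a` -/
structure LD (C1 C2 θ c2 qx b : ℝ) (n r j : ℕ) (y a η : ℝ) : Prop where
  nb : Nb C1 C2 θ y n r j
  η0 : 0 ≤ η
  ηy : η ≤ 17 * y ^ (1 + c2)
  ha : |a - Real.pi / 2| ≤ 4 * y ^ qx
  fl : FL b (tn n) a η (2 ^ r)

lemma ev_ex {Q : ℝ → Prop} (h : ∀ᶠ y in 𝓝[>] (0 : ℝ), Q y) :
    ∃ e : ℝ, 0 < e ∧ ∀ y, 0 < y → y ≤ e → Q y := by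
  obtain ⟨u, hu, h1⟩ := mem_nhdsGT_iff_exists_Ioc_subset.1 h
  exact ⟨u, hu, fun y hy hy2 => h1 ⟨hy, hy2⟩⟩

/-- **one level, numbers** -/
theorem lev_one (hb : 0 < b) (hh : 0 < helicity b) (hs : 1 / helicity b < 5 / 2) :
    ∃ A k : ℝ, 0 < A ∧ 0 < k ∧ ∀ (C1 C2 θ c c2 c3 qx : ℝ) (q : ℕ) (μ : Fin (q + 1) → ℝ), RW q μ →
      21 ≤ 2 * C1 → 30 ≤ 2 * C1 * k → 0 ≤ C2 → 0 < θ → 0 < c3 → c3 < c → c3 < c2 → c2 ≤ 2 →
      0 < qx → ∀ ε0 : ℝ, 0 < ε0 → ∃ C : ℝ, 0 ≤ C ∧ ∀ᶠ y in 𝓝[>] (0 : ℝ),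
      ∀ (n r j : ℕ) [NeZero (2 ^ r / 2 ^ j)] (a η : ℝ), LD C1 C2 θ c2 qx b n r j y a η →
        (∀ (τ : ℝ) (xq : V (2 ^ r / 2 ^ j) → ℝ), 0 < τ →
          ((2 ^ r : ℕ) : ℝ) ^ 2 * τ * (1 + Real.log ((2 : ℝ) ^ r / 2 ^ n)) ≤ 1 →
          LV q μ c (2 ^ r) (2 ^ j) b (tn n) τ y xq →
          |pN q μ (2 ^ r) (2 ^ j) b (tn n) τ - aq (2 ^ r) (2 ^ j) b (tn n) -
            A * Real.log ((2 : ℝ) ^ r / 2 ^ n) * y ^ 2| ≤
            (ε0 * Real.log ((2 : ℝ) ^ r / 2 ^ n) + C) * y ^ 2) ∧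
        (∀ (τ : ℝ) (xq : V (2 ^ r / 2 ^ j) → ℝ), LV q μ c (2 ^ r) (2 ^ j) b (tn n) τ y xq →
          |aq (2 ^ r) (2 ^ j) b (tn n) - a| ≤ y ^ (1 + c3)) ∧ |a| ≤ 2 ∧ η ≤ 1 := by
  obtain ⟨A, hA, hl⟩ := lvl (b := b) hb
  obtain ⟨k, T1, hk, hT1, hf⟩ := fp_of hb hh hs
  refine ⟨A, k, hA, hk, ?_⟩
  intro C1 C2 θ c c2 c3 qx q μ hμ hC1 hC1k hC2 hθ hc3 hc3c hc3c2 hc22 hqx ε0 hε0
  obtain ⟨C, B, κ, hC, hB, hκ, h2⟩ := hl q μ hμ ε0 hε0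
  refine ⟨C, hC, ?_⟩
  obtain ⟨c1, hc1a, hc1b⟩ := exists_between hc3c2
  have hM := Mw_nonneg q μ
  set Q : ℝ := 1 + 40 * ((q : ℝ) + 1) ^ 2 with hQ
  have hQ0 : 0 < Q := by positivity
  have hC10 : 0 < C1 := by linarith
  filter_upwards [ev_one, hf C1 C2 c1 c2 B κ θ qx q hC1 hC1k hC2 (by linarith) hc1b hc22 hκ hθ hqx,
    ev_pow 4 (show 0 < 1 + c - c3 by linarith) one_pos,
    ev_pow (4 * Mw q μ) (show 0 < c - c3 by linarith) one_pos,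
    ev_pow (4 * (Mw q μ * Q)) (show 0 < c1 - c3 by linarith) one_pos,
    ev_pow (4 * (Mw q μ * Q)) (show 0 < 2 * C1 - (1 + c3) by linarith) one_pos]
    with y hy1 hfy g1 g2 g3 g4
  intro n r j _ a η hD
  obtain ⟨hy0, hy16⟩ := hy1
  have hyle : y ≤ 1 := hy16.trans (by norm_num)
  have hjn := hD.nb.jn hy0 hyle hC10.le
  have hjr : j ≤ r := hjn.trans hD.nb.nr
  have hl : (2 ^ j : ℕ) ∣ 2 ^ r := Nat.pow_dvd_pow 2 hjr
  obtain ⟨hFP, hq, ha2, hη1, hnT, h9⟩ := hfy n r j a η hD.nb hD.η0 hD.ηy hD.ha hD.fl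
  have htn : 0 < tn n := by rw [tn_eq]; positivity
  have hX0 : (0 : ℝ) < 2 ^ n / 2 ^ j := by positivity
  have hcast := sc1 hjr n
  have hlg : ((2 ^ r / 2 ^ j : ℕ) : ℝ) / ((2 : ℝ) ^ n / 2 ^ j) = (2 : ℝ) ^ r / 2 ^ n := by
    rw [hcast, mul_div_assoc, div_self hX0.ne', mul_one]
  refine ⟨?_, ?_, ha2, hη1⟩
  · intro τ xq hτ hτN hLV
    have h3 := h2 (2 ^ r) (2 ^ j) (tn n) τ y a (y ^ (1 + c1)) ((2 : ℝ) ^ n / 2 ^ j) c xq hl htn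
      (sc2 n j) hFP hτ (by rw [hlg]; exact hτN) hq hy0 hyle (by linarith) hLV
    rw [hlg] at h3
    exact h3
  · intro τ xq hLV
    have h3 := near_of hμ hFP hB hq hLV hy0 ha2
    refine h3.trans ?_
    have hp : 0 < y ^ (1 + c3) := Real.rpow_pos_of_pos hy0 _
    have s1 : y ^ (2 + c) = y ^ (1 + c3) * y ^ (1 + c - c3) := by
      rw [← Real.rpow_add hy0]
      congr 1
      ring
    have s2 : y ^ (1 + c) = y ^ (1 + c3) * y ^ (c - c3) := by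
      rw [← Real.rpow_add hy0]
      congr 1
      ring
    have s3 : y ^ (1 + c1) = y ^ (1 + c3) * y ^ (c1 - c3) := by
      rw [← Real.rpow_add hy0]
      congr 1
      ring
    have s4 : 20 * ((q : ℝ) + 1) ^ 2 / ((2 ^ r / 2 ^ j : ℕ) : ℝ) ^ 2 ≤
        Q * (y ^ (1 + c3) * y ^ (2 * C1 - (1 + c3))) := by
      have h4 : y ^ (1 + c3) * y ^ (2 * C1 - (1 + c3)) = y ^ (2 * C1) := by
        rw [← Real.rpow_add hy0]
        congr 1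
        ring
      rw [h4]
      have h5 : (((2 ^ r / 2 ^ j : ℕ) : ℝ) ^ 2)⁻¹ ≤ y ^ (2 * C1) := by
        have h6 : y ^ (-C1) ≤ ((2 ^ r / 2 ^ j : ℕ) : ℝ) := by
          rw [hcast]
          refine (hD.nb.X1 hy0).trans ?_
          refine le_mul_of_one_le_left hX0.le ?_
          rw [le_div_iff₀ (by positivity), one_mul]
          exact pow_le_pow_right₀ one_le_two hD.nb.nr
        have h7 : (0 : ℝ) < y ^ (-C1) := Real.rpow_pos_of_pos hy0 _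
        have h8 := inv_anti₀ (by positivity) (pow_le_pow_left₀ h7.le h6 2)
        refine h8.trans (le_of_eq ?_)
        rw [← Real.rpow_natCast (y ^ (-C1)) 2, ← Real.rpow_mul hy0.le, ← Real.rpow_neg hy0.le]
        congr 1
        push_cast
        ring
      rw [div_eq_mul_inv]
      refine mul_le_mul ?_ h5 (by positivity) hQ0.le
      rw [hQ]
      nlinarith [sq_nonneg ((q : ℝ) + 1)]
    rw [s1, s2, s3]
    have t1 : y ^ (1 + c3) * y ^ (1 + c - c3) ≤ y ^ (1 + c3) * (1 / 4) :=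
      mul_le_mul_of_nonneg_left (by linarith) hp.le
    have t2 : Mw q μ * (y ^ (1 + c3) * y ^ (c - c3)) ≤ y ^ (1 + c3) * (1 / 4) := by
      have : Mw q μ * y ^ (c - c3) ≤ 1 / 4 := by linarith
      calc Mw q μ * (y ^ (1 + c3) * y ^ (c - c3)) = y ^ (1 + c3) * (Mw q μ * y ^ (c - c3)) := by ring
        _ ≤ _ := mul_le_mul_of_nonneg_left this hp.le
    have t3 : Mw q μ * (y ^ (1 + c3) * y ^ (c1 - c3) * Q) ≤ y ^ (1 + c3) * (1 / 4) := by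
      have : Mw q μ * Q * y ^ (c1 - c3) ≤ 1 / 4 := by linarith
      calc Mw q μ * (y ^ (1 + c3) * y ^ (c1 - c3) * Q) =
          y ^ (1 + c3) * (Mw q μ * Q * y ^ (c1 - c3)) := by ring
        _ ≤ _ := mul_le_mul_of_nonneg_left this hp.le
    have t4 : Mw q μ * (20 * ((q : ℝ) + 1) ^ 2 / ((2 ^ r / 2 ^ j : ℕ) : ℝ) ^ 2) ≤
        y ^ (1 + c3) * (1 / 4) := by
      have : Mw q μ * Q * y ^ (2 * C1 - (1 + c3)) ≤ 1 / 4 := by linarith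
      calc Mw q μ * (20 * ((q : ℝ) + 1) ^ 2 / ((2 ^ r / 2 ^ j : ℕ) : ℝ) ^ 2) ≤
          Mw q μ * (Q * (y ^ (1 + c3) * y ^ (2 * C1 - (1 + c3)))) :=
            mul_le_mul_of_nonneg_left s4 hM
        _ = y ^ (1 + c3) * (Mw q μ * Q * y ^ (2 * C1 - (1 + c3))) := by ring
        _ ≤ _ := mul_le_mul_of_nonneg_left this hp.le
    have e : y ^ (1 + c3) * y ^ (1 + c - c3) + Mw q μ * (y ^ (1 + c3) * y ^ (c - c3) +
        y ^ (1 + c3) * y ^ (c1 - c3) * Q + 20 * ((q : ℝ) + 1) ^ 2 / ((2 ^ r / 2 ^ j : ℕ) : ℝ) ^ 2) =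
        y ^ (1 + c3) * y ^ (1 + c - c3) + Mw q μ * (y ^ (1 + c3) * y ^ (c - c3)) +
        Mw q μ * (y ^ (1 + c3) * y ^ (c1 - c3) * Q) +
        Mw q μ * (20 * ((q : ℝ) + 1) ^ 2 / ((2 ^ r / 2 ^ j : ℕ) : ℝ) ^ 2) := by ring
    rw [e]
    linarith

end

end Vale.Agent.P159.H114
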