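import Vale.Agent.P159.H114.Slp7
import Vale.Agent.P159.H801.T37

/-!
P159 (helper114): **(P#)**: the sharp relation `SLP7` from the sharp data `SD` of the states.
-/

namespace Vale.Agent.P159.H114

open Finset Filter Topology
open Vale.Agent.P159.TM.H764 (cN dt EE pw)
open Vale.Agent.P159.TM.Spec (V)
open Vale.Agent.P159.H462 (aq Pst)
open Vale.Agent.P159.H972 (Par tn FL Good lg)
open Vale.Agent.P159.H801 (Hst SLP7 FLC xa)

noncomputable section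

set_option linter.unusedSectionVars false

variable {b : ℝ} {P : Par}

lemma two_lg_ge {c e : ℝ} (he : 0 < e) : e ^ (-c) ≤ (2 : ℝ) ^ lg c e := by
  have h1 : e ^ (-c) = (2 : ℝ) ^ (c * Real.logb 2 (1 / e)) := by
    rw [mul_comm, Real.rpow_mul (by norm_num), Real.rpow_logb (by norm_num) (by norm_num)
      (by positivity), Real.rpow_neg he.le, one_div, Real.inv_rpow he.le]
  rw [h1, ← Real.rpow_natCast]
  exact Real.rpow_le_rpow_of_exponent_le one_le_two (Nat.le_ceil _)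

lemma two_lg_le {c e : ℝ} (hc : 0 ≤ c) (he : 0 < e) (he1 : e ≤ 1) :
    (2 : ℝ) ^ lg c e ≤ 2 * e ^ (-c) := by
  have h1 : e ^ (-c) = (2 : ℝ) ^ (c * Real.logb 2 (1 / e)) := by
    rw [mul_comm, Real.rpow_mul (by norm_num), Real.rpow_logb (by norm_num) (by norm_num)
      (by positivity), Real.rpow_neg he.le, one_div, Real.inv_rpow he.le]
  have h0 : 0 ≤ c * Real.logb 2 (1 / e) := mul_nonneg hc (H972.logb_nonneg' he he1)
  rw [h1, ← Real.rpow_natCast]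
  have h2 : ((lg c e : ℕ) : ℝ) ≤ 1 + c * Real.logb 2 (1 / e) := by
    have := (Nat.ceil_lt_add_one h0).le
    unfold H972.lg
    linarith
  refine (Real.rpow_le_rpow_of_exponent_le one_le_two h2).trans (le_of_eq ?_)
  rw [Real.rpow_add (by norm_num), Real.rpow_one]

lemma aT_eq {n r j : ℕ} [NeZero (2 ^ r / 2 ^ j)] (h : j ≤ r) :
    aT b n r j = aq (2 ^ r) (2 ^ j) b (tn n) := by
  have key : ∀ k : ℕ, k = min j r → ∀ _ : NeZero (2 ^ r / 2 ^ k),
      aq (2 ^ r) (2 ^ min j r) b (tn n) = aq (2 ^ r) (2 ^ k) b (tn n) := by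
    intro k hk _
    subst hk
    rfl
  unfold aT
  exact key j (min_eq_left h).symm inferInstance

lemma lv_eq {q : ℕ} {μ : Fin (q + 1) → ℝ} {c T y : ℝ} {r j : ℕ} [NeZero (2 ^ r / 2 ^ j)] (h : j ≤ r)
    (hv : ∀ᶠ τ in 𝓝[>] (0 : ℝ), ∃ xq, LV q μ c (2 ^ r) (2 ^ min j r) b T τ y xq) :
    ∀ᶠ τ in 𝓝[>] (0 : ℝ), ∃ xq, LV q μ c (2 ^ r) (2 ^ j) b T τ y xq := by
  have key : ∀ k : ℕ, k = min j r → ∀ _ : NeZero (2 ^ r / 2 ^ k),
      ∀ᶠ τ in 𝓝[>] (0 : ℝ), ∃ xq, LV q μ c (2 ^ r) (2 ^ k) b T τ y xq := by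
    intro k hk _
    subst hk
    exact hv
  exact key j (min_eq_left h).symm inferInstance

lemma neZ {r j : ℕ} (h : j ≤ r) : NeZero (2 ^ r / 2 ^ j) :=
  ⟨(Nat.div_pos (Nat.pow_le_pow_right two_pos h) (by positivity)).ne'⟩

lemma TV.tt {n r : ℕ} {e : ℝ} (h : TV P n e r) : P.TT n e r := by
  obtain ⟨h1, h2⟩ := h
  refine ⟨h1, h2.trans ?_⟩
  have := Nat.mul_le_mul_right (4 * P.w e) (Nat.sub_le P.q0 2)
  omega

lemma TV.base (n : ℕ) (e : ℝ) : TV P n e (n + P.kE e) := ⟨le_rfl, Nat.le_add_right _ _⟩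

/-- the stiffness from the letter -/
lemma a_near {a y qx : ℝ} (h : |a⁻¹ - 2 / Real.pi| ≤ y ^ qx) (h1 : y ^ qx ≤ 1 / 10) :
    |a - Real.pi / 2| ≤ 4 * y ^ qx ∧ 1 ≤ a ∧ a ≤ 2 := by
  have hpi := Real.pi_gt_three
  have hpi2 := Real.pi_lt_d2
  have h2 := abs_le.1 (h.trans h1)
  have h3 : 2 / Real.pi ≤ 2 / 3 := div_le_div_of_nonneg_left (by norm_num) (by norm_num) hpi.le
  have h4 : 2 / 3.15 ≤ 2 / Real.pi := div_le_div_of_nonneg_left (by norm_num) (by positivity) hpi2.le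
  have h5 : 0 < a⁻¹ := by
    norm_num at h4
    linarith [h2.1]
  have ha : 0 < a := inv_pos.1 h5
  have e1 : a * a⁻¹ = 1 := mul_inv_cancel₀ ha.ne'
  have h6 : a⁻¹ ≤ 1 := by linarith [h2.2]
  have h7 : 1 / 2 ≤ a⁻¹ := by
    norm_num at h4
    linarith [h2.1]
  have ha2 : a ≤ 2 := by nlinarith
  have ha1 : 1 ≤ a := by nlinarith
  refine ⟨?_, ha1, ha2⟩
  have e2 : a - Real.pi / 2 = -((a⁻¹ - 2 / Real.pi) * (a * (Real.pi / 2))) := by
    have : Real.pi ≠ 0 := by positivity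
    field_simp
    ring
  rw [e2, abs_neg, abs_mul, abs_of_pos (by positivity : 0 < a * (Real.pi / 2))]
  have h8 : a * (Real.pi / 2) ≤ 4 := by nlinarith
  have h9 := mul_le_mul h h8 (by positivity) ((abs_nonneg _).trans h)
  linarith

/-- the data of a level on one torus -/
lemma ld_of {C1 C2 c qx σ c1 y ε : ℝ} {q : ℕ} {μ : Fin (q + 1) → ℝ} {n r j N0 : ℕ}
    {S : ℕ → ℝ → ℝ → Prop} {a : ℕ → ℝ} (hA : P.Adm) (hσ0 : 0 ≤ σ) (hσ : σ ≤ 1 / 4)
    (hFL : FLC P b a) (hG : Good P b n ε)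
    (hH : Hst S σ P.es c1 N0 n ε y) (hy : 0 < y) (hy16 : y ≤ 1 / 16)
    (hx : |xa a n| ≤ y ^ qx) (hyq : y ^ qx ≤ 1 / 10) (hS : SD P b q μ c C1 C2 n ε y j)
    (hr : TV P n ε r) (hr4 : r ≤ n + 4 * P.w ε) :
    LD C1 C2 P.th ((2 - 4 * σ) * P.pf - 1) qx b n r j y (a n) (17 * ε ^ P.pf) := by
  have hyle : y ≤ 1 := hy16.trans (by norm_num)
  have hε : 0 < ε := (Real.rpow_pos_of_pos hy _).trans_le hH.sg
  have hεs := hH.he
  have hε1 : ε ≤ 1 := hεs.trans (P.es1.trans (by norm_num))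
  have hnr : n ≤ r := by
    have := hr.1
    omega
  have hth0 := P.th0
  have hLr : (2 : ℝ) ^ r / 2 ^ n = 2 ^ (r - n) := by
    rw [div_eq_iff (by positivity), ← pow_add, Nat.sub_add_cancel hnr]
  refine ⟨⟨hnr, ?_, ?_, hS.up, hS.lo⟩, by positivity, ?_, ?_, ?_⟩
  · rw [hLr]
    have h1 : (2 : ℝ) ^ (r - n) ≤ (2 ^ P.w ε) ^ 4 := by
      rw [← pow_mul]
      exact pow_le_pow_right₀ one_le_two (by omega)
    have h2 : (2 : ℝ) ^ P.w ε ≤ 2 * y ^ (-2 : ℝ) := by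
      refine (two_lg_le P.thp0.le hε hε1).trans (mul_le_mul_of_nonneg_left ?_ (by norm_num))
      have h3 : ε ^ (-P.thp) ≤ ε ^ (-1 : ℝ) :=
        Real.rpow_le_rpow_of_exponent_ge hε hε1 (by linarith [hA.thp1])
      have h4 : ε ^ (-1 : ℝ) ≤ (y ^ (2 : ℝ)) ^ (-1 : ℝ) := by
        have h5 : y ^ (2 : ℝ) ≤ ε := (Real.rpow_le_rpow_of_exponent_ge hy hyle
          (by linarith)).trans hH.sg
        exact Real.rpow_le_rpow_of_nonpos (Real.rpow_pos_of_pos hy _) h5 (by norm_num)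
      rw [← Real.rpow_mul hy.le] at h4
      refine h3.trans (h4.trans (le_of_eq ?_))
      norm_num
    have h3 := pow_le_pow_left₀ (by positivity) h2 4
    refine h1.trans (h3.trans ?_)
    have h4 : (2 * y ^ (-2 : ℝ)) ^ 4 = 16 * y ^ (-8 : ℝ) := by
      rw [mul_pow, ← Real.rpow_natCast (y ^ (-2 : ℝ)) 4, ← Real.rpow_mul hy.le]
      norm_num
    have h5 : y ^ (-9 : ℝ) = y ^ (-1 : ℝ) * y ^ (-8 : ℝ) := by
      rw [← Real.rpow_add hy]
      norm_num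
    rw [h4, h5]
    refine mul_le_mul_of_nonneg_right ?_ (Real.rpow_nonneg hy.le _)
    rw [Real.rpow_neg_one, ← one_div, le_div_iff₀ hy]
    linarith
  · rw [hLr]
    have h1 : (2 : ℝ) ^ P.kE ε ≤ 2 ^ (r - n) := by
      have := hr.1
      exact pow_le_pow_right₀ one_le_two (by omega)
    refine le_trans ?_ h1
    refine le_trans ?_ (two_lg_ge hε)
    have h2 : ε ≤ y := by
      refine hH.sh.trans ?_
      have h3 := Real.rpow_le_rpow_of_exponent_ge hy hyle (show (1 : ℝ) ≤ 2 - 4 * σ by linarith)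
      rwa [Real.rpow_one] at h3
    exact Real.rpow_le_rpow_of_nonpos hε h2 (by linarith)
  · refine mul_le_mul_of_nonneg_left ?_ (by norm_num)
    have h1 := Real.rpow_le_rpow hε.le hH.sh hA.pf0.le
    rw [← Real.rpow_mul hy.le] at h1
    refine h1.trans (le_of_eq ?_)
    congr 1
    ring
  · exact (a_near hx hyq).1
  · exact hFL n ε hε hεs hG ε le_rfl hεs r hr.tt

end

end Vale.Agent.P159.H114
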