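import Vale.Agent.P159.H114.Tor4
import Vale.Agent.P159.H813.P40

/-!
P159 (helper114): preparation of the one-level flow equation.
-/

namespace Vale.Agent.P159.H114

open MeasureTheory Finset Matrix
open Vale.Agent.P159.H37
open Vale.Agent.P159.H864 (TI sym mlt ti_mlt sym_mlt cobV MC GM Gck PiCk cobV_mul_tr)
open Vale.Agent.P159.H730 (wC Cbk)
open Vale.Agent.P159.TM.H764 (Gh cN sN dt ch EE frm grd pw)
open Vale.Agent.P159.TM.Spec (V)
open Vale.Agent.P159.TM.SpecC (wT ms)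

noncomputable section

set_option linter.unusedSectionVars false

/-! ### the axis momenta -/

section axis

variable {n : ℕ} [NeZero n]

/-- the axis momentum -/
def ax (j : ZMod n) : V n := (j, 0)

lemma cN_pw (j : ZMod n) : cN j = Real.cos (pw j) := by
  have h2 : ((j.valMinAbs : ℤ) : ZMod n) = j := ZMod.coe_valMinAbs j
  conv_lhs => rw [← h2]
  rw [TM.H764.cN_int]
  unfold pw
  rfl

lemma EE_ax (j : ZMod n) : EE (ax j) = 2 * (1 - cN j) := by
  unfold EE ax
  simp [TM.H764.cN_zero]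

lemma EE_ax_le (j : ZMod n) : EE (ax j) ≤ pw j ^ 2 := by
  rw [EE_ax, cN_pw]
  have := Real.one_sub_sq_div_two_le_cos (x := pw j)
  linarith

lemma dt_ax (j : ZMod n) (x : V n) : dt (ax j) x = j * x.1 := by
  show j * x.1 + 0 * x.2 = _
  rw [zero_mul, add_zero]

lemma ax_zero : ax (0 : ZMod n) = 0 := rfl

end axis

variable {N l : ℕ} [NeZero N] [NeZero (N / l)] {b t0 t τ : ℝ}
variable {P : V (N / l) → ℝ} {c0 y e : ℝ}

/-- relative error of the mean Hessian -/
def rH (N : ℕ) (t y e c0 : ℝ) : ℝ := 1000 * (k0 c0 * y * Lm N t * ep N t y e) + 2 * e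

/-- numerical consequences of the smallness -/
structure Sml (N : ℕ) (t y e c0 : ℝ) : Prop where
  hy : 0 ≤ y
  he : 0 ≤ e
  hk : 1 ≤ k0 c0
  hL : 1 ≤ Lm N t
  hs : 160 * (k0 c0 * Lm N t * ep N t y e) ≤ 1

lemma LP.sml (h : LP N l b t0 t τ P c0 y e) (hs : 160 * (k0 c0 * Lm N t * ep N t y e) ≤ 1) :
    Sml N t y e c0 := ⟨h.hy, h.he, h.k01, h.Lm1, hs⟩

lemma Sml.ep0 (h : Sml N t y e c0) : 0 ≤ ep N t y e := by
  have := h.hy
  have := h.he
  have := h.hL
  have := Real.pi_pos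
  unfold ep
  positivity

lemma Sml.e_le (h : Sml N t y e c0) : e ≤ ep N t y e := by
  have := h.hy
  have := h.hL
  have := Real.pi_pos
  unfold ep
  have : 0 ≤ 4 * Real.pi * y * Lm N t := by positivity
  linarith

lemma Sml.yL (h : Sml N t y e c0) : 4 * Real.pi * (y * Lm N t) ≤ ep N t y e := by
  have := h.he
  unfold ep
  linarith

lemma Sml.yL' (h : Sml N t y e c0) : 12 * (y * Lm N t) ≤ ep N t y e := by
  refine le_trans ?_ h.yL
  have h1 := Real.pi_gt_three
  have : 0 ≤ y * Lm N t := mul_nonneg h.hy (by linarith [h.hL])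
  nlinarith

lemma Sml.y_le (h : Sml N t y e c0) : 12 * y ≤ ep N t y e := by
  refine le_trans ?_ h.yL'
  have := h.hy
  have := h.hL
  nlinarith

lemma Sml.Le (h : Sml N t y e c0) : 160 * (Lm N t * ep N t y e) ≤ 1 := by
  refine le_trans ?_ h.hs
  have h0 : 0 ≤ Lm N t * ep N t y e := mul_nonneg (by linarith [h.hL]) h.ep0
  have := h.hk
  nlinarith

lemma Sml.ep_le (h : Sml N t y e c0) : 160 * ep N t y e ≤ 1 := by
  refine le_trans ?_ h.Le
  have := h.ep0
  have := h.hL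
  nlinarith

lemma Sml.y1 (h : Sml N t y e c0) : y ≤ 1 := by
  have := h.y_le
  have := h.ep_le
  linarith

lemma Sml.r0 (h : Sml N t y e c0) : 0 ≤ rH N t y e c0 := by
  have := h.hy
  have := h.he
  have := h.hL
  have := h.hk
  have := h.ep0
  unfold rH
  positivity

/-- `r ≤ 3 ε` -/
lemma Sml.r_le (h : Sml N t y e c0) : rH N t y e c0 ≤ 3 * ep N t y e := by
  have h1 := h.e_le
  have h2 := h.y_le
  have h3 := h.hs
  have hy := h.hy
  unfold rH
  have h4 : k0 c0 * y * Lm N t * ep N t y e = y * (k0 c0 * Lm N t * ep N t y e) := by ring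
  have h5 : y * (k0 c0 * Lm N t * ep N t y e) ≤ y * (1 / 160) :=
    mul_le_mul_of_nonneg_left (by linarith) hy
  rw [h4]
  linarith

lemma Sml.eJ0 (h : Sml N t y e c0) : 0 ≤ eJ N t y e c0 := by
  have := h.hy
  have := h.he
  have := h.hL
  have := h.hk
  have := h.ep0
  unfold eJ
  positivity

/-- `κ₀ y² ε Λ³ ≤ eJ / 800000` in a usable form -/
lemma Sml.eJ1 (h : Sml N t y e c0) : 800000 * (y ^ 2 * ep N t y e) ≤ eJ N t y e c0 := by
  have hy := h.hy
  have he := h.he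
  have hL := h.hL
  have hk := h.hk
  have h0 := h.ep0
  unfold eJ
  have h1 : 1 ≤ k0 c0 * Lm N t ^ 3 := by
    have : 1 ≤ Lm N t ^ 3 := one_le_pow₀ hL
    nlinarith
  have h2 : k0 c0 * y ^ 2 * ep N t y e * Lm N t ^ 3 =
      (k0 c0 * Lm N t ^ 3) * (y ^ 2 * ep N t y e) := by ring
  have h3 : y ^ 2 * ep N t y e ≤ (k0 c0 * Lm N t ^ 3) * (y ^ 2 * ep N t y e) :=
    le_mul_of_one_le_left (by positivity) h1
  rw [h2]
  have : 0 ≤ ep N t y e * e := by positivity
  linarith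

lemma Sml.y4 (h : Sml N t y e c0) : y ^ 4 ≤ eJ N t y e c0 := by
  have h1 := h.eJ1
  have h2 := h.y_le
  have h3 := h.y1
  have hy := h.hy
  have h4 : y ^ 2 ≤ ep N t y e := by nlinarith
  have h5 : y ^ 4 = y ^ 2 * y ^ 2 := by ring
  have h6 : y ^ 2 * y ^ 2 ≤ y ^ 2 * ep N t y e := mul_le_mul_of_nonneg_left h4 (by positivity)
  have h7 : 0 ≤ y ^ 2 * ep N t y e := by have := h.ep0; positivity
  linarith

/-- `y² r ≤ eJ` -/
lemma Sml.y2r (h : Sml N t y e c0) : y ^ 2 * rH N t y e c0 ≤ eJ N t y e c0 := by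
  have h1 := h.eJ1
  have h2 := h.r_le
  have hy := h.hy
  have h6 : y ^ 2 * rH N t y e c0 ≤ y ^ 2 * (3 * ep N t y e) :=
    mul_le_mul_of_nonneg_left h2 (by positivity)
  have h7 : 0 ≤ y ^ 2 * ep N t y e := by have := h.ep0; positivity
  linarith

lemma Sml.eJ_le (h : Sml N t y e c0) : eJ N t y e c0 ≤ 1 := by
  have hy := h.hy
  have he := h.he
  have h0 := h.ep0
  have hL := h.hL
  have hk := h.hk
  have h1 := h.ep_le
  have h2 := h.e_le
  have h3 := h.yL'
  have h4 := h.hs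
  have h5 := Real.pi_gt_three
  unfold eJ
  have h6 : ep N t y e * e ≤ (1 / 160) * (1 / 160) :=
    mul_le_mul (by linarith) (by linarith) he (by norm_num)
  have h7 : k0 c0 * y ^ 2 * ep N t y e * Lm N t ^ 3 =
      (k0 c0 * Lm N t * ep N t y e) * (y * Lm N t) ^ 2 := by ring
  have h8 : (y * Lm N t) ^ 2 ≤ (1 / 1920) ^ 2 :=
    pow_le_pow_left₀ (by positivity) (by linarith) 2
  have h9 : (k0 c0 * Lm N t * ep N t y e) * (y * Lm N t) ^ 2 ≤ (1 / 160) * (1 / 1920) ^ 2 :=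
    mul_le_mul (by linarith) h8 (by positivity) (by norm_num)
  rw [h7]
  nlinarith

end

end Vale.Agent.P159.H114
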