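import Vale.Agent.P159.H114.Star0

/-!
P159 (helper114): sizes of the stiffnesses at zero and at a small momentum.
-/

namespace Vale.Agent.P159.H114

open MeasureTheory Finset Matrix
open Vale.Agent.P159.H37
open Vale.Agent.P159.H864 (TI sym mlt ti_mlt sym_mlt cobV MC GM Gck PiCk cobV_mul_tr)
open Vale.Agent.P159.H730 (wC Cbk)
open Vale.Agent.P159.TM.H764 (Gh cN sN dt ch EE frm grd pw)
open Vale.Agent.P159.TM.Spec (V)
open Vale.Agent.P159.TM.SpecC (wT ms)

noncomputable section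

set_option linter.unusedSectionVars false

variable {N l : ℕ} [NeZero N] [NeZero (N / l)] {b t0 t τ : ℝ}
variable {P : V (N / l) → ℝ} {c0 y e : ℝ}

/-- mean cosine of the smeared field -/
def kG (N l : ℕ) [NeZero (N / l)] (t τ : ℝ) (P : V (N / l) → ℝ) : ℝ :=
  Real.exp (-(2 * Real.pi ^ 2 * H813.GamP (N / l) (t * l ^ 2) (τ * l ^ 2) P 0))

lemma LP.kG01 (h : LP N l b t0 t τ P c0 y e) : 0 ≤ kG N l t τ P ∧ kG N l t τ P ≤ 1 := by
  refine ⟨(Real.exp_pos _).le, ?_⟩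
  unfold kG
  rw [Real.exp_le_one_iff]
  have := h.qd.Gam0
  have := Real.pi_pos
  have : 0 ≤ 2 * Real.pi ^ 2 * H813.GamP (N / l) (t * l ^ 2) (τ * l ^ 2) P 0 := by positivity
  linarith

lemma LP.hess' (h : LP N l b t0 t τ P c0 y e) (k : V (N / l)) :
    |phs t (PbC N l b t0 t τ k) - (phs t (P k / l ^ 2) + 8 * Real.pi ^ 2 * y * t *
      (sS P (t * l ^ 2) k) ^ 2 * kG N l t τ P)| ≤ t * rH N t y e c0 := h.hess k

/-- `8π² y ≤ 7 ε` -/
lemma Sml.py (h : Sml N t y e c0) : 8 * Real.pi ^ 2 * y ≤ 7 * ep N t y e := by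
  have h1 := h.yL
  have hpi := Real.pi_pos
  have hpi2 := Real.pi_lt_d2
  have hy := h.hy
  have hL := h.hL
  have h2 : 4 * Real.pi * y ≤ ep N t y e := by
    refine le_trans ?_ h1
    have : y ≤ y * Lm N t := le_mul_of_one_le_right hy hL
    nlinarith
  have h3 : 8 * Real.pi ^ 2 * y = 2 * Real.pi * (4 * Real.pi * y) := by ring
  rw [h3]
  have h4 : 2 * Real.pi * (4 * Real.pi * y) ≤ 2 * Real.pi * ep N t y e :=
    mul_le_mul_of_nonneg_left h2 (by positivity)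
  have := h.ep0
  nlinarith

lemma LP.sS_zero (h : LP N l b t0 t τ P c0 y e) (hP0 : P 0 = 0) : sS P (t * l ^ 2) 0 = 1 := by
  have := h.lpos
  have := h.ht
  unfold sS
  rw [hP0, add_zero, div_self (by positivity)]

/-- stiffness of the mean posterior at zero -/
lemma LP.x0 (h : LP N l b t0 t τ P c0 y e) (hs : 160 * (k0 c0 * Lm N t * ep N t y e) ≤ 1)
    (hP0 : P 0 = 0) :
    phs t (PbC N l b t0 t τ 0) ≤ 10 * ep N t y e * t ∧
      PbC N l b t0 t τ 0 ≤ 20 * ep N t y e * t := by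
  have ht := h.ht
  have hS := h.sml hs
  have h1 := (abs_le.1 (h.hess' 0)).2
  have h2 := hS.py
  have h3 := hS.r_le
  have h4 := hS.ep_le
  obtain ⟨hk0, hk1⟩ := h.kG01
  rw [hP0, zero_div, phs_zero, h.sS_zero hP0] at h1
  have hy := h.hy
  have hpi := Real.pi_pos
  have h5 : 8 * Real.pi ^ 2 * y * t * 1 ^ 2 * kG N l t τ P ≤ 7 * ep N t y e * t := by
    calc 8 * Real.pi ^ 2 * y * t * 1 ^ 2 * kG N l t τ P =
        (8 * Real.pi ^ 2 * y * t) * kG N l t τ P := by ring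
      _ ≤ (8 * Real.pi ^ 2 * y * t) * 1 := mul_le_mul_of_nonneg_left hk1 (by positivity)
      _ = (8 * Real.pi ^ 2 * y) * t := by ring
      _ ≤ _ := mul_le_mul_of_nonneg_right h2 ht.le
  have h6 : t * rH N t y e c0 ≤ 3 * ep N t y e * t := by
    have := mul_le_mul_of_nonneg_left h3 ht.le
    linarith
  have h7 : phs t (PbC N l b t0 t τ 0) ≤ 10 * ep N t y e * t := by linarith
  refine ⟨h7, ?_⟩
  have h8 := le_of_phs ht (PbC_nonneg (N := N) h.hb h.hl h.hτ h.lt h.htt 0) h7 (by linarith)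
  linarith

/-- `1 - s = p / (t + p)` -/
lemma LP.sS_eq (h : LP N l b t0 t τ P c0 y e) (k : V (N / l)) :
    1 - sS P (t * l ^ 2) k = (P k / l ^ 2) / (t + P k / l ^ 2) := by
  have hl := h.lpos
  have ht := h.ht
  have hP := h.qd.P0 k
  unfold sS
  field_simp
  ring

lemma LP.sS_le (h : LP N l b t0 t τ P c0 y e) (k : V (N / l)) :
    1 - sS P (t * l ^ 2) k ≤ (P k / l ^ 2) / t := by
  have hl := h.lpos
  have ht := h.ht
  have hP := h.qd.P0 k
  rw [h.sS_eq k]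
  exact div_le_div_of_nonneg_left (by positivity) ht (by linarith [show 0 ≤ P k / l ^ 2 by positivity])

/-- the mean posterior stiffness against its value at zero -/
lemma LP.xk (h : LP N l b t0 t τ P c0 y e) (hs : 160 * (k0 c0 * Lm N t * ep N t y e) ≤ 1)
    (hP0 : P 0 = 0) (k : V (N / l)) :
    |phs t (PbC N l b t0 t τ k) - phs t (PbC N l b t0 t τ 0)| ≤
      2 * (P k / l ^ 2) + 2 * (t * rH N t y e c0) := by
  have ht := h.ht
  have hl := h.lpos
  have hS := h.sml hs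
  have h1 := h.hess' k
  have h2 := h.hess' 0
  obtain ⟨hk0, hk1⟩ := h.kG01
  rw [hP0, zero_div, phs_zero, h.sS_zero hP0] at h2
  have hP := h.qd.P0 k
  have hp : 0 ≤ P k / (l : ℝ) ^ 2 := by positivity
  have h3 := h.sS_le k
  have h4 := h.qd.sS0 k
  have h5 := h.qd.sS1 k
  have hpy := hS.py
  have hep := hS.ep_le
  have hy := h.hy
  have hpi := Real.pi_pos
  have h6 := phs_le ht hp
  have h7 := phs_nonneg ht hp
  set s := sS P (t * l ^ 2) k with hsd
  set p := P k / (l : ℝ) ^ 2 with hpd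
  set κ := kG N l t τ P with hκ
  have h8 : |8 * Real.pi ^ 2 * y * t * s ^ 2 * κ - 8 * Real.pi ^ 2 * y * t * 1 ^ 2 * κ| ≤ p := by
    have e1 : 8 * Real.pi ^ 2 * y * t * s ^ 2 * κ - 8 * Real.pi ^ 2 * y * t * 1 ^ 2 * κ =
        -((8 * Real.pi ^ 2 * y) * κ * (1 + s) * (t * (1 - s))) := by ring
    have h9 : t * (1 - s) ≤ p := by
      have := mul_le_mul_of_nonneg_left h3 ht.le
      rwa [mul_div_cancel₀ _ ht.ne'] at this
    have h10 : 0 ≤ t * (1 - s) := mul_nonneg ht.le (by linarith)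
    rw [e1, abs_neg, abs_of_nonneg (mul_nonneg (by positivity) h10)]
    have h11 : 8 * Real.pi ^ 2 * y ≤ 7 / 160 := by linarith
    have h12 : (8 * Real.pi ^ 2 * y) * κ ≤ 7 / 160 * 1 :=
      mul_le_mul h11 hk1 hk0 (by norm_num)
    have h13 : (8 * Real.pi ^ 2 * y) * κ * (1 + s) ≤ 7 / 160 * 1 * 2 :=
      mul_le_mul h12 (by linarith) (by linarith) (by norm_num)
    calc (8 * Real.pi ^ 2 * y) * κ * (1 + s) * (t * (1 - s)) ≤ 7 / 160 * 1 * 2 * p :=
          mul_le_mul h13 h9 h10 (by norm_num)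
      _ ≤ p := by linarith
  have e2 : phs t (PbC N l b t0 t τ k) - phs t (PbC N l b t0 t τ 0) =
      (phs t (PbC N l b t0 t τ k) - (phs t p + 8 * Real.pi ^ 2 * y * t * s ^ 2 * κ)) -
      (phs t (PbC N l b t0 t τ 0) - (0 + 8 * Real.pi ^ 2 * y * t * 1 ^ 2 * κ)) + phs t p +
      (8 * Real.pi ^ 2 * y * t * s ^ 2 * κ - 8 * Real.pi ^ 2 * y * t * 1 ^ 2 * κ) := by ring
  rw [e2]
  have a1 := abs_le.1 h1
  have a2 := abs_le.1 h2
  have a3 := abs_le.1 h8
  rw [abs_le]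
  constructor
  · linarith [a1.1, a2.2, a3.1]
  · linarith [a1.2, a2.1, a3.2]

/-- the two stiffnesses in small momentum: `X ≤ t`, `|X - X0| ≤ 4 (p + t r)` -/
lemma LP.xk' (h : LP N l b t0 t τ P c0 y e) (hs : 160 * (k0 c0 * Lm N t * ep N t y e) ≤ 1)
    (hP0 : P 0 = 0) {k : V (N / l)} (hp : P k / l ^ 2 ≤ t / 16) :
    PbC N l b t0 t τ k ≤ t ∧
      |PbC N l b t0 t τ k - PbC N l b t0 t τ 0| ≤ 5 * (P k / l ^ 2 + t * rH N t y e c0) := by
  have ht := h.ht
  have hl := h.lpos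
  have hS := h.sml hs
  have h1 := h.xk hs hP0 k
  obtain ⟨h2, h3⟩ := h.x0 hs hP0
  have hep := hS.ep_le
  have hr := hS.r_le
  have hX := PbC_nonneg (N := N) h.hb h.hl h.hτ h.lt h.htt k
  have hX0 := PbC_nonneg (N := N) h.hb h.hl h.hτ h.lt h.htt (0 : V (N / l))
  have hP := h.qd.P0 k
  have hp0 : 0 ≤ P k / (l : ℝ) ^ 2 := by positivity
  have htr : t * rH N t y e c0 ≤ t * (3 / 160) := mul_le_mul_of_nonneg_left (by linarith) ht.le
  have hte : 10 * ep N t y e * t ≤ (1 / 16) * t := mul_le_mul_of_nonneg_right (by linarith) ht.le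
  have h4 := (abs_le.1 h1).2
  have h5 : phs t (PbC N l b t0 t τ k) ≤ (1 / 4) * t := by linarith
  have h6 := le_of_phs ht hX h5 (by norm_num)
  have h7 : PbC N l b t0 t τ k ≤ t / 2 := by linarith
  have h8 : PbC N l b t0 t τ 0 ≤ t / 8 := by
    have : 20 * ep N t y e * t ≤ (1 / 8) * t := mul_le_mul_of_nonneg_right (by linarith) ht.le
    linarith
  refine ⟨by linarith, ?_⟩
  have e1 := sub_phs ht hX hX0
  set X := PbC N l b t0 t τ k with hXd
  set X0 := PbC N l b t0 t τ 0 with hX0d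
  have hxt : X / t ≤ 1 / 2 := by rw [div_le_iff₀ ht]; linarith
  have hx0t : X0 / t ≤ 1 / 8 := by rw [div_le_iff₀ ht]; linarith
  have hxn : 0 ≤ X / t := by positivity
  have hx0n : 0 ≤ X0 / t := by positivity
  have hg : (1 + X / t) * (1 + X0 / t) ≤ 3 / 2 * (9 / 8) :=
    mul_le_mul (by linarith) (by linarith) (by linarith) (by norm_num)
  have hg0 : 0 ≤ (1 + X / t) * (1 + X0 / t) := by positivity
  rw [e1, abs_mul, abs_of_nonneg hg0]
  have htr0 : 0 ≤ t * rH N t y e c0 := mul_nonneg ht.le hS.r0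
  calc |phs t X - phs t X0| * ((1 + X / t) * (1 + X0 / t)) ≤
      (2 * (P k / l ^ 2) + 2 * (t * rH N t y e c0)) * (3 / 2 * (9 / 8)) :=
        mul_le_mul h1 hg hg0 (by linarith)
    _ ≤ _ := by linarith

end

end Vale.Agent.P159.H114
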