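import Vale.Agent.P159.H114.Star1

/-!
P159 (helper114): one-level flow equation: `(Π(j) - Π(0)) - (x(j) - x(0))` is
`A0 y² (pw j / l)² log (ξ2/ξ) (1 + o(1)) + O(y² (pw j/l)²) + O(t eJ)`.
-/

namespace Vale.Agent.P159.H114

open MeasureTheory Finset Matrix
open Vale.Agent.P159.H37
open Vale.Agent.P159.H864 (TI sym mlt ti_mlt sym_mlt cobV MC GM Gck PiCk cobV_mul_tr)
open Vale.Agent.P159.H730 (wC Cbk)
open Vale.Agent.P159.TM.H764 (Gh cN sN dt ch EE frm grd pw)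
open Vale.Agent.P159.TM.Spec (V)
open Vale.Agent.P159.TM.SpecC (wT ms)

noncomputable section

set_option linter.unusedSectionVars false

variable {N l : ℕ} [NeZero N] [NeZero (N / l)] {b t0 t τ : ℝ}
variable {P : V (N / l) → ℝ} {c0 y e : ℝ}

/-- the Gaussian sum -/
def gS (N l : ℕ) [NeZero (N / l)] (t τ : ℝ) (P : V (N / l) → ℝ) (k : V (N / l)) : ℝ :=
  ∑ x, H813.gk (H813.GamP (N / l) (t * l ^ 2) (τ * l ^ 2) P) x * cN (dt k x)

/-- its absolute version -/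
def gA (N l : ℕ) [NeZero (N / l)] (t τ : ℝ) (P : V (N / l) → ℝ) : ℝ :=
  ∑ x, |H813.gk (H813.GamP (N / l) (t * l ^ 2) (τ * l ^ 2) P) x|

lemma gS_le (t τ : ℝ) (P : V (N / l) → ℝ) (k : V (N / l)) :
    |gS N l t τ P k| ≤ gA N l t τ P := by
  unfold gS gA
  refine (Finset.abs_sum_le_sum_abs _ _).trans (Finset.sum_le_sum fun x _ => ?_)
  rw [abs_mul]
  have h1 : |cN (dt k x : ZMod (N / l))| ≤ 1 := by
    rw [cN_pw]
    exact Real.abs_cos_le_one _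
  exact mul_le_of_le_one_right (abs_nonneg _) h1

lemma LP.main' (h : LP N l b t0 t τ P c0 y e) (hs : 160 * (k0 c0 * Lm N t * ep N t y e) ≤ 1)
    (k : V (N / l)) :
    |phs t (PbC N l b t0 t τ k) - phs t (PiCk N l b t0 τ k) -
      (4 * Real.pi * y * sS P (t * l ^ 2) k) ^ 2 * (t ^ 2 * l ^ 2) * gS N l t τ P k| ≤
      t * eJ N t y e c0 := h.main hs k

/-- the projected second moment is `O(y² t)` -/
lemma LP.j_le (h : LP N l b t0 t τ P c0 y e) (hs : 160 * (k0 c0 * Lm N t * ep N t y e) ≤ 1)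
    {C ξ : ℝ} (hξ : t * l ^ 2 * ξ ^ 2 = 1) (hA : gA N l t τ P ≤ C * ξ ^ 2) (k : V (N / l)) :
    phs t (PbC N l b t0 t τ k) - phs t (PiCk N l b t0 τ k) ≤
      t * (16 * Real.pi ^ 2 * C * y ^ 2 + eJ N t y e c0) := by
  have ht := h.ht
  have hl := h.lpos
  have h1 := (abs_le.1 (h.main' hs k)).2
  have h2 := h.qd.sS0 k
  have h3 := h.qd.sS1 k
  have h4 := (le_abs_self _).trans ((gS_le t τ P k).trans hA)
  have hy := h.hy
  have hpi := Real.pi_pos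
  have hC : 0 ≤ C * ξ ^ 2 :=
    (Finset.sum_nonneg fun x _ => abs_nonneg (H813.gk _ x) : 0 ≤ gA N l t τ P).trans hA
  set s := sS P (t * l ^ 2) k with hsd
  have h5 : s ^ 2 ≤ 1 := pow_le_one₀ h2 h3
  have h6 : (4 * Real.pi * y * s) ^ 2 * (t ^ 2 * l ^ 2) * gS N l t τ P k ≤
      t * (16 * Real.pi ^ 2 * C * y ^ 2) := by
    calc (4 * Real.pi * y * s) ^ 2 * (t ^ 2 * l ^ 2) * gS N l t τ P k ≤
        (4 * Real.pi * y * s) ^ 2 * (t ^ 2 * l ^ 2) * (C * ξ ^ 2) :=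
          mul_le_mul_of_nonneg_left h4 (by positivity)
      _ = s ^ 2 * ((16 * Real.pi ^ 2 * y ^ 2 * (t ^ 2 * l ^ 2)) * (C * ξ ^ 2)) := by ring
      _ ≤ 1 * ((16 * Real.pi ^ 2 * y ^ 2 * (t ^ 2 * l ^ 2)) * (C * ξ ^ 2)) :=
          mul_le_mul_of_nonneg_right h5 (mul_nonneg (by positivity) hC)
      _ = (t * (16 * Real.pi ^ 2 * C * y ^ 2)) * (t * l ^ 2 * ξ ^ 2) := by ring
      _ = _ := by rw [hξ, mul_one]
  linarith

/-- difference of the projected second moments -/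
lemma LP.jdiff (h : LP N l b t0 t τ P c0 y e) (hs : 160 * (k0 c0 * Lm N t * ep N t y e) ≤ 1)
    (hP0 : P 0 = 0) (k : V (N / l)) :
    |((phs t (PbC N l b t0 t τ 0) - phs t (PiCk N l b t0 τ 0)) -
        (phs t (PbC N l b t0 t τ k) - phs t (PiCk N l b t0 τ k))) -
      16 * Real.pi ^ 2 * y ^ 2 * (t ^ 2 * l ^ 2) *
        (gS N l t τ P 0 - sS P (t * l ^ 2) k ^ 2 * gS N l t τ P k)| ≤
      2 * (t * eJ N t y e c0) := by
  have h1 := h.main' hs k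
  have h2 := h.main' hs 0
  rw [h.sS_zero hP0] at h2
  have e1 : ((phs t (PbC N l b t0 t τ 0) - phs t (PiCk N l b t0 τ 0)) -
        (phs t (PbC N l b t0 t τ k) - phs t (PiCk N l b t0 τ k))) -
      16 * Real.pi ^ 2 * y ^ 2 * (t ^ 2 * l ^ 2) *
        (gS N l t τ P 0 - sS P (t * l ^ 2) k ^ 2 * gS N l t τ P k) =
      (phs t (PbC N l b t0 t τ 0) - phs t (PiCk N l b t0 τ 0) -
        (4 * Real.pi * y * 1) ^ 2 * (t ^ 2 * l ^ 2) * gS N l t τ P 0) -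
      (phs t (PbC N l b t0 t τ k) - phs t (PiCk N l b t0 τ k) -
        (4 * Real.pi * y * sS P (t * l ^ 2) k) ^ 2 * (t ^ 2 * l ^ 2) * gS N l t τ P k) := by
    ring
  rw [e1]
  refine (abs_sub _ _).trans ?_
  linarith

/-- final scalar step -/
lemma fin_alg {t y q r E ε lm A0 L Cg lg δ D ρ J1 D1 F JD : ℝ} (ht : 0 < t)
    (hCg : 0 ≤ Cg) (hq : q = 16 * Real.pi ^ 2 * Cg) (hE0 : 0 ≤ E) (hE1 : E ≤ 1)
    (hr0 : 0 ≤ r) (hr1 : r ≤ 1) (hy4 : y ^ 4 ≤ E) (hy2r : y ^ 2 * r ≤ E)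
    (hε : 0 ≤ ε) (hεL : 160 * (L * ε) ≤ 1) (hε1 : 160 * ε ≤ 1) (hlg0 : 0 ≤ lg) (hlgL : lg ≤ L)
    (hlm0 : 0 ≤ lm) (hlmt : lm ≤ t) (hA0 : 0 ≤ A0) (hδ : 0 ≤ δ)
    (hρ : ρ = 20 * ε) (hJ1 : J1 = t * (q * y ^ 2 + E)) (hD1 : D1 = 5 * (5 * lm + t * r))
    (hJD : |JD - 16 * Real.pi ^ 2 * (y ^ 2 * (A0 * lg * lm))| ≤
      16 * Real.pi ^ 2 * (y ^ 2 * (lm * (δ * lg + Cg))) + 2 * (t * E))
    (hF : |F - JD| ≤ 3 * ρ * |JD| + J1 * (5 * D1 + 26 * J1) / t) (hD : D = 16 * Real.pi ^ 2) :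
    |F - D * (y ^ 2 * (A0 * lg * lm))| ≤
      D * (y ^ 2 * (lm * (δ * lg + Cg))) + D * (y ^ 2 * (lm * (A0 + δ + Cg))) +
        125 * (q * (y ^ 2 * lm)) + (60 * q + 52 * q ^ 2 + 300) * (t * E) := by
  have hpi := Real.pi_pos
  have hD0 : 0 ≤ D := by rw [hD]; positivity
  have hq0 : 0 ≤ q := by rw [hq]; positivity
  rw [← hD] at hJD
  have htE : 0 ≤ t * E := mul_nonneg ht.le hE0
  have hyl : 0 ≤ y ^ 2 * lm := by positivity
  -- size of JD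
  have h1 : |JD| ≤ D * (y ^ 2 * (lm * ((A0 + δ) * lg + Cg))) + 2 * (t * E) := by
    have h2 : |JD| ≤ |JD - D * (y ^ 2 * (A0 * lg * lm))| + |D * (y ^ 2 * (A0 * lg * lm))| := by
      have := abs_add_le (JD - D * (y ^ 2 * (A0 * lg * lm))) (D * (y ^ 2 * (A0 * lg * lm)))
      simpa using this
    rw [abs_of_nonneg (by positivity : 0 ≤ D * (y ^ 2 * (A0 * lg * lm)))] at h2
    have h3 : D * (y ^ 2 * (lm * ((A0 + δ) * lg + Cg))) =
        D * (y ^ 2 * (lm * (δ * lg + Cg))) + D * (y ^ 2 * (A0 * lg * lm)) := by ring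
    linarith
  -- the factor ρ
  have h4 : 3 * ρ * |JD| ≤ D * (y ^ 2 * (lm * (A0 + δ + Cg))) + 2 * (t * E) := by
    have h5 : 3 * ρ ≤ 1 := by rw [hρ]; linarith
    have h6 : 3 * ρ * lg ≤ 1 := by
      have h7 : ε * lg ≤ ε * L := mul_le_mul_of_nonneg_left hlgL hε
      rw [hρ]
      nlinarith
    have hρ0 : 0 ≤ 3 * ρ := by rw [hρ]; positivity
    have h8 : 3 * ρ * (D * (y ^ 2 * (lm * ((A0 + δ) * lg + Cg))) + 2 * (t * E)) =
        (D * (y ^ 2 * lm)) * ((A0 + δ) * (3 * ρ * lg) + Cg * (3 * ρ)) +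
          (3 * ρ) * (2 * (t * E)) := by ring
    refine (mul_le_mul_of_nonneg_left h1 hρ0).trans ?_
    rw [h8]
    have h9 : (A0 + δ) * (3 * ρ * lg) + Cg * (3 * ρ) ≤ (A0 + δ) * 1 + Cg * 1 :=
      add_le_add (mul_le_mul_of_nonneg_left h6 (by positivity))
        (mul_le_mul_of_nonneg_left h5 hCg)
    have h10 : (D * (y ^ 2 * lm)) * ((A0 + δ) * (3 * ρ * lg) + Cg * (3 * ρ)) ≤
        (D * (y ^ 2 * lm)) * ((A0 + δ) * 1 + Cg * 1) :=
      mul_le_mul_of_nonneg_left h9 (by positivity)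
    have h11 : (3 * ρ) * (2 * (t * E)) ≤ 1 * (2 * (t * E)) :=
      mul_le_mul_of_nonneg_right h5 (by positivity)
    calc _ ≤ (D * (y ^ 2 * lm)) * ((A0 + δ) * 1 + Cg * 1) + 1 * (2 * (t * E)) :=
          add_le_add h10 h11
      _ = _ := by ring
  -- the quadratic term
  have h12 : J1 * (5 * D1 + 26 * J1) / t =
      (q * y ^ 2 + E) * (125 * lm + 25 * (t * r) + 26 * (t * (q * y ^ 2 + E))) := by
    rw [hJ1, hD1]
    field_simp
    ring
  have h13 : (q * y ^ 2 + E) * (125 * lm + 25 * (t * r) + 26 * (t * (q * y ^ 2 + E))) ≤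
      125 * (q * (y ^ 2 * lm)) + (60 * q + 52 * q ^ 2 + 290) * (t * E) := by
    have a1 : E * lm ≤ t * E := by rw [mul_comm t]; exact mul_le_mul_of_nonneg_left hlmt hE0
    have a2 : q * y ^ 2 * (t * r) ≤ q * (t * E) := by
      have : q * y ^ 2 * (t * r) = q * (t * (y ^ 2 * r)) := by ring
      rw [this]
      exact mul_le_mul_of_nonneg_left (mul_le_mul_of_nonneg_left hy2r ht.le) hq0
    have a3 : E * (t * r) ≤ t * E := by
      have : E * (t * r) = (t * E) * r := by ring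
      rw [this]
      exact mul_le_of_le_one_right htE hr1
    have a4 : t * (q * y ^ 2) * (q * y ^ 2) ≤ q ^ 2 * (t * E) := by
      have : t * (q * y ^ 2) * (q * y ^ 2) = q ^ 2 * (t * y ^ 4) := by ring
      rw [this]
      exact mul_le_mul_of_nonneg_left (mul_le_mul_of_nonneg_left hy4 ht.le) (by positivity)
    have a5 : t * E * E ≤ t * E := mul_le_of_le_one_right htE hE1
    have a6 : (q * y ^ 2 + E) ^ 2 ≤ 2 * (q * y ^ 2) ^ 2 + 2 * E ^ 2 := by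
      nlinarith [sq_nonneg (q * y ^ 2 - E)]
    have a7 : t * (q * y ^ 2 + E) ^ 2 ≤ t * (2 * (q * y ^ 2) ^ 2 + 2 * E ^ 2) :=
      mul_le_mul_of_nonneg_left a6 ht.le
    have e1 : (q * y ^ 2 + E) * (125 * lm + 25 * (t * r) + 26 * (t * (q * y ^ 2 + E))) =
        125 * (q * (y ^ 2 * lm)) + 125 * (E * lm) + 25 * (q * y ^ 2 * (t * r)) +
          25 * (E * (t * r)) + 26 * (t * (q * y ^ 2 + E) ^ 2) := by ring
    have e2 : t * (2 * (q * y ^ 2) ^ 2 + 2 * E ^ 2) =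
        2 * (t * (q * y ^ 2) * (q * y ^ 2)) + 2 * (t * E * E) := by ring
    rw [e1]
    rw [e2] at a7
    have hqtE : 0 ≤ q * (t * E) := by positivity
    have e4 : (60 * q + 52 * q ^ 2 + 290) * (t * E) =
        60 * (q * (t * E)) + 52 * (q ^ 2 * (t * E)) + 290 * (t * E) := by ring
    rw [e4]
    linarith
  have e3 : F - D * (y ^ 2 * (A0 * lg * lm)) = (F - JD) + (JD - D * (y ^ 2 * (A0 * lg * lm))) := by
    ring
  rw [e3]
  refine (abs_add_le _ _).trans ?_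
  rw [h12] at hF
  have e5 : (60 * q + 52 * q ^ 2 + 300) * (t * E) =
      (60 * q + 52 * q ^ 2 + 290) * (t * E) + 10 * (t * E) := by ring
  rw [e5]
  linarith

end

end Vale.Agent.P159.H114
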