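import Vale.Agent.P159.H114.Star2

/-!
P159 (helper114): **the one-level flow equation** (`star1`).
-/

namespace Vale.Agent.P159.H114

open MeasureTheory Finset Matrix
open Vale.Agent.P159.H37
open Vale.Agent.P159.H864 (TI sym mlt ti_mlt sym_mlt cobV MC GM Gck PiCk cobV_mul_tr)
open Vale.Agent.P159.H730 (wC Cbk)
open Vale.Agent.P159.TM.H764 (Gh cN sN dt ch EE frm grd pw)
open Vale.Agent.P159.TM.Spec (V)
open Vale.Agent.P159.TM.SpecC (wT ms)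

noncomputable section

set_option linter.unusedSectionVars false

/-- flat profile of the neutral self energy and size of the windows -/
structure FH (n : ℕ) [NeZero n] (P : V n → ℝ) (a η ξ ξ2 B κ : ℝ) : Prop where
  hξ0 : 0 < ξ
  hξ20 : 0 < ξ2
  hξ : B ≤ ξ
  hξξ : B * ξ ≤ ξ2
  hξN : B * ξ2 ≤ n
  hη : 0 ≤ η
  hF : ∀ k, |P k - a * EE k| ≤ η * EE k * (1 + EE k * ξ ^ 2)
  ha : |a - Real.pi / 2| * (1 + Real.log (ξ2 / ξ)) ≤ κ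
  hηκ : η * (1 + Real.log (1 + 9 * ξ2 ^ 2)) * (n : ℝ) ^ 4 ≤ κ * ξ2 ^ 4

section fh

variable {n : ℕ} [NeZero n] {P : V n → ℝ} {a η ξ ξ2 B κ : ℝ}

lemma FH.mono (h : FH n P a η ξ ξ2 B κ) {B' κ' : ℝ} (hB : B' ≤ B) (hκ : κ ≤ κ') :
    FH n P a η ξ ξ2 B' κ' where
  hξ0 := h.hξ0
  hξ20 := h.hξ20
  hξ := hB.trans h.hξ
  hξξ := (mul_le_mul_of_nonneg_right hB h.hξ0.le).trans h.hξξ
  hξN := (mul_le_mul_of_nonneg_right hB h.hξ20.le).trans h.hξN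
  hη := h.hη
  hF := h.hF
  ha := h.ha.trans hκ
  hηκ := h.hηκ.trans (mul_le_mul_of_nonneg_right hκ (by have := h.hξ20; positivity))

lemma FH.P0 (h : FH n P a η ξ ξ2 B κ) : P 0 = 0 := by
  have h1 := h.hF 0
  rw [H462.EE_zero, mul_zero, mul_zero, zero_mul, sub_zero] at h1
  exact abs_eq_zero.1 (le_antisymm h1 (abs_nonneg _))

lemma FH.lg0 (h : FH n P a η ξ ξ2 B κ) (hB : 1 ≤ B) : 0 ≤ Real.log (ξ2 / ξ) := by
  refine Real.log_nonneg ?_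
  rw [le_div_iff₀ h.hξ0]
  have := h.hξξ
  have := h.hξ0
  nlinarith

lemma FH.a_le (h : FH n P a η ξ ξ2 B κ) (hB : 1 ≤ B) (hκ : κ ≤ 1) : a ≤ 3 := by
  have h1 := h.lg0 hB
  have h2 := h.ha
  have h3 : |a - Real.pi / 2| ≤ 1 := by
    have : |a - Real.pi / 2| ≤ |a - Real.pi / 2| * (1 + Real.log (ξ2 / ξ)) :=
      le_mul_of_one_le_right (abs_nonneg _) (by linarith)
    linarith
  have h4 := (abs_le.1 h3).2
  have := Real.pi_lt_d2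
  linarith

lemma FH.η_le (h : FH n P a η ξ ξ2 B κ) (hB : 1 ≤ B) (hκ : κ ≤ 1) : η ≤ 1 := by
  have hn : (0 : ℝ) < n := by exact_mod_cast NeZero.pos n
  have h2 := h.hηκ
  have hx := h.hξ20
  have hη := h.hη
  have h3 : 0 ≤ Real.log (1 + 9 * ξ2 ^ 2) := Real.log_nonneg (by nlinarith)
  have h4 : ξ2 ≤ n := by have := h.hξN; nlinarith
  have h5 : ξ2 ^ 4 ≤ (n : ℝ) ^ 4 := pow_le_pow_left₀ hx.le h4 4
  have h6 : η * (n : ℝ) ^ 4 ≤ η * (1 + Real.log (1 + 9 * ξ2 ^ 2)) * (n : ℝ) ^ 4 := by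
    refine mul_le_mul_of_nonneg_right ?_ (by positivity)
    exact le_mul_of_one_le_right hη (by linarith)
  have h7 : κ * ξ2 ^ 4 ≤ 1 * (n : ℝ) ^ 4 :=
    (mul_le_mul_of_nonneg_right hκ (by positivity)).trans
      (by rw [one_mul, one_mul]; exact h5)
  have h8 : η * (n : ℝ) ^ 4 ≤ 1 * (n : ℝ) ^ 4 := h6.trans (h2.trans h7)
  exact le_of_mul_le_mul_right h8 (by positivity)

/-- small axis momenta -/
lemma FH.pw_le (h : FH n P a η ξ ξ2 B κ) (hB : 1 ≤ B) {C2 : ℝ} (hC2 : 0 ≤ C2)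
    (hBC : 10 * C2 ≤ B) {j : ZMod n} (hj : |pw j| * ξ2 ≤ C2) :
    (pw j * ξ) ^ 2 ≤ 1 / 100 := by
  have hx := h.hξ0
  have hx2 := h.hξ20
  have h1 : |pw j| * (B * ξ) ≤ C2 :=
    (mul_le_mul_of_nonneg_left h.hξξ (abs_nonneg _)).trans hj
  have h2 : |pw j| * ξ * (10 * B) ≤ B := by nlinarith
  have h3 : |pw j| * ξ ≤ 1 / 10 := by nlinarith
  have h4 : 0 ≤ |pw j| * ξ := by positivity
  have e : (pw j * ξ) ^ 2 = (|pw j| * ξ) ^ 2 := by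
    rw [mul_pow, mul_pow, sq_abs]
  rw [e]
  nlinarith

lemma FH.P_le (h : FH n P a η ξ ξ2 B κ) (hB : 1 ≤ B) (hκ : κ ≤ 1) {C2 : ℝ} (hC2 : 0 ≤ C2)
    (hBC : 10 * C2 ≤ B) {j : ZMod n} (hj : |pw j| * ξ2 ≤ C2) :
    P (ax j) ≤ 5 * pw j ^ 2 := by
  have h1 := (abs_le.1 (h.hF (ax j))).2
  have h2 := EE_ax_le j
  have h3 := h.a_le hB hκ
  have h4 := h.η_le hB hκ
  have h5 := H462.EE_nonneg (ax j)
  have h6 := h.pw_le hB hC2 hBC hj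
  have hη := h.hη
  have h7 : EE (ax j) * ξ ^ 2 ≤ 1 / 100 := by
    refine le_trans ?_ h6
    rw [mul_pow]
    exact mul_le_mul_of_nonneg_right h2 (by positivity)
  have h8 : η * EE (ax j) * (1 + EE (ax j) * ξ ^ 2) ≤ 1 * EE (ax j) * (2 : ℝ) := by
    refine mul_le_mul (mul_le_mul_of_nonneg_right h4 h5) (by linarith) ?_ (by positivity)
    have : 0 ≤ EE (ax j) * ξ ^ 2 := by positivity
    linarith
  have h9 : a * EE (ax j) ≤ 3 * EE (ax j) := mul_le_mul_of_nonneg_right h3 h5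
  linarith

end fh

/-- units -/
lemma xi_unit {t l ξ : ℝ} (ht : 0 < t) (hl : 0 < l) (hξ0 : 0 < ξ) (h : t * l ^ 2 * ξ ^ 2 = 1) :
    Real.sqrt t * l * ξ = 1 := by
  have h1 : (Real.sqrt t * l * ξ) ^ 2 = 1 := by
    rw [mul_pow, mul_pow, Real.sq_sqrt ht.le]
    exact h
  have h2 : 0 ≤ Real.sqrt t * l * ξ := by positivity
  nlinarith

lemma inv_unit {s ξ : ℝ} (hξ0 : 0 < ξ) (h : s * ξ ^ 2 = 1) : 1 / ξ ^ 2 = s := by
  rw [div_eq_iff (by positivity)]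
  exact h.symm

variable {N l : ℕ} [NeZero N] [NeZero (N / l)] {b t0 t τ : ℝ}
variable {P : V (N / l) → ℝ} {c0 y e : ℝ}

lemma gS_zero (t τ : ℝ) (P : V (N / l) → ℝ) : gS N l t τ P 0 =
    ∑ x, H813.gk (H813.GamP (N / l) (t * l ^ 2) (τ * l ^ 2) P) x := by
  unfold gS
  refine Finset.sum_congr rfl fun x _ => ?_
  rw [H864.dt_zero_left, TM.H764.cN_zero, mul_one]

lemma gS_ax (t τ : ℝ) (P : V (N / l) → ℝ) (j : ZMod (N / l)) : gS N l t τ P (ax j) =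
    ∑ x, H813.gk (H813.GamP (N / l) (t * l ^ 2) (τ * l ^ 2) P) x * cN (j * x.1) := by
  unfold gS
  refine Finset.sum_congr rfl fun x _ => ?_
  rw [dt_ax]

/-- main part of the difference of the projected second moments -/
lemma LP.jd (h : LP N l b t0 t τ P c0 y e) (hs : 160 * (k0 c0 * Lm N t * ep N t y e) ≤ 1)
    (hP0 : P 0 = 0) {ξ lg A0 δ Cg : ℝ} (hξ : t * l ^ 2 * ξ ^ 2 = 1) {j : ZMod (N / l)}
    (hG : |gS N l t τ P 0 - sS P (t * l ^ 2) (ax j) ^ 2 * gS N l t τ P (ax j) -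
      A0 * (ξ ^ 4 * pw j ^ 2) * lg| ≤ ξ ^ 4 * pw j ^ 2 * (δ * lg + Cg)) :
    |((phs t (PbC N l b t0 t τ 0) - phs t (PiCk N l b t0 τ 0)) -
        (phs t (PbC N l b t0 t τ (ax j)) - phs t (PiCk N l b t0 τ (ax j)))) -
      16 * Real.pi ^ 2 * (y ^ 2 * (A0 * lg * (pw j ^ 2 / l ^ 2)))| ≤
      16 * Real.pi ^ 2 * (y ^ 2 * (pw j ^ 2 / l ^ 2 * (δ * lg + Cg))) +
        2 * (t * eJ N t y e c0) := by
  have h1 := h.jdiff hs hP0 (ax j)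
  have hl := h.lpos
  have hpi := Real.pi_pos
  have hy := h.hy
  set G := gS N l t τ P 0 - sS P (t * l ^ 2) (ax j) ^ 2 * gS N l t τ P (ax j) with hGd
  set JD := ((phs t (PbC N l b t0 t τ 0) - phs t (PiCk N l b t0 τ 0)) -
        (phs t (PbC N l b t0 t τ (ax j)) - phs t (PiCk N l b t0 τ (ax j)))) with hJD
  have e0 : t ^ 2 * l ^ 2 * (ξ ^ 4 * pw j ^ 2) = pw j ^ 2 / l ^ 2 := by
    have : t ^ 2 * l ^ 2 * (ξ ^ 4 * pw j ^ 2) = (t * l ^ 2 * ξ ^ 2) ^ 2 * (pw j ^ 2 / l ^ 2) := by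
      field_simp
    rw [this, hξ, one_pow, one_mul]
  have e1 : JD - 16 * Real.pi ^ 2 * (y ^ 2 * (A0 * lg * (pw j ^ 2 / l ^ 2))) =
      (JD - 16 * Real.pi ^ 2 * y ^ 2 * (t ^ 2 * l ^ 2) * G) +
      16 * Real.pi ^ 2 * y ^ 2 * (t ^ 2 * l ^ 2) * (G - A0 * (ξ ^ 4 * pw j ^ 2) * lg) := by
    rw [← e0]
    ring
  rw [e1]
  refine (abs_add_le _ _).trans ?_
  rw [abs_mul, abs_of_nonneg (by positivity : 0 ≤ 16 * Real.pi ^ 2 * y ^ 2 *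
    (t ^ 2 * (l : ℝ) ^ 2))]
  have h2 : 16 * Real.pi ^ 2 * y ^ 2 * (t ^ 2 * (l : ℝ) ^ 2) *
      |G - A0 * (ξ ^ 4 * pw j ^ 2) * lg| ≤ 16 * Real.pi ^ 2 * y ^ 2 * (t ^ 2 * (l : ℝ) ^ 2) *
        (ξ ^ 4 * pw j ^ 2 * (δ * lg + Cg)) := mul_le_mul_of_nonneg_left hG (by positivity)
  have e2 : 16 * Real.pi ^ 2 * y ^ 2 * (t ^ 2 * (l : ℝ) ^ 2) *
        (ξ ^ 4 * pw j ^ 2 * (δ * lg + Cg)) =
      16 * Real.pi ^ 2 * (y ^ 2 * (pw j ^ 2 / l ^ 2 * (δ * lg + Cg))) := by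
    rw [← e0]
    ring
  rw [e2] at h2
  linarith

/-- **the one-level flow equation**, with explicit constants of helper813's lattice sum -/
lemma LP.star (h : LP N l b t0 t τ P c0 y e) (hs : 160 * (k0 c0 * Lm N t * ep N t y e) ≤ 1)
    {ξ ξ2 a η B κ A0 δ Cg C2 : ℝ} (hξ : t * l ^ 2 * ξ ^ 2 = 1)
    (hF : FH (N / l) P a η ξ ξ2 B κ) (hB : 1 ≤ B) (hκ : κ ≤ 1) (hC2 : 0 ≤ C2)
    (hBC : 10 * C2 ≤ B) {j : ZMod (N / l)} (hj : |pw j| * ξ2 ≤ C2) (hA0 : 0 ≤ A0) (hδ : 0 ≤ δ)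
    (hCg : 0 ≤ Cg) (hA : gA N l t τ P ≤ Cg * ξ ^ 2)
    (hG : |gS N l t τ P 0 - sS P (t * l ^ 2) (ax j) ^ 2 * gS N l t τ P (ax j) -
      A0 * (ξ ^ 4 * pw j ^ 2) * Real.log (ξ2 / ξ)| ≤
        ξ ^ 4 * pw j ^ 2 * (δ * Real.log (ξ2 / ξ) + Cg)) :
    |((PiCk N l b t0 τ (ax j) - PiCk N l b t0 τ 0) - (PbC N l b t0 t τ (ax j) - PbC N l b t0 t τ 0)) -
      (16 * Real.pi ^ 2) * (y ^ 2 * (A0 * Real.log (ξ2 / ξ) * (pw j ^ 2 / l ^ 2)))| ≤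
      (16 * Real.pi ^ 2) * (y ^ 2 * (pw j ^ 2 / l ^ 2 * (δ * Real.log (ξ2 / ξ) + Cg))) +
      (16 * Real.pi ^ 2) * (y ^ 2 * (pw j ^ 2 / l ^ 2 * (A0 + δ + Cg))) +
        125 * ((16 * Real.pi ^ 2 * Cg) * (y ^ 2 * (pw j ^ 2 / l ^ 2))) +
        (60 * (16 * Real.pi ^ 2 * Cg) + 52 * (16 * Real.pi ^ 2 * Cg) ^ 2 + 300) *
          (t * eJ N t y e c0) := by
  have ht := h.ht
  have hl := h.lpos
  have hS := h.sml hs
  have hP0 := hF.P0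
  have hx0 := hF.hξ0
  have hpi := Real.pi_pos
  have hpw := hF.pw_le hB hC2 hBC hj
  have hPj := hF.P_le hB hκ hC2 hBC hj
  obtain ⟨_, hX0⟩ := h.x0 hs hP0
  -- units
  have hu := xi_unit ht hl hx0 hξ
  have e0 : pw j ^ 2 / (l : ℝ) ^ 2 = (pw j * ξ) ^ 2 * t := by
    have : (pw j * ξ) ^ 2 * t = pw j ^ 2 / l ^ 2 * (t * l ^ 2 * ξ ^ 2) := by
      field_simp
    rw [this, hξ, mul_one]
  have hlm : pw j ^ 2 / (l : ℝ) ^ 2 ≤ t / 100 := by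
    rw [e0]
    have := mul_le_mul_of_nonneg_right hpw ht.le
    linarith
  have hp : P (ax j) / (l : ℝ) ^ 2 ≤ 5 * (pw j ^ 2 / l ^ 2) := by
    rw [← mul_div_assoc]
    exact div_le_div_of_nonneg_right hPj (by positivity)
  obtain ⟨hX, hD⟩ := h.xk' hs hP0 (k := ax j) (by linarith)
  have hD' : |PbC N l b t0 t τ (ax j) - PbC N l b t0 t τ 0| ≤
      5 * (5 * (pw j ^ 2 / l ^ 2) + t * rH N t y e c0) := by linarith
  have hlgL : Real.log (ξ2 / ξ) ≤ Lm N t := by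
    have h1 : ξ2 / ξ ≤ Lm N t := by
      have h2 : ξ2 ≤ N / l := by
        have h3 := hF.hξN
        have h4 := hF.hξ20
        rw [h.Nl] at h3
        nlinarith
      rw [div_le_iff₀ hx0]
      calc ξ2 ≤ N / l := h2
        _ = N / l * (Real.sqrt t * l * ξ) := by rw [hu, mul_one]
        _ = _ := by unfold Lm; field_simp
    have h5 : 0 < ξ2 / ξ := div_pos hF.hξ20 hx0
    have h6 := Real.log_le_sub_one_of_pos h5
    linarith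
  have hYk := H864.PiCk_nonneg h.hb h.hl h.hτ (h.lt.le.trans h.htt) (ax j)
  have hY0 := H864.PiCk_nonneg h.hb h.hl h.hτ (h.lt.le.trans h.htt) (0 : V (N / l))
  have hYX := PiCk_le_PbC (N := N) h.hb h.hl h.hτ h.lt h.htt (ax j)
  have hYX0 := PiCk_le_PbC (N := N) h.hb h.hl h.hτ h.lt h.htt (0 : V (N / l))
  have hep := hS.ep_le
  have hcore := phs_core (ρ := 20 * ep N t y e) ht hYk hYX hY0 hYX0 hX0 (by linarith)
    (by linarith) (h.j_le hs hξ hA (ax j)) (h.j_le hs hξ hA 0) hD'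
  have hjd := h.jd hs hP0 hξ hG
  have hr1 : rH N t y e c0 ≤ 1 := by
    have := hS.r_le
    linarith
  exact fin_alg (D := 16 * Real.pi ^ 2) ht hCg rfl hS.eJ0 hS.eJ_le hS.r0 hr1 hS.y4 hS.y2r hS.ep0
    hS.Le hep (hF.lg0 hB) hlgL (by positivity) (by linarith) hA0 hδ rfl rfl rfl hjd hcore rfl

end

end Vale.Agent.P159.H114
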