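import Vale.Agent.P159.H114.Star3

/-!
P159 (helper114): **the one-level flow equation** (`star1`), with helper813's lattice sum.
-/

namespace Vale.Agent.P159.H114

open MeasureTheory Finset Matrix
open Vale.Agent.P159.H37
open Vale.Agent.P159.H864 (TI sym mlt ti_mlt sym_mlt cobV MC GM Gck PiCk cobV_mul_tr)
open Vale.Agent.P159.H730 (wC Cbk)
open Vale.Agent.P159.TM.H764 (Gh cN sN dt ch EE frm grd pw)
open Vale.Agent.P159.TM.Spec (V)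
open Vale.Agent.P159.TM.SpecC (wT ms)

noncomputable section

set_option linter.unusedSectionVars false

/-- **the one-level flow equation.** `x = PbC` (mean posterior stiffness at mass `t`, prior cell
mass `τ`), `Π = PiCk` (self energy of the prior), axis momentum `j` of size `≤ C2 / ξ2` -/
theorem star1 : ∃ A0 : ℝ, 0 < A0 ∧ ∀ c0 C2 ε : ℝ, 0 < c0 → c0 ≤ 1 → 0 ≤ C2 → 0 < ε →
    ∃ C B κ : ℝ, 0 ≤ C ∧ 1 ≤ B ∧ 0 < κ ∧ ∀ (N l : ℕ) [NeZero N] [NeZero (N / l)]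
      (b t0 t τ y e a η ξ ξ2 : ℝ) (P : V (N / l) → ℝ), LP N l b t0 t τ P c0 y e →
      t * l ^ 2 * ξ ^ 2 = 1 → τ * l ^ 2 * ξ2 ^ 2 = 1 → FH (N / l) P a η ξ ξ2 B κ →
      160 * (k0 c0 * Lm N t * ep N t y e) ≤ 1 → ∀ j : ZMod (N / l), |pw j| * ξ2 ≤ C2 →
      |((PiCk N l b t0 τ (ax j) - PiCk N l b t0 τ 0) - (PbC N l b t0 t τ (ax j) - PbC N l b t0 t τ 0)) -
        A0 * Real.log (ξ2 / ξ) * (y ^ 2 * (pw j ^ 2 / l ^ 2))| ≤
        (ε * Real.log (ξ2 / ξ) + C) * (y ^ 2 * (pw j ^ 2 / l ^ 2)) +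
          C * (t * eJ N t y e c0) := by
  obtain ⟨A0, hA0, hmult⟩ := H813.P4_mult
  have hpi := Real.pi_pos
  refine ⟨16 * Real.pi ^ 2 * A0, by positivity, ?_⟩
  intro c0 C2 ε hc0 hc01 hC2 hε
  obtain ⟨Cg, B1, κ1, hCg, hB1, hκ1, hmain⟩ := hmult c0 5 C2 (ε / (16 * Real.pi ^ 2)) hc0 hc01
    (by norm_num) (by positivity)
  set δ := ε / (16 * Real.pi ^ 2) with hδ
  have hδ0 : 0 < δ := by rw [hδ]; positivity
  set q := 16 * Real.pi ^ 2 * Cg with hq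
  have hq0 : 0 ≤ q := by rw [hq]; positivity
  set C' := 16 * Real.pi ^ 2 * Cg + 16 * Real.pi ^ 2 * (A0 + δ + Cg) + 125 * q +
    (60 * q + 52 * q ^ 2 + 300) with hC'
  refine ⟨C', max B1 (10 * C2), min κ1 1, by positivity, hB1.trans (le_max_left _ _),
    by positivity, ?_⟩
  intro N l _ _ b t0 t τ y e a η ξ ξ2 P hLP hξ hξ2 hF hs j hj
  have ht := hLP.ht
  have hl := hLP.lpos
  have hF1 := hF.mono (le_max_left B1 (10 * C2)) (min_le_left κ1 1)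
  have hBM : 1 ≤ max B1 (10 * C2) := hB1.trans (le_max_left _ _)
  have e1 : 1 / ξ ^ 2 = t * l ^ 2 := inv_unit hF.hξ0 hξ
  have e2 : 1 / ξ2 ^ 2 = τ * l ^ 2 := inv_unit hF.hξ20 hξ2
  obtain ⟨hA, hG⟩ := hmain (N / l) ξ ξ2 a η P hF1.hξ hF1.hξξ hF1.hξN hF1.hη hLP.qd.hlo
    hF1.hF hF1.ha hF1.hηκ
  rw [e1, e2] at hA hG
  -- the multiplier
  have hs0 := hLP.qd.sS0 (ax j)
  have hs1 := hLP.qd.sS1 (ax j)
  have hsj : 1 - sS P (t * l ^ 2) (ax j) ≤ 5 * (ξ * pw j) ^ 2 := by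
    have h1 := hLP.sS_le (ax j)
    have h2 := hF.P_le hBM (min_le_right _ _) hC2 (le_max_right _ _) hj
    refine h1.trans ?_
    have h3 : P (ax j) / (l : ℝ) ^ 2 / t = P (ax j) * ξ ^ 2 := by
      have : P (ax j) / (l : ℝ) ^ 2 / t = P (ax j) / (l ^ 2 * t) * (t * l ^ 2 * ξ ^ 2) := by
        rw [hξ, mul_one, div_div]
      rw [this]
      field_simp
    rw [h3]
    have h4 : P (ax j) * ξ ^ 2 ≤ 5 * pw j ^ 2 * ξ ^ 2 :=
      mul_le_mul_of_nonneg_right h2 (by positivity)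
    linarith
  have hG' := hG j (sS P (t * l ^ 2) (ax j)) hj hs0 hs1 hsj
  rw [← gS_zero, ← gS_ax] at hG'
  have h := hLP.star hs hξ hF hBM (min_le_right _ _) hC2 (le_max_right _ _) hj hA0.le hδ0.le hCg
    hA hG'
  have hlg := hF.lg0 hBM
  have hy2 : 0 ≤ y ^ 2 * (pw j ^ 2 / (l : ℝ) ^ 2) := by positivity
  have hE : 0 ≤ t * eJ N t y e c0 := mul_nonneg ht.le (hLP.sml hs).eJ0
  set lg := Real.log (ξ2 / ξ) with hlgd
  set lm := pw j ^ 2 / (l : ℝ) ^ 2 with hlmd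
  have e3 : 16 * Real.pi ^ 2 * (y ^ 2 * (A0 * lg * lm)) =
      16 * Real.pi ^ 2 * A0 * lg * (y ^ 2 * lm) := by ring
  rw [e3] at h
  refine h.trans ?_
  have e4 : 16 * Real.pi ^ 2 * δ = ε := by
    rw [hδ]
    field_simp
  have e5 : 16 * Real.pi ^ 2 * (y ^ 2 * (lm * (δ * lg + Cg))) +
      16 * Real.pi ^ 2 * (y ^ 2 * (lm * (A0 + δ + Cg))) + 125 * (q * (y ^ 2 * lm)) +
      (60 * q + 52 * q ^ 2 + 300) * (t * eJ N t y e c0) =
      ((16 * Real.pi ^ 2 * δ) * lg + (16 * Real.pi ^ 2 * Cg +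
        16 * Real.pi ^ 2 * (A0 + δ + Cg) + 125 * q)) * (y ^ 2 * lm) +
      (60 * q + 52 * q ^ 2 + 300) * (t * eJ N t y e c0) := by ring
  rw [e5, e4]
  refine add_le_add (mul_le_mul_of_nonneg_right ?_ hy2) (mul_le_mul_of_nonneg_right ?_ hE)
  · have : 0 ≤ 60 * q + 52 * q ^ 2 + 300 := by positivity
    rw [hC']
    linarith
  · have : 0 ≤ 16 * Real.pi ^ 2 * Cg + 16 * Real.pi ^ 2 * (A0 + δ + Cg) + 125 * q := by positivity
    rw [hC']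
    linarith

end

end Vale.Agent.P159.H114
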