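import Vale.Agent.P159.H114.Star4

/-!
P159 (helper114): crude profile of the mean posterior stiffness: `x(k) - x(0) = p(k) + O(t (y² + r))`.
-/

namespace Vale.Agent.P159.H114

open MeasureTheory Finset Matrix
open Vale.Agent.P159.H37
open Vale.Agent.P159.H864 (TI sym mlt ti_mlt sym_mlt cobV MC GM Gck PiCk cobV_mul_tr)
open Vale.Agent.P159.H730 (wC Cbk)
open Vale.Agent.P159.TM.H764 (Gh cN sN dt ch EE frm grd pw)
open Vale.Agent.P159.TM.Spec (V)
open Vale.Agent.P159.TM.SpecC (wT ms)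

noncomputable section

set_option linter.unusedSectionVars false

/-- scalar step -/
lemma prof_alg {t X p z s r : ℝ} (ht : 0 < t) (hX0 : 0 ≤ X) (hX : X ≤ t) (hp0 : 0 ≤ p)
    (hp : p ≤ t / 16) (hz0 : 0 ≤ z) (hz : z ≤ 1 / 16) (hr : 0 ≤ r) (hs : s * (1 + p / t) = 1)
    (hs0 : 0 ≤ s) (hs1 : s ≤ 1) (h : |phs t X - (phs t p + t * (z * s ^ 2))| ≤ t * r) :
    |X - p - t * z| ≤ t * (2 * z ^ 2 + 4 * r) := by
  have e1 := sub_phs ht hX0 hp0
  have hxt : X / t ≤ 1 := by rw [div_le_iff₀ ht]; linarith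
  have hpt : p / t ≤ 1 / 16 := by rw [div_le_iff₀ ht]; linarith
  have hx0 : 0 ≤ X / t := by positivity
  have hpt0 : 0 ≤ p / t := by positivity
  set g := (1 + X / t) * (1 + p / t) with hg
  have hg0 : 0 ≤ g := by positivity
  have hg3 : g ≤ 3 := by
    have := mul_le_mul (show 1 + X / t ≤ 2 by linarith) (show 1 + p / t ≤ 17 / 16 by linarith)
      (by linarith) (by norm_num)
    linarith
  have h1 : |X - p - t * z * (s * (1 + X / t))| ≤ 3 * (t * r) := by
    have e2 : X - p - t * z * (s * (1 + X / t)) =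
        (phs t X - (phs t p + t * (z * s ^ 2))) * g := by
      have e3 : t * (z * s ^ 2) * g = t * z * (s * (1 + X / t)) * (s * (1 + p / t)) := by
        rw [hg]; ring
      rw [hs, mul_one] at e3
      have e4 : (phs t X - (phs t p + t * (z * s ^ 2))) * g =
          (phs t X - phs t p) * g - t * (z * s ^ 2) * g := by ring
      rw [e4, e3, ← e1]
    rw [e2, abs_mul, abs_of_nonneg hg0]
    calc |phs t X - (phs t p + t * (z * s ^ 2))| * g ≤ (t * r) * 3 :=
          mul_le_mul h hg3 hg0 (by positivity)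
      _ = _ := by ring
  have h2 : s * (1 + X / t) = 1 + s * ((X - p) / t) := by
    have : s * (1 + X / t) = s * (1 + p / t) + s * ((X - p) / t) := by ring
    rw [this, hs]
  have h3 : s * (1 + X / t) ≤ 2 := by
    have := mul_le_mul hs1 (show 1 + X / t ≤ 2 by linarith) (by linarith) (by norm_num)
    linarith
  have h30 : 0 ≤ s * (1 + X / t) := by positivity
  have h4 : |X - p| ≤ 2 * (t * z) + 3 * (t * r) := by
    have e5 : X - p = (X - p - t * z * (s * (1 + X / t))) + t * z * (s * (1 + X / t)) := by ring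
    rw [e5]
    refine (abs_add_le _ _).trans ?_
    rw [abs_of_nonneg (by positivity : 0 ≤ t * z * (s * (1 + X / t)))]
    have : t * z * (s * (1 + X / t)) ≤ t * z * 2 := mul_le_mul_of_nonneg_left h3 (by positivity)
    linarith
  have e6 : X - p - t * z = (X - p - t * z * (s * (1 + X / t))) + z * s * (X - p) := by
    rw [h2]
    field_simp
    ring
  rw [e6]
  refine (abs_add_le _ _).trans ?_
  have h5 : |z * s * (X - p)| ≤ z * (2 * (t * z) + 3 * (t * r)) := by
    rw [abs_mul, abs_of_nonneg (by positivity : 0 ≤ z * s)]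
    have : z * s ≤ z := mul_le_of_le_one_right hz0 hs1
    exact mul_le_mul this h4 (abs_nonneg _) hz0
  have h6 : z * (3 * (t * r)) ≤ 1 / 16 * (3 * (t * r)) :=
    mul_le_mul_of_nonneg_right hz (by positivity)
  have h7 : 0 ≤ t * r := by positivity
  nlinarith

variable {N l : ℕ} [NeZero N] [NeZero (N / l)] {b t0 t τ : ℝ}
variable {P : V (N / l) → ℝ} {c0 y e : ℝ}

lemma LP.sS_mul (h : LP N l b t0 t τ P c0 y e) (k : V (N / l)) :
    sS P (t * l ^ 2) k * (1 + P k / l ^ 2 / t) = 1 := by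
  have hl := h.lpos
  have ht := h.ht
  have hP := h.qd.P0 k
  unfold sS
  field_simp

/-- the mean posterior stiffness in terms of the neutral self energy -/
theorem LP.prof1 (h : LP N l b t0 t τ P c0 y e) (hs : 160 * (k0 c0 * Lm N t * ep N t y e) ≤ 1)
    (hP0 : P 0 = 0) {k : V (N / l)} (hp : P k / l ^ 2 ≤ t / 16) :
    |PbC N l b t0 t τ k - P k / l ^ 2 - t * (8 * Real.pi ^ 2 * y * kG N l t τ P)| ≤
      t * (13000 * y ^ 2 + 4 * rH N t y e c0) := by
  have ht := h.ht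
  have hl := h.lpos
  have hS := h.sml hs
  have hX := PbC_nonneg (N := N) h.hb h.hl h.hτ h.lt h.htt k
  obtain ⟨hXt, -⟩ := h.xk' hs hP0 hp
  have hP := h.qd.P0 k
  obtain ⟨hk0, hk1⟩ := h.kG01
  have hy := h.hy
  have hpi := Real.pi_pos
  have h1 := h.hess' k
  have h2 := hS.py
  have h3 := hS.ep_le
  have e1 : phs t (P k / l ^ 2) + 8 * Real.pi ^ 2 * y * t * sS P (t * l ^ 2) k ^ 2 *
      kG N l t τ P = phs t (P k / l ^ 2) + t * ((8 * Real.pi ^ 2 * y * kG N l t τ P) *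
        sS P (t * l ^ 2) k ^ 2) := by ring
  rw [e1] at h1
  have hz : 8 * Real.pi ^ 2 * y * kG N l t τ P ≤ 8 * Real.pi ^ 2 * y :=
    mul_le_of_le_one_right (by positivity) hk1
  have h4 := prof_alg ht hX hXt (by positivity) hp (by positivity) (by linarith) hS.r0
    (h.sS_mul k) (h.qd.sS0 k) (h.qd.sS1 k) h1
  refine h4.trans (mul_le_mul_of_nonneg_left ?_ ht.le)
  have h5 : 8 * Real.pi ^ 2 * y * kG N l t τ P ≤ 80 * y := by
    refine hz.trans ?_
    have h6 : Real.pi ^ 2 ≤ 10 := by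
      have h8 := Real.pi_lt_d4
      have : Real.pi ^ 2 ≤ 3.1416 ^ 2 := pow_le_pow_left₀ hpi.le h8.le 2
      linarith [show (3.1416 : ℝ) ^ 2 ≤ 10 by norm_num]
    nlinarith
  have h6 : (8 * Real.pi ^ 2 * y * kG N l t τ P) ^ 2 ≤ (80 * y) ^ 2 :=
    pow_le_pow_left₀ (by positivity) h5 2
  nlinarith

/-- **crude profile of the mean posterior stiffness** -/
theorem LP.prof (h : LP N l b t0 t τ P c0 y e) (hs : 160 * (k0 c0 * Lm N t * ep N t y e) ≤ 1)
    {a η ξ ξ2 B κ : ℝ} (hξ : t * l ^ 2 * ξ ^ 2 = 1) (hF : FH (N / l) P a η ξ ξ2 B κ)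
    (hB : 1 ≤ B) (hκ : κ ≤ 1) {k : V (N / l)} (hk : EE k * ξ ^ 2 ≤ 1 / 100) :
    |PbC N l b t0 t τ k - PbC N l b t0 t τ 0 - a / l ^ 2 * EE k| ≤
      t * (26000 * y ^ 2 + 8 * rH N t y e c0 + η) := by
  have ht := h.ht
  have hl := h.lpos
  have hP0 := hF.P0
  have hη := hF.hη
  have ha := hF.a_le hB hκ
  have hη1 := hF.η_le hB hκ
  have hE := H462.EE_nonneg k
  have h1 := hF.hF k
  have hEl : EE k / (l : ℝ) ^ 2 ≤ t / 100 := by
    have e1 : EE k / (l : ℝ) ^ 2 = EE k * ξ ^ 2 * t := by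
      have : EE k * ξ ^ 2 * t = EE k / l ^ 2 * (t * l ^ 2 * ξ ^ 2) := by field_simp
      rw [this, hξ, mul_one]
    rw [e1]
    have := mul_le_mul_of_nonneg_right hk ht.le
    linarith
  have hEl0 : 0 ≤ EE k / (l : ℝ) ^ 2 := by positivity
  have h2 : |P k / l ^ 2 - a / l ^ 2 * EE k| ≤ t * η := by
    have e1 : P k / l ^ 2 - a / l ^ 2 * EE k = (P k - a * EE k) / l ^ 2 := by ring
    rw [e1, abs_div, abs_of_pos (show (0 : ℝ) < l ^ 2 by positivity)]
    have h3 : η * EE k * (1 + EE k * ξ ^ 2) ≤ η * EE k * 2 :=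
      mul_le_mul_of_nonneg_left (by linarith) (by positivity)
    calc |P k - a * EE k| / (l : ℝ) ^ 2 ≤ (η * EE k * 2) / l ^ 2 :=
          div_le_div_of_nonneg_right (h1.trans h3) (by positivity)
      _ = η * 2 * (EE k / l ^ 2) := by ring
      _ ≤ η * 2 * (t / 100) := mul_le_mul_of_nonneg_left hEl (by positivity)
      _ ≤ t * η := by nlinarith
  have h4 : P k / l ^ 2 ≤ t / 16 := by
    have h5 := (abs_le.1 h1).2
    have h6 : P k ≤ 5 * EE k := by
      have h7 : η * EE k * (1 + EE k * ξ ^ 2) ≤ 1 * EE k * (2 : ℝ) :=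
        mul_le_mul (mul_le_mul_of_nonneg_right hη1 hE) (by linarith)
          (by positivity) (by positivity)
      have h8 : a * EE k ≤ 3 * EE k := mul_le_mul_of_nonneg_right ha hE
      linarith
    calc P k / (l : ℝ) ^ 2 ≤ 5 * EE k / l ^ 2 := div_le_div_of_nonneg_right h6 (by positivity)
      _ = 5 * (EE k / l ^ 2) := by ring
      _ ≤ 5 * (t / 100) := mul_le_mul_of_nonneg_left hEl (by norm_num)
      _ ≤ _ := by linarith
  have h5 := h.prof1 hs hP0 h4
  have h6 := h.prof1 hs hP0 (k := 0) (by rw [hP0, zero_div]; positivity)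
  rw [hP0, zero_div] at h6
  have e2 : PbC N l b t0 t τ k - PbC N l b t0 t τ 0 - a / l ^ 2 * EE k =
      (PbC N l b t0 t τ k - P k / l ^ 2 - t * (8 * Real.pi ^ 2 * y * kG N l t τ P)) -
      (PbC N l b t0 t τ 0 - 0 - t * (8 * Real.pi ^ 2 * y * kG N l t τ P)) +
      (P k / l ^ 2 - a / l ^ 2 * EE k) := by ring
  rw [e2]
  have a5 := abs_le.1 h5
  have a6 := abs_le.1 h6
  have a2 := abs_le.1 h2
  rw [abs_le]
  constructor
  · linarith [a5.1, a6.2, a2.1]
  · linarith [a5.2, a6.1, a2.2]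

end

end Vale.Agent.P159.H114
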