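import Vale.Agent.P159.H114.PJ4
import Vale.Agent.P159.H864.Fou0
import Vale.Agent.P159.H883.Tor
import Vale.Agent.P159.H462.In3Sum
import Vale.Agent.P159.H813.TB3a

/-!
P159 (helper114): the quadratic part of (P#) on the torus `V n`: `A`, `S = 1 - A/Nt`,
`G = (m + A)⁻¹` are Fourier multipliers; `S G S = 1/(Nτ + P) - 1/(Nt + P)`.
-/

namespace Vale.Agent.P159.H114

open MeasureTheory Finset Matrix
open Vale.Agent.P159.H37 (qf bf)
open Vale.Agent.P159.H864 (TI sym mlt ti_mlt sym_mlt)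
open Vale.Agent.P159.TM.H764 (Gh cN sN dt ch EE frm grd)
open Vale.Agent.P159.TM.Spec (V)

noncomputable section

variable {n : ℕ} [NeZero n]

/-- the data of the quadratic part -/
structure QD (n : ℕ) [NeZero n] (P : V n → ℝ) (c0 Nt Nτ : ℝ) : Prop where
  hev : ∀ k, P (-k) = P k
  hc0 : 0 < c0
  hlo : ∀ k, c0 * EE k ≤ P k
  hNτ : 0 < Nτ
  hNt : Nτ < Nt

variable {P : V n → ℝ} {c0 Nt Nτ : ℝ}

/-- symbol of `A` -/
def sA (P : V n → ℝ) (Nt : ℝ) (k : V n) : ℝ := Nt * P k / (Nt + P k)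

/-- symbol of `S` -/
def sS (P : V n → ℝ) (Nt : ℝ) (k : V n) : ℝ := Nt / (Nt + P k)

/-- symbol of `G` -/
def sG (P : V n → ℝ) (Nt Nτ : ℝ) (k : V n) : ℝ :=
  (Nt - Nτ) * (Nt + P k) / (Nt ^ 2 * (Nτ + P k))

/-- the mass left over -/
def mm (Nt Nτ : ℝ) : ℝ := Nt * Nτ / (Nt - Nτ)

/-- symbol of `Γ` -/
def sΓ (P : V n → ℝ) (Nt Nτ : ℝ) (k : V n) : ℝ := 1 / (Nτ + P k) - 1 / (Nt + P k)

lemma QD.P0 (h : QD n P c0 Nt Nτ) (k : V n) : 0 ≤ P k :=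
  (mul_nonneg h.hc0.le (H462.EE_nonneg k)).trans (h.hlo k)

lemma QD.Nt0 (h : QD n P c0 Nt Nτ) : 0 < Nt := h.hNτ.trans h.hNt

lemma QD.a0 (h : QD n P c0 Nt Nτ) (k : V n) : 0 < Nt + P k := by
  have := h.P0 k
  have := h.Nt0
  linarith

lemma QD.b0 (h : QD n P c0 Nt Nτ) (k : V n) : 0 < Nτ + P k := by
  have := h.P0 k
  have := h.hNτ
  linarith

lemma QD.d0 (h : QD n P c0 Nt Nτ) : 0 < Nt - Nτ := sub_pos.2 h.hNt

lemma QD.mm0 (h : QD n P c0 Nt Nτ) : 0 < mm Nt Nτ :=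
  div_pos (mul_pos h.Nt0 h.hNτ) h.d0

lemma QD.Nτ_le_mm (h : QD n P c0 Nt Nτ) : Nτ ≤ mm Nt Nτ := by
  unfold mm
  rw [le_div_iff₀ h.d0]
  have := h.hNτ
  have := h.Nt0
  nlinarith

lemma QD.evA (h : QD n P c0 Nt Nτ) (k : V n) : sA P Nt (-k) = sA P Nt k := by
  unfold sA
  rw [h.hev]

lemma QD.evS (h : QD n P c0 Nt Nτ) (k : V n) : sS P Nt (-k) = sS P Nt k := by
  unfold sS
  rw [h.hev]

lemma QD.evG (h : QD n P c0 Nt Nτ) (k : V n) : sG P Nt Nτ (-k) = sG P Nt Nτ k := by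
  unfold sG
  rw [h.hev]

lemma QD.symA (h : QD n P c0 Nt Nτ) (k : V n) : sym (mlt (sA P Nt)) k = sA P Nt k :=
  sym_mlt _ h.evA k

lemma QD.symS (h : QD n P c0 Nt Nτ) (k : V n) : sym (mlt (sS P Nt)) k = sS P Nt k :=
  sym_mlt _ h.evS k

lemma QD.symG (h : QD n P c0 Nt Nτ) (k : V n) : sym (mlt (sG P Nt Nτ)) k = sG P Nt Nτ k :=
  sym_mlt _ h.evG k

lemma QD.sS0 (h : QD n P c0 Nt Nτ) (k : V n) : 0 ≤ sS P Nt k := (div_pos h.Nt0 (h.a0 k)).le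

lemma QD.sS1 (h : QD n P c0 Nt Nτ) (k : V n) : sS P Nt k ≤ 1 := by
  unfold sS
  rw [div_le_one (h.a0 k)]
  linarith [h.P0 k]

lemma QD.sA0 (h : QD n P c0 Nt Nτ) (k : V n) : 0 ≤ sA P Nt k :=
  div_nonneg (mul_nonneg h.Nt0.le (h.P0 k)) (h.a0 k).le

lemma QD.sG0 (h : QD n P c0 Nt Nτ) (k : V n) : 0 ≤ sG P Nt Nτ k := by
  have h1 := h.d0
  have h2 := h.a0 k
  have h3 := h.b0 k
  have h4 := h.Nt0
  unfold sG
  positivity

/-- `(m + A) G = 1` -/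
lemma QD.mAG (h : QD n P c0 Nt Nτ) :
    ((mm Nt Nτ) • (1 : Matrix (V n) (V n) ℝ) + mlt (sA P Nt)) * mlt (sG P Nt Nτ) = 1 := by
  have hT : TI ((mm Nt Nτ) • (1 : Matrix (V n) (V n) ℝ) + mlt (sA P Nt)) :=
    (TI.one.smul _).add (ti_mlt _)
  refine H864.sym_inj (hT.mul (ti_mlt _)) TI.one fun k => ?_
  rw [H864.sym_mul hT (ti_mlt _), H864.sym_add, H864.sym_smul_one, h.symA, h.symG, H864.sym_one]
  unfold mm sA sG
  have h1 := h.d0.ne'
  have h2 := (h.a0 k).ne'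
  have h3 := (h.b0 k).ne'
  have h4 := h.Nt0.ne'
  field_simp
  ring

lemma QD.Gam_ti (h : QD n P c0 Nt Nτ) : TI (Gam (mlt (sS P Nt)) (mlt (sG P Nt Nτ))) :=
  ((ti_mlt _).mul (ti_mlt _)).mul (ti_mlt _)

lemma QD.sym_Gam (h : QD n P c0 Nt Nτ) (k : V n) :
    sym (Gam (mlt (sS P Nt)) (mlt (sG P Nt Nτ))) k = sΓ P Nt Nτ k := by
  unfold Gam
  rw [H864.sym_mul ((ti_mlt _).mul (ti_mlt _)) (ti_mlt _), H864.sym_mul (ti_mlt _) (ti_mlt _),
    h.symS, h.symG]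
  unfold sS sG sΓ
  have h1 := h.d0.ne'
  have h2 := (h.a0 k).ne'
  have h3 := (h.b0 k).ne'
  have h4 := h.Nt0.ne'
  field_simp
  ring

/-- the kernel of `Γ` is the one of helper813 -/
lemma QD.Gam_apply (h : QD n P c0 Nt Nτ) (x y : V n) :
    Gam (mlt (sS P Nt)) (mlt (sG P Nt Nτ)) x y = H813.GamP n Nt Nτ P (y - x) := by
  rw [h.Gam_ti.inversion]
  unfold H813.GamP
  rw [div_eq_inv_mul]
  congr 1
  refine Finset.sum_congr rfl fun k _ => ?_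
  rw [h.sym_Gam, mul_comm]
  rfl

lemma QD.Gam_diag (h : QD n P c0 Nt Nτ) (x : V n) :
    Gam (mlt (sS P Nt)) (mlt (sG P Nt Nτ)) x x = H813.GamP n Nt Nτ P 0 := by
  rw [h.Gam_apply, sub_self]

lemma QD.Gam0 (h : QD n P c0 Nt Nτ) : 0 ≤ H813.GamP n Nt Nτ P 0 := by
  unfold H813.GamP
  refine div_nonneg (Finset.sum_nonneg fun k _ => ?_) (by positivity)
  have e : (dt k 0 : ZMod n) = 0 := H864.dt_zero k
  rw [e, TM.H764.cN_zero, one_mul, sub_nonneg]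
  exact one_div_le_one_div_of_le (h.b0 k) (by linarith [h.hNt])

/-- `|S c| ≤ |c|` -/
lemma QD.S_le (h : QD n P c0 Nt Nτ) (c : V n → ℝ) :
    ∑ x, (mlt (sS P Nt) *ᵥ c) x ^ 2 ≤ ∑ x, c x ^ 2 := by
  have e1 : ∑ x, (mlt (sS P Nt) *ᵥ c) x ^ 2 = qf (mlt (sS P Nt) * mlt (sS P Nt)) c := by
    have hs : (mlt (sS P Nt))ᵀ = mlt (sS P Nt) := (ti_mlt (sS P Nt)).transpose
    rw [H37.qf_eq, ← mulVec_mulVec, dotProduct_mulVec c, ← mulVec_transpose, hs]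
    exact Finset.sum_congr rfl fun x _ => by ring
  have e2 : ∑ x, c x ^ 2 = qf (1 : Matrix (V n) (V n) ℝ) c := by
    rw [H37.qf_eq, one_mulVec]
    exact Finset.sum_congr rfl fun x _ => by ring
  rw [e1, e2]
  refine (H864.qf_le_iff ((ti_mlt _).mul (ti_mlt _)) TI.one).2 (fun k => ?_) c
  rw [H864.sym_mul (ti_mlt _) (ti_mlt _), h.symS, H864.sym_one]
  have := h.sS0 k
  have := h.sS1 k
  nlinarith

lemma QD.G_psd (h : QD n P c0 Nt Nτ) (v : V n → ℝ) : 0 ≤ (mlt (sG P Nt Nτ) *ᵥ v) ⬝ᵥ v := by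
  rw [dotProduct_comm, ← H37.qf_eq]
  exact (H864.psd_iff (ti_mlt _)).2 (fun k => by rw [h.symG]; exact h.sG0 k) v

/-- the constant `W` -/
def WW (n : ℕ) (c0 Nτ : ℝ) : ℝ := 2 * Real.pi * (1 / (n * Nτ) + 1 / Real.sqrt (c0 * Nτ))

lemma QD.W0 (h : QD n P c0 Nt Nτ) : 0 ≤ WW n c0 Nτ := by
  have := h.hNτ
  have := Real.pi_pos
  unfold WW
  positivity

lemma QD.sGS (h : QD n P c0 Nt Nτ) (k : V n) :
    0 ≤ sG P Nt Nτ k * sS P Nt k ∧ sG P Nt Nτ k * sS P Nt k ≤ 1 / (c0 * (EE k + Nτ / c0)) := by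
  have h1 := h.d0
  have h2 := h.a0 k
  have h3 := h.b0 k
  have h4 := h.Nt0
  have h5 := h.hNτ
  refine ⟨mul_nonneg (h.sG0 k) (h.sS0 k), ?_⟩
  have e : sG P Nt Nτ k * sS P Nt k = (1 - Nτ / Nt) * (1 / (Nτ + P k)) := by
    unfold sG sS
    field_simp
  have e2 : c0 * (EE k + Nτ / c0) = Nτ + c0 * EE k := by
    have := h.hc0.ne'
    field_simp
    ring
  rw [e, e2]
  have h6 : 1 / (Nτ + P k) ≤ 1 / (Nτ + c0 * EE k) := by
    refine one_div_le_one_div_of_le ?_ (by linarith [h.hlo k])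
    have := mul_nonneg h.hc0.le (H462.EE_nonneg k)
    linarith
  have h7 : 1 - Nτ / Nt ≤ 1 := by
    have : 0 ≤ Nτ / Nt := by positivity
    linarith
  have h8 : 0 ≤ 1 - Nτ / Nt := by
    rw [sub_nonneg, div_le_one h4]
    exact h.hNt.le
  calc (1 - Nτ / Nt) * (1 / (Nτ + P k)) ≤ 1 * (1 / (Nτ + P k)) :=
        mul_le_mul_of_nonneg_right h7 (by positivity)
    _ = 1 / (Nτ + P k) := one_mul _
    _ ≤ _ := h6

lemma QD.WWt (h : QD n P c0 Nt Nτ) (w : V n) :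
    ∑ x, (mlt (sG P Nt Nτ) *ᵥ th (mlt (sS P Nt)) w) x ^ 2 ≤ WW n c0 Nτ ^ 2 := by
  have hn : (0 : ℝ) < n := by exact_mod_cast NeZero.pos n
  have hc := h.hc0
  have hN := h.hNτ
  have hpi := Real.pi_pos
  set A := mlt (sG P Nt Nτ) with hA
  set B := mlt (sS P Nt) with hB
  have hBt : Bᵀ = B := (ti_mlt (sS P Nt)).transpose
  have hAt : Aᵀ = A := (ti_mlt (sG P Nt Nτ)).transpose
  have hM : TI (A * B) := (ti_mlt _).mul (ti_mlt _)
  have e1 : A *ᵥ th B w = fun x => 2 * Real.pi * (A * B) x w := by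
    funext x
    simp only [mulVec, dotProduct, th, Matrix.mul_apply, Finset.mul_sum]
    refine Finset.sum_congr rfl fun y _ => ?_
    have : B w y = B y w := by
      have := congrFun (congrFun hBt y) w
      simpa [Matrix.transpose_apply] using this
    rw [this]
    ring
  have e2 : ∑ x, (A *ᵥ th B w) x ^ 2 = 4 * Real.pi ^ 2 * ((A * B) * (A * B)) w w := by
    rw [e1, Matrix.mul_apply, Finset.mul_sum]
    refine Finset.sum_congr rfl fun x _ => ?_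
    rw [hM.sy w x]
    ring
  rw [e2, (hM.mul hM).diag_eq]
  have e3 : ∀ k, sym ((A * B) * (A * B)) k = (sG P Nt Nτ k * sS P Nt k) ^ 2 := by
    intro k
    rw [H864.sym_mul hM hM, H864.sym_mul (ti_mlt _) (ti_mlt _), h.symG, h.symS, sq]
  simp only [e3]
  have h1 : ∑ k, (sG P Nt Nτ k * sS P Nt k) ^ 2 ≤
      (c0⁻¹) ^ 2 * (1 / (Nτ / c0) + n / Real.sqrt (Nτ / c0)) ^ 2 := by
    refine le_trans (Finset.sum_le_sum fun k _ => ?_)
      ((Finset.mul_sum _ _ _).symm.le.trans (mul_le_mul_of_nonneg_left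
        (H462.sum2 (N := n) (x := Nτ / c0) (by positivity)) (by positivity)))
    have h2 := h.sGS k
    have h3 := pow_le_pow_left₀ h2.1 h2.2 2
    refine h3.trans (le_of_eq ?_)
    rw [one_div, mul_inv, mul_pow, inv_pow (EE k + Nτ / c0)]
  have e4 : Real.sqrt (c0 * Nτ) = c0 * Real.sqrt (Nτ / c0) := by
    have : c0 * Nτ = c0 ^ 2 * (Nτ / c0) := by
      field_simp
    rw [this, Real.sqrt_mul (by positivity), Real.sqrt_sq hc.le]
  have e5 : 4 * Real.pi ^ 2 * (((n : ℝ) ^ 2)⁻¹ * ((c0⁻¹) ^ 2 *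
      (1 / (Nτ / c0) + n / Real.sqrt (Nτ / c0)) ^ 2)) = WW n c0 Nτ ^ 2 := by
    unfold WW
    rw [e4]
    have hs : Real.sqrt (Nτ / c0) ≠ 0 := (Real.sqrt_pos.2 (by positivity)).ne'
    field_simp
    ring
  rw [← e5]
  refine mul_le_mul_of_nonneg_left (mul_le_mul_of_nonneg_left h1 (by positivity)) (by positivity)

/-- a plane wave -/
def cw (k : V n) (x : V n) : ℝ := cN (dt k x)

lemma cw_pos (k : V n) : 0 < ∑ x, cw k x ^ 2 := by
  refine Finset.sum_pos' (fun _ _ => sq_nonneg _) ⟨0, Finset.mem_univ _, ?_⟩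
  have : cw k 0 = 1 := by
    unfold cw
    rw [H864.dt_zero, TM.H764.cN_zero]
  rw [this]
  norm_num

lemma QD.md (h : QD n P c0 Nt Nτ) (k : V n) :
    Md (mlt (sA P Nt)) (mlt (sS P Nt)) (cw k) (sA P Nt k) (sS P Nt k) where
  hc := cw_pos k
  ha := h.sA0 k
  hAc := by
    have h1 := (ti_mlt (sA P Nt)).mulVec_cN k
    rw [h.symA] at h1
    exact h1
  hs0 := h.sS0 k
  hs1 := h.sS1 k
  hSc := by
    have h1 := (ti_mlt (sS P Nt)).mulVec_cN k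
    rw [h.symS] at h1
    exact h1

variable {Ω : Type*} [MeasurableSpace Ω] {ν : Measure Ω} {F X : V n → Ω → ℝ}
  {ub : Matrix (V n) (V n) ℝ} {z η : ℝ}

/-- the standing hypotheses on the torus -/
theorem QD.pd (h : QD n P c0 Nt Nτ) (hsc : Sc ν F X (mm Nt Nτ) ub) (hz : 0 ≤ z) (hη : 0 ≤ η)
    (hL : L1 ν F X (mlt (sA P Nt)) (mlt (sS P Nt)) z η) :
    PD ν F X (mm Nt Nτ) ub (mlt (sA P Nt)) (mlt (sS P Nt)) (mlt (sG P Nt Nτ)) z η
      (WW n c0 Nτ) (H813.GamP n Nt Nτ P 0) where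
  sc := hsc
  hm := h.mm0
  hz := hz
  hη := hη
  hL := hL
  hS := h.S_le
  hSt := (ti_mlt _).transpose
  hGt := (ti_mlt _).transpose
  hG := h.mAG
  hG0 := h.G_psd
  hW := h.W0
  hWt := h.WWt
  hΓ := h.Gam_diag
  hΓ0 := h.Gam0

/-- the Gaussian value on a plane wave -/
theorem QD.JG_eq (h : QD n P c0 Nt Nτ) (z : ℝ) (k : V n) :
    JG (mlt (sS P Nt)) (mlt (sG P Nt Nτ)) z (sS P Nt k) (H813.GamP n Nt Nτ P 0) (cw k) =
      (4 * Real.pi * z * sS P Nt k) ^ 2 *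
        (∑ x, H813.gk (H813.GamP n Nt Nτ P) x * cN (dt k x)) * ∑ x, cw k x ^ 2 := by
  unfold JG
  set M : Matrix (V n) (V n) ℝ := Matrix.of fun w w' =>
    H813.gk (H813.GamP n Nt Nτ P) (w' - w) with hM
  have hMT : TI M := by
    refine ⟨fun a x y => ?_, fun x y => ?_⟩
    · simp only [hM, Matrix.of_apply]
      congr 1
      abel
    · simp only [hM, Matrix.of_apply, H813.gk]
      rw [← h.Gam_apply x y, ← h.Gam_apply y x, h.Gam_ti.sy x y]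
  have e1 : Real.exp (-(4 * Real.pi ^ 2 * H813.GamP n Nt Nτ P 0)) * ∑ w, ∑ w', cw k w * cw k w' *
      (Real.sinh (4 * Real.pi ^ 2 * Gam (mlt (sS P Nt)) (mlt (sG P Nt Nτ)) w w') -
        4 * Real.pi ^ 2 * Gam (mlt (sS P Nt)) (mlt (sG P Nt Nτ)) w w') = qf M (cw k) := by
    unfold qf
    rw [Finset.mul_sum]
    refine Finset.sum_congr rfl fun w _ => ?_
    rw [Finset.mul_sum]
    refine Finset.sum_congr rfl fun w' _ => ?_
    rw [h.Gam_apply]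
    simp only [hM, Matrix.of_apply, H813.gk]
    ring
  have e2 : sym M k = ∑ x, H813.gk (H813.GamP n Nt Nτ P) x * cN (dt k x) := by
    rw [H864.sym_def]
    refine Finset.sum_congr rfl fun x _ => ?_
    simp only [hM, Matrix.of_apply, sub_zero]
  have e3 : qf M (cw k) = sym M k * ∑ x, cw k x ^ 2 :=
    H883.qf_eigen (u := cw k) (c := sym M k) (hMT.mulVec_cN k)
  rw [e1, e3, e2, ← mul_assoc]

end

end Vale.Agent.P159.H114
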