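import Vale.Agent.P159.H114.Pe
import Vale.Agent.P159.H114.Tor1

/-!
P159 (helper114): pinned version of (P#) on the torus: bounds of the characteristic functions which
are uniform in the mass of the prior.
-/

namespace Vale.Agent.P159.H114

open MeasureTheory Finset Matrix
open Vale.Agent.P159.H37 (qf bf)
open Vale.Agent.P159.H864 (TI sym mlt ti_mlt sym_mlt)
open Vale.Agent.P159.TM.H764 (Gh cN sN dt ch EE frm grd)
open Vale.Agent.P159.TM.Spec (V)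

noncomputable section

variable {n : ℕ} [NeZero n]
variable {P : V n → ℝ} {c0 Nt Nτ : ℝ}

/-- the weight of the mode `k` in `a θ_w + b θ_w'` -/
def kw (a b : ℝ) (w w' k : V n) : ℝ := a ^ 2 + b ^ 2 + 2 * (a * b) * cN (dt k (w' - w))

lemma kw_zero (a b : ℝ) (w w' : V n) : kw a b w w' 0 = (a + b) ^ 2 := by
  unfold kw
  have : dt (0 : V n) (w' - w) = 0 := by
    rw [H864.dt_comm, H864.dt_zero]
  rw [this, TM.H764.cN_zero]
  ring

lemma kw_nonneg (a b : ℝ) (w w' k : V n) : 0 ≤ kw a b w w' k := by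
  unfold kw
  have h1 := TM.H764.cN_le_one (dt k (w' - w) : ZMod n)
  have h2 := TM.H764.neg_one_le_cN (dt k (w' - w) : ZMod n)
  set c := cN (dt k (w' - w) : ZMod n)
  rcases le_total 0 (a * b) with h | h
  · nlinarith [sq_nonneg (a - b), mul_nonneg h (by linarith : 0 ≤ 1 + c)]
  · nlinarith [sq_nonneg (a + b), mul_nonneg (neg_nonneg.2 h) (by linarith : 0 ≤ 1 - c)]

lemma kw_le (a b : ℝ) (w w' k : V n) : kw a b w w' k ≤ (|a| + |b|) ^ 2 := by
  unfold kw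
  have h1 := TM.H764.cN_le_one (dt k (w' - w) : ZMod n)
  have h2 := TM.H764.neg_one_le_cN (dt k (w' - w) : ZMod n)
  set c := cN (dt k (w' - w) : ZMod n)
  have h3 : a * b * c ≤ |a| * |b| := by
    rw [← abs_mul]
    refine (le_abs_self _).trans ?_
    rw [abs_mul]
    exact mul_le_of_le_one_right (abs_nonneg _) (abs_le.2 ⟨h2, h1⟩)
  have h4 : |a| ^ 2 = a ^ 2 := sq_abs a
  have h5 : |b| ^ 2 = b ^ 2 := sq_abs b
  nlinarith

/-- the vector `G (a θ_w + b θ_w')` -/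
lemma QD.Gv (h : QD n P c0 Nt Nτ) (a b : ℝ) (w w' : V n) :
    ∑ x, (mlt (sG P Nt Nτ) *ᵥ (a • th (mlt (sS P Nt)) w + b • th (mlt (sS P Nt)) w')) x ^ 2 =
      4 * Real.pi ^ 2 / (n : ℝ) ^ 2 * ∑ k, (sG P Nt Nτ k * sS P Nt k) ^ 2 * kw a b w w' k := by
  set A := mlt (sG P Nt Nτ) with hA
  set B := mlt (sS P Nt) with hB
  have hBt : Bᵀ = B := (ti_mlt (sS P Nt)).transpose
  have hM : TI (A * B) := (ti_mlt _).mul (ti_mlt _)
  have e1 : ∀ w x, (A *ᵥ th B w) x = 2 * Real.pi * (A * B) x w := by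
    intro w x
    simp only [mulVec, dotProduct, th, Matrix.mul_apply, Finset.mul_sum]
    refine Finset.sum_congr rfl fun y _ => ?_
    have : B w y = B y w := by
      have := congrFun (congrFun hBt y) w
      simpa [Matrix.transpose_apply] using this
    rw [this]
    ring
  have e2 : ∀ w w', ∑ x, (A * B) x w * (A * B) x w' = ((A * B) * (A * B)) w w' := by
    intro w w'
    rw [Matrix.mul_apply]
    refine Finset.sum_congr rfl fun x _ => ?_
    rw [hM.sy w x]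
  have e3 : ∀ k, sym ((A * B) * (A * B)) k = (sG P Nt Nτ k * sS P Nt k) ^ 2 := by
    intro k
    rw [H864.sym_mul hM hM, H864.sym_mul (ti_mlt _) (ti_mlt _), h.symG, h.symS, sq]
  have e4 : ∑ x, (A *ᵥ (a • th B w + b • th B w')) x ^ 2 =
      4 * Real.pi ^ 2 * (a ^ 2 * ((A * B) * (A * B)) w w + b ^ 2 * ((A * B) * (A * B)) w' w' +
        2 * (a * b) * ((A * B) * (A * B)) w w') := by
    rw [← e2 w w, ← e2 w' w', ← e2 w w', Finset.mul_sum, Finset.mul_sum, Finset.mul_sum,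
      ← Finset.sum_add_distrib, ← Finset.sum_add_distrib, Finset.mul_sum]
    refine Finset.sum_congr rfl fun x _ => ?_
    rw [mulVec_add, mulVec_smul, mulVec_smul]
    simp only [Pi.add_apply, Pi.smul_apply, smul_eq_mul]
    rw [e1, e1]
    ring
  rw [e4, (hM.mul hM).diag_eq w, (hM.mul hM).diag_eq w', (hM.mul hM).inversion w w']
  simp only [e3]
  rw [div_eq_mul_inv, mul_assoc (4 * Real.pi ^ 2)]
  congr 1
  have e5 : ∑ k, (sG P Nt Nτ k * sS P Nt k) ^ 2 * kw a b w w' k =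
      a ^ 2 * ∑ k, (sG P Nt Nτ k * sS P Nt k) ^ 2 + b ^ 2 * ∑ k, (sG P Nt Nτ k * sS P Nt k) ^ 2 +
        2 * (a * b) * ∑ k, (sG P Nt Nτ k * sS P Nt k) ^ 2 * cN (dt k (w' - w)) := by
    rw [Finset.mul_sum, Finset.mul_sum, Finset.mul_sum, ← Finset.sum_add_distrib,
      ← Finset.sum_add_distrib]
    refine Finset.sum_congr rfl fun k _ => ?_
    unfold kw
    ring
  rw [e5]
  ring

/-- the variance of `a θ_w + b θ_w'` -/
lemma QD.qv (h : QD n P c0 Nt Nτ) (a b : ℝ) (w w' : V n) :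
    (mlt (sG P Nt Nτ) *ᵥ (a • th (mlt (sS P Nt)) w + b • th (mlt (sS P Nt)) w')) ⬝ᵥ
      (a • th (mlt (sS P Nt)) w + b • th (mlt (sS P Nt)) w') =
      4 * Real.pi ^ 2 * ((a ^ 2 + b ^ 2) * H813.GamP n Nt Nτ P 0 +
        2 * (a * b) * Gam (mlt (sS P Nt)) (mlt (sG P Nt Nτ)) w w') := by
  have hBt : (mlt (sS P Nt))ᵀ = mlt (sS P Nt) := (ti_mlt (sS P Nt)).transpose
  have hs := h.Gam_ti.sy w' w
  rw [mulVec_add, mulVec_smul, mulVec_smul, add_dotProduct, dotProduct_add, dotProduct_add,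
    smul_dotProduct, smul_dotProduct, smul_dotProduct, smul_dotProduct, dotProduct_smul,
    dotProduct_smul, dotProduct_smul, dotProduct_smul, th_G _ _ hBt, th_G _ _ hBt,
    th_G _ _ hBt, th_G _ _ hBt, h.Gam_diag w, h.Gam_diag w', hs]
  simp only [smul_eq_mul]
  ring

/-- Fourier form of the variance -/
lemma QD.qv' (h : QD n P c0 Nt Nτ) (a b : ℝ) (w w' : V n) :
    (a ^ 2 + b ^ 2) * H813.GamP n Nt Nτ P 0 +
        2 * (a * b) * Gam (mlt (sS P Nt)) (mlt (sG P Nt Nτ)) w w' =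
      ((n : ℝ) ^ 2)⁻¹ * ∑ k, sΓ P Nt Nτ k * kw a b w w' k := by
  rw [← h.Gam_diag w, h.Gam_ti.diag_eq w, h.Gam_ti.inversion w w']
  simp only [h.sym_Gam]
  have e5 : ∑ k, sΓ P Nt Nτ k * kw a b w w' k =
      (a ^ 2 + b ^ 2) * ∑ k, sΓ P Nt Nτ k +
        2 * (a * b) * ∑ k, sΓ P Nt Nτ k * cN (dt k (w' - w)) := by
    rw [Finset.mul_sum, Finset.mul_sum, ← Finset.sum_add_distrib]
    refine Finset.sum_congr rfl fun k _ => ?_
    unfold kw
    ring
  rw [e5]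
  ring

lemma QD.sΓ0 (h : QD n P c0 Nt Nτ) (k : V n) : 0 ≤ sΓ P Nt Nτ k := by
  unfold sΓ
  rw [sub_nonneg]
  exact one_div_le_one_div_of_le (h.b0 k) (by linarith [h.hNt])

lemma QD.sΓz (h : QD n P c0 Nt Nτ) (hP0 : P 0 = 0) : sΓ P Nt Nτ 0 = 1 / mm Nt Nτ := by
  unfold sΓ mm
  have h1 := h.d0.ne'
  have h4 := h.Nt0.ne'
  have h5 := h.hNτ.ne'
  rw [hP0, add_zero, add_zero]
  field_simp

lemma QD.μz (h : QD n P c0 Nt Nτ) (hP0 : P 0 = 0) :
    sG P Nt Nτ 0 * sS P Nt 0 = 1 / mm Nt Nτ := by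
  unfold sG sS mm
  have h1 := h.d0.ne'
  have h4 := h.Nt0.ne'
  have h5 := h.hNτ.ne'
  rw [hP0, add_zero, add_zero]
  field_simp

/-- the part of the nonzero modes -/
lemma QD.perp (h : QD n P c0 Nt Nτ) :
    ∑ k ∈ univ.erase (0 : V n), (sG P Nt Nτ k * sS P Nt k) ^ 2 ≤
      (5 / 8 * (n : ℝ) ^ 2 / c0) ^ 2 := by
  have hn : (0 : ℝ) < n := by exact_mod_cast NeZero.pos n
  have hc := h.hc0
  have hx : (0 : ℝ) < 16 / (n : ℝ) ^ 2 := by positivity
  have h1 : ∀ k ∈ univ.erase (0 : V n), (sG P Nt Nτ k * sS P Nt k) ^ 2 ≤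
      4 / c0 ^ 2 * ((EE k + 16 / (n : ℝ) ^ 2) ^ 2)⁻¹ := by
    intro k hk
    have hk0 : k ≠ 0 := (Finset.mem_erase.1 hk).1
    have h2 := h.sGS k
    have h3 := H462.EE_gap hk0
    have hE : 0 < EE k := H462.EE_pos hk0
    have h4 : 1 / (c0 * (EE k + Nτ / c0)) ≤ 2 / (c0 * (EE k + 16 / (n : ℝ) ^ 2)) := by
      have h5 : 0 < Nτ / c0 := div_pos h.hNτ hc
      rw [div_le_div_iff₀ (by positivity) (by positivity)]
      nlinarith
    have h6 := pow_le_pow_left₀ h2.1 (h2.2.trans h4) 2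
    refine h6.trans (le_of_eq ?_)
    rw [div_pow, mul_pow]
    field_simp
    norm_num
  refine (Finset.sum_le_sum h1).trans ?_
  rw [← Finset.mul_sum]
  have h7 : ∑ k ∈ univ.erase (0 : V n), ((EE k + 16 / (n : ℝ) ^ 2) ^ 2)⁻¹ ≤
      (1 / (16 / (n : ℝ) ^ 2) + n / Real.sqrt (16 / (n : ℝ) ^ 2)) ^ 2 :=
    (Finset.sum_le_sum_of_subset_of_nonneg (Finset.erase_subset _ _)
      fun k _ _ => by positivity).trans (H462.sum2 hx)
  have h8 : Real.sqrt (16 / (n : ℝ) ^ 2) = 4 / n := by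
    rw [show (16 : ℝ) / (n : ℝ) ^ 2 = (4 / n) ^ 2 by rw [div_pow]; norm_num]
    exact Real.sqrt_sq (by positivity)
  rw [h8] at h7
  refine (mul_le_mul_of_nonneg_left h7 (by positivity)).trans (le_of_eq ?_)
  field_simp
  norm_num

/-- the constant `W`, pinned version -/
def Wp (n : ℕ) (c0 : ℝ) : ℝ := 5 * n / c0

variable {Ω : Type*} [MeasurableSpace Ω] {ν : Measure Ω} {F X : V n → Ω → ℝ}
  {ub : Matrix (V n) (V n) ℝ} {z η : ℝ}

/-- characteristic functions of `a θ_w + b θ_w'` -/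
theorem QD.cfab (h : QD n P c0 Nt Nτ) (hP0 : P 0 = 0) (hc1 : c0 ≤ 1)
    (hsc : Sc ν F X (mm Nt Nτ) ub) (hz : 0 ≤ z) (hη : 0 ≤ η)
    (hL : L1 ν F X (mlt (sA P Nt)) (mlt (sS P Nt)) z η) {a b : ℝ} (hab : a + b = 0 ∨ 1 ≤ |a + b|)
    (w w' : V n) :
    |∫ ω, Real.cos (lc (a • th (mlt (sS P Nt)) w + b • th (mlt (sS P Nt)) w') F ω) ∂ν -
      Real.exp (-(4 * Real.pi ^ 2 * ((a ^ 2 + b ^ 2) * H813.GamP n Nt Nτ P 0 +
        2 * (a * b) * Gam (mlt (sS P Nt)) (mlt (sG P Nt Nτ)) w w') / 2))| ≤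
      (n / Real.pi + (|a| + |b|) * (4 * n / c0)) * bt (V n) z η := by
  have hpi := Real.pi_pos
  have hn : (0 : ℝ) < n := by exact_mod_cast NeZero.pos n
  have hc := h.hc0
  have hm := h.mm0
  have hq := h.qv a b w w'
  set v := a • th (mlt (sS P Nt)) w + b • th (mlt (sS P Nt)) w' with hv
  have hq0 : 0 ≤ (mlt (sG P Nt Nτ) *ᵥ v) ⬝ᵥ v := h.G_psd v
  rw [← hq]
  have hG := h.Gv a b w w'
  rw [← hv] at hG
  have hsum : ∀ f : V n → ℝ, ∑ k, f k = f 0 + ∑ k ∈ univ.erase (0 : V n), f k := fun f =>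
    (Finset.add_sum_erase univ f (Finset.mem_univ 0)).symm
  have hb1 : ∑ k ∈ univ.erase (0 : V n), (sG P Nt Nτ k * sS P Nt k) ^ 2 * kw a b w w' k ≤
      (5 / 8 * (n : ℝ) ^ 2 / c0) ^ 2 * (|a| + |b|) ^ 2 := by
    calc _ ≤ ∑ k ∈ univ.erase (0 : V n), (sG P Nt Nτ k * sS P Nt k) ^ 2 * (|a| + |b|) ^ 2 :=
          Finset.sum_le_sum fun k _ => mul_le_mul_of_nonneg_left (kw_le a b w w' k) (sq_nonneg _)
      _ = (∑ k ∈ univ.erase (0 : V n), (sG P Nt Nτ k * sS P Nt k) ^ 2) * (|a| + |b|) ^ 2 :=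
          (Finset.sum_mul _ _ _).symm
      _ ≤ _ := mul_le_mul_of_nonneg_right h.perp (sq_nonneg _)
  have hw : ∑ x, (mlt (sG P Nt Nτ) *ᵥ v) x ^ 2 ≤
      (2 * Real.pi / n * (1 / mm Nt Nτ) * |a + b| + (|a| + |b|) * (4 * n / c0)) ^ 2 := by
    rw [hG, hsum, h.μz hP0, kw_zero]
    set Z := 2 * Real.pi / n * (1 / mm Nt Nτ) * |a + b| with hZ
    set Y := (|a| + |b|) * (4 * n / c0) with hY
    have hZ0 : 0 ≤ Z := by positivity
    have hY0 : 0 ≤ Y := by positivity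
    have e1 : 4 * Real.pi ^ 2 / (n : ℝ) ^ 2 * ((1 / mm Nt Nτ) ^ 2 * (a + b) ^ 2) = Z ^ 2 := by
      rw [hZ, mul_pow, mul_pow, div_pow, sq_abs]
      ring
    have e2 : 4 * Real.pi ^ 2 / (n : ℝ) ^ 2 *
        ∑ k ∈ univ.erase (0 : V n), (sG P Nt Nτ k * sS P Nt k) ^ 2 * kw a b w w' k ≤ Y ^ 2 := by
      refine (mul_le_mul_of_nonneg_left hb1 (by positivity)).trans ?_
      have e3 : 4 * Real.pi ^ 2 / (n : ℝ) ^ 2 * ((5 / 8 * (n : ℝ) ^ 2 / c0) ^ 2 *
          (|a| + |b|) ^ 2) = (25 / 16 * Real.pi ^ 2) * ((|a| + |b|) * (n / c0)) ^ 2 := by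
        field_simp
        ring
      have e4 : Y ^ 2 = 16 * ((|a| + |b|) * (n / c0)) ^ 2 := by
        rw [hY]; ring
      rw [e3, e4]
      refine mul_le_mul_of_nonneg_right ?_ (sq_nonneg _)
      have h8 := Real.pi_lt_d2
      have h9 : Real.pi ^ 2 ≤ 3.15 ^ 2 := pow_le_pow_left₀ hpi.le h8.le 2
      linarith [show (25 : ℝ) / 16 * 3.15 ^ 2 ≤ 16 by norm_num]
    rw [mul_add, e1]
    nlinarith [mul_nonneg hZ0 hY0]
  have hqlow : 4 * Real.pi ^ 2 * (((n : ℝ) ^ 2)⁻¹ * ((1 / mm Nt Nτ) * (a + b) ^ 2)) ≤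
      (mlt (sG P Nt Nτ) *ᵥ v) ⬝ᵥ v := by
    rw [hq, h.qv' a b w w']
    refine mul_le_mul_of_nonneg_left (mul_le_mul_of_nonneg_left ?_ (by positivity))
      (by positivity)
    rw [hsum, h.sΓz hP0, kw_zero]
    have : 0 ≤ ∑ k ∈ univ.erase (0 : V n), sΓ P Nt Nτ k * kw a b w w' k :=
      Finset.sum_nonneg fun k _ => mul_nonneg (h.sΓ0 k) (kw_nonneg a b w w' k)
    linarith
  have hK : 2 * (2 * Real.pi / n * (1 / mm Nt Nτ) * |a + b|) ≤
      n / Real.pi * ((mlt (sG P Nt Nτ) *ᵥ v) ⬝ᵥ v) := by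
    refine le_trans ?_ (mul_le_mul_of_nonneg_left hqlow (by positivity))
    have e1 : n / Real.pi * (4 * Real.pi ^ 2 * (((n : ℝ) ^ 2)⁻¹ *
        ((1 / mm Nt Nτ) * (a + b) ^ 2))) =
        2 * (2 * Real.pi / n * (1 / mm Nt Nτ) * (a + b) ^ 2) := by
      field_simp
      ring
    rw [e1]
    refine mul_le_mul_of_nonneg_left (mul_le_mul_of_nonneg_left ?_ (by positivity))
      (by norm_num)
    rcases hab with h0 | h1
    · rw [h0]; simp
    · rw [← sq_abs]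
      nlinarith
  exact hsc.cf2 hz hη hL h.S_le h.mAG v hq0 (by positivity) (by positivity) hw hK (by positivity)

/-- the standing hypotheses on the torus, pinned version -/
theorem QD.pe (h : QD n P c0 Nt Nτ) (hP0 : P 0 = 0) (hc1 : c0 ≤ 1)
    (hsc : Sc ν F X (mm Nt Nτ) ub) (hz : 0 ≤ z) (hη : 0 ≤ η)
    (hL : L1 ν F X (mlt (sA P Nt)) (mlt (sS P Nt)) z η) :
    PE ν F X (mm Nt Nτ) ub (mlt (sA P Nt)) (mlt (sS P Nt)) (mlt (sG P Nt Nτ)) z η
      (Wp n c0) (H813.GamP n Nt Nτ P 0) where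
  sc := hsc
  hm := h.mm0
  hz := hz
  hη := hη
  hL := hL
  hS := h.S_le
  hG := h.mAG
  hW := by
    have := h.hc0
    unfold Wp
    positivity
  hΓ0 := h.Gam0
  kap w := by
    have hpi := Real.pi_gt_three
    have hn : (0 : ℝ) < n := by exact_mod_cast NeZero.pos n
    have hc := h.hc0
    have hβ0 : 0 ≤ bt (V n) z η := by
      unfold bt
      positivity
    have h1 := h.cfab hP0 hc1 hsc hz hη hL (a := 1) (b := 0) (Or.inr (by simp)) w w
    have e1 : (1 : ℝ) • th (mlt (sS P Nt)) w + (0 : ℝ) • th (mlt (sS P Nt)) w =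
        th (mlt (sS P Nt)) w := by simp
    have e2 : 4 * Real.pi ^ 2 * (((1 : ℝ) ^ 2 + 0 ^ 2) * H813.GamP n Nt Nτ P 0 +
        2 * ((1 : ℝ) * 0) * Gam (mlt (sS P Nt)) (mlt (sG P Nt Nτ)) w w) / 2 =
        2 * Real.pi ^ 2 * H813.GamP n Nt Nτ P 0 := by ring
    rw [e1, e2] at h1
    refine h1.trans (mul_le_mul_of_nonneg_right ?_ hβ0)
    unfold Wp
    rw [abs_one, abs_zero, add_zero, one_mul]
    have h2 : n / Real.pi ≤ n / c0 :=
      div_le_div_of_nonneg_left hn.le hc (by linarith)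
    have h3 : 5 * (n : ℝ) / c0 = n / c0 + 4 * n / c0 := by ring
    rw [h3]
    linarith
  ss w w' := by
    have hpi := Real.pi_gt_three
    have hn : (0 : ℝ) < n := by exact_mod_cast NeZero.pos n
    have hc := h.hc0
    have hβ0 : 0 ≤ bt (V n) z η := by
      unfold bt
      positivity
    refine hsc.ss_of w w' fun σ hσ => ?_
    have hσ1 : σ = 1 ∨ σ = -1 := by
      have h3 : (σ - 1) * (σ + 1) = 0 := by nlinarith
      rcases mul_eq_zero.1 h3 with h4 | h4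
      · left; linarith
      · right; linarith
    have h1 := h.cfab hP0 hc1 hsc hz hη hL (a := 1) (b := σ) (by
      rcases hσ1 with h2 | h2
      · right; rw [h2]; norm_num
      · left; rw [h2]; norm_num) w w'
    have e1 : (1 : ℝ) • th (mlt (sS P Nt)) w + σ • th (mlt (sS P Nt)) w' =
        th (mlt (sS P Nt)) w + σ • th (mlt (sS P Nt)) w' := by rw [one_smul]
    have e2 : -(4 * Real.pi ^ 2 * (((1 : ℝ) ^ 2 + σ ^ 2) * H813.GamP n Nt Nτ P 0 +
        2 * ((1 : ℝ) * σ) * Gam (mlt (sS P Nt)) (mlt (sG P Nt Nτ)) w w') / 2) =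
        -(4 * Real.pi ^ 2 * H813.GamP n Nt Nτ P 0) -
          σ * (4 * Real.pi ^ 2 * Gam (mlt (sS P Nt)) (mlt (sG P Nt Nτ)) w w') := by
      rw [hσ]; ring
    rw [e1, e2] at h1
    refine h1.trans (mul_le_mul_of_nonneg_right ?_ hβ0)
    unfold Wp
    have hσa : |σ| = 1 := by rcases hσ1 with h2 | h2 <;> rw [h2] <;> norm_num
    rw [abs_one, hσa]
    have h2 : n / Real.pi ≤ n / c0 :=
      div_le_div_of_nonneg_left hn.le hc (by linarith)
    have h3 : 2 * (5 * (n : ℝ) / c0) = n / c0 + (1 + 1) * (4 * n / c0) + n / c0 := by ring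
    rw [h3]
    have : 0 ≤ n / c0 := by positivity
    linarith

end

end Vale.Agent.P159.H114
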