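import Vale.Agent.P159.H114.Te1
import Vale.Agent.P159.H114.Star5

/-!
P159 (helper114): (L1) on the cell torus with the pinned prior (mass `τ` of the prior arbitrarily
small): consequences for the mean Hessian (all modes).
-/

namespace Vale.Agent.P159.H114

open MeasureTheory Finset Matrix
open Vale.Agent.P159.TM.H104 (EM Ex Cv K3 Lg li nh Gr)
open Vale.Agent.P159.H37
open Vale.Agent.P159.H864 (TI sym mlt ti_mlt sym_mlt cobV MC GM Gck PiCk cobV_mul_tr)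
open Vale.Agent.P159.H730 (wC Cbk)
open Vale.Agent.P159.TM.H764 (Gh cN sN dt ch EE frm grd pw)
open Vale.Agent.P159.TM.Spec (V)
open Vale.Agent.P159.TM.SpecC (wT ms)

noncomputable section

set_option linter.unusedSectionVars false

variable {N l : ℕ} [NeZero N] [NeZero (N / l)] {b t0 t τ : ℝ}

/-- (L1) on the cell torus, normalised, pinned prior -/
structure LQ (N l : ℕ) [NeZero N] [NeZero (N / l)] (b t0 t τ : ℝ) (P : V (N / l) → ℝ)
    (c0 y e : ℝ) : Prop where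
  hb : 0 < b
  hl : l ∣ N
  hτ : 0 < τ
  hτt : 2 * τ ≤ t
  htt : t ≤ t0
  hside : 1 ≤ (N : ℝ) ^ 2 * t
  qd : QD (N / l) P c0 (t * l ^ 2) (τ * l ^ 2)
  hP0 : P 0 = 0
  hc01 : c0 ≤ 1
  hy : 0 ≤ y
  he : 0 ≤ e
  L : L1 (nuC N l b t0 t τ) (FC N l t τ) (XC N l b t0 t τ) (mlt (sA P (t * l ^ 2)))
    (mlt (sS P (t * l ^ 2))) (y * (t * l ^ 2)) (e * (Real.sqrt t * l))

variable {P : V (N / l) → ℝ} {c0 y e : ℝ}

lemma LQ.ht (h : LQ N l b t0 t τ P c0 y e) : 0 < t := by linarith [h.hτ, h.hτt]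

lemma LQ.lt (h : LQ N l b t0 t τ P c0 y e) : τ < t := by linarith [h.hτ, h.hτt]

lemma LQ.lpos (h : LQ N l b t0 t τ P c0 y e) : (0 : ℝ) < l := by exact_mod_cast H864.l_pos h.hl

lemma LQ.Npos (_h : LQ N l b t0 t τ P c0 y e) : (0 : ℝ) < N := by exact_mod_cast NeZero.pos N

lemma LQ.Nl (h : LQ N l b t0 t τ P c0 y e) : ((N / l : ℕ) : ℝ) = N / l := by
  exact Nat.cast_div h.hl h.lpos.ne'

lemma LQ.Lm1 (h : LQ N l b t0 t τ P c0 y e) : 1 ≤ Lm N t := by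
  have hN := h.Npos
  unfold Lm
  rw [← Real.sqrt_one, ← Real.sqrt_sq hN.le, ← Real.sqrt_mul (by positivity)]
  exact Real.sqrt_le_sqrt h.hside

lemma LQ.Lm_sq (h : LQ N l b t0 t τ P c0 y e) : Lm N t ^ 2 = N ^ 2 * t := by
  unfold Lm
  rw [mul_pow, Real.sq_sqrt h.ht.le]

lemma LQ.ep0 (h : LQ N l b t0 t τ P c0 y e) : 0 ≤ ep N t y e := by
  have := h.Lm1
  have := h.hy
  have := h.he
  have := Real.pi_pos
  unfold ep
  positivity

lemma LQ.e_le (h : LQ N l b t0 t τ P c0 y e) : e ≤ ep N t y e := by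
  have := h.Lm1
  have h2 := h.hy
  have := Real.pi_pos
  unfold ep
  have : 0 ≤ 4 * Real.pi * y * Lm N t := by positivity
  linarith

/-- `β = √t l ε` -/
lemma LQ.bt_eq (h : LQ N l b t0 t τ P c0 y e) :
    bt (V (N / l)) (y * (t * l ^ 2)) (e * (Real.sqrt t * l)) =
      Real.sqrt t * l * ep N t y e := by
  have hlp := h.lpos
  have hst : Real.sqrt t * Real.sqrt t = t := Real.mul_self_sqrt h.ht.le
  unfold bt ep Lm
  rw [card_V]
  push_cast
  rw [h.Nl, Real.sqrt_mul_self (div_nonneg h.Npos.le hlp.le)]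
  have e1 : 4 * Real.pi * (y * (t * (l : ℝ) ^ 2)) * (N / l) = 4 * Real.pi * y * t * (l * N) := by
    field_simp
  rw [e1]
  nth_rewrite 1 [← hst]
  ring

/-- the constant: `k0 (c0 ^ 4) = 1 / c0 ^ 2` -/
lemma LQ.k0_eq (h : LQ N l b t0 t τ P c0 y e) : k0 (c0 ^ 4) = 1 / c0 ^ 2 := by
  have h0 := h.qd.hc0
  unfold k0
  rw [show c0 ^ 4 = (c0 ^ 2) ^ 2 by ring, Real.sqrt_sq (by positivity)]

lemma LQ.k01 (h : LQ N l b t0 t τ P c0 y e) : 1 ≤ k0 (c0 ^ 4) := by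
  have h0 := h.qd.hc0
  rw [h.k0_eq, le_div_iff₀ (by positivity), one_mul]
  exact pow_le_one₀ h0.le h.hc01

lemma LQ.k0c (h : LQ N l b t0 t τ P c0 y e) : 1 / c0 ≤ k0 (c0 ^ 4) := by
  have h0 := h.qd.hc0
  have h1 := h.hc01
  rw [h.k0_eq]
  refine one_div_le_one_div_of_le (by positivity) ?_
  nlinarith

/-- `W √t l = 5 Λ / c₀` -/
lemma LQ.W_eq (h : LQ N l b t0 t τ P c0 y e) :
    Wp (N / l) c0 * (Real.sqrt t * l) = 5 * (1 / c0 * Lm N t) := by
  have hlp := h.lpos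
  unfold Wp Lm
  rw [h.Nl]
  field_simp

lemma LQ.W_le (h : LQ N l b t0 t τ P c0 y e) :
    Wp (N / l) c0 * (Real.sqrt t * l) ≤ 4 * Real.pi * k0 (c0 ^ 4) * Lm N t := by
  have h0 := h.qd.hc0
  have h1 := h.k0c
  have h2 := h.Lm1
  have h3 := Real.pi_gt_three
  rw [h.W_eq]
  have h4 : 1 / c0 * Lm N t ≤ k0 (c0 ^ 4) * Lm N t :=
    mul_le_mul_of_nonneg_right h1 (by linarith)
  have h5 : 0 ≤ k0 (c0 ^ 4) * Lm N t := mul_nonneg (by linarith [h.k01]) (by linarith)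
  nlinarith

lemma LQ.pe (h : LQ N l b t0 t τ P c0 y e) :
    PE (nuC N l b t0 t τ) (FC N l t τ) (XC N l b t0 t τ) (mm (t * l ^ 2) (τ * l ^ 2)) (uC N l b t0 t τ)
      (mlt (sA P (t * l ^ 2))) (mlt (sS P (t * l ^ 2))) (mlt (sG P (t * l ^ 2) (τ * l ^ 2)))
      (y * (t * l ^ 2)) (e * (Real.sqrt t * l)) (Wp (N / l) c0)
      (H813.GamP (N / l) (t * l ^ 2) (τ * l ^ 2) P 0) := by
  have hlp := h.lpos
  have ht := h.ht
  have hy := h.hy
  have he := h.he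
  exact h.qd.pe h.hP0 h.hc01 (sc_C h.hb h.hl h.hτ h.lt h.htt) (by positivity) (by positivity) h.L

/-- **crude bound** -/
theorem LQ.crude (h : LQ N l b t0 t τ P c0 y e) (k : V (N / l)) :
    phs t (PbC N l b t0 t τ k) - phs t (PiCk N l b t0 τ k) ≤ t * ep N t y e ^ 2 := by
  have hlp := h.lpos
  have ht := h.ht
  have hε := h.ep0
  have hC := Cbk_pos (N := N) h.hb h.hl h.hτ h.lt h.htt k
  have hpe := h.pe
  have hsc := hpe.sc
  have hc := cw_pos k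
  have hM := h.qd.md k
  have h1 := prj_C h.hb h.hl h.hτ h.lt h.htt k hC.ne'
  -- the linear part does not matter
  have hsq : ∑ x, cw k x ^ 2 ≤ Real.sqrt (∑ x, cw (n := N / l) k x ^ 2) ^ 2 :=
    (Real.sq_sqrt hc.le).ge
  have h2 := hsc.nl_le hpe.hz hpe.hη hpe.hL hpe.hS (cw k) (Real.sqrt_nonneg _) hsq
  have hf2 := lc_memLp hsc.F2 (cw k)
  have hX2 := lc_memLp hsc.X2 (cw k)
  have hff := hsc.ff_pos hc
  set a := sA P (t * l ^ 2) k with ha
  have hAc : ∀ ω, lc (mlt (sA P (t * l ^ 2)) *ᵥ cw k) (FC N l t τ) ω =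
      a * lc (cw k) (FC N l t τ) ω := by
    intro ω
    rw [hM.hAc, lc_smul]
  simp only [hAc] at h2
  have h3 : prj (nuC N l b t0 t τ) (lc (cw k) (FC N l t τ)) (lc (cw k) (XC N l b t0 t τ)) ≤
      ∫ ω, (lc (cw k) (XC N l b t0 t τ) ω - a * lc (cw k) (FC N l t τ) ω) ^ 2 ∂(nuC N l b t0 t τ) := by
    have e1 : ∫ ω, (lc (cw k) (XC N l b t0 t τ) ω - a * lc (cw k) (FC N l t τ) ω) ^ 2
        ∂(nuC N l b t0 t τ) = (∫ ω, lc (cw k) (XC N l b t0 t τ) ω ^ 2 ∂(nuC N l b t0 t τ)) -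
        2 * a * (∫ ω, lc (cw k) (XC N l b t0 t τ) ω * lc (cw k) (FC N l t τ) ω ∂(nuC N l b t0 t τ)) +
        a ^ 2 * ∫ ω, lc (cw k) (FC N l t τ) ω ^ 2 ∂(nuC N l b t0 t τ) := by
      have e : ∀ ω, (lc (cw k) (XC N l b t0 t τ) ω - a * lc (cw k) (FC N l t τ) ω) ^ 2 =
          1 * lc (cw k) (XC N l b t0 t τ) ω ^ 2 + (-(2 * a)) *
            (lc (cw k) (XC N l b t0 t τ) ω * lc (cw k) (FC N l t τ) ω) +
            a ^ 2 * lc (cw k) (FC N l t τ) ω ^ 2 := by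
        intro ω; ring
      simp only [e]
      rw [int_lin3 (l2_sq hX2) (l2_mul hX2 hf2) (l2_sq hf2)]
      ring
    rw [e1]
    unfold prj
    set ff := ∫ ω, lc (cw k) (FC N l t τ) ω ^ 2 ∂(nuC N l b t0 t τ)
    set xf := ∫ ω, lc (cw k) (XC N l b t0 t τ) ω * lc (cw k) (FC N l t τ) ω ∂(nuC N l b t0 t τ)
    have : xf ^ 2 / ff ≥ 2 * a * xf - a ^ 2 * ff := by
      rw [ge_iff_le, le_div_iff₀ hff]
      nlinarith [sq_nonneg (xf - a * ff)]
    linarith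
  have h4 := h3.trans h2
  have e5 : 4 * Real.pi * (y * (t * l ^ 2)) * Real.sqrt (Fintype.card (V (N / l))) +
      e * (Real.sqrt t * l) = Real.sqrt t * l * ep N t y e := h.bt_eq
  rw [h1, e5, mul_pow, Real.sq_sqrt hc.le] at h4
  have h6 := le_of_mul_le_mul_right h4 hc
  have e7 : (Real.sqrt t * l * ep N t y e) ^ 2 = l ^ 2 * (t * ep N t y e ^ 2) := by
    rw [mul_pow, mul_pow, Real.sq_sqrt ht.le]
    ring
  rw [e7] at h6
  exact le_of_mul_le_mul_left h6 (by positivity)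

/-- **the mean Hessian** -/
theorem LQ.hess (h : LQ N l b t0 t τ P c0 y e) (k : V (N / l)) :
    |phs t (PbC N l b t0 t τ k) - (phs t (P k / l ^ 2) + 8 * Real.pi ^ 2 * y * t *
      (sS P (t * l ^ 2) k) ^ 2 *
      Real.exp (-(2 * Real.pi ^ 2 * H813.GamP (N / l) (t * l ^ 2) (τ * l ^ 2) P 0)))| ≤
      t * (1000 * (k0 (c0 ^ 4) * y * Lm N t * ep N t y e) + 2 * e) := by
  have hlp := h.lpos
  have ht := h.ht
  have hε := h.ep0
  have hy := h.hy
  have he := h.he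
  have hpi := Real.pi_pos
  have hpi2 := Real.pi_lt_d2
  have hC := Cbk_pos (N := N) h.hb h.hl h.hτ h.lt h.htt k
  have hu := uC_cw' h.hb h.hl h.hτ h.lt h.htt k hC.ne'
  have hmu : mm (t * l ^ 2) (τ * l ^ 2) + l ^ 2 * phs t (PbC N l b t0 t τ k) =
      t ^ 2 * l ^ 2 / (t - τ) * (1 - (t - τ) * Cbk N l b t0 τ t k) := by
    have h1 := uC_cw (N := N) h.hb h.hl h.hτ h.lt h.htt k
    rw [hu] at h1
    have h2 := mul_right_cancel₀ (cw_pos k).ne' h1
    linarith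
  have hm0 := h.qd.mm0
  have hx0 := PbC_nonneg (N := N) h.hb h.hl h.hτ h.lt h.htt k
  have hphs : 0 ≤ phs t (PbC N l b t0 t τ k) := by
    unfold phs
    positivity
  have hmu0 : 0 ≤ mm (t * l ^ 2) (τ * l ^ 2) + l ^ 2 * phs t (PbC N l b t0 t τ k) := by positivity
  have hmu1 : mm (t * l ^ 2) (τ * l ^ 2) + l ^ 2 * phs t (PbC N l b t0 t τ k) ≤ 2 * (t * l ^ 2) := by
    rw [hmu]
    have h3 : 0 < t - τ := sub_pos.2 h.lt
    have h4 : 1 - (t - τ) * Cbk N l b t0 τ t k ≤ 1 := by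
      have : 0 ≤ (t - τ) * Cbk N l b t0 τ t k := by positivity
      linarith
    calc t ^ 2 * l ^ 2 / (t - τ) * (1 - (t - τ) * Cbk N l b t0 τ t k) ≤
        t ^ 2 * l ^ 2 / (t - τ) * 1 := mul_le_mul_of_nonneg_left h4 (by positivity)
      _ = t ^ 2 * l ^ 2 / (t - τ) := mul_one _
      _ ≤ 2 * (t * l ^ 2) := by
        rw [div_le_iff₀ h3]
        have h5 := h.hτt
        have h6 : t * l ^ 2 * t ≤ t * l ^ 2 * (2 * (t - τ)) :=
          mul_le_mul_of_nonneg_left (by linarith) (by positivity)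
        nlinarith
  have h1 := h.pe.hess (h.qd.md k) hu hmu0
  rw [h.bt_eq] at h1
  have hW := h.W_le
  have e1 : sA P (t * l ^ 2) k = l ^ 2 * phs t (P k / l ^ 2) := sA_eq hlp ht
  set κ := Real.exp (-(2 * Real.pi ^ 2 * H813.GamP (N / l) (t * l ^ 2) (τ * l ^ 2) P 0)) with hκ
  set s := sS P (t * l ^ 2) k with hs
  rw [e1] at h1
  have e2 : l ^ 2 * phs t (PbC N l b t0 t τ k) - (l ^ 2 * phs t (P k / l ^ 2) +
      8 * Real.pi ^ 2 * (y * (t * l ^ 2)) * s ^ 2 * κ) =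
      l ^ 2 * (phs t (PbC N l b t0 t τ k) - (phs t (P k / l ^ 2) +
        8 * Real.pi ^ 2 * y * t * s ^ 2 * κ)) := by ring
  rw [e2, abs_mul, abs_of_pos (show (0 : ℝ) < l ^ 2 by positivity)] at h1
  refine le_of_mul_le_mul_left (h1.trans ?_) (show (0 : ℝ) < l ^ 2 by positivity)
  have h7 : 8 * Real.pi ^ 2 * (y * (t * l ^ 2)) * Wp (N / l) c0 *
      (Real.sqrt t * l * ep N t y e) ≤
      l ^ 2 * (t * (1000 * (k0 (c0 ^ 4) * y * Lm N t * ep N t y e))) := by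
    calc 8 * Real.pi ^ 2 * (y * (t * l ^ 2)) * Wp (N / l) c0 *
        (Real.sqrt t * l * ep N t y e) =
        (8 * Real.pi ^ 2 * (y * (t * l ^ 2)) * ep N t y e) *
          (Wp (N / l) c0 * (Real.sqrt t * l)) := by ring
      _ ≤ (8 * Real.pi ^ 2 * (y * (t * l ^ 2)) * ep N t y e) *
          (4 * Real.pi * k0 (c0 ^ 4) * Lm N t) := mul_le_mul_of_nonneg_left hW (by positivity)
      _ = (32 * Real.pi ^ 3) * (l ^ 2 * (t * (k0 (c0 ^ 4) * y * Lm N t * ep N t y e))) := by ring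
      _ ≤ 1000 * (l ^ 2 * (t * (k0 (c0 ^ 4) * y * Lm N t * ep N t y e))) := by
          have hk := h.k01
          have hL := h.Lm1
          refine mul_le_mul_of_nonneg_right ?_ (by positivity)
          have : Real.pi ^ 3 ≤ 3.15 ^ 3 := pow_le_pow_left₀ hpi.le hpi2.le 3
          linarith [show (32 : ℝ) * 3.15 ^ 3 ≤ 1001 by norm_num,
            show Real.pi ^ 3 ≤ 31.25 by
              have h8 := Real.pi_lt_d4
              have : Real.pi ^ 3 ≤ 3.1416 ^ 3 := pow_le_pow_left₀ hpi.le h8.le 3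
              linarith [show (3.1416 : ℝ) ^ 3 ≤ 31.25 by norm_num]]
      _ = _ := by ring
  have h8 : e * (Real.sqrt t * l) *
      Real.sqrt (mm (t * l ^ 2) (τ * l ^ 2) + l ^ 2 * phs t (PbC N l b t0 t τ k)) ≤
      l ^ 2 * (t * (2 * e)) := by
    have h9 : Real.sqrt (mm (t * l ^ 2) (τ * l ^ 2) + l ^ 2 * phs t (PbC N l b t0 t τ k)) ≤
        2 * (Real.sqrt t * l) := by
      refine (Real.sqrt_le_sqrt hmu1).trans ?_
      rw [show 2 * (t * (l : ℝ) ^ 2) = 2 * t * l ^ 2 by ring, Real.sqrt_mul (by positivity),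
        Real.sqrt_sq hlp.le, Real.sqrt_mul (by norm_num)]
      have : Real.sqrt 2 ≤ 2 := by
        rw [Real.sqrt_le_left (by norm_num)]
        norm_num
      have := mul_le_mul_of_nonneg_right this (mul_nonneg (Real.sqrt_nonneg t) hlp.le)
      linarith
    calc e * (Real.sqrt t * l) *
        Real.sqrt (mm (t * l ^ 2) (τ * l ^ 2) + l ^ 2 * phs t (PbC N l b t0 t τ k)) ≤
        e * (Real.sqrt t * l) * (2 * (Real.sqrt t * l)) :=
          mul_le_mul_of_nonneg_left h9 (by positivity)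
      _ = 2 * e * (l ^ 2 * (Real.sqrt t * Real.sqrt t)) := by ring
      _ = _ := by rw [Real.mul_self_sqrt ht.le]; ring
  calc 8 * Real.pi ^ 2 * (y * (t * l ^ 2)) * Wp (N / l) c0 *
      (Real.sqrt t * l * ep N t y e) + e * (Real.sqrt t * l) *
      Real.sqrt (mm (t * l ^ 2) (τ * l ^ 2) + l ^ 2 * phs t (PbC N l b t0 t τ k)) ≤
      l ^ 2 * (t * (1000 * (k0 (c0 ^ 4) * y * Lm N t * ep N t y e))) + l ^ 2 * (t * (2 * e)) :=
        add_le_add h7 h8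
    _ = _ := by ring

end

end Vale.Agent.P159.H114
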