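import Vale.Agent.P159.H114.Te3

/-!
P159 (helper114): the projected second moment on the cell torus, pinned prior, modes `k ≠ 0`.
-/

namespace Vale.Agent.P159.H114

open MeasureTheory Finset Matrix
open Vale.Agent.P159.TM.H104 (EM Ex Cv K3 Lg li nh Gr)
open Vale.Agent.P159.H37
open Vale.Agent.P159.H864 (TI sym mlt ti_mlt sym_mlt cobV MC GM Gck PiCk cobV_mul_tr)
open Vale.Agent.P159.H730 (wC Cbk)
open Vale.Agent.P159.TM.H764 (Gh cN sN dt ch EE frm grd pw)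
open Vale.Agent.P159.TM.Spec (V)
open Vale.Agent.P159.TM.SpecC (wT ms)

noncomputable section

set_option linter.unusedSectionVars false

variable {N l : ℕ} [NeZero N] [NeZero (N / l)] {b t0 t τ : ℝ}
variable {P : V (N / l) → ℝ} {c0 y e : ℝ}

/-- lower bound of the linear part -/
lemma LQ.a_low (h : LQ N l b t0 t τ P c0 y e) {k : V (N / l)} (hk : k ≠ 0) :
    c0 * (l ^ 2 / N ^ 2) / 2 ≤ sA P (t * l ^ 2) k := by
  have hlp := h.lpos
  have hN := h.Npos
  have hc := h.qd.hc0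
  have ht := h.ht
  have h1 := H462.EE_gap hk
  have h2 := h.qd.hlo k
  have h3 := h.hside
  rw [h.Nl] at h1
  have h4 : (l : ℝ) ^ 2 / N ^ 2 ≤ EE k := by
    refine le_trans ?_ h1
    rw [div_pow, div_div_eq_mul_div]
    exact div_le_div_of_nonneg_right (by nlinarith [show (0 : ℝ) < l ^ 2 by positivity])
      (by positivity)
  have hq0 : 0 < c0 * ((l : ℝ) ^ 2 / N ^ 2) := by positivity
  have h5 : c0 * ((l : ℝ) ^ 2 / N ^ 2) ≤ P k :=
    (mul_le_mul_of_nonneg_left h4 hc.le).trans h2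
  have h6 : (l : ℝ) ^ 2 / N ^ 2 ≤ t * l ^ 2 := by
    rw [div_le_iff₀ (by positivity)]
    nlinarith [show (0 : ℝ) < l ^ 2 by positivity]
  have h7 : c0 * ((l : ℝ) ^ 2 / N ^ 2) ≤ t * l ^ 2 := by
    have : c0 * ((l : ℝ) ^ 2 / N ^ 2) ≤ 1 * ((l : ℝ) ^ 2 / N ^ 2) :=
      mul_le_mul_of_nonneg_right h.hc01 (by positivity)
    linarith
  set q := c0 * ((l : ℝ) ^ 2 / N ^ 2) with hq
  set A := t * (l : ℝ) ^ 2 with hA
  unfold sA
  have hA0 : 0 < A := hq0.trans_le h7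
  have hP0 : 0 < P k := hq0.trans_le h5
  rw [le_div_iff₀ (by linarith)]
  have h8 : q * P k ≤ A * P k := mul_le_mul_of_nonneg_right h7 hP0.le
  have h9 : q * A ≤ A * P k := by
    rw [mul_comm]
    exact mul_le_mul_of_nonneg_left h5 hA0.le
  linarith

lemma LQ.ma (h : LQ N l b t0 t τ P c0 y e) {k : V (N / l)} (hk : k ≠ 0) :
    c0 * (l ^ 2 / N ^ 2) / 2 ≤ mm (t * l ^ 2) (τ * l ^ 2) + sA P (t * l ^ 2) k := by
  have h1 := h.a_low hk
  have h2 := h.qd.mm0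
  linarith

/-- `1/(m+a) ≤ 2 N²/(c₀ l²)` -/
lemma LQ.inv_ma (h : LQ N l b t0 t τ P c0 y e) {k : V (N / l)} (hk : k ≠ 0) :
    1 / (mm (t * l ^ 2) (τ * l ^ 2) + sA P (t * l ^ 2) k) ≤ 2 * (1 / c0) * (N ^ 2 / l ^ 2) := by
  have hlp := h.lpos
  have hN := h.Npos
  have hc := h.qd.hc0
  have h1 := one_div_le_one_div_of_le (by positivity) (h.ma hk)
  refine h1.trans (le_of_eq ?_)
  field_simp

/-- `β/√(m+a) ≤ (3/2) Λ ε / c₀` -/
lemma LQ.bma (h : LQ N l b t0 t τ P c0 y e) {k : V (N / l)} (hk : k ≠ 0) :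
    Real.sqrt t * l * ep N t y e / Real.sqrt (mm (t * l ^ 2) (τ * l ^ 2) + sA P (t * l ^ 2) k) ≤
      3 / 2 * (1 / c0 * Lm N t * ep N t y e) := by
  have hlp := h.lpos
  have hN := h.Npos
  have hc := h.qd.hc0
  have hc1 := h.hc01
  have hε := h.ep0
  have h1 := h.ma hk
  have h2 : 2 / 3 * c0 * (l / N) ≤
      Real.sqrt (mm (t * l ^ 2) (τ * l ^ 2) + sA P (t * l ^ 2) k) := by
    refine Real.le_sqrt_of_sq_le (le_trans ?_ h1)
    have e1 : (2 / 3 * c0 * ((l : ℝ) / N)) ^ 2 = 4 / 9 * c0 ^ 2 * (l ^ 2 / N ^ 2) := by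
      rw [mul_pow, div_pow (l : ℝ)]; ring
    have e2 : c0 * ((l : ℝ) ^ 2 / N ^ 2) / 2 = 1 / 2 * c0 * (l ^ 2 / N ^ 2) := by ring
    rw [e1, e2]
    refine mul_le_mul_of_nonneg_right ?_ (by positivity)
    nlinarith
  have h0 : 0 < Real.sqrt (mm (t * l ^ 2) (τ * l ^ 2) + sA P (t * l ^ 2) k) :=
    lt_of_lt_of_le (by positivity) h2
  rw [div_le_iff₀ h0]
  have e3 : Real.sqrt t * l * ep N t y e =
      3 / 2 * (1 / c0 * Lm N t * ep N t y e) * (2 / 3 * c0 * (l / N)) := by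
    unfold Lm
    field_simp
  rw [e3]
  refine mul_le_mul_of_nonneg_left h2 ?_
  have := h.Lm1
  positivity

lemma LQ.d1_le (h : LQ N l b t0 t τ P c0 y e) :
    (4 * Real.pi * Wp (N / l) c0 + Real.sqrt (Fintype.card (V (N / l)))) *
      (Real.sqrt t * l * ep N t y e) ≤ 64 * (1 / c0 * Lm N t * ep N t y e) := by
  have hlp := h.lpos
  have ht := h.ht
  have hε := h.ep0
  have hpi := Real.pi_pos
  have hc := h.qd.hc0
  have hL := h.Lm1
  have hW := h.W_eq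
  have e1 : Real.sqrt (Fintype.card (V (N / l))) = N / l := by
    rw [card_V]
    push_cast
    rw [h.Nl, Real.sqrt_mul_self (div_nonneg h.Npos.le hlp.le)]
  rw [e1]
  have e2 : (4 * Real.pi * Wp (N / l) c0 + (N : ℝ) / l) * (Real.sqrt t * l * ep N t y e) =
      4 * Real.pi * (Wp (N / l) c0 * (Real.sqrt t * l)) * ep N t y e +
        Lm N t * ep N t y e := by
    unfold Lm
    field_simp
  rw [e2, hW]
  have h2 : Lm N t * ep N t y e ≤ 1 / c0 * Lm N t * ep N t y e := by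
    have h3 : 0 ≤ Lm N t * ep N t y e := by positivity
    have h4 : 1 ≤ 1 / c0 := by
      rw [le_div_iff₀ hc, one_mul]
      exact h.hc01
    nlinarith
  have h5 : 0 ≤ 1 / c0 * Lm N t * ep N t y e := by positivity
  have h6 := Real.pi_lt_d2
  calc 4 * Real.pi * (5 * (1 / c0 * Lm N t)) * ep N t y e + Lm N t * ep N t y e ≤
      20 * Real.pi * (1 / c0 * Lm N t * ep N t y e) + 1 / c0 * Lm N t * ep N t y e := by
        have e3 : 4 * Real.pi * (5 * (1 / c0 * Lm N t)) * ep N t y e =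
          20 * Real.pi * (1 / c0 * Lm N t * ep N t y e) := by ring
        rw [e3]
        linarith
    _ ≤ _ := by nlinarith

/-- the error of the abstract theorem, normalised -/
lemma LQ.err_le (h : LQ N l b t0 t τ P c0 y e) {β W m cd d1 d2 : ℝ}
    (hβ : β = Real.sqrt t * l * ep N t y e) (hW : W = Wp (N / l) c0)
    (hm0 : 0 < m) (hm : 1 / m ≤ 2 * (1 / c0) * (N ^ 2 / l ^ 2))
    (hcd : cd = Fintype.card (V (N / l)))
    (hd1 : d1 ≤ 64 * (1 / c0 * Lm N t * ep N t y e))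
    (hd2 : d2 ≤ 3 * (1 / c0 * Lm N t * ep N t y e)) :
    2 * (β * (e * (Real.sqrt t * l))) + (e * (Real.sqrt t * l)) ^ 2 +
      (4 * Real.pi * (y * (t * l ^ 2))) ^ 2 * (2 * cd * W * β + (30 * d1 + 98 * d2) / m) ≤
      l ^ 2 * (t * eJ N t y e (c0 ^ 4)) := by
  have hlp := h.lpos
  have ht := h.ht
  have hε := h.ep0
  have hy := h.hy
  have he := h.he
  have hpi := Real.pi_pos
  have hk := h.k01
  have hL := h.Lm1
  have hN := h.Npos
  have hc := h.qd.hc0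
  have hc1 : 1 ≤ 1 / c0 := by
    rw [le_div_iff₀ hc, one_mul]
    exact h.hc01
  have hkl0 : 0 ≤ k0 (c0 ^ 4) * Lm N t * ep N t y e := by positivity
  have hcdv : cd = N ^ 2 / l ^ 2 := by
    rw [hcd, card_V]
    push_cast
    rw [h.Nl]
    ring
  set q1 := 1 / c0 * Lm N t * ep N t y e with hq1
  have hq10 : 0 ≤ q1 := by positivity
  have hqq : k0 (c0 ^ 4) * Lm N t * ep N t y e = 1 / c0 * q1 := by
    rw [h.k0_eq, hq1]
    field_simp
  have t1 : 2 * (β * (e * (Real.sqrt t * l))) = l ^ 2 * (t * (2 * (ep N t y e * e))) := by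
    rw [hβ]
    calc 2 * (Real.sqrt t * l * ep N t y e * (e * (Real.sqrt t * l))) =
        2 * (l ^ 2 * ((Real.sqrt t * Real.sqrt t) * (ep N t y e * e))) := by ring
      _ = _ := by rw [Real.mul_self_sqrt ht.le]; ring
  have t2 : (e * (Real.sqrt t * l)) ^ 2 ≤ l ^ 2 * (t * (ep N t y e * e)) := by
    rw [mul_pow, mul_pow, Real.sq_sqrt ht.le]
    have := h.e_le
    have h5 : e ^ 2 ≤ ep N t y e * e := by nlinarith
    calc e ^ 2 * (t * l ^ 2) ≤ (ep N t y e * e) * (t * l ^ 2) :=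
          mul_le_mul_of_nonneg_right h5 (by positivity)
      _ = _ := by ring
  have t3 : W * β = 5 * q1 := by
    rw [hβ, hW, hq1]
    calc Wp (N / l) c0 * (Real.sqrt t * l * ep N t y e) =
        Wp (N / l) c0 * (Real.sqrt t * l) * ep N t y e := by ring
      _ = _ := by rw [h.W_eq]; ring
  have t4 : (30 * d1 + 98 * d2) / m ≤ 2214 * q1 * (2 * (1 / c0) * (N ^ 2 / l ^ 2)) := by
    have h7 : 30 * d1 + 98 * d2 ≤ 2214 * q1 := by linarith
    rw [div_eq_mul_one_div]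
    exact mul_le_mul h7 hm (by positivity) (by positivity)
  have t6 : 2 * cd * W * β + (30 * d1 + 98 * d2) / m ≤
      (8 * Real.pi + 4996) * (k0 (c0 ^ 4) * Lm N t * ep N t y e) * (N ^ 2 / l ^ 2) := by
    rw [hqq]
    have e1 : 2 * cd * W * β = 10 * q1 * (N ^ 2 / l ^ 2) := by
      rw [mul_assoc (2 * cd), t3, hcdv]; ring
    rw [e1]
    refine (add_le_add le_rfl t4).trans ?_
    have e2 : 10 * q1 * ((N : ℝ) ^ 2 / l ^ 2) + 2214 * q1 * (2 * (1 / c0) * (N ^ 2 / l ^ 2)) =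
        (10 * q1 + 4428 * (1 / c0 * q1)) * (N ^ 2 / l ^ 2) := by ring
    rw [e2]
    refine mul_le_mul_of_nonneg_right ?_ (by positivity)
    have h8 : q1 ≤ 1 / c0 * q1 := le_mul_of_one_le_left hq10 hc1
    have h9 : 0 ≤ 1 / c0 * q1 := by positivity
    nlinarith
  have t5 := scal1 (y := y) ht hlp hkl0 t6
  rw [← h.Lm_sq] at t5
  unfold eJ
  calc 2 * (β * (e * (Real.sqrt t * l))) + (e * (Real.sqrt t * l)) ^ 2 +
        (4 * Real.pi * (y * (t * l ^ 2))) ^ 2 * (2 * cd * W * β + (30 * d1 + 98 * d2) / m) ≤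
      l ^ 2 * (t * (2 * (ep N t y e * e))) + l ^ 2 * (t * (ep N t y e * e)) +
        l ^ 2 * (t * (800000 * (y ^ 2 * (k0 (c0 ^ 4) * Lm N t * ep N t y e) * Lm N t ^ 2))) :=
        add_le_add (add_le_add t1.le t2) t5
    _ = _ := by ring

/-- **the projected second moment on the cell torus**, modes `k ≠ 0` -/
theorem LQ.main (h : LQ N l b t0 t τ P c0 y e)
    (hs : 160 * (k0 (c0 ^ 4) * Lm N t * ep N t y e) ≤ 1) {k : V (N / l)} (hk : k ≠ 0) :
    |phs t (PbC N l b t0 t τ k) - phs t (PiCk N l b t0 τ k) -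
      (4 * Real.pi * y * sS P (t * l ^ 2) k) ^ 2 * (t ^ 2 * l ^ 2) *
        (∑ x, H813.gk (H813.GamP (N / l) (t * l ^ 2) (τ * l ^ 2) P) x * cN (dt k x))| ≤
      t * eJ N t y e (c0 ^ 4) := by
  have hlp := h.lpos
  have hε := h.ep0
  have hk1 := h.k01
  have hL := h.Lm1
  have hC := Cbk_pos (N := N) h.hb h.hl h.hτ h.lt h.htt k
  have hc := h.qd.hc0
  have hd1 := h.d1_le
  have hd2 : 2 * (Real.sqrt t * l * ep N t y e /
      Real.sqrt (mm (t * l ^ 2) (τ * l ^ 2) + sA P (t * l ^ 2) k)) ≤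
      3 * (1 / c0 * Lm N t * ep N t y e) := by
    have := h.bma hk
    linarith
  have hq : 1 / c0 * Lm N t * ep N t y e ≤ k0 (c0 ^ 4) * Lm N t * ep N t y e :=
    mul_le_mul_of_nonneg_right (mul_le_mul_of_nonneg_right h.k0c (by linarith)) hε
  have hkl0 : 0 ≤ 1 / c0 * Lm N t * ep N t y e := by positivity
  have hma0 : 0 < mm (t * l ^ 2) (τ * l ^ 2) + sA P (t * l ^ 2) k := by
    have h1 := h.qd.mm0
    have h2 := h.qd.sA0 k
    linarith
  have h1 := h.pe.main (h.qd.md k) h.bt_eq.symm rfl rfl rfl (by linarith) (by linarith)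
  have h2 := h.err_le rfl rfl hma0 (h.inv_ma hk) rfl hd1 hd2
  rw [prj_C h.hb h.hl h.hτ h.lt h.htt k hC.ne', h.qd.JG_eq] at h1
  have hc2p : 0 < ∑ x, cw (n := N / l) k x ^ 2 := cw_pos k
  have h3 := h1.trans (mul_le_mul_of_nonneg_left h2 hc2p.le)
  clear h1 h2
  set c2 := ∑ x, cw (n := N / l) k x ^ 2 with hc2
  set Sk := ∑ x, H813.gk (H813.GamP (N / l) (t * l ^ 2) (τ * l ^ 2) P) x * cN (dt k x) with hSk
  set s := sS P (t * l ^ 2) k with hsd
  have e1 : l ^ 2 * (phs t (PbC N l b t0 t τ k) - phs t (PiCk N l b t0 τ k)) * c2 -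
      (4 * Real.pi * (y * (t * l ^ 2)) * s) ^ 2 * Sk * c2 =
      (c2 * l ^ 2) * (phs t (PbC N l b t0 t τ k) - phs t (PiCk N l b t0 τ k) -
        (4 * Real.pi * y * s) ^ 2 * (t ^ 2 * l ^ 2) * Sk) := by ring
  have e2 : c2 * (l ^ 2 * (t * eJ N t y e (c0 ^ 4))) =
      c2 * l ^ 2 * (t * eJ N t y e (c0 ^ 4)) := (mul_assoc _ _ _).symm
  rw [e1, abs_mul, abs_of_pos (show 0 < c2 * (l : ℝ) ^ 2 by positivity), e2] at h3
  exact le_of_mul_le_mul_left h3 (show 0 < c2 * (l : ℝ) ^ 2 by positivity)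

end

end Vale.Agent.P159.H114
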