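import Vale.Agent.P159.H114.Tor1
import Vale.Agent.P159.H114.Nu2
import Vale.Agent.P159.H114.PhsA
import Vale.Agent.P159.H730.Tor

/-!
P159 (helper114): (P#1) on the cell torus in the letters of helper864: for the channel law at mass
`t`, prior with cell mass `τ`, plane wave `k`:
`prj = l² (phs x - phs Π) |cw k|²`, `phs v = t v / (t + v)`, `x = PbC k` (mean posterior
stiffness), `Π = PiCk k` (self energy of the prior).
-/

namespace Vale.Agent.P159.H114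

open MeasureTheory Finset Matrix
open Vale.Agent.P159.TM.H104 (EM Ex Cv K3 Lg li nh Gr)
open Vale.Agent.P159.H37
open Vale.Agent.P159.H864 (TI sym mlt ti_mlt sym_mlt cobV MC GM Gck PiCk cobV_mul_tr)
open Vale.Agent.P159.H730 (wC Cbk)
open Vale.Agent.P159.TM.H764 (Gh cN sN dt ch EE frm grd)
open Vale.Agent.P159.TM.Spec (V)
open Vale.Agent.P159.TM.SpecC (wT ms)

noncomputable section

set_option linter.unusedSectionVars false

variable {N l : ℕ} [NeZero N] [NeZero (N / l)] {b t0 t τ : ℝ}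

/-- the law of the noise -/
def nuC (N l : ℕ) [NeZero N] [NeZero (N / l)] (b t0 t τ : ℝ) : Measure (V (N / l) → ℝ) :=
  nuP (wC N l b t0 τ) (Real.sqrt (t - τ) • cobV N l)

/-- the cell field -/
def FC (N l : ℕ) [NeZero N] [NeZero (N / l)] (t τ : ℝ) : V (N / l) → (V (N / l) → ℝ) → ℝ :=
  FF (Real.sqrt (t - τ) / (t * l))

/-- the gradient of the functional at mass `t` -/
def XC (N l : ℕ) [NeZero N] [NeZero (N / l)] (b t0 t τ : ℝ) :
    V (N / l) → (V (N / l) → ℝ) → ℝ :=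
  XX (wC N l b t0 τ) (cobV N l) (t - τ) (Real.sqrt (t - τ) / (t * l)) (mm (t * l ^ 2) (τ * l ^ 2))

/-- mean Hessian -/
def uC (N l : ℕ) [NeZero N] [NeZero (N / l)] (b t0 t τ : ℝ) : Matrix (V (N / l)) (V (N / l)) ℝ :=
  uu (wC N l b t0 τ) (cobV N l) (t - τ) (Real.sqrt (t - τ) / (t * l)) (mm (t * l ^ 2) (τ * l ^ 2))

theorem sc_C (hb : 0 < b) (hl : l ∣ N) (hτ : 0 < τ) (h : τ < t) (h0 : t ≤ t0) :
    Sc (nuC N l b t0 t τ) (FC N l t τ) (XC N l b t0 t τ) (mm (t * l ^ 2) (τ * l ^ 2))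
      (uC N l b t0 t τ) := by
  have hlp : (0 : ℝ) < l := by exact_mod_cast H864.l_pos hl
  have ht : 0 < t := hτ.trans h
  exact sc_chan (H864.em_MC hb.le hl hτ (h.le.trans h0)) (sub_pos.2 h) (cobV_mul_tr hl)
    (div_pos (Real.sqrt_pos.2 (sub_pos.2 h)) (mul_pos ht hlp)) _

/-- `α⁻²` -/
lemma alpha_sq (hl : l ∣ N) (hτ : 0 < τ) (h : τ < t) :
    ((Real.sqrt (t - τ) / (t * l))⁻¹) ^ 2 = t ^ 2 * l ^ 2 / (t - τ) := by
  have h1 : 0 < t - τ := sub_pos.2 h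
  rw [inv_div, div_pow, Real.sq_sqrt h1.le, mul_pow]

/-- variance of the observed field -/
lemma int_FC (hb : 0 < b) (hl : l ∣ N) (hτ : 0 < τ) (h : τ < t) (h0 : t ≤ t0) (k : V (N / l)) :
    ∫ g, lc (cw k) (FC N l t τ) g ^ 2 ∂(nuC N l b t0 t τ) =
      (t - τ) / (t ^ 2 * l ^ 2) * ((t - τ) * Gck N l b t0 τ k + 1) * ∑ x, cw k x ^ 2 := by
  have hlp : (0 : ℝ) < l := by exact_mod_cast H864.l_pos hl
  have ht : 0 < t := hτ.trans h
  have h1 : 0 < t - τ := sub_pos.2 h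
  have hμ : EM (wC N l b t0 τ) := H864.em_MC hb.le hl hτ (h.le.trans h0)
  have he : Ev (wC N l b t0 τ) := H864.ev_wTM _
  have e1 : ∀ g : V (N / l) → ℝ, lc (cw k) (FC N l t τ) g ^ 2 =
      (Real.sqrt (t - τ) / (t * l)) ^ 2 * ((∑ i, cw k i * g i) * ∑ i, cw k i * g i) := by
    intro g
    unfold lc FC FF
    have : ∑ x, cw k x * (Real.sqrt (t - τ) / (t * l) * g x) =
        (Real.sqrt (t - τ) / (t * l)) * ∑ i, cw k i * g i := by
      rw [Finset.mul_sum]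
      exact Finset.sum_congr rfl fun x _ => by ring
    rw [this]
    ring
  simp only [e1]
  rw [integral_const_mul]
  unfold nuC
  rw [int_gg hμ h1 (cobV_mul_tr hl), Ex_li_li hμ he]
  have e2 : bf (Gm (wC N l b t0 τ)) ((cobV N l)ᵀ *ᵥ cw k) ((cobV N l)ᵀ *ᵥ cw k) =
      Gck N l b t0 τ k * ∑ x, cw k x ^ 2 := by
    have h2 := H883.qf_eigen (u := cw k) (c := Gck N l b t0 τ k)
      ((H864.ti_Gc_GM (N := N) hl b t0 τ).mulVec_cN k)
    rw [H864.qf_Gc] at h2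
    exact h2
  have e3 : ∑ i, cw k i * cw k i = ∑ x, cw (n := N / l) k x ^ 2 :=
    Finset.sum_congr rfl fun x _ => (pow_two _).symm
  rw [e2, e3, div_pow, Real.sq_sqrt h1.le]
  ring

lemma Cv_sum_left {V' : Type*} [Fintype V'] {I : Type*} [Fintype I] [DecidableEq I]
    {μ : (V' → ℤ) → ℝ} (hμ : EM μ) (P : Matrix I V' ℝ) (Q : Matrix I V' ℝ) (c : I → ℝ) :
    ∑ i, ∑ j, c i * Cb μ P (Qᵀ *ᵥ Pi.single i 1) (Qᵀ *ᵥ Pi.single j 1) * c j =
      bf (Cbar μ 0 P) (Qᵀ *ᵥ c) (Qᵀ *ᵥ c) := by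
  have e0 : ∀ a b', Cb μ P a b' = bf (Cbar μ 0 P) a b' := fun a b' => by
    rw [H730.bf_Cbar hμ]
    rfl
  have e1 : ∀ a b', bf (Cbar μ 0 P) (Qᵀ *ᵥ a) (Qᵀ *ᵥ b') = a ⬝ᵥ (Q * Cbar μ 0 P * Qᵀ) *ᵥ b' := by
    intro a b'
    rw [bf_eq, ← mulVec_mulVec, ← mulVec_mulVec, dotProduct_mulVec a, ← mulVec_transpose]
  simp only [e0, e1]
  simp only [single_dotProduct, one_mul, mulVec_single, MulOpposite.op_one, one_smul]
  simp only [dotProduct, mulVec, Finset.mul_sum, Matrix.col_apply]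
  exact Finset.sum_congr rfl fun i _ => Finset.sum_congr rfl fun j _ => by ring

/-- mean Hessian on a plane wave -/
lemma uC_cw (hb : 0 < b) (hl : l ∣ N) (hτ : 0 < τ) (h : τ < t) (h0 : t ≤ t0) (k : V (N / l)) :
    ∑ x, ∑ y, cw k x * uC N l b t0 t τ x y * cw k y =
      (t ^ 2 * l ^ 2 / (t - τ) * (1 - (t - τ) * Cbk N l b t0 τ t k) -
        mm (t * l ^ 2) (τ * l ^ 2)) * ∑ x, cw k x ^ 2 := by
  have hμ : EM (wC N l b t0 τ) := H864.em_MC hb.le hl hτ (h.le.trans h0)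
  have h1 := Cv_sum_left hμ (Real.sqrt (t - τ) • cobV N l) (cobV N l) (cw k)
  have h2 : bf (Cbar (wC N l b t0 τ) 0 (Real.sqrt (t - τ) • cobV N l)) ((cobV N l)ᵀ *ᵥ cw k)
      ((cobV N l)ᵀ *ᵥ cw k) = Cbk N l b t0 τ t k * ∑ x, cw k x ^ 2 := by
    have h3 := H883.qf_eigen (u := cw k) (c := Cbk N l b t0 τ t k)
      ((H864.ti_Gc_Cbar hl (H864.cinv_MC hl b t0 τ) (Real.sqrt (t - τ))).mulVec_cN k)
    rw [H864.Cbar_cob hl, H864.qf_Gc] at h3
    exact h3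
  rw [h2] at h1
  unfold uC uu
  rw [alpha_sq hl hτ h]
  set a2 := t ^ 2 * l ^ 2 / (t - τ) with ha2
  set m := mm (t * l ^ 2) (τ * l ^ 2) with hm
  have e1 : ∀ x y, cw k x * Matrix.of (fun i j => a2 * ((if i = j then 1 else 0) -
      (t - τ) * Cbc (wC N l b t0 τ) (cobV N l) (t - τ) (Pi.single i 1) (Pi.single j 1)) -
      (if i = j then m else 0)) x y * cw k y =
      (if x = y then (a2 - m) * (cw k x * cw k y) else 0) -
        a2 * (t - τ) * (cw k x * Cb (wC N l b t0 τ) (Real.sqrt (t - τ) • cobV N l)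
          ((cobV N l)ᵀ *ᵥ Pi.single x 1) ((cobV N l)ᵀ *ᵥ Pi.single y 1) * cw k y) := by
    intro x y
    rw [Matrix.of_apply]
    unfold Cbc
    by_cases hxy : x = y
    · rw [if_pos hxy, if_pos hxy, if_pos hxy]
      ring
    · rw [if_neg hxy, if_neg hxy, if_neg hxy]
      ring
  simp only [e1, Finset.sum_sub_distrib, ← Finset.mul_sum, h1]
  simp only [Finset.sum_ite_eq, Finset.mem_univ, if_true, ← Finset.mul_sum]
  have e3 : ∑ i, cw k i * cw k i = ∑ x, cw (n := N / l) k x ^ 2 :=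
    Finset.sum_congr rfl fun x _ => (pow_two _).symm
  rw [e3]
  ring

/-- stiffness of the mean posterior covariance -/
def PbC (N l : ℕ) [NeZero N] [NeZero (N / l)] (b t0 t τ : ℝ) (k : V (N / l)) : ℝ :=
  (Cbk N l b t0 τ t k)⁻¹ - t

lemma phs_eq {t g : ℝ} (hg : g ≠ 0) : phs t (g⁻¹ - t) = t - t ^ 2 * g := by
  unfold phs
  rw [add_sub_cancel]
  field_simp

/-- mean Hessian on a plane wave, in terms of the stiffness -/
lemma uC_cw' (hb : 0 < b) (hl : l ∣ N) (hτ : 0 < τ) (h : τ < t) (h0 : t ≤ t0) (k : V (N / l))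
    (hC : Cbk N l b t0 τ t k ≠ 0) :
    ∑ x, ∑ y, cw k x * uC N l b t0 t τ x y * cw k y =
      (l ^ 2 * phs t (PbC N l b t0 t τ k)) * ∑ x, cw k x ^ 2 := by
  have hlp : (0 : ℝ) < l := by exact_mod_cast H864.l_pos hl
  have h1 : t - τ ≠ 0 := (sub_pos.2 h).ne'
  have ht : t ≠ 0 := (hτ.trans h).ne'
  have h2 : t * (l : ℝ) ^ 2 - τ * l ^ 2 ≠ 0 := by
    rw [← sub_mul]
    exact mul_ne_zero h1 (by positivity)
  rw [uC_cw hb hl hτ h h0 k]
  unfold PbC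
  rw [phs_eq hC]
  congr 1
  unfold mm
  field_simp
  ring

/-- **(P#1) on the cell torus** -/
theorem prj_C (hb : 0 < b) (hl : l ∣ N) (hτ : 0 < τ) (h : τ < t) (h0 : t ≤ t0) (k : V (N / l))
    (hC : Cbk N l b t0 τ t k ≠ 0) :
    prj (nuC N l b t0 t τ) (lc (cw k) (FC N l t τ)) (lc (cw k) (XC N l b t0 t τ)) =
      l ^ 2 * (phs t (PbC N l b t0 t τ k) - phs t (PiCk N l b t0 τ k)) * ∑ x, cw k x ^ 2 := by
  have hlp : (0 : ℝ) < l := by exact_mod_cast H864.l_pos hl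
  have h1 : 0 < t - τ := sub_pos.2 h
  have ht : 0 < t := hτ.trans h
  have hG := H864.Gck_pos hb hl hτ (h.le.trans h0) k
  rw [(sc_C hb hl hτ h h0).prj_eq (cw_pos k), uC_cw' hb hl hτ h h0 k hC, int_FC hb hl hτ h h0 k]
  have hc := (cw_pos k).ne'
  unfold PiCk
  set c2 := ∑ x, cw (n := N / l) k x ^ 2 with hc2
  set g := Gck N l b t0 τ k with hg
  have h3 : (t - τ) * g + 1 ≠ 0 := by positivity
  have e1 : phs t (g⁻¹ - τ) = t * (1 - τ * g) / ((t - τ) * g + 1) := by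
    unfold phs
    have h4 : t + (g⁻¹ - τ) = ((t - τ) * g + 1) / g := by
      field_simp
      ring
    rw [h4]
    field_simp
  rw [e1]
  have e2 : c2 ^ 2 / ((t - τ) / (t ^ 2 * l ^ 2) * ((t - τ) * g + 1) * c2) =
      (t ^ 2 * l ^ 2) / ((t - τ) * ((t - τ) * g + 1)) * c2 := by
    field_simp
  rw [e2]
  have e3 : mm (t * (l : ℝ) ^ 2) (τ * l ^ 2) = t * τ * l ^ 2 / (t - τ) := by
    unfold mm
    rw [← sub_mul]
    field_simp
  rw [e3]
  field_simp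
  ring

end

end Vale.Agent.P159.H114
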