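import Vale.Agent.P159.H114.Tor2

/-!
P159 (helper114): (L1) on the cell torus, normalised; consequences in the letters of helper864:
`x = PbC k` (stiffness of the mean posterior), `Π = PiCk k` (self energy of the prior),
`phs v = t v / (t + v)`.
-/

namespace Vale.Agent.P159.H114

open MeasureTheory Finset Matrix
open Vale.Agent.P159.TM.H104 (EM Ex Cv K3 Lg li nh Gr)
open Vale.Agent.P159.H37
open Vale.Agent.P159.H864 (TI sym mlt ti_mlt sym_mlt cobV MC GM Gck PiCk cobV_mul_tr)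
open Vale.Agent.P159.H730 (wC Cbk)
open Vale.Agent.P159.TM.H764 (Gh cN sN dt ch EE frm grd)
open Vale.Agent.P159.TM.Spec (V)
open Vale.Agent.P159.TM.SpecC (wT ms)

noncomputable section

set_option linter.unusedSectionVars false

variable {N l : ℕ} [NeZero N] [NeZero (N / l)] {b t0 t τ : ℝ}

/-- mean posterior form on a plane wave -/
lemma Cbar_cw (hl : l ∣ N) (b t0 t τ : ℝ) (k : V (N / l)) :
    bf (Cbar (wC N l b t0 τ) 0 (Real.sqrt (t - τ) • cobV N l)) ((cobV N l)ᵀ *ᵥ cw k)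
      ((cobV N l)ᵀ *ᵥ cw k) = Cbk N l b t0 τ t k * ∑ x, cw k x ^ 2 := by
  have h3 := H883.qf_eigen (u := cw k) (c := Cbk N l b t0 τ t k)
    ((H864.ti_Gc_Cbar hl (H864.cinv_MC hl b t0 τ) (Real.sqrt (t - τ))).mulVec_cN k)
  rw [H864.Cbar_cob hl, H864.qf_Gc] at h3
  exact h3

/-- the mean posterior covariance dominates the posterior covariance at source zero -/
theorem Gck_le_Cbk (hb : 0 < b) (hl : l ∣ N) (hτ : 0 < τ) (h : τ < t) (h0 : t ≤ t0) (k : V (N / l)) :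
    Gck N l b t0 t k ≤ Cbk N l b t0 τ t k := by
  have hμ : EM (wC N l b t0 τ) := H864.em_MC hb.le hl hτ (h.le.trans h0)
  have hD := H864.dm_MC (N := N) (l := l) hb hl (hτ.trans h) h0
  have h1 := Cbar_cw (N := N) hl b t0 t τ k
  rw [H730.bf_Cbar hμ] at h1
  set a := (cobV N l)ᵀ *ᵥ cw (n := N / l) k with ha
  have hpost : post (wC N l b t0 τ) (Real.sqrt (t - τ) • cobV N l) =
      wM (wT b N) (MC N l t0 t) := by
    rw [← H864.post_cob hl]
    exact H864.post_MC _ h.le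
  have h2 : qf (Gm (wM (wT b N) (MC N l t0 t))) a = Gck N l b t0 t k * ∑ x, cw k x ^ 2 := by
    have h3 := H883.qf_eigen (u := cw k) (c := Gck N l b t0 t k)
      ((H864.ti_Gc_GM (N := N) hl b t0 t).mulVec_cN k)
    rw [H864.qf_Gc] at h3
    exact h3
  have h4 : qf (Gm (wM (wT b N) (MC N l t0 t))) a ≤
      Ech (wC N l b t0 τ) 0 (Real.sqrt (t - τ) • cobV N l) fun J =>
        Cv (post (wC N l b t0 τ) (Real.sqrt (t - τ) • cobV N l)) J (li a) (li a) := by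
    rw [← Ech_const hμ 0 (Real.sqrt (t - τ) • cobV N l)
      (qf (Gm (wM (wT b N) (MC N l t0 t))) a)]
    refine H663.Ech_mono' hμ (H663.ChI.of_EGr hμ 0 _ (EGr.const (V := V N) _))
      (H730.chi_Cv hμ _ (Gr.li a) (Gr.li a)) fun J => ?_
    have h5 := hD.gc J a
    rw [hpost, ← H864.qf_Cm hD.em]
    exact h5
  rw [h1, h2] at h4
  exact le_of_mul_le_mul_right h4 (cw_pos k)

theorem Cbk_pos (hb : 0 < b) (hl : l ∣ N) (hτ : 0 < τ) (h : τ < t) (h0 : t ≤ t0) (k : V (N / l)) :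
    0 < Cbk N l b t0 τ t k :=
  (H864.Gck_pos hb hl (hτ.trans h) h0 k).trans_le (Gck_le_Cbk hb hl hτ h h0 k)

lemma phs_le_iff {t v w : ℝ} (ht : 0 < t) (hv : 0 < t + v) (hw : 0 < t + w) :
    phs t v ≤ phs t w ↔ v ≤ w := by
  unfold phs
  rw [div_le_div_iff₀ hv hw]
  constructor
  · intro h
    have h1 : t * t * v ≤ t * t * w := by nlinarith
    exact le_of_mul_le_mul_left h1 (by positivity)
  · intro h
    have h1 : t * t * v ≤ t * t * w := mul_le_mul_of_nonneg_left h (by positivity)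
    nlinarith

/-- `Π ≤ x` -/
theorem PiCk_le_PbC (hb : 0 < b) (hl : l ∣ N) (hτ : 0 < τ) (h : τ < t) (h0 : t ≤ t0) (k : V (N / l)) :
    PiCk N l b t0 τ k ≤ PbC N l b t0 t τ k := by
  have hlp : (0 : ℝ) < l := by exact_mod_cast H864.l_pos hl
  have ht : 0 < t := hτ.trans h
  have hC := Cbk_pos (N := N) hb hl hτ h h0 k
  have hP := H864.PiCk_nonneg hb hl hτ (h.le.trans h0) k
  have h1 := prj_C hb hl hτ h h0 k hC.ne'
  have hsc := sc_C (N := N) (l := l) hb hl hτ h h0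
  have h2 := prj_nonneg (lc_memLp hsc.F2 (cw k)) (lc_memLp hsc.X2 (cw k))
  rw [h1] at h2
  have h3 : 0 ≤ l ^ 2 * (phs t (PbC N l b t0 t τ k) - phs t (PiCk N l b t0 τ k)) :=
    nonneg_of_mul_nonneg_left h2 (cw_pos k)
  have h4 : 0 ≤ phs t (PbC N l b t0 t τ k) - phs t (PiCk N l b t0 τ k) :=
    nonneg_of_mul_nonneg_right h3 (by positivity)
  refine (phs_le_iff ht (by linarith) ?_).1 (by linarith)
  unfold PbC
  rw [add_sub_cancel]
  positivity

theorem PbC_nonneg (hb : 0 < b) (hl : l ∣ N) (hτ : 0 < τ) (h : τ < t) (h0 : t ≤ t0) (k : V (N / l)) :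
    0 ≤ PbC N l b t0 t τ k :=
  (H864.PiCk_nonneg hb hl hτ (h.le.trans h0) k).trans (PiCk_le_PbC hb hl hτ h h0 k)

/-- `x ≤ Π_t` -/
theorem PbC_le (hb : 0 < b) (hl : l ∣ N) (hτ : 0 < τ) (h : τ < t) (h0 : t ≤ t0) (k : V (N / l)) :
    PbC N l b t0 t τ k ≤ PiCk N l b t0 t k := by
  unfold PbC PiCk
  have h1 := H864.Gck_pos hb hl (hτ.trans h) h0 k
  have h2 := inv_anti₀ h1 (Gck_le_Cbk hb hl hτ h h0 k)
  linarith

/-- (L1) on the cell torus, normalised -/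
structure LP (N l : ℕ) [NeZero N] [NeZero (N / l)] (b t0 t τ : ℝ) (P : V (N / l) → ℝ)
    (c0 y e : ℝ) : Prop where
  hb : 0 < b
  hl : l ∣ N
  hτ : 0 < τ
  hτt : 2 * τ ≤ t
  htt : t ≤ t0
  hside : 1 ≤ (N : ℝ) ^ 2 * τ
  qd : QD (N / l) P c0 (t * l ^ 2) (τ * l ^ 2)
  hc01 : c0 ≤ 1
  hy : 0 ≤ y
  he : 0 ≤ e
  L : L1 (nuC N l b t0 t τ) (FC N l t τ) (XC N l b t0 t τ) (mlt (sA P (t * l ^ 2)))
    (mlt (sS P (t * l ^ 2))) (y * (t * l ^ 2)) (e * (Real.sqrt t * l))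

/-- side of the torus in units of the correlation length at mass `t` -/
def Lm (N : ℕ) (t : ℝ) : ℝ := N * Real.sqrt t

/-- relative size of the charged part on the whole torus -/
def ep (N : ℕ) (t y e : ℝ) : ℝ := 4 * Real.pi * y * Lm N t + e

variable {P : V (N / l) → ℝ} {c0 y e : ℝ}

lemma LP.ht (h : LP N l b t0 t τ P c0 y e) : 0 < t := by linarith [h.hτ, h.hτt]

lemma LP.lt (h : LP N l b t0 t τ P c0 y e) : τ < t := by linarith [h.hτ, h.hτt]

lemma LP.lpos (h : LP N l b t0 t τ P c0 y e) : (0 : ℝ) < l := by exact_mod_cast H864.l_pos h.hl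

lemma LP.Npos (_h : LP N l b t0 t τ P c0 y e) : (0 : ℝ) < N := by exact_mod_cast NeZero.pos N

lemma LP.Nl (h : LP N l b t0 t τ P c0 y e) : ((N / l : ℕ) : ℝ) = N / l := by
  exact Nat.cast_div h.hl h.lpos.ne'

lemma LP.Lm1 (h : LP N l b t0 t τ P c0 y e) : 1 ≤ Lm N t := by
  have hN := h.Npos
  have h1 : 1 ≤ (N : ℝ) ^ 2 * t := h.hside.trans
    (mul_le_mul_of_nonneg_left h.lt.le (by positivity))
  unfold Lm
  rw [← Real.sqrt_one, ← Real.sqrt_sq hN.le, ← Real.sqrt_mul (by positivity)]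
  exact Real.sqrt_le_sqrt h1

lemma LP.Lm_sq (h : LP N l b t0 t τ P c0 y e) : Lm N t ^ 2 = N ^ 2 * t := by
  unfold Lm
  rw [mul_pow, Real.sq_sqrt h.ht.le]

lemma LP.ep0 (h : LP N l b t0 t τ P c0 y e) : 0 ≤ ep N t y e := by
  have := h.Lm1
  have := h.hy
  have := h.he
  have := Real.pi_pos
  unfold ep
  positivity

lemma LP.e_le (h : LP N l b t0 t τ P c0 y e) : e ≤ ep N t y e := by
  have := h.Lm1
  have h2 := h.hy
  have := Real.pi_pos
  unfold ep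
  have : 0 ≤ 4 * Real.pi * y * Lm N t := by positivity
  linarith

lemma card_V (n : ℕ) [NeZero n] : Fintype.card (V n) = n * n := by
  show Fintype.card (ZMod n × ZMod n) = _
  rw [Fintype.card_prod, ZMod.card]

/-- `β = √t l ε` -/
lemma LP.bt_eq (h : LP N l b t0 t τ P c0 y e) :
    bt (V (N / l)) (y * (t * l ^ 2)) (e * (Real.sqrt t * l)) =
      Real.sqrt t * l * ep N t y e := by
  have hlp := h.lpos
  have hst : Real.sqrt t * Real.sqrt t = t := Real.mul_self_sqrt h.ht.le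
  unfold bt ep Lm
  rw [card_V]
  push_cast
  rw [h.Nl, Real.sqrt_mul_self (div_nonneg h.Npos.le hlp.le)]
  have e1 : 4 * Real.pi * (y * (t * (l : ℝ) ^ 2)) * (N / l) = 4 * Real.pi * y * t * (l * N) := by
    field_simp
  rw [e1]
  nth_rewrite 1 [← hst]
  ring

/-- `1/√τ ≤ N` -/
lemma LP.sqτ (h : LP N l b t0 t τ P c0 y e) : 1 ≤ N * Real.sqrt τ := by
  have hN := h.Npos
  have h1 := h.hside
  rw [← Real.sqrt_one, ← Real.sqrt_sq hN.le, ← Real.sqrt_mul (by positivity)]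
  exact Real.sqrt_le_sqrt h1

/-- `κ₀ = 1/√c₀` -/
def k0 (c0 : ℝ) : ℝ := 1 / Real.sqrt c0

lemma LP.k01 (h : LP N l b t0 t τ P c0 y e) : 1 ≤ k0 c0 := by
  unfold k0
  have h0 := h.qd.hc0
  rw [le_div_iff₀ (Real.sqrt_pos.2 h0), one_mul]
  exact Real.sqrt_le_one.2 h.hc01

/-- `W ≤ 4π κ₀ Λ / (l √t)` -/
lemma LP.W_le (h : LP N l b t0 t τ P c0 y e) :
    WW (N / l) c0 (τ * l ^ 2) * (Real.sqrt t * l) ≤ 4 * Real.pi * k0 c0 * Lm N t := by
  have hlp := h.lpos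
  have hN := h.Npos
  have hτ := h.hτ
  have hc := h.qd.hc0
  have hpi := Real.pi_pos
  have h1 := h.sqτ
  have hsτ : 0 < Real.sqrt τ := Real.sqrt_pos.2 hτ
  have hst : 0 < Real.sqrt t := Real.sqrt_pos.2 h.ht
  have hsc : 0 < Real.sqrt c0 := Real.sqrt_pos.2 hc
  have hττ : Real.sqrt τ * Real.sqrt τ = τ := Real.mul_self_sqrt hτ.le
  unfold WW
  rw [h.Nl]
  have e1 : Real.sqrt (c0 * (τ * (l : ℝ) ^ 2)) = Real.sqrt c0 * (Real.sqrt τ * l) := by
    rw [Real.sqrt_mul hc.le, Real.sqrt_mul hτ.le, Real.sqrt_sq hlp.le]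
  have e2 : 2 * Real.pi * (1 / ((N : ℝ) / l * (τ * l ^ 2)) + 1 / Real.sqrt (c0 * (τ * l ^ 2))) *
      (Real.sqrt t * l) = 2 * Real.pi * Real.sqrt t *
        (1 / (N * τ) + k0 c0 * (1 / Real.sqrt τ)) := by
    rw [e1]
    unfold k0
    field_simp
  rw [e2]
  have h2 : 1 / Real.sqrt τ ≤ N := by
    rw [div_le_iff₀ hsτ]
    exact h1
  have h3 : 1 / (N * τ) ≤ N := by
    rw [div_le_iff₀ (by positivity)]
    have : N * (N * τ) = (N : ℝ) ^ 2 * τ := by ring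
    rw [this]
    exact h.hside
  have hk := h.k01
  have h4 : 1 / (N * τ) + k0 c0 * (1 / Real.sqrt τ) ≤ 2 * (k0 c0 * N) := by
    have h5 : k0 c0 * (1 / Real.sqrt τ) ≤ k0 c0 * N := mul_le_mul_of_nonneg_left h2 (by linarith)
    have h6 : (N : ℝ) ≤ k0 c0 * N := le_mul_of_one_le_left hN.le hk
    linarith
  calc 2 * Real.pi * Real.sqrt t * (1 / (N * τ) + k0 c0 * (1 / Real.sqrt τ)) ≤
      2 * Real.pi * Real.sqrt t * (2 * (k0 c0 * N)) :=
        mul_le_mul_of_nonneg_left h4 (by positivity)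
    _ = _ := by unfold Lm; ring

end

end Vale.Agent.P159.H114
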