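import Vale.Agent.P159.H114.Tor3

/-!
P159 (helper114): consequences of (L1) on the cell torus:
* `LP.crude` : `0 ≤ phs x - phs Π ≤ t ε²`;
* `LP.hess` : `phs x = phs p + 8π² y t s² κ + O(t (1000 κ₀ y Λ ε + 2 e))`, `p = P / l²`;
* `LP.main` : `phs x - phs Π = (4π y s)² t² l² ∑ gk Γ cos + O(t (3 ε e + 800000 κ₀ y² ε Λ³))`.
-/

namespace Vale.Agent.P159.H114

open MeasureTheory Finset Matrix
open Vale.Agent.P159.TM.H104 (EM Ex Cv K3 Lg li nh Gr)
open Vale.Agent.P159.H37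
open Vale.Agent.P159.H864 (TI sym mlt ti_mlt sym_mlt cobV MC GM Gck PiCk cobV_mul_tr)
open Vale.Agent.P159.H730 (wC Cbk)
open Vale.Agent.P159.TM.H764 (Gh cN sN dt ch EE frm grd)
open Vale.Agent.P159.TM.Spec (V)
open Vale.Agent.P159.TM.SpecC (wT ms)

noncomputable section

set_option linter.unusedSectionVars false

variable {N l : ℕ} [NeZero N] [NeZero (N / l)] {b t0 t τ : ℝ}
variable {P : V (N / l) → ℝ} {c0 y e : ℝ}

lemma LP.pd (h : LP N l b t0 t τ P c0 y e) :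
    PD (nuC N l b t0 t τ) (FC N l t τ) (XC N l b t0 t τ) (mm (t * l ^ 2) (τ * l ^ 2)) (uC N l b t0 t τ)
      (mlt (sA P (t * l ^ 2))) (mlt (sS P (t * l ^ 2))) (mlt (sG P (t * l ^ 2) (τ * l ^ 2)))
      (y * (t * l ^ 2)) (e * (Real.sqrt t * l)) (WW (N / l) c0 (τ * l ^ 2))
      (H813.GamP (N / l) (t * l ^ 2) (τ * l ^ 2) P 0) := by
  have hlp := h.lpos
  have ht := h.ht
  have hy := h.hy
  have he := h.he
  exact h.qd.pd (sc_C h.hb h.hl h.hτ h.lt h.htt) (by positivity) (by positivity) h.L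

lemma LP.le_N2 (h : LP N l b t0 t τ P c0 y e) : 1 / τ ≤ (N : ℝ) ^ 2 := by
  rw [div_le_iff₀ h.hτ]
  exact h.hside

/-- `β/√m ≤ Λ ε` -/
lemma LP.bm (h : LP N l b t0 t τ P c0 y e) :
    Real.sqrt t * l * ep N t y e / Real.sqrt (mm (t * l ^ 2) (τ * l ^ 2)) ≤
      Lm N t * ep N t y e := by
  have hlp := h.lpos
  have hsτ : 0 < Real.sqrt τ := Real.sqrt_pos.2 h.hτ
  have hε := h.ep0
  have hN := h.Npos
  have h1 : Real.sqrt τ * l ≤ Real.sqrt (mm (t * l ^ 2) (τ * l ^ 2)) := by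
    have e : Real.sqrt τ * l = Real.sqrt (τ * l ^ 2) := by
      rw [Real.sqrt_mul h.hτ.le, Real.sqrt_sq hlp.le]
    rw [e]
    exact Real.sqrt_le_sqrt h.qd.Nτ_le_mm
  have h0 : 0 < Real.sqrt (mm (t * l ^ 2) (τ * l ^ 2)) := lt_of_lt_of_le (by positivity) h1
  rw [div_le_iff₀ h0]
  have h2 := h.sqτ
  calc Real.sqrt t * l * ep N t y e = (Real.sqrt t * l * ep N t y e) * 1 := (mul_one _).symm
    _ ≤ (Real.sqrt t * l * ep N t y e) * (N * Real.sqrt τ) :=
        mul_le_mul_of_nonneg_left h2 (by positivity)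
    _ = (N * Real.sqrt t * ep N t y e) * (Real.sqrt τ * l) := by ring
    _ ≤ (N * Real.sqrt t * ep N t y e) * Real.sqrt (mm (t * l ^ 2) (τ * l ^ 2)) :=
        mul_le_mul_of_nonneg_left h1 (by positivity)

/-- **crude bound** -/
theorem LP.crude (h : LP N l b t0 t τ P c0 y e) (k : V (N / l)) :
    phs t (PbC N l b t0 t τ k) - phs t (PiCk N l b t0 τ k) ≤ t * ep N t y e ^ 2 := by
  have hlp := h.lpos
  have ht := h.ht
  have hε := h.ep0
  have hC := Cbk_pos (N := N) h.hb h.hl h.hτ h.lt h.htt k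
  have hpd := h.pd
  have hsc := hpd.sc
  have hc := cw_pos k
  have hM := h.qd.md k
  have h1 := prj_C h.hb h.hl h.hτ h.lt h.htt k hC.ne'
  -- the linear part does not matter
  have hsq : ∑ x, cw k x ^ 2 ≤ Real.sqrt (∑ x, cw (n := N / l) k x ^ 2) ^ 2 :=
    (Real.sq_sqrt hc.le).ge
  have h2 := hsc.nl_le hpd.hz hpd.hη hpd.hL hpd.hS (cw k) (Real.sqrt_nonneg _) hsq
  have hf2 := lc_memLp hsc.F2 (cw k)
  have hX2 := lc_memLp hsc.X2 (cw k)
  have hff := hsc.ff_pos hc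
  set a := sA P (t * l ^ 2) k with ha
  have hAc : ∀ ω, lc (mlt (sA P (t * l ^ 2)) *ᵥ cw k) (FC N l t τ) ω =
      a * lc (cw k) (FC N l t τ) ω := by
    intro ω
    rw [hM.hAc, lc_smul]
  simp only [hAc] at h2
  have h3 : prj (nuC N l b t0 t τ) (lc (cw k) (FC N l t τ)) (lc (cw k) (XC N l b t0 t τ)) ≤
      ∫ ω, (lc (cw k) (XC N l b t0 t τ) ω - a * lc (cw k) (FC N l t τ) ω) ^ 2 ∂(nuC N l b t0 t τ) := by
    have e1 : ∫ ω, (lc (cw k) (XC N l b t0 t τ) ω - a * lc (cw k) (FC N l t τ) ω) ^ 2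
        ∂(nuC N l b t0 t τ) = (∫ ω, lc (cw k) (XC N l b t0 t τ) ω ^ 2 ∂(nuC N l b t0 t τ)) -
        2 * a * (∫ ω, lc (cw k) (XC N l b t0 t τ) ω * lc (cw k) (FC N l t τ) ω ∂(nuC N l b t0 t τ)) +
        a ^ 2 * ∫ ω, lc (cw k) (FC N l t τ) ω ^ 2 ∂(nuC N l b t0 t τ) := by
      have e : ∀ ω, (lc (cw k) (XC N l b t0 t τ) ω - a * lc (cw k) (FC N l t τ) ω) ^ 2 =
          1 * lc (cw k) (XC N l b t0 t τ) ω ^ 2 + (-(2 * a)) *
            (lc (cw k) (XC N l b t0 t τ) ω * lc (cw k) (FC N l t τ) ω) +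
            a ^ 2 * lc (cw k) (FC N l t τ) ω ^ 2 := by
        intro ω; ring
      simp only [e]
      rw [int_lin3 (l2_sq hX2) (l2_mul hX2 hf2) (l2_sq hf2)]
      ring
    rw [e1]
    unfold prj
    set ff := ∫ ω, lc (cw k) (FC N l t τ) ω ^ 2 ∂(nuC N l b t0 t τ)
    set xf := ∫ ω, lc (cw k) (XC N l b t0 t τ) ω * lc (cw k) (FC N l t τ) ω ∂(nuC N l b t0 t τ)
    have : xf ^ 2 / ff ≥ 2 * a * xf - a ^ 2 * ff := by
      rw [ge_iff_le, le_div_iff₀ hff]
      nlinarith [sq_nonneg (xf - a * ff)]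
    linarith
  have h4 := h3.trans h2
  have e5 : 4 * Real.pi * (y * (t * l ^ 2)) * Real.sqrt (Fintype.card (V (N / l))) +
      e * (Real.sqrt t * l) = Real.sqrt t * l * ep N t y e := h.bt_eq
  rw [h1, e5, mul_pow, Real.sq_sqrt hc.le] at h4
  have h6 := le_of_mul_le_mul_right h4 hc
  have e7 : (Real.sqrt t * l * ep N t y e) ^ 2 = l ^ 2 * (t * ep N t y e ^ 2) := by
    rw [mul_pow, mul_pow, Real.sq_sqrt ht.le]
    ring
  rw [e7] at h6
  exact le_of_mul_le_mul_left h6 (by positivity)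

/-- `A` in the letters of the self energies -/
lemma sA_eq (hl : (0 : ℝ) < l) (ht : 0 < t) {p : ℝ} :
    t * (l : ℝ) ^ 2 * p / (t * l ^ 2 + p) = l ^ 2 * phs t (p / l ^ 2) := by
  unfold phs
  field_simp

/-- **the mean Hessian** -/
theorem LP.hess (h : LP N l b t0 t τ P c0 y e) (k : V (N / l)) :
    |phs t (PbC N l b t0 t τ k) - (phs t (P k / l ^ 2) + 8 * Real.pi ^ 2 * y * t *
      (sS P (t * l ^ 2) k) ^ 2 *
      Real.exp (-(2 * Real.pi ^ 2 * H813.GamP (N / l) (t * l ^ 2) (τ * l ^ 2) P 0)))| ≤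
      t * (1000 * (k0 c0 * y * Lm N t * ep N t y e) + 2 * e) := by
  have hlp := h.lpos
  have ht := h.ht
  have hε := h.ep0
  have hy := h.hy
  have he := h.he
  have hpi := Real.pi_pos
  have hpi2 := Real.pi_lt_d2
  have hC := Cbk_pos (N := N) h.hb h.hl h.hτ h.lt h.htt k
  have hu := uC_cw' h.hb h.hl h.hτ h.lt h.htt k hC.ne'
  have hmu : mm (t * l ^ 2) (τ * l ^ 2) + l ^ 2 * phs t (PbC N l b t0 t τ k) =
      t ^ 2 * l ^ 2 / (t - τ) * (1 - (t - τ) * Cbk N l b t0 τ t k) := by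
    have h1 := uC_cw (N := N) h.hb h.hl h.hτ h.lt h.htt k
    rw [hu] at h1
    have h2 := mul_right_cancel₀ (cw_pos k).ne' h1
    linarith
  have hm0 := h.qd.mm0
  have hx0 := PbC_nonneg (N := N) h.hb h.hl h.hτ h.lt h.htt k
  have hphs : 0 ≤ phs t (PbC N l b t0 t τ k) := by
    unfold phs
    positivity
  have hmu0 : 0 ≤ mm (t * l ^ 2) (τ * l ^ 2) + l ^ 2 * phs t (PbC N l b t0 t τ k) := by positivity
  have hmu1 : mm (t * l ^ 2) (τ * l ^ 2) + l ^ 2 * phs t (PbC N l b t0 t τ k) ≤ 2 * (t * l ^ 2) := by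
    rw [hmu]
    have h3 : 0 < t - τ := sub_pos.2 h.lt
    have h4 : 1 - (t - τ) * Cbk N l b t0 τ t k ≤ 1 := by
      have : 0 ≤ (t - τ) * Cbk N l b t0 τ t k := by positivity
      linarith
    calc t ^ 2 * l ^ 2 / (t - τ) * (1 - (t - τ) * Cbk N l b t0 τ t k) ≤
        t ^ 2 * l ^ 2 / (t - τ) * 1 := mul_le_mul_of_nonneg_left h4 (by positivity)
      _ = t ^ 2 * l ^ 2 / (t - τ) := mul_one _
      _ ≤ 2 * (t * l ^ 2) := by
        rw [div_le_iff₀ h3]
        have h5 := h.hτt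
        have h6 : t * l ^ 2 * t ≤ t * l ^ 2 * (2 * (t - τ)) :=
          mul_le_mul_of_nonneg_left (by linarith) (by positivity)
        nlinarith
  have h1 := h.pd.hess (h.qd.md k) hu hmu0
  rw [h.bt_eq] at h1
  have hW := h.W_le
  have e1 : sA P (t * l ^ 2) k = l ^ 2 * phs t (P k / l ^ 2) := sA_eq hlp ht
  set κ := Real.exp (-(2 * Real.pi ^ 2 * H813.GamP (N / l) (t * l ^ 2) (τ * l ^ 2) P 0)) with hκ
  set s := sS P (t * l ^ 2) k with hs
  rw [e1] at h1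
  have e2 : l ^ 2 * phs t (PbC N l b t0 t τ k) - (l ^ 2 * phs t (P k / l ^ 2) +
      8 * Real.pi ^ 2 * (y * (t * l ^ 2)) * s ^ 2 * κ) =
      l ^ 2 * (phs t (PbC N l b t0 t τ k) - (phs t (P k / l ^ 2) +
        8 * Real.pi ^ 2 * y * t * s ^ 2 * κ)) := by ring
  rw [e2, abs_mul, abs_of_pos (show (0 : ℝ) < l ^ 2 by positivity)] at h1
  refine le_of_mul_le_mul_left (h1.trans ?_) (show (0 : ℝ) < l ^ 2 by positivity)
  have h7 : 8 * Real.pi ^ 2 * (y * (t * l ^ 2)) * WW (N / l) c0 (τ * l ^ 2) *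
      (Real.sqrt t * l * ep N t y e) ≤
      l ^ 2 * (t * (1000 * (k0 c0 * y * Lm N t * ep N t y e))) := by
    calc 8 * Real.pi ^ 2 * (y * (t * l ^ 2)) * WW (N / l) c0 (τ * l ^ 2) *
        (Real.sqrt t * l * ep N t y e) =
        (8 * Real.pi ^ 2 * (y * (t * l ^ 2)) * ep N t y e) *
          (WW (N / l) c0 (τ * l ^ 2) * (Real.sqrt t * l)) := by ring
      _ ≤ (8 * Real.pi ^ 2 * (y * (t * l ^ 2)) * ep N t y e) *
          (4 * Real.pi * k0 c0 * Lm N t) := mul_le_mul_of_nonneg_left hW (by positivity)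
      _ = (32 * Real.pi ^ 3) * (l ^ 2 * (t * (k0 c0 * y * Lm N t * ep N t y e))) := by ring
      _ ≤ 1000 * (l ^ 2 * (t * (k0 c0 * y * Lm N t * ep N t y e))) := by
          have hk := h.k01
          have hL := h.Lm1
          refine mul_le_mul_of_nonneg_right ?_ (by positivity)
          have : Real.pi ^ 3 ≤ 3.15 ^ 3 := pow_le_pow_left₀ hpi.le hpi2.le 3
          linarith [show (32 : ℝ) * 3.15 ^ 3 ≤ 1001 by norm_num,
            show Real.pi ^ 3 ≤ 31.25 by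
              have h8 := Real.pi_lt_d4
              have : Real.pi ^ 3 ≤ 3.1416 ^ 3 := pow_le_pow_left₀ hpi.le h8.le 3
              linarith [show (3.1416 : ℝ) ^ 3 ≤ 31.25 by norm_num]]
      _ = _ := by ring
  have h8 : e * (Real.sqrt t * l) *
      Real.sqrt (mm (t * l ^ 2) (τ * l ^ 2) + l ^ 2 * phs t (PbC N l b t0 t τ k)) ≤
      l ^ 2 * (t * (2 * e)) := by
    have h9 : Real.sqrt (mm (t * l ^ 2) (τ * l ^ 2) + l ^ 2 * phs t (PbC N l b t0 t τ k)) ≤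
        2 * (Real.sqrt t * l) := by
      refine (Real.sqrt_le_sqrt hmu1).trans ?_
      rw [show 2 * (t * (l : ℝ) ^ 2) = 2 * t * l ^ 2 by ring, Real.sqrt_mul (by positivity),
        Real.sqrt_sq hlp.le, Real.sqrt_mul (by norm_num)]
      have : Real.sqrt 2 ≤ 2 := by
        rw [Real.sqrt_le_left (by norm_num)]
        norm_num
      have := mul_le_mul_of_nonneg_right this (mul_nonneg (Real.sqrt_nonneg t) hlp.le)
      linarith
    calc e * (Real.sqrt t * l) *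
        Real.sqrt (mm (t * l ^ 2) (τ * l ^ 2) + l ^ 2 * phs t (PbC N l b t0 t τ k)) ≤
        e * (Real.sqrt t * l) * (2 * (Real.sqrt t * l)) :=
          mul_le_mul_of_nonneg_left h9 (by positivity)
      _ = 2 * e * (l ^ 2 * (Real.sqrt t * Real.sqrt t)) := by ring
      _ = _ := by rw [Real.mul_self_sqrt ht.le]; ring
  calc 8 * Real.pi ^ 2 * (y * (t * l ^ 2)) * WW (N / l) c0 (τ * l ^ 2) *
      (Real.sqrt t * l * ep N t y e) + e * (Real.sqrt t * l) *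
      Real.sqrt (mm (t * l ^ 2) (τ * l ^ 2) + l ^ 2 * phs t (PbC N l b t0 t τ k)) ≤
      l ^ 2 * (t * (1000 * (k0 c0 * y * Lm N t * ep N t y e))) + l ^ 2 * (t * (2 * e)) :=
        add_le_add h7 h8
    _ = _ := by ring

/-- the error of the main theorem -/
def eJ (N : ℕ) (t y e c0 : ℝ) : ℝ :=
  3 * (ep N t y e * e) + 800000 * (k0 c0 * y ^ 2 * ep N t y e * Lm N t ^ 3)

lemma LP.d1_le (h : LP N l b t0 t τ P c0 y e) :
    (4 * Real.pi * WW (N / l) c0 (τ * l ^ 2) + Real.sqrt (Fintype.card (V (N / l)))) *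
      (Real.sqrt t * l * ep N t y e) ≤ 160 * (k0 c0 * Lm N t * ep N t y e) := by
  have hlp := h.lpos
  have ht := h.ht
  have hε := h.ep0
  have hpi := Real.pi_pos
  have hk := h.k01
  have hL := h.Lm1
  have hW := h.W_le
  have e1 : Real.sqrt (Fintype.card (V (N / l))) = N / l := by
    rw [card_V]
    push_cast
    rw [h.Nl, Real.sqrt_mul_self (div_nonneg h.Npos.le hlp.le)]
  rw [e1]
  have e2 : (4 * Real.pi * WW (N / l) c0 (τ * l ^ 2) + (N : ℝ) / l) *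
      (Real.sqrt t * l * ep N t y e) =
      4 * Real.pi * (WW (N / l) c0 (τ * l ^ 2) * (Real.sqrt t * l)) * ep N t y e +
        Lm N t * ep N t y e := by
    unfold Lm
    field_simp
  rw [e2]
  have h1 : 4 * Real.pi * (WW (N / l) c0 (τ * l ^ 2) * (Real.sqrt t * l)) * ep N t y e ≤
      4 * Real.pi * (4 * Real.pi * k0 c0 * Lm N t) * ep N t y e :=
    mul_le_mul_of_nonneg_right (mul_le_mul_of_nonneg_left hW (by positivity)) hε
  have h2 : Lm N t * ep N t y e ≤ k0 c0 * Lm N t * ep N t y e := by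
    have : 0 ≤ Lm N t * ep N t y e := by positivity
    nlinarith
  have h3 : Real.pi ^ 2 ≤ 9.88 := by
    have h8 := Real.pi_lt_d4
    have : Real.pi ^ 2 ≤ 3.1416 ^ 2 := pow_le_pow_left₀ hpi.le h8.le 2
    linarith [show (3.1416 : ℝ) ^ 2 ≤ 9.88 by norm_num]
  have h4 : 0 ≤ k0 c0 * Lm N t * ep N t y e := by positivity
  nlinarith

lemma LP.d2_le (h : LP N l b t0 t τ P c0 y e) :
    2 * (Real.sqrt t * l * ep N t y e / Real.sqrt (mm (t * l ^ 2) (τ * l ^ 2))) ≤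
      2 * (k0 c0 * Lm N t * ep N t y e) := by
  have h1 := h.bm
  have hk := h.k01
  have : 0 ≤ Lm N t * ep N t y e := by
    have := h.Lm1
    have := h.ep0
    positivity
  nlinarith

/-- `1/m ≤ N²/l²` -/
lemma LP.inv_m (h : LP N l b t0 t τ P c0 y e) :
    1 / mm (t * l ^ 2) (τ * l ^ 2) ≤ N ^ 2 / l ^ 2 := by
  have hlp := h.lpos
  have hτ := h.hτ
  have h1 := h.qd.Nτ_le_mm
  have h2 := one_div_le_one_div_of_le h.qd.hNτ h1
  refine h2.trans ?_
  rw [div_le_div_iff₀ (by positivity) (by positivity), one_mul]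
  have h3 := h.hside
  nlinarith [show (0 : ℝ) < l ^ 2 by positivity]

lemma scal1 {t l N y q A : ℝ} (ht : 0 < t) (hl : 0 < l) (hq : 0 ≤ q)
    (hA : A ≤ (8 * Real.pi + 4996) * q * (N ^ 2 / l ^ 2)) :
    (4 * Real.pi * (y * (t * l ^ 2))) ^ 2 * A ≤
      l ^ 2 * (t * (800000 * (y ^ 2 * q * (N ^ 2 * t)))) := by
  have hpi := Real.pi_pos
  have h9 : 16 * Real.pi ^ 2 * (8 * Real.pi + 4996) ≤ 800000 := by
    have h3 : Real.pi ^ 2 ≤ 9.87 := by
      have h8 := Real.pi_lt_d4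
      have : Real.pi ^ 2 ≤ 3.1416 ^ 2 := pow_le_pow_left₀ hpi.le h8.le 2
      linarith [show (3.1416 : ℝ) ^ 2 ≤ 9.87 by norm_num]
    have h4 := Real.pi_lt_d2
    nlinarith
  calc (4 * Real.pi * (y * (t * l ^ 2))) ^ 2 * A ≤
      (4 * Real.pi * (y * (t * l ^ 2))) ^ 2 * ((8 * Real.pi + 4996) * q * (N ^ 2 / l ^ 2)) :=
        mul_le_mul_of_nonneg_left hA (by positivity)
    _ = (16 * Real.pi ^ 2 * (8 * Real.pi + 4996)) * (l ^ 2 * (t * (y ^ 2 * q * (N ^ 2 * t)))) := by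
        field_simp
        ring
    _ ≤ 800000 * (l ^ 2 * (t * (y ^ 2 * q * (N ^ 2 * t)))) :=
        mul_le_mul_of_nonneg_right h9 (by positivity)
    _ = _ := by ring

lemma scal2 {cd W β q r : ℝ} (hr : 0 ≤ r) (hcd : cd = r) (hW : W * β ≤ 4 * Real.pi * q)
    {D : ℝ} (hD : D ≤ 4996 * q * r) :
    2 * cd * W * β + D ≤ (8 * Real.pi + 4996) * q * r := by
  rw [hcd]
  calc 2 * r * W * β + D = 2 * r * (W * β) + D := by ring
    _ ≤ 2 * r * (4 * Real.pi * q) + 4996 * q * r :=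
      add_le_add (mul_le_mul_of_nonneg_left hW (by positivity)) hD
    _ = _ := by ring

/-- the error of the abstract theorem, normalised -/
lemma LP.err_le (h : LP N l b t0 t τ P c0 y e) {β W m cd d1 d2 : ℝ}
    (hβ : β = Real.sqrt t * l * ep N t y e) (hW : W = WW (N / l) c0 (τ * l ^ 2))
    (hm : m = mm (t * l ^ 2) (τ * l ^ 2)) (hcd : cd = Fintype.card (V (N / l)))
    (hd1 : d1 ≤ 160 * (k0 c0 * Lm N t * ep N t y e))
    (hd2 : d2 ≤ 2 * (k0 c0 * Lm N t * ep N t y e)) :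
    2 * (β * (e * (Real.sqrt t * l))) + (e * (Real.sqrt t * l)) ^ 2 +
      (4 * Real.pi * (y * (t * l ^ 2))) ^ 2 * (2 * cd * W * β + (30 * d1 + 98 * d2) / m) ≤
      l ^ 2 * (t * eJ N t y e c0) := by
  have hlp := h.lpos
  have ht := h.ht
  have hε := h.ep0
  have hy := h.hy
  have he := h.he
  have hpi := Real.pi_pos
  have hk := h.k01
  have hL := h.Lm1
  have hN := h.Npos
  have hkl0 : 0 ≤ k0 c0 * Lm N t * ep N t y e := by positivity
  have hm0 : 0 < m := by rw [hm]; exact h.qd.mm0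
  have hcdv : cd = N ^ 2 / l ^ 2 := by
    rw [hcd, card_V]
    push_cast
    rw [h.Nl]
    ring
  have t1 : 2 * (β * (e * (Real.sqrt t * l))) = l ^ 2 * (t * (2 * (ep N t y e * e))) := by
    rw [hβ]
    calc 2 * (Real.sqrt t * l * ep N t y e * (e * (Real.sqrt t * l))) =
        2 * (l ^ 2 * ((Real.sqrt t * Real.sqrt t) * (ep N t y e * e))) := by ring
      _ = _ := by rw [Real.mul_self_sqrt ht.le]; ring
  have t2 : (e * (Real.sqrt t * l)) ^ 2 ≤ l ^ 2 * (t * (ep N t y e * e)) := by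
    rw [mul_pow, mul_pow, Real.sq_sqrt ht.le]
    have := h.e_le
    have h5 : e ^ 2 ≤ ep N t y e * e := by nlinarith
    calc e ^ 2 * (t * l ^ 2) ≤ (ep N t y e * e) * (t * l ^ 2) :=
          mul_le_mul_of_nonneg_right h5 (by positivity)
      _ = _ := by ring
  have t3 : W * β ≤ 4 * Real.pi * (k0 c0 * Lm N t * ep N t y e) := by
    rw [hβ, hW]
    have := mul_le_mul_of_nonneg_right h.W_le hε
    calc WW (N / l) c0 (τ * l ^ 2) * (Real.sqrt t * l * ep N t y e) =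
        WW (N / l) c0 (τ * l ^ 2) * (Real.sqrt t * l) * ep N t y e := by ring
      _ ≤ _ := this
      _ = _ := by ring
  have t4 : (30 * d1 + 98 * d2) / m ≤
      4996 * (k0 c0 * Lm N t * ep N t y e) * (N ^ 2 / l ^ 2) := by
    have h6 := h.inv_m
    rw [← hm] at h6
    have h7 : 30 * d1 + 98 * d2 ≤ 4996 * (k0 c0 * Lm N t * ep N t y e) := by linarith
    rw [div_eq_mul_one_div]
    exact mul_le_mul h7 h6 (by positivity) (by positivity)
  have t5 := scal1 (y := y) ht hlp hkl0 (scal2 (by positivity) hcdv t3 t4)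
  rw [← h.Lm_sq] at t5
  unfold eJ
  calc 2 * (β * (e * (Real.sqrt t * l))) + (e * (Real.sqrt t * l)) ^ 2 +
        (4 * Real.pi * (y * (t * l ^ 2))) ^ 2 * (2 * cd * W * β + (30 * d1 + 98 * d2) / m) ≤
      l ^ 2 * (t * (2 * (ep N t y e * e))) + l ^ 2 * (t * (ep N t y e * e)) +
        l ^ 2 * (t * (800000 * (y ^ 2 * (k0 c0 * Lm N t * ep N t y e) * Lm N t ^ 2))) :=
        add_le_add (add_le_add t1.le t2) t5
    _ = _ := by ring

/-- **the projected second moment on the cell torus** -/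
theorem LP.main (h : LP N l b t0 t τ P c0 y e) (hs : 160 * (k0 c0 * Lm N t * ep N t y e) ≤ 1)
    (k : V (N / l)) :
    |phs t (PbC N l b t0 t τ k) - phs t (PiCk N l b t0 τ k) -
      (4 * Real.pi * y * sS P (t * l ^ 2) k) ^ 2 * (t ^ 2 * l ^ 2) *
        (∑ x, H813.gk (H813.GamP (N / l) (t * l ^ 2) (τ * l ^ 2) P) x * cN (dt k x))| ≤
      t * eJ N t y e c0 := by
  have hlp := h.lpos
  have hε := h.ep0
  have hk := h.k01
  have hL := h.Lm1
  have hC := Cbk_pos (N := N) h.hb h.hl h.hτ h.lt h.htt k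
  have hd1 := h.d1_le
  have hd2 := h.d2_le
  have hkl0 : 0 ≤ k0 c0 * Lm N t * ep N t y e := by positivity
  have h1 := h.pd.main (h.qd.md k) h.bt_eq.symm rfl rfl rfl (hd1.trans hs)
    (by linarith)
  have h2 := h.err_le rfl rfl rfl rfl hd1 hd2
  rw [prj_C h.hb h.hl h.hτ h.lt h.htt k hC.ne', h.qd.JG_eq] at h1
  have hc2p : 0 < ∑ x, cw (n := N / l) k x ^ 2 := cw_pos k
  have h3 := h1.trans (mul_le_mul_of_nonneg_left h2 hc2p.le)
  clear h1 h2
  set c2 := ∑ x, cw (n := N / l) k x ^ 2 with hc2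
  set Sk := ∑ x, H813.gk (H813.GamP (N / l) (t * l ^ 2) (τ * l ^ 2) P) x * cN (dt k x) with hSk
  set s := sS P (t * l ^ 2) k with hsd
  have e1 : l ^ 2 * (phs t (PbC N l b t0 t τ k) - phs t (PiCk N l b t0 τ k)) * c2 -
      (4 * Real.pi * (y * (t * l ^ 2)) * s) ^ 2 * Sk * c2 =
      (c2 * l ^ 2) * (phs t (PbC N l b t0 t τ k) - phs t (PiCk N l b t0 τ k) -
        (4 * Real.pi * y * s) ^ 2 * (t ^ 2 * l ^ 2) * Sk) := by ring
  have e2 : c2 * (l ^ 2 * (t * eJ N t y e c0)) = c2 * l ^ 2 * (t * eJ N t y e c0) :=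
    (mul_assoc _ _ _).symm
  rw [e1, abs_mul, abs_of_pos (show 0 < c2 * (l : ℝ) ^ 2 by positivity), e2] at h3
  exact le_of_mul_le_mul_left h3 (show 0 < c2 * (l : ℝ) ^ 2 by positivity)

end

end Vale.Agent.P159.H114
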